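import Claimed.Agent.R256.Lay.RaAvoid

/-!
# Row 256, unit LAY (04B), B8d: PORT `crs` OF `LayOne`, pure linear family      (helper27; prefix `lay_ra_`)

`lay_ra_cross_lin` : `LaySepLA π C0` (= `lay_sepLA` of `lay_sep_lin`) ⇒ `LayRaCr` (= the clause `crs`) of `nmTan (S.D n) π r dsp` for `uf`-most `n`, all `dsp`.
CONDITIONS ON THE ROOT:  `r.Ok π Λ`, `3 ≤ r.B`, display `nmDsLin`, linear branch (coarse or exact side), `pk.χ ≤ r.Rm`, `r.a + Cs χ h < 1`.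
PROOF.  `|r_stored - v| < δ^χ ⇒ |r - v| ≤ δ^χ + δ^Rm ≤ δ^(χ/2)`;  `Lraw = Pc_1` (`lay_ra_raw_lin`);  `lay_value_fine` at `u = χ/2`;  `δ^(e0 χ/2) ≤ acc` for small `s`.
-/

set_option autoImplicit false

namespace Claimed.Agent.R256

open Claimed.Agent.R255 Claimed.Agent.R255.FLaw
open Filter Topology
open Classical

/-- **PORT `crs`, pure linear family** -/
theorem lay_ra_cross_lin {π : SfPar} {C0 : ℝ} {κ : ℝ → ℝ} (hπ : π.Valid) (S : NmSeq π C0 κ) (hX : S.HasX)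
    (hκ : ∀ τ : ℝ, 0 < τ → 0 < κ τ) (hS : LaySepLA π C0) :
    ∃ Λ Cs : ℝ, 0 ≤ Cs ∧ ∀ r : NmRt, r.Ok π Λ → 3 ≤ r.B → r.q.ds = nmDsLin → r.σ.lin = true → 0 < r.h →
      ∀ (pk : ItPk) (acc : ℝ), pk.Ok → 0 < acc → pk.χ ≤ r.Rm → r.a + Cs * (pk.χ * r.h) < 1 →
      ∀ᶠ n in uf, ∀ dsp : ℝ → NmNm → NmNm → ItDsp, LayRaCr (nmTan (S.D n) π r dsp) pk acc := by
  obtain ⟨τ, cs, hτ, hcs, H⟩ := lay_value_fine π hπ C0 hS
  obtain ⟨e0, he0, H⟩ := H (κ τ) (hκ τ hτ)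
  obtain ⟨Λ1, H1⟩ := nm_sd_pr π hπ C0 τ (κ τ)
  have hCs : ∀ c ∈ cs, c ≤ ∑ c ∈ cs, c := fun c hc => Finset.single_le_sum (fun x hx => hcs x hx) hc
  refine ⟨Λ1, ∑ c ∈ cs, c, Finset.sum_nonneg hcs, ?_⟩
  intro r hr hB hds hlin hh pk acc hpk hacc hRm hfit
  set Cs : ℝ := ∑ c ∈ cs, c with hCsdef
  have hCs0 : 0 ≤ Cs := Finset.sum_nonneg hcs
  have hDe : r.q.ds.De = 1 := by rw [hds]; rfl
  have hχ : 0 < pk.χ := hpk.2.2.2.1
  have hm0 : 0 < 1 - (r.a + Cs * (pk.χ * r.h)) := by linarith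
  obtain ⟨t0, ht0, H⟩ := H (pk.χ / 2) r.h (1 - (r.a + Cs * (pk.χ * r.h))) (by positivity) hh hm0
  have hgate : ∀ c ∈ cs, r.a ≤ r.a + c * (pk.χ / 2 * r.h) ∧ r.a + c * (pk.χ / 2 * r.h) ≤ r.a + Cs * (pk.χ * r.h) := by
    intro c hc
    have h4 : 0 ≤ pk.χ / 2 * r.h := by positivity
    have h5 : pk.χ / 2 * r.h ≤ pk.χ * r.h := mul_le_mul_of_nonneg_right (by linarith) hh.le
    have h6 : c * (pk.χ / 2 * r.h) ≤ Cs * (pk.χ * r.h) := mul_le_mul (hCs c hc) h5 h4 hCs0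
    have h7 : 0 ≤ c * (pk.χ / 2 * r.h) := mul_nonneg (hcs c hc) h4
    exact ⟨by linarith, by linarith⟩
  have hPc : ∀ e : ℝ, 0 < e → ∀ᶠ n in uf, (S.D n).PcAll π r e :=
    fun e _ => Eventually.of_forall fun n _ h => by rw [hlin] at h; cases h
  have E1 : ∀ᶠ n in uf, (S.D n).Fine π C0 τ (κ τ) t0 := nm_me_fine_ev S τ hτ t0 ht0
  have E2 : ∀ᶠ n in uf, LayRaFr (S.D n) π r := lay_ra_frame hπ S hX _ r hr hB hh
  have E3 : ∀ᶠ n in uf, ∀ c ∈ cs,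
      (S.D n).RowPr ((S.D n).gt (r.a + c * (pk.χ / 2 * r.h))) (fun ω => ((S.D n).P 1).p ω ≠ 0) ((S.D n).side π r.q r.σ r.a)
        ((S.D n).s ^ (-t0)) := by
    rw [Filter.eventually_all_finset]
    intro c hc
    obtain ⟨g1, g2⟩ := hgate c hc
    exact lay_ra_row S hX τ hτ r _ t0 ht0 (H1 r hr _ g1 (by rw [hDe]; linarith)) hPc
  have E5 : ∀ᶠ n in uf, (S.D n).s ^ (r.h * (pk.χ / 2)) ≤ 1 / 3 := nm_me_pow_small S (by positivity) (by norm_num)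
  have E6 : ∀ᶠ n in uf, (S.D n).s ^ (r.h * (e0 * (pk.χ / 2))) ≤ acc := nm_me_pow_small S (by positivity) hacc
  filter_upwards [E1, E2, E3, E5, E6] with n e1 e2 e3 e5 e6
  intro dsp v
  have hs := nm_me_s S n
  have hδ0 : 0 < (S.D n).s ^ r.h := Real.rpow_pos_of_pos hs.1 _
  have hδ1 : (S.D n).s ^ r.h < 1 := Real.rpow_lt_one hs.1.le hs.2 hh
  show ((S.D n).P 1).pr (fun ω => |((S.D n).smk π r ω).r - v ((S.D n).side π r.q r.σ r.a ω)| < ((S.D n).s ^ r.h) ^ pk.χ) ≤ acc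
  obtain ⟨ta, Ra, ka, -, -, hfr⟩ := e2
  have key := H (S.D n) e1 r.a (pk.χ / 2) le_rfl hr.ha.1.le
    (fun c hc => by
      have := (hgate c hc).2
      linarith)
    _ ((S.D n).side π r.q r.σ r.a) (fun ω => ((S.D n).P 1).p ω ≠ 0) e3 Ra v
  have h3 : ((S.D n).s ^ r.h) ^ (pk.χ / 2) ≤ 1 / 3 := by rw [← Real.rpow_mul hs.1.le]; exact e5
  refine le_trans (ent_pr_mono _ fun ω hω h => ?_) (key.trans ?_)
  · refine ⟨hω, ?_⟩
    obtain ⟨-, -, f3⟩ := hfr ω hω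
    obtain ⟨-, f3⟩ := f3 hlin
    rw [lay_ra_raw_lin (S.D n) π r.q hds r.a ω] at f3
    have g5 := lay_ra_absorb hδ0 hδ1 hRm h3
    have e : pk.χ - pk.χ / 2 = pk.χ / 2 := by ring
    rw [e] at g5
    have g6 : 0 < ((S.D n).s ^ r.h) ^ r.Rm := Real.rpow_pos_of_pos hδ0 _
    have g7 := abs_sub_abs_le_abs_sub
      ((((S.D n).lab 1 ω).Pc - Ra ((S.D n).side π r.q r.σ r.a ω)) / (S.D n).s ^ π.b1 r.a - v ((S.D n).side π r.q r.σ r.a ω))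
      (((S.D n).smk π r ω).r - v ((S.D n).side π r.q r.σ r.a ω))
    have g8 : (((S.D n).lab 1 ω).Pc - Ra ((S.D n).side π r.q r.σ r.a ω)) / (S.D n).s ^ π.b1 r.a - v ((S.D n).side π r.q r.σ r.a ω)
        - (((S.D n).smk π r ω).r - v ((S.D n).side π r.q r.σ r.a ω))
        = -(((S.D n).smk π r ω).r - (((S.D n).lab 1 ω).Pc - Ra ((S.D n).side π r.q r.σ r.a ω)) / (S.D n).s ^ π.b1 r.a) := by ring
    rw [g8, abs_neg] at g7
    linarith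
  · rw [← Real.rpow_mul hs.1.le]
    exact e6

end Claimed.Agent.R256
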