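import Claimed.Agent.R256.Lay.Root

/-!
# Row 256, unit LAY, block RI (root instances): GENERIC PATCH THEOREM      (architect helper186; chief Lay helper189; prefix `lay_ri_`)

CONSUMERS: the six contracts `ac_*_root_*` of `Act/Sup.lean`.   Each instance =
  (1) `lay_ri_lindelof`: it is enough to find, around every point `p` of the region, ONE open rectangle on which the statement holds a.e.;
  (2) a PATCH: `r0 : NmRt` (query, side, anchor) and a closed rectangle of admissible roots `r0.Patch π Λ a0 a1 v0 v1` around `(1 - p.1, p.2)` (elementary inequalities, `Lay/RiLin.lean`, `Lay/RiStr.lean`);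
  (3) `lay_ri_patch` (this file): a.e. `AcRoot` on the open rectangle, with `m = S.m r0.q a v`, `ν = nmNu (S.HM r0.Vq r0.Sd) (r0.Bg π) a`;
  (4) the separation PORTS `LayRiAv` (line avoidance), `LayRiCr` (value avoidance ⟹ crossing), asked at EVERY root of the closed rectangle, for `uf`-most `n`, all small gaps.
FORWARD coordinates `x = (a, v)`; Act uses `p = (1 - a, v)`.
`lay_ri_patch` = `lay_root_rect` (Lay/Root.lean) + `lay_ri_grid` (port `hGrid`) + `lay_ri_one` (port `hOne`), see `Lay/RiOne.lean`.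
-/

set_option autoImplicit false

namespace Claimed.Agent.R256

open Claimed.Agent.R255 Claimed.Agent.R255.FLaw
open Filter Topology MeasureTheory
open Classical

noncomputable section

variable {π : SfPar} {C0 : ℝ} {κ : ℝ → ℝ}

/-- the regime served at the forward root `x` of the patch `r0` -/
def layRiPar (S : NmSeq π C0 κ) (r0 : NmRt) (e0 : ℝ) (x : ℝ × ℝ) : ItPar :=
  ⟨r0.c π, π.d, S.m r0.q x.1 x.2, nmNu (S.HM r0.Vq r0.Sd) (r0.Bg π) x.1, e0, r0.B + 1⟩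

/-- PORT: value avoidance of the second stored mark at every root of the closed rectangle (`lay_cross_of_value` turns it into `Tan.Cross` of the replicas) -/
def LayRiCr (S : NmSeq π C0 κ) (r0 : NmRt) (a0 a1 v0 v1 : ℝ) : Prop :=
  ∀ χ acc : ℝ, 0 < χ → 0 < acc → ∃ h0 : ℝ, 0 < h0 ∧ ∀ h : ℝ, 0 < h → h < h0 → ∀ Rm : ℝ, χ + 1 ≤ Rm →
    ∀ a v : ℝ, a0 ≤ a → a ≤ a1 → v0 ≤ v → v ≤ v1 → ∀ᶠ n in uf, ∀ w : NmZv (S.D n).Idx → ℝ,
      ((S.D n).P 1).pr (fun ω => |((S.D n).smk π { r0 with a := a, v := v, h := h, Rm := Rm } ω).r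
        - w ((S.D n).side π r0.q r0.σ a ω)| < ((S.D n).s ^ h) ^ χ) ≤ acc

/-- PORT: power avoidance of affine lines (exponent `e0`) at every root of the closed rectangle -/
def LayRiAv (S : NmSeq π C0 κ) (r0 : NmRt) (e0 a0 a1 v0 v1 : ℝ) : Prop :=
  ∀ (G : Finset ℝ) (K acc : ℝ), (∀ u ∈ G, 0 ≤ u ∧ u ≤ K) → 0 < acc → ∃ h0 : ℝ, 0 < h0 ∧ ∀ h : ℝ, 0 < h → h < h0 → ∀ Rm : ℝ, K + 1 ≤ Rm →
    ∀ a v : ℝ, a0 ≤ a → a ≤ a1 → v0 ≤ v → v ≤ v1 → ∀ᶠ n in uf, ∀ u ∈ G, ∀ al be ga : NmZv (S.D n).Idx → ℝ, (∀ z, al z ^ 2 + be z ^ 2 = 1) →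
      ((S.D n).P 1).pr (fun ω => |al ((S.D n).side π r0.q r0.σ a ω) * ((S.D n).smk π { r0 with a := a, v := v, h := h, Rm := Rm } ω).th
        + be ((S.D n).side π r0.q r0.σ a ω) * ((S.D n).smk π { r0 with a := a, v := v, h := h, Rm := Rm } ω).r
        - ga ((S.D n).side π r0.q r0.σ a ω)| ≤ ((S.D n).s ^ h) ^ u) ≤ ((S.D n).s ^ h) ^ (e0 * u - acc)

/-- GENERAL PORT (lines) at the time root `a`, exponent `e`: only the lattice roots `x'` of the closed rectangle within `η h` of `a`, gaps `h = 2^-j`, natural cut-off depths `Rm ≥ Rm1` (`Rm1` chosen by the port) -/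
def LayRiAvAt (S : NmSeq π C0 κ) (r0 : NmRt) (e a0 a1 v0 v1 a : ℝ) : Prop :=
  ∀ (pk : ItPk) (acc : ℝ), pk.Ok → 0 < acc → ∃ Rm1 : ℕ, ∀ Rm : ℕ, Rm1 ≤ Rm → ∃ η h0 : ℝ, 0 < η ∧ 0 < h0 ∧
    ∀ j : ℕ, (1 / 2 : ℝ) ^ j < h0 → ∀ x' : ℝ × ℝ, layLat a0 v0 ((1 / 2) ^ j) x' → x' ∈ Set.Icc a0 a1 ×ˢ Set.Icc v0 v1 → |x'.1 - a| ≤ η * (1 / 2) ^ j →
    ∀ᶠ n in uf, ∀ (dsp : ℝ → NmNm → NmNm → ItDsp) (p : ItPar), p.e0 = e →
      (nmTan (S.D n) π { r0 with a := x'.1, v := x'.2, h := (1 / 2) ^ j, Rm := Rm } dsp).Avoid p pk acc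

/-- GENERAL PORT (values) at the time root `a` -/
def LayRiCrAt (S : NmSeq π C0 κ) (r0 : NmRt) (a0 a1 v0 v1 a : ℝ) : Prop :=
  ∀ (pk : ItPk) (acc : ℝ), pk.Ok → 0 < acc → ∃ Rm1 : ℕ, ∀ Rm : ℕ, Rm1 ≤ Rm → ∃ η h0 : ℝ, 0 < η ∧ 0 < h0 ∧
    ∀ j : ℕ, (1 / 2 : ℝ) ^ j < h0 → ∀ x' : ℝ × ℝ, layLat a0 v0 ((1 / 2) ^ j) x' → x' ∈ Set.Icc a0 a1 ×ˢ Set.Icc v0 v1 → |x'.1 - a| ≤ η * (1 / 2) ^ j →
    ∀ᶠ n in uf, ∀ w : NmZv (S.D n).Idx → ℝ,
      ((S.D n).P 1).pr (fun ω => |((S.D n).smk π { r0 with a := x'.1, v := x'.2, h := (1 / 2) ^ j, Rm := Rm } ω).r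
        - w ((S.D n).side π r0.q r0.σ x'.1 ω)| < ((S.D n).s ^ ((1 / 2 : ℝ) ^ j)) ^ pk.χ) ≤ acc

/-- GENERAL PORT (lines): at almost every time root, the exponent is a function of the time root -/
def LayRiAvG (S : NmSeq π C0 κ) (r0 : NmRt) (e0 : ℝ → ℝ) (a0 a1 v0 v1 : ℝ) : Prop :=
  ∀ᵐ a : ℝ, a0 < a → a < a1 → LayRiAvAt S r0 (e0 a) a0 a1 v0 v1 a

/-- GENERAL PORT (values): at almost every time root -/
def LayRiCrG (S : NmSeq π C0 κ) (r0 : NmRt) (a0 a1 v0 v1 : ℝ) : Prop :=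
  ∀ᵐ a : ℝ, a0 < a → a < a1 → LayRiCrAt S r0 a0 a1 v0 v1 a

theorem lay_ri_eqns_cite : True := by
  have := @layRiPar.eq_1
  have := @LayRiCr.eq_1
  have := @LayRiAv.eq_1
  have := @LayRiAvAt.eq_1
  have := @LayRiCrAt.eq_1
  have := @LayRiAvG.eq_1
  have := @LayRiCrG.eq_1
  trivial

/-- the uniform port gives the general one -/
theorem lay_ri_av_of {S : NmSeq π C0 κ} {r0 : NmRt} {e0 a0 a1 v0 v1 : ℝ} (h : LayRiAv S r0 e0 a0 a1 v0 v1) :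
    LayRiAvG S r0 (fun _ => e0) a0 a1 v0 v1 := by
  refine Eventually.of_forall fun a _ _ pk acc hpk hacc => ?_
  obtain ⟨h0, hh0, H⟩ := h pk.G pk.K acc hpk.2.2.2.2.2.2 hacc
  refine ⟨⌈pk.K + 1⌉₊, fun Rm hRm => ⟨1, h0, one_pos, hh0, fun j hj x' _ hx' _ => ?_⟩⟩
  have hR : pk.K + 1 ≤ (Rm : ℝ) := le_trans (Nat.le_ceil _) (by exact_mod_cast hRm)
  refine (H _ (by positivity) hj Rm hR x'.1 x'.2 hx'.1.1 hx'.1.2 hx'.2.1 hx'.2.2).mono fun n hn dsp p hp => ?_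
  intro u hu al be ga hab
  have := hn u hu al be ga hab
  rw [hp]
  exact this

/-- the uniform port gives the general one -/
theorem lay_ri_cr_of {S : NmSeq π C0 κ} {r0 : NmRt} {a0 a1 v0 v1 : ℝ} (h : LayRiCr S r0 a0 a1 v0 v1) :
    LayRiCrG S r0 a0 a1 v0 v1 := by
  refine Eventually.of_forall fun a _ _ pk acc hpk hacc => ?_
  obtain ⟨h0, hh0, H⟩ := h pk.χ acc hpk.2.2.2.1 hacc
  refine ⟨⌈pk.χ + 1⌉₊, fun Rm hRm => ⟨1, h0, one_pos, hh0, fun j hj x' _ hx' _ => ?_⟩⟩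
  have hR : pk.χ + 1 ≤ (Rm : ℝ) := le_trans (Nat.le_ceil _) (by exact_mod_cast hRm)
  exact H _ (by positivity) hj Rm hR x'.1 x'.2 hx'.1.1 hx'.1.2 hx'.2.1 hx'.2.2

/-- an exponent which exists at almost every time root is a positive function of the time root -/
theorem lay_ri_choose (P : ℝ → Prop) (Φ : ℝ → ℝ → Prop) (h : ∀ᵐ a : ℝ, P a → ∃ e : ℝ, 0 < e ∧ Φ a e) :
    ∃ e0 : ℝ → ℝ, (∀ a, 0 < e0 a) ∧ ∀ᵐ a : ℝ, P a → Φ a (e0 a) := by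
  refine ⟨fun a => if hh : ∃ e : ℝ, 0 < e ∧ Φ a e then hh.choose else 1, fun a => ?_, h.mono fun a ha hP => ?_⟩
  · by_cases hh : ∃ e : ℝ, 0 < e ∧ Φ a e
    · simp only [dif_pos hh]; exact hh.choose_spec.1
    · simp only [dif_neg hh]; exact one_pos
  · have hh := ha hP
    simp only [dif_pos hh]; exact hh.choose_spec.2

/-- **Lindelöf**: an a.e. statement on a region follows from a.e. statements on neighbourhoods of its points -/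
theorem lay_ri_lindelof (Reg : Set (ℝ × ℝ)) (Φ : ℝ × ℝ → Prop)
    (h : ∀ p ∈ Reg, ∃ U ∈ 𝓝 p, ∀ᵐ q : ℝ × ℝ, q ∈ U → Φ q) : ∀ᵐ p : ℝ × ℝ, p ∈ Reg → Φ p := by
  choose! U hU hΦ using h
  obtain ⟨t, htR, htc, hcov⟩ := TopologicalSpace.countable_cover_nhdsWithin (s := Reg) (f := U)
    (fun x hx => mem_nhdsWithin_of_mem_nhds (hU x hx))
  have hall : ∀ᵐ q : ℝ × ℝ, ∀ x ∈ t, q ∈ U x → Φ q := (ae_ball_iff htc).2 fun x hx => hΦ x (htR hx)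
  filter_upwards [hall] with q hq hqR
  obtain ⟨x, hx, hqx⟩ := Set.mem_iUnion₂.1 (hcov hqR)
  exact hq x hx hqx

/-- the open rectangle in backward time is a neighbourhood of each of its points -/
theorem lay_ri_nhds (a0 a1 v0 v1 : ℝ) (p : ℝ × ℝ) (hp : (1 - p.1, p.2) ∈ Set.Ioo a0 a1 ×ˢ Set.Ioo v0 v1) :
    {q : ℝ × ℝ | (1 - q.1, q.2) ∈ Set.Ioo a0 a1 ×ˢ Set.Ioo v0 v1} ∈ 𝓝 p := by
  have hc : Continuous fun q : ℝ × ℝ => ((1 : ℝ) - q.1, q.2) := by fun_prop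
  exact (hc.isOpen_preimage _ (isOpen_Ioo.prod isOpen_Ioo)).mem_nhds hp

/-- a granted separation hypothesis may be forgotten -/
theorem lay_ri_weaken {H : ℝ → ℝ → ℝ} {quad av cr : Bool} {c d m : ℝ} {N : ℝ → Prop} {p : ℝ × ℝ}
    (h : AcRoot H quad av cr c d m N p) (av' cr' : Bool) (hav : av' = true → av = true) (hcr : cr' = true → cr = true) :
    AcRoot H quad av' cr' c d m N p := by
  obtain ⟨h1, a, a1, a2, a3, a4, a5, hP⟩ := h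
  refine ⟨h1, a, a1, a2, a3, a4, a5, ?_⟩
  intro τ hτ
  obtain ⟨κ0, hκ0, H1⟩ := hP τ hτ
  refine ⟨κ0, hκ0, fun pk acc hpk hacc σ hσ => ?_⟩
  obtain ⟨C, H2⟩ := H1 pk acc hpk hacc σ hσ
  refine ⟨C, H2.mono ?_⟩
  rintro h ⟨r, T, b1, b2, b3, b4, b5, b6, b7⟩
  exact ⟨r, T, b1, b2, b3, b4, fun e => b5 (hav e), fun e => b6 (hcr e), b7⟩

end

end Claimed.Agent.R256
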