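import Claimed.Agent.R256.Lay.SepKit

/-!
# Row 256, unit LAY (04B): separation, cases `c = 1` and pure linear      (04 l.847-868; plan helper189)

## `c = 1` (`lay_sep_eq`, with label prediction `LabPr`)
`π.c2 = π.q = 1`, `b x = x - 1`, `b x - x = -1`.   `ω = 1/4`, `τ = ω/4`, `χ = 1/2`, gates `cs = {0, 2}`: `i = a`, `j = a + 2z`, `b j = b a + 2z`.   Meshes `g = s^(b a + ω z)`, `g' = s^(b a - a + ω z)`.
`Ta ρ'` := time of a chosen `a`-predecessor (ITS OWN TIME `T_j ρ'` if none: with `0` the cost bound (c) would fail for rows without predecessor; `lay_start`);  `bin ρ' ρ = (Ta ρ', ⌊(v + sl Ta)/g⌋, ⌊sl/g'⌋)`,  `sg (T, m, m') = layShear T (m g) (m' g') 0`.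
 (a) `RowPr a`: one bin per side value, `≤ s^-t`.      (b) `LabPr j`: `≤ s^-t` side values per label, `Ta` has `≤ 2` values: `≤ 2 s^-t ≤ s^(-2t)`.
 (c) `len_j |K_j| ≤ s^(b j - t)` (`eqK`),  `len_j |sl| ≤ s^(b j - χ z - t)`,  `len_j g' ≤ s^(b j + ω z - t)`;
     `|be_j - (v + sl T_j)| ≤ 4 s^(b a + z - t)`  (`cmpA (j,1)`, event, `|T_1 - T_j| (|K_j| + |sl|)`);   `|(v + sl T_j) - (m g + (T_j - Ta) m' g')| ≤ g + len_a g' ≤ 2 s^(b a + ω z - t)`;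
     `r²/f ≤ s^(-b a - 2z - 3t)`;  product `≤ 9 s^((ω - 2) z - 4t) ≤ s^(-(1-τ) 2z)` if `5 t ≤ ω z/2`.
 (sz) as in the case `c > 1`.      `e1 = κ0`  (`x = 2 κ0 z`, `lay_close` gives `s^(κ0 z)`).
## pure linear (`lay_sep_lin`)
`π.c2 = 0 < c1`, `q = c1 + J`, `b1 x = c1 (x - 1)`, `b2 x = q (x - 1) ≤ 0`.   `γ = 2/c1`, `ω = 1/2`, `τ = ω/(2γ)`, gates `cs = {0, γ}`: `i = a`, `j = a + γ z`, `b1 j = b1 a + 2z`.   Mesh `g = s^(b1 a + ω z)`.
`bin ρ' ρ = ⌊v (Z ρ)/g⌋`,  `sg m = layShear 0 0 0 (m g)`.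
 (a) `RowPr a`: `≤ s^-t`.      (b) `linP (j,1)`: `|Pc_j - Pc_1| ≤ s^(b1 j - t)`, event: `|Pc_j - v| ≤ 2 s^(b1 a + z - t) ≤ 2 g`: `≤ 6` cells.
 (c) `sfR1 = r/f |Pc_j - m g| ≤ s^(-b1 j - 2t) 3 s^(b1 a + ω z - t) ≤ s^(-(c1 - τ) γ z)` if `4 t ≤ ω z/2`;   `sfR2 = r²/f (|be_j| + len_j |K_j|) ≤ s^(-b2 j - 3t) s^(b2 j - t) = s^(-4t)` (`cmpB`, `min (-0) (min (b2 j) 0) = b2 j`).
 (sz) `|m g| ≤ |v| + g ≤ |Pc_j| + 3 s^(..)`,  `|Pc_j| ≤ |al| + 2 |be| |x| + 2 |K| |b| ≤ 5 s^(-2 C0)` (`bdd`).      `e1 = κ0 γ/2`.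
ARCHITECT of this file: helper258.   ALL LEAVES PROVED (EQ1-4, LIN1-2): this file is sorry-free.
`lay_sep_eq`, `lay_sep_lin` are PROVED from them.
-/

set_option autoImplicit false

namespace Claimed.Agent.R256

open Claimed.Agent.R255
open Classical

/-! ## `c = 1` -/

/-- the time of the `i`-predecessors of a `j`-row (its own time if there is none) -/
noncomputable def SfDoc.layEqTa (D : SfDoc) (i j : ℝ) (ρ' : D.Row j) : ℝ :=
  if h : ∃ ρ0 : D.Row i, D.Conn i j ρ0 ρ' then D.T i h.choose else D.T j ρ'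

/-- the mesh of the values -/
noncomputable def layEqG (D : SfDoc) (π : SfPar) (a z : ℝ) : ℝ := D.s ^ (π.b2 a + 1 / 4 * z)

/-- the mesh of the slopes -/
noncomputable def layEqH (D : SfDoc) (π : SfPar) (a z : ℝ) : ℝ := D.s ^ (π.b2 a - a + 1 / 4 * z)

/-- the bin of the side value `x` at the starting time `T` -/
noncomputable def layEqCell (D : SfDoc) (π : SfPar) (a z : ℝ) {ζ : Type} (v sl : ζ → ℝ) (T : ℝ) (x : ζ) : ℝ × ℤ × ℤ :=
  (T, ⌊(v x + sl x * T) / layEqG D π a z⌋, ⌊sl x / layEqH D π a z⌋)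

/-- the shear of a bin -/
noncomputable def layEqSg (D : SfDoc) (π : SfPar) (a z : ℝ) (b : ℝ × ℤ × ℤ) : SfTest :=
  layShear b.1 ((b.2.1 : ℝ) * layEqG D π a z) ((b.2.2 : ℝ) * layEqH D π a z) 0

/-! ## pure linear -/

/-- the event of the value form -/
def SfDoc.layEvL (D : SfDoc) (π : SfPar) (a z : ℝ) {ζ : Type} (Z : D.Row 1 → ζ) (E : D.Row 1 → Prop) (v : ζ → ℝ)
    (ρ : D.Row 1) : Prop :=
  E ρ ∧ |(D.lab 1 ρ).Pc - v (Z ρ)| ≤ D.s ^ (π.b1 a + z)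

/-- the mesh -/
noncomputable def layLinG (D : SfDoc) (π : SfPar) (a z : ℝ) : ℝ := D.s ^ (π.b1 a + 1 / 2 * z)

/-- the standing hypotheses of the value form -/
structure LayLinSit (π : SfPar) (C0 τ κ0 t : ℝ) (D : SfDoc) (a z : ℝ) : Prop where
  val : π.Valid
  ok : D.Ok π C0 τ κ0 t
  tpos : 0 < t
  t1 : t ≤ 1 / (2 * |C0| + π.c1 + 4)
  h10 : (10 : ℝ) ≤ D.s ^ (-t)
  ha : a ∈ D.G
  hz : 0 < z
  c2 : π.c2 = 0
  c1 : 0 < π.c1
  hq : π.q = π.c1 + π.J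

theorem lay_sepeq_eqns_cite : True := by
  have := @SfDoc.layEqTa.eq_1
  have := @layEqG.eq_1
  have := @layEqH.eq_1
  have := @layEqCell.eq_1
  have := @layEqSg.eq_1
  have := @SfDoc.layEvL.eq_1
  have := @layLinG.eq_1
  trivial

section eq

variable {π : SfPar} {C0 τ κ0 t : ℝ} {D : SfDoc} {a z i j : ℝ} {ζ : Type} {Z : D.Row 1 → ζ} {E : D.Row 1 → Prop}
  {v sl : ζ → ℝ}

/-- LEAF EQ1. `layEqTa` is the time of every predecessor (`dif_pos`, `lay_start` with `ρ' = ρ''`) -/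
theorem lay_ta_eq (hD : D.Core π C0 t) (hi : i ∈ D.G) (hj : j ∈ D.G) (hij : i < j) (ρ0 : D.Row i) (ρ' : D.Row j)
    (h : D.Conn i j ρ0 ρ') : D.layEqTa i j ρ' = D.T i ρ0 := by
  have hex : ∃ ρ0 : D.Row i, D.Conn i j ρ0 ρ' := ⟨ρ0, h⟩
  unfold SfDoc.layEqTa
  rw [dif_pos hex]
  exact lay_start D π C0 t i j hD hi hj hij _ _ ρ' ρ' hex.choose_spec h rfl

/-- LEAF EQ1. `0 ≤ T_j - Ta ≤ s^(i-t)` (`lay_near`; `0` if there is no predecessor) -/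
theorem lay_ta_near (hD : D.Core π C0 t) (hi : i ∈ D.G) (hj : j ∈ D.G) (hij : i < j) (ρ' : D.Row j) :
    0 ≤ D.T j ρ' - D.layEqTa i j ρ' ∧ D.T j ρ' - D.layEqTa i j ρ' ≤ D.s ^ (i - t) := by
  by_cases hex : ∃ ρ0 : D.Row i, D.Conn i j ρ0 ρ'
  · obtain ⟨ρ0, h⟩ := hex
    rw [lay_ta_eq hD hi hj hij ρ0 ρ' h]
    obtain ⟨a1, a2, a3⟩ := lay_near D π C0 t i j hD hi hj hij ρ0 ρ' h
    exact ⟨a1, by linarith⟩
  · unfold SfDoc.layEqTa
    rw [dif_neg hex]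
    have := Real.rpow_nonneg hD.hs.1.le (i - t)
    constructor <;> simp [this]

/-- LEAF EQ1. at a fixed time `T0` of the `j`-rows `layEqTa` has at most two values (`lay_start`: `c` = the time of the predecessors of one such row, if any) -/
theorem lay_ta_two (hD : D.Core π C0 t) (hi : i ∈ D.G) (hj : j ∈ D.G) (hij : i < j) (T0 : ℝ) :
    ∃ c : ℝ, ∀ ρ' : D.Row j, D.T j ρ' = T0 → D.layEqTa i j ρ' = c ∨ D.layEqTa i j ρ' = T0 := by
  by_cases hex : ∃ (ρ1 : D.Row j) (ρ0 : D.Row i), D.T j ρ1 = T0 ∧ D.Conn i j ρ0 ρ1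
  · obtain ⟨ρ1, ρ0, hT, h⟩ := hex
    refine ⟨D.T i ρ0, ?_⟩
    intro ρ' hT'
    by_cases hex' : ∃ ρ2 : D.Row i, D.Conn i j ρ2 ρ'
    · obtain ⟨ρ2, h2⟩ := hex'
      left
      rw [lay_ta_eq hD hi hj hij ρ2 ρ' h2]
      exact lay_start D π C0 t i j hD hi hj hij _ _ ρ' ρ1 h2 h (hT'.trans hT.symm)
    · right
      unfold SfDoc.layEqTa
      rw [dif_neg hex']
      exact hT'
  · refine ⟨T0, ?_⟩
    intro ρ' hT'
    right
    have hex' : ¬ ∃ ρ2 : D.Row i, D.Conn i j ρ2 ρ' := by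
      rintro ⟨ρ2, h2⟩
      exact hex ⟨ρ', ρ2, hT', h2⟩
    unfold SfDoc.layEqTa
    rw [dif_neg hex']
    exact hT'

/-- LEAF EQ1. ROW: four terms `|T_1 - T_j| |K_j| ≤ len_j |K_j| ≤ s^(b j - t)` (`lay_near (j,1)`, `eqK`), `|beAt_j T_1 - be_1| ≤ s^(b j - t)` (`cmpA (j,1)`, `min (b j) (b 1) = b j`), `s^(b a + z)` (event),
`|sl| len_j ≤ s^(b a + 3z/2 - t)`;   `b x = x - 1`, `b j = b a + 2z`. -/
theorem lay_eq_row (H : LaySit π C0 τ κ0 t (1 / 2) D a z sl) (hq : π.q = π.c2) (h1 : π.c2 = 1)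
    (hj : j = a + 2 * z) (hjG : j ∈ D.G) (hj1 : j < 1)
    (ρ' : D.Row j) (ρ : D.Row 1) (hc : D.Conn j 1 ρ' ρ) (hE : D.layEv π a z Z E v sl ρ) :
    |(D.lab j ρ').be - (v (Z ρ) + sl (Z ρ) * D.T j ρ')| ≤ 4 * D.s ^ (π.b2 a + z - t) := by
  have hs := H.ok.core.hs
  have ht := H.tpos
  have hz := H.hz
  have h1G := H.ok.core.gate.1
  have hq1 : π.q = 1 := hq.trans h1
  have hb : ∀ x, π.b2 x = x - 1 := by
    intro x
    unfold SfPar.b2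
    rw [hq1]
    ring
  obtain ⟨n1, n2, n3⟩ := lay_near D π C0 t j 1 H.ok.core hjG h1G hj1 ρ' ρ hc
  have cA := (H.ok.aff.cmpA j hjG 1 h1G hj1 ρ' ρ hc).1
  have hmin : min (π.b2 j) (π.b2 1) = π.b2 j := by
    rw [hb, hb]
    exact min_eq_left (by linarith)
  rw [hmin] at cA
  have cK := H.ok.aff.eqK (by rw [h1]; norm_num) (by rw [h1]) hq j hjG ρ'
  have cE := hE.2
  have cS := H.hsl h1.le (Z ρ)
  set X : ℝ := D.s ^ (π.b2 a + z - t) with hX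
  have b1 : D.s ^ (π.b2 j - t) ≤ X := lay_rpow_anti hs.1 hs.2 (by rw [hb, hb, hj]; linarith)
  have b2 : D.s ^ (π.b2 a + z) ≤ X := lay_rpow_anti hs.1 hs.2 (by linarith)
  set dT : ℝ := D.T 1 ρ - D.T j ρ' with hdT
  have t1 : |dT * (D.lab j ρ').K| ≤ X := by
    rw [abs_mul, abs_of_nonneg n1]
    refine le_trans ?_ (cK.trans b1)
    exact mul_le_mul_of_nonneg_right n2.le (abs_nonneg _)
  have t2 : |sl (Z ρ) * dT| ≤ X := by
    rw [abs_mul, abs_of_nonneg n1]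
    calc |sl (Z ρ)| * dT ≤ D.s ^ (π.b2 a - a - 1 / 2 * z) * D.s ^ (j - t) :=
          mul_le_mul cS (n2.le.trans n3) n1 (Real.rpow_nonneg hs.1.le _)
      _ = D.s ^ (π.b2 a - a - 1 / 2 * z + (j - t)) := by rw [← Real.rpow_add hs.1]
      _ ≤ X := lay_rpow_anti hs.1 hs.2 (by rw [hj]; linarith)
  have e : (D.lab j ρ').be - (v (Z ρ) + sl (Z ρ) * D.T j ρ')
      = ((D.lab j ρ').beAt (D.T 1 ρ) - (D.lab 1 ρ).be) - dT * (D.lab j ρ').K
        + ((D.lab 1 ρ).be - (v (Z ρ) + sl (Z ρ) * D.T 1 ρ)) + sl (Z ρ) * dT := by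
    unfold SfTest.beAt
    rw [hdT]
    unfold SfDoc.T
    ring
  rw [e]
  have := abs_add_le (((D.lab j ρ').beAt (D.T 1 ρ) - (D.lab 1 ρ).be) - dT * (D.lab j ρ').K
        + ((D.lab 1 ρ).be - (v (Z ρ) + sl (Z ρ) * D.T 1 ρ))) (sl (Z ρ) * dT)
  have h3 := abs_add_le (((D.lab j ρ').beAt (D.T 1 ρ) - (D.lab 1 ρ).be) - dT * (D.lab j ρ').K)
        ((D.lab 1 ρ).be - (v (Z ρ) + sl (Z ρ) * D.T 1 ρ))
  have h4 := abs_sub ((D.lab j ρ').beAt (D.T 1 ρ) - (D.lab 1 ρ).be) (dT * (D.lab j ρ').K)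
  linarith [cA.trans b1, cE.trans b2]

/-- LEAF EQ2. (a): `Conn i 1 ρ0 ρ` (`trans`), `Z ρ ∈ S` (`RowPr`), `layEqTa = T_i ρ0` (`lay_ta_eq`): the set is contained in the image of `S` under `layEqCell .. (T_i ρ0)`. -/
theorem lay_eq_a (H : LaySit π C0 τ κ0 t (1 / 2) D a z sl)
    (hiG : i ∈ D.G) (hjG : j ∈ D.G) (hij : i < j) (hj1 : j < 1) (hZ : D.RowPr i E Z (D.s ^ (-t))) (ρ0 : D.Row i) :
    (({b | ∃ ρ' ρ, D.Conn i j ρ0 ρ' ∧ D.Conn j 1 ρ' ρ ∧ D.layEv π a z Z E v sl ρ ∧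
        layEqCell D π a z v sl (D.layEqTa i j ρ') (Z ρ) = b} : Set (ℝ × ℤ × ℤ)).ncard : ℝ) ≤ D.s ^ (-t) := by
  obtain ⟨S, hS, hmem⟩ := hZ ρ0
  have hsub : ({b | ∃ ρ' ρ, D.Conn i j ρ0 ρ' ∧ D.Conn j 1 ρ' ρ ∧ D.layEv π a z Z E v sl ρ ∧
        layEqCell D π a z v sl (D.layEqTa i j ρ') (Z ρ) = b} : Set (ℝ × ℤ × ℤ))
      ⊆ ((S.image (layEqCell D π a z v sl (D.T i ρ0)) : Finset (ℝ × ℤ × ℤ)) : Set (ℝ × ℤ × ℤ)) := by
    rintro b ⟨ρ', ρ, c1, c2, hE, rfl⟩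
    rw [lay_ta_eq H.ok.core hiG hjG hij ρ0 ρ' c1]
    have hc := H.ok.core.trans i hiG j hjG 1 H.ok.core.gate.1 hij hj1 ρ0 ρ' ρ c1 c2
    exact Finset.mem_coe.2 (Finset.mem_image_of_mem _ (hmem ρ hc hE.1))
  have h1 := Set.ncard_le_ncard hsub (Finset.finite_toSet _)
  rw [Set.ncard_coe_finset] at h1
  have h2 : (S.image (layEqCell D π a z v sl (D.T i ρ0))).card ≤ S.card := Finset.card_image_le
  calc _ ≤ ((S.image (layEqCell D π a z v sl (D.T i ρ0))).card : ℝ) := Nat.cast_le.2 h1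
    _ ≤ (S.card : ℝ) := Nat.cast_le.2 h2
    _ ≤ _ := hS

/-- LEAF EQ2. (b): `Z ρ ∈ S` (`LabPr` at `lam`, `()`), `T_j ρ' = lam.T`, `layEqTa ∈ {c, lam.T}` (`lay_ta_two`): the set is contained in the image of `{c, lam.T} ×ˢ S`; `2 s^-t ≤ s^(-2t)` (`lay_rpow_abs`). -/
theorem lay_eq_b (H : LaySit π C0 τ κ0 t (1 / 2) D a z sl)
    (hiG : i ∈ D.G) (hjG : j ∈ D.G) (hij : i < j) (hj1 : j < 1)
    (hL : D.LabPr j E Z (fun _ => ()) (D.s ^ (-t))) (lam : SfTest) :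
    (({b | ∃ ρ' ρ, D.lab j ρ' = lam ∧ D.Conn j 1 ρ' ρ ∧ D.layEv π a z Z E v sl ρ ∧
        layEqCell D π a z v sl (D.layEqTa i j ρ') (Z ρ) = b} : Set (ℝ × ℤ × ℤ)).ncard : ℝ) ≤ D.s ^ (-(2 * t)) := by
  have hs := H.ok.core.hs
  obtain ⟨S, hS, hmem⟩ := hL lam ()
  obtain ⟨c, hc⟩ := lay_ta_two H.ok.core hiG hjG hij lam.T
  set F : Finset (ℝ × ℤ × ℤ) := S.image (layEqCell D π a z v sl c) ∪ S.image (layEqCell D π a z v sl lam.T) with hF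
  have hsub : ({b | ∃ ρ' ρ, D.lab j ρ' = lam ∧ D.Conn j 1 ρ' ρ ∧ D.layEv π a z Z E v sl ρ ∧
        layEqCell D π a z v sl (D.layEqTa i j ρ') (Z ρ) = b} : Set (ℝ × ℤ × ℤ)) ⊆ (F : Set (ℝ × ℤ × ℤ)) := by
    rintro b ⟨ρ', ρ, c1, c2, hE, rfl⟩
    have hT : D.T j ρ' = lam.T := by
      unfold SfDoc.T
      rw [c1]
    have hmet : D.Met j lam ρ := by
      unfold SfDoc.Met
      rw [if_neg (ne_of_lt hj1)]
      exact ⟨ρ', c1, c2⟩
    have hm := hmem ρ hmet hE.1 rfl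
    refine Finset.mem_coe.2 (Finset.mem_union.2 ?_)
    rcases hc ρ' hT with h | h
    · left
      rw [h]
      exact Finset.mem_image_of_mem _ hm
    · right
      rw [h]
      exact Finset.mem_image_of_mem _ hm
  have h1 := Set.ncard_le_ncard hsub (Finset.finite_toSet _)
  rw [Set.ncard_coe_finset] at h1
  have h2 : F.card ≤ S.card + S.card :=
    (Finset.card_union_le _ _).trans (add_le_add Finset.card_image_le Finset.card_image_le)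
  have h3 : ((F.card : ℕ) : ℝ) ≤ (S.card : ℝ) + (S.card : ℝ) := by exact_mod_cast h2
  have h4 := lay_rpow_abs hs.1 H.h10 (-t)
  have h5 : (0 : ℝ) ≤ D.s ^ (-t) := Real.rpow_nonneg hs.1.le _
  have e : -t - t = -(2 * t) := by ring
  rw [e] at h4
  calc _ ≤ ((F.card : ℕ) : ℝ) := Nat.cast_le.2 h1
    _ ≤ _ := by linarith

/-- LEAF EQ3. (c): `lay_shear_R2`, `own` (`lam.r = D.r j`, `lam.f = D.f j`), `lay_pref2`: `r²/f ≤ s^(-b a - 2z - 3t)`.   With `m g`, `m' g'` the rounded values (`lay_round`), `Ta = layEqTa`: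
`|be_j - (m g + (T_j - Ta) m' g')| ≤ |be_j - (v + sl T_j)| + |v + sl Ta - m g| + (T_j - Ta) |sl - m' g'| ≤ 4 s^(b a + z - t) + g + s^(a - t) g' ≤ 6 s^(b a + z/4 - t)`  (`lay_eq_row`, `lay_ta_near`);
`len_j |K_j - m' g'| ≤ len_j |K_j| + len_j |sl| + len_j g' ≤ s^(b j - t) + s^(b a + 3z/2 - t) + s^(b j + z/4 - t) ≤ 3 s^(b a + z/4 - t)`  (`eqK`, `hlen`);   product `≤ 9 s^(-7z/4 - 4t) ≤ s^(-7z/4 - 5t) ≤ s^(-15z/8)`. -/
theorem lay_eq_c (H : LaySit π C0 τ κ0 t (1 / 2) D a z sl) (hq : π.q = π.c2) (h1 : π.c2 = 1) (hτ : τ = 1 / 16)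
    (hi : i = a) (hiG : i ∈ D.G) (hj : j = a + 2 * z) (hjG : j ∈ D.G) (hj1 : j < 1) (ht : 40 * t ≤ z)
    (ρ' : D.Row j) (ρ : D.Row 1) (hc : D.Conn j 1 ρ' ρ) (hE : D.layEv π a z Z E v sl ρ) :
    sfR2 (D.lab j ρ') (layEqSg D π a z (layEqCell D π a z v sl (D.layEqTa i j ρ') (Z ρ))) (D.len j)
      ≤ D.s ^ (-((π.c2 - τ) * (j - i))) := by
  have hs := H.ok.core.hs
  have htp := H.tpos
  have hz := H.hz
  have hq1 : π.q = 1 := hq.trans h1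
  have hb : ∀ x, π.b2 x = x - 1 := by
    intro x
    unfold SfPar.b2
    rw [hq1]
    ring
  have hij : i < j := by rw [hi, hj]; linarith
  obtain ⟨p0, p1⟩ := lay_pref2 D π C0 τ κ0 t j H.ok hjG
  obtain ⟨o1, o2, -⟩ := H.ok.core.own j hjG ρ'
  obtain ⟨n1, n2⟩ := lay_ta_near H.ok.core hiG hjG hij ρ'
  have row := lay_eq_row H hq h1 hj hjG hj1 ρ' ρ hc hE
  have cK := H.ok.aff.eqK (by rw [h1]; norm_num) (by rw [h1]) hq j hjG ρ'
  have cS := H.hsl h1.le (Z ρ)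
  have hl := (H.ok.core.hlen.2 j hjG).2
  have hl0 : 0 ≤ D.len j := le_trans (Real.rpow_nonneg hs.1.le _) (H.ok.core.hlen.2 j hjG).1
  have hg : 0 < layEqG D π a z := Real.rpow_pos_of_pos hs.1 _
  have hh : 0 < layEqH D π a z := Real.rpow_pos_of_pos hs.1 _
  set Ta : ℝ := D.layEqTa i j ρ' with hTa
  set x : ζ := Z ρ with hx
  set mg : ℝ := (⌊(v x + sl x * Ta) / layEqG D π a z⌋ : ℝ) * layEqG D π a z with hmg
  set mh : ℝ := (⌊sl x / layEqH D π a z⌋ : ℝ) * layEqH D π a z with hmh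
  have r1 : |mg - (v x + sl x * Ta)| ≤ layEqG D π a z := lay_round _ _ hg
  have r2 : |mh - sl x| ≤ layEqH D π a z := lay_round _ _ hh
  set Y : ℝ := D.s ^ (π.b2 a + 1 / 4 * z - t) with hY
  have hY0 : 0 ≤ Y := Real.rpow_nonneg hs.1.le _
  have y1 : D.s ^ (π.b2 a + z - t) ≤ Y := lay_rpow_anti hs.1 hs.2 (by linarith)
  have y2 : layEqG D π a z ≤ Y := lay_rpow_anti hs.1 hs.2 (by linarith)
  have y3 : D.s ^ (i - t) * layEqH D π a z ≤ Y := by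
    unfold layEqH
    rw [← Real.rpow_add hs.1]
    exact lay_rpow_anti hs.1 hs.2 (by rw [hi]; linarith)
  have y4 : D.s ^ (π.b2 j - t) ≤ Y := lay_rpow_anti hs.1 hs.2 (by rw [hb, hb, hj]; linarith)
  have y5 : D.s ^ (j - t) * D.s ^ (π.b2 a - a - 1 / 2 * z) ≤ Y := by
    rw [← Real.rpow_add hs.1]
    exact lay_rpow_anti hs.1 hs.2 (by rw [hj]; linarith)
  have y6 : D.s ^ (j - t) * layEqH D π a z ≤ Y := by
    unfold layEqH
    rw [← Real.rpow_add hs.1]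
    exact lay_rpow_anti hs.1 hs.2 (by rw [hj]; linarith)
  have e0 : sfR2 (D.lab j ρ') (layEqSg D π a z (layEqCell D π a z v sl Ta x)) (D.len j)
      = D.r j ^ 2 / D.f j * (|(D.lab j ρ').be - (mg + (D.T j ρ' - Ta) * mh)| + D.len j * |(D.lab j ρ').K - mh|) := by
    unfold layEqSg layEqCell
    rw [lay_shear_R2, o1, o2]
    rfl
  rw [e0]
  have T1 : |(D.lab j ρ').be - (mg + (D.T j ρ' - Ta) * mh)| ≤ 6 * Y := by
    have e : (D.lab j ρ').be - (mg + (D.T j ρ' - Ta) * mh)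
        = ((D.lab j ρ').be - (v x + sl x * D.T j ρ')) - (mg - (v x + sl x * Ta)) - (D.T j ρ' - Ta) * (mh - sl x) := by
      ring
    rw [e]
    have a1 := abs_sub (((D.lab j ρ').be - (v x + sl x * D.T j ρ')) - (mg - (v x + sl x * Ta)))
      ((D.T j ρ' - Ta) * (mh - sl x))
    have a2 := abs_sub ((D.lab j ρ').be - (v x + sl x * D.T j ρ')) (mg - (v x + sl x * Ta))
    have a3 : |(D.T j ρ' - Ta) * (mh - sl x)| ≤ D.s ^ (i - t) * layEqH D π a z := by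
      rw [abs_mul, abs_of_nonneg n1]
      exact mul_le_mul n2 r2 (abs_nonneg _) (Real.rpow_nonneg hs.1.le _)
    linarith
  have T2 : D.len j * |(D.lab j ρ').K - mh| ≤ 3 * Y := by
    have a1 : |(D.lab j ρ').K - mh| ≤ |(D.lab j ρ').K| + |sl x| + |mh - sl x| := by
      have e : (D.lab j ρ').K - mh = (D.lab j ρ').K - sl x - (mh - sl x) := by ring
      rw [e]
      have b1 := abs_sub ((D.lab j ρ').K - sl x) (mh - sl x)
      have b2 := abs_sub (D.lab j ρ').K (sl x)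
      linarith
    have a2 : D.len j * |sl x| ≤ D.s ^ (j - t) * D.s ^ (π.b2 a - a - 1 / 2 * z) :=
      mul_le_mul hl cS (abs_nonneg _) (Real.rpow_nonneg hs.1.le _)
    have a3 : D.len j * |mh - sl x| ≤ D.s ^ (j - t) * layEqH D π a z :=
      mul_le_mul hl r2 (abs_nonneg _) (Real.rpow_nonneg hs.1.le _)
    have a4 := mul_le_mul_of_nonneg_left a1 hl0
    nlinarith
  have hfin : D.r j ^ 2 / D.f j * (|(D.lab j ρ').be - (mg + (D.T j ρ' - Ta) * mh)| + D.len j * |(D.lab j ρ').K - mh|)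
      ≤ D.s ^ (-π.b2 j - 3 * t) * (10 * Y) := by
    refine mul_le_mul p1 (by linarith) ?_ (Real.rpow_nonneg hs.1.le _)
    exact add_nonneg (abs_nonneg _) (mul_nonneg hl0 (abs_nonneg _))
  refine hfin.trans ?_
  have h10 := lay_rpow_abs hs.1 H.h10 (π.b2 a + 1 / 4 * z - t)
  calc D.s ^ (-π.b2 j - 3 * t) * (10 * Y) ≤ D.s ^ (-π.b2 j - 3 * t) * D.s ^ (π.b2 a + 1 / 4 * z - t - t) :=
        mul_le_mul_of_nonneg_left h10 (Real.rpow_nonneg hs.1.le _)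
    _ = D.s ^ (-π.b2 j - 3 * t + (π.b2 a + 1 / 4 * z - t - t)) := by rw [← Real.rpow_add hs.1]
    _ ≤ _ := lay_rpow_anti hs.1 hs.2 (by rw [hb, hb, h1, hτ, hi, hj]; linarith)

/-- LEAF EQ4. (sz): `lay_shear_size` with `M = s^(-1/t)`.   `|m' g'| ≤ |sl| + g' ≤ 2 s^(-2)` (`z < 1/2`, `0 ≤ a`);
`|m g| ≤ |v + sl Ta| + g ≤ |be_j| + 4 s^(b a + z - t) + |sl| s^(a - t) + g ≤ s^(-|C0|) + 6 s^(-2) ≤ 7 s^(-(|C0| + 2)) ≤ s^(-(|C0| + 3)) ≤ s^(-1/t)`  (`bdd`, `lay_eq_row`, `lay_ta_near`, `b a ≥ -1`, `H.t1`). -/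
theorem lay_eq_sz (H : LaySit π C0 τ κ0 t (1 / 2) D a z sl) (hq : π.q = π.c2) (h1 : π.c2 = 1)
    (hi : i = a) (hiG : i ∈ D.G) (hj : j = a + 2 * z) (hjG : j ∈ D.G) (hj1 : j < 1)
    (ρ' : D.Row j) (ρ : D.Row 1) (hc : D.Conn j 1 ρ' ρ) (hE : D.layEv π a z Z E v sl ρ) :
    (layEqSg D π a z (layEqCell D π a z v sl (D.layEqTa i j ρ') (Z ρ))).size ≤ D.s ^ (-(1 / t)) := by
  have hs := H.ok.core.hs
  have htp := H.tpos
  have hz := H.hz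
  have ha0 : 0 ≤ a := (H.ok.core.gate.2 a H.ha).1
  have hq1 : π.q = 1 := hq.trans h1
  have hb : ∀ x, π.b2 x = x - 1 := by
    intro x
    unfold SfPar.b2
    rw [hq1]
    ring
  have hij : i < j := by rw [hi, hj]; linarith
  have hC0 : 0 ≤ |C0| := abs_nonneg _
  have hC : 0 < |C0| + 4 := by positivity
  have ht4 : t ≤ 1 / 4 := H.t1.trans (by
    rw [div_le_div_iff₀ hC (by norm_num)]
    linarith)
  have ht1 : |C0| + 4 ≤ 1 / t := by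
    rw [le_div_iff₀ htp]
    have := H.t1
    rw [le_div_iff₀ hC] at this
    linarith
  obtain ⟨n1, n2⟩ := lay_ta_near H.ok.core hiG hjG hij ρ'
  have row := lay_eq_row H hq h1 hj hjG hj1 ρ' ρ hc hE
  have cS := H.hsl h1.le (Z ρ)
  have hg : 0 < layEqG D π a z := Real.rpow_pos_of_pos hs.1 _
  have hh : 0 < layEqH D π a z := Real.rpow_pos_of_pos hs.1 _
  have hbe : |(D.lab j ρ').be| ≤ D.s ^ (-C0) := by
    refine le_trans ?_ (H.ok.core.bdd j hjG ρ').2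
    unfold SfTest.size
    simp
  set Ta : ℝ := D.layEqTa i j ρ' with hTa
  set x : ζ := Z ρ with hx
  set mg : ℝ := (⌊(v x + sl x * Ta) / layEqG D π a z⌋ : ℝ) * layEqG D π a z with hmg
  set mh : ℝ := (⌊sl x / layEqH D π a z⌋ : ℝ) * layEqH D π a z with hmh
  have r1 : |mg - (v x + sl x * Ta)| ≤ layEqG D π a z := lay_round _ _ hg
  have r2 : |mh - sl x| ≤ layEqH D π a z := lay_round _ _ hh
  set W : ℝ := D.s ^ (-(|C0| + 2)) with hW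
  have hW0 : 0 ≤ W := Real.rpow_nonneg hs.1.le _
  have w10 : 10 * W ≤ D.s ^ (-(1 / t)) :=
    (lay_rpow_abs hs.1 H.h10 _).trans (lay_rpow_anti hs.1 hs.2 (by linarith))
  have w1 : D.s ^ (-C0) ≤ W := lay_rpow_anti hs.1 hs.2 (by linarith [le_abs_self C0])
  have w2 : D.s ^ (π.b2 a + z - t) ≤ W := lay_rpow_anti hs.1 hs.2 (by rw [hb]; linarith)
  have w3 : D.s ^ (π.b2 a - a - 1 / 2 * z) * D.s ^ (i - t) ≤ W := by
    rw [← Real.rpow_add hs.1]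
    exact lay_rpow_anti hs.1 hs.2 (by rw [hb, hi]; linarith)
  have w4 : layEqG D π a z ≤ W := lay_rpow_anti hs.1 hs.2 (by rw [hb]; linarith)
  have w5 : layEqH D π a z ≤ W := lay_rpow_anti hs.1 hs.2 (by rw [hb]; linarith)
  have w6 : D.s ^ (π.b2 a - a - 1 / 2 * z) ≤ W := lay_rpow_anti hs.1 hs.2 (by rw [hb]; linarith)
  have e0 : layEqSg D π a z (layEqCell D π a z v sl Ta x) = layShear Ta mg mh 0 := rfl
  rw [e0]
  refine lay_shear_size _ _ _ _ _ ?_ ?_ ?_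
  · have e : mg = (mg - (v x + sl x * Ta)) - ((D.lab j ρ').be - (v x + sl x * D.T j ρ')) + (D.lab j ρ').be
        - sl x * (D.T j ρ' - Ta) := by ring
    have a3 : |sl x * (D.T j ρ' - Ta)| ≤ D.s ^ (π.b2 a - a - 1 / 2 * z) * D.s ^ (i - t) := by
      rw [abs_mul, abs_of_nonneg n1]
      exact mul_le_mul cS n2 n1 (Real.rpow_nonneg hs.1.le _)
    rw [e]
    have b1 := abs_sub ((mg - (v x + sl x * Ta)) - ((D.lab j ρ').be - (v x + sl x * D.T j ρ')) + (D.lab j ρ').be)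
      (sl x * (D.T j ρ' - Ta))
    have b2 := abs_add_le ((mg - (v x + sl x * Ta)) - ((D.lab j ρ').be - (v x + sl x * D.T j ρ'))) (D.lab j ρ').be
    have b3 := abs_sub (mg - (v x + sl x * Ta)) ((D.lab j ρ').be - (v x + sl x * D.T j ρ'))
    linarith
  · have e : mh = (mh - sl x) + sl x := by ring
    rw [e]
    have b1 := abs_add_le (mh - sl x) (sl x)
    linarith
  · rw [abs_zero]
    exact Real.rpow_nonneg hs.1.le _

end eq

section lin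

variable {π : SfPar} {C0 τ κ0 t : ℝ} {D : SfDoc} {a z i j : ℝ} {ζ : Type} {Z : D.Row 1 → ζ} {E : D.Row 1 → Prop}
  {v : ζ → ℝ}

/-- LEAF LIN1. ROW: `linP (j,1)`: `|Pc_j - Pc_1| ≤ s^(b1 j - t)`, `b1 x = c1 (x - 1)`, `b1 j = b1 a + 2z`; event. -/
theorem lay_lin_row (H : LayLinSit π C0 τ κ0 t D a z) (hj : j = a + 2 / π.c1 * z) (hjG : j ∈ D.G) (hj1 : j < 1)
    (ρ' : D.Row j) (ρ : D.Row 1) (hc : D.Conn j 1 ρ' ρ) (hE : D.layEvL π a z Z E v ρ) :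
    |(D.lab j ρ').Pc - v (Z ρ)| ≤ 2 * D.s ^ (π.b1 a + z - t) := by
  have hs := H.ok.core.hs
  have ht := H.tpos
  have hz := H.hz
  have hc1 := H.c1
  have hbj : π.b1 j = π.b1 a + 2 * z := by
    unfold SfPar.b1
    rw [H.hq, hj]
    field_simp
    ring
  have l1 := (H.ok.aff.linP H.c2).1 j hjG 1 H.ok.core.gate.1 hj1 ρ' ρ hc
  have l2 := hE.2
  have b1 : D.s ^ (π.b1 j - t) ≤ D.s ^ (π.b1 a + z - t) := lay_rpow_anti hs.1 hs.2 (by rw [hbj]; linarith)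
  have b2 : D.s ^ (π.b1 a + z) ≤ D.s ^ (π.b1 a + z - t) := lay_rpow_anti hs.1 hs.2 (by linarith)
  have e : (D.lab j ρ').Pc - v (Z ρ) = ((D.lab j ρ').Pc - (D.lab 1 ρ).Pc) + ((D.lab 1 ρ).Pc - v (Z ρ)) := by ring
  rw [e]
  have := abs_add_le ((D.lab j ρ').Pc - (D.lab 1 ρ).Pc) ((D.lab 1 ρ).Pc - v (Z ρ))
  linarith

/-- LEAF LIN1. (a): `trans`, `RowPr`: image of `S`. -/
theorem lay_lin_a (H : LayLinSit π C0 τ κ0 t D a z)
    (hiG : i ∈ D.G) (hjG : j ∈ D.G) (hij : i < j) (hj1 : j < 1) (hZ : D.RowPr i E Z (D.s ^ (-t))) (ρ0 : D.Row i) :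
    (({b | ∃ ρ' ρ, D.Conn i j ρ0 ρ' ∧ D.Conn j 1 ρ' ρ ∧ D.layEvL π a z Z E v ρ ∧
        ⌊v (Z ρ) / layLinG D π a z⌋ = b} : Set ℤ).ncard : ℝ) ≤ D.s ^ (-t) := by
  obtain ⟨S, hS, hmem⟩ := hZ ρ0
  have hsub : ({b | ∃ ρ' ρ, D.Conn i j ρ0 ρ' ∧ D.Conn j 1 ρ' ρ ∧ D.layEvL π a z Z E v ρ ∧
        ⌊v (Z ρ) / layLinG D π a z⌋ = b} : Set ℤ)
      ⊆ ((S.image (fun x => ⌊v x / layLinG D π a z⌋) : Finset ℤ) : Set ℤ) := by
    rintro b ⟨ρ', ρ, c1, c2, hE, rfl⟩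
    have hc := H.ok.core.trans i hiG j hjG 1 H.ok.core.gate.1 hij hj1 ρ0 ρ' ρ c1 c2
    exact Finset.mem_coe.2 (Finset.mem_image_of_mem (fun x => ⌊v x / layLinG D π a z⌋) (hmem ρ hc hE.1))
  have h1 := Set.ncard_le_ncard hsub (Finset.finite_toSet _)
  rw [Set.ncard_coe_finset] at h1
  have h2 : (S.image (fun x => ⌊v x / layLinG D π a z⌋)).card ≤ S.card := Finset.card_image_le
  calc _ ≤ ((S.image (fun x => ⌊v x / layLinG D π a z⌋)).card : ℝ) := Nat.cast_le.2 h1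
    _ ≤ (S.card : ℝ) := Nat.cast_le.2 h2
    _ ≤ _ := hS

/-- LEAF LIN1. (b): ROW: all `v (Z ρ)` lie within `2 s^(b1 a + z - t) ≤ 2 g` of `lam.Pc`: `≤ 6 ≤ s^-t` cells (`lay_floor_count`). -/
theorem lay_lin_b (H : LayLinSit π C0 τ κ0 t D a z) (hj : j = a + 2 / π.c1 * z) (hjG : j ∈ D.G) (hj1 : j < 1)
    (ht : 2 * t ≤ z) (lam : SfTest) :
    (({b | ∃ ρ' ρ, D.lab j ρ' = lam ∧ D.Conn j 1 ρ' ρ ∧ D.layEvL π a z Z E v ρ ∧
        ⌊v (Z ρ) / layLinG D π a z⌋ = b} : Set ℤ).ncard : ℝ) ≤ D.s ^ (-t) := by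
  have hs := H.ok.core.hs
  have hg : 0 < layLinG D π a z := Real.rpow_pos_of_pos hs.1 _
  set S : Set ℝ := {y | ∃ ρ' ρ, D.lab j ρ' = lam ∧ D.Conn j 1 ρ' ρ ∧ D.layEvL π a z Z E v ρ ∧ v (Z ρ) = y} with hS
  have hb : D.s ^ (π.b1 a + z - t) ≤ layLinG D π a z := lay_rpow_anti hs.1 hs.2 (by linarith)
  have hcl : ∀ y ∈ S, |y - lam.Pc| ≤ 2 * layLinG D π a z := by
    rintro y ⟨ρ', ρ, c1, c2, hE, rfl⟩
    have := lay_lin_row H hj hjG hj1 ρ' ρ c2 hE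
    rw [c1, abs_sub_comm] at this
    linarith
  obtain ⟨-, hcount⟩ := lay_floor_count S lam.Pc (2 * layLinG D π a z) (layLinG D π a z) hg (by positivity) hcl
  have e : ({b | ∃ ρ' ρ, D.lab j ρ' = lam ∧ D.Conn j 1 ρ' ρ ∧ D.layEvL π a z Z E v ρ ∧
        ⌊v (Z ρ) / layLinG D π a z⌋ = b} : Set ℤ) = (fun x : ℝ => ⌊x / layLinG D π a z⌋) '' S := by
    ext b
    constructor
    · rintro ⟨ρ', ρ, c1, c2, hE, rfl⟩
      exact ⟨v (Z ρ), ⟨ρ', ρ, c1, c2, hE, rfl⟩, rfl⟩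
    · rintro ⟨y, ⟨ρ', ρ, c1, c2, hE, rfl⟩, rfl⟩
      exact ⟨ρ', ρ, c1, c2, hE, rfl⟩
  rw [e]
  have e2 : 2 * (2 * layLinG D π a z) / layLinG D π a z + 2 = 6 := by
    field_simp
    norm_num
  rw [e2] at hcount
  linarith [H.h10]

/-- LEAF LIN2. (c): `lay_shear_R2`, `lay_shear_R1`, `own`.   `sfR2 = r²/f (|be_j| + len_j |K_j|) ≤ s^(-b2 j - 3t) s^(b2 j - t)` (`lay_pref2`, `cmpB`, `min (-0) (min (b2 j) 0) = b2 j` as `q > 0`, `j < 1`);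
`sfR1 = r/f |Pc_j - m g| ≤ s^(-b1 j - 2t) (2 s^(b1 a + z - t) + g) ≤ 3 s^(-3z/2 - 3t) ≤ s^(-3z/2 - 4t) ≤ s^(-7z/4)` (`lay_pref1`, `lay_lin_row`, `lay_round`);  `(c1 - c1/8) (2/c1) z = 7z/4`. -/
theorem lay_lin_c (H : LayLinSit π C0 τ κ0 t D a z) (hτ : τ = π.c1 / 8) (hi : i = a) (hj : j = a + 2 / π.c1 * z)
    (hjG : j ∈ D.G) (hj1 : j < 1) (ht : 16 * t ≤ z)
    (ρ' : D.Row j) (ρ : D.Row 1) (hc : D.Conn j 1 ρ' ρ) (hE : D.layEvL π a z Z E v ρ) :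
    sfR2 (D.lab j ρ') (layShear 0 0 0 ((⌊v (Z ρ) / layLinG D π a z⌋ : ℝ) * layLinG D π a z)) (D.len j) ≤ D.s ^ (-(4 * t)) ∧
      sfR1 (D.lab j ρ') (layShear 0 0 0 ((⌊v (Z ρ) / layLinG D π a z⌋ : ℝ) * layLinG D π a z))
        ≤ D.s ^ (-((π.c1 - τ) * (j - i))) := by
  have hs := H.ok.core.hs
  have htp := H.tpos
  have hz := H.hz
  have hc1 := H.c1
  have hJ := H.val.J0
  have hbj : π.b1 j = π.b1 a + 2 * z := by
    unfold SfPar.b1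
    rw [H.hq, hj]
    field_simp
    ring
  obtain ⟨o1, o2, -⟩ := H.ok.core.own j hjG ρ'
  have hg : 0 < layLinG D π a z := Real.rpow_pos_of_pos hs.1 _
  constructor
  · obtain ⟨p0, p1⟩ := lay_pref2 D π C0 τ κ0 t j H.ok hjG
    have cB := H.ok.aff.cmpB j hjG ρ'
    have hb2 : π.b2 j ≤ 0 := by
      unfold SfPar.b2
      rw [H.hq]
      exact mul_nonpos_of_nonneg_of_nonpos (by linarith) (by linarith)
    have hmin : min (-π.c2) (min (π.b2 j) 0) = π.b2 j := by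
      rw [H.c2, neg_zero, min_eq_left hb2, min_eq_right hb2]
    rw [hmin] at cB
    rw [lay_shear_R2, o1, o2]
    have e : (D.lab j ρ').be - (0 + ((D.lab j ρ').T - 0) * 0) = (D.lab j ρ').be := by ring
    rw [e, sub_zero]
    have hl0 : 0 ≤ D.len j := le_trans (Real.rpow_nonneg hs.1.le _) (H.ok.core.hlen.2 j hjG).1
    calc D.r j ^ 2 / D.f j * (|(D.lab j ρ').be| + D.len j * |(D.lab j ρ').K|)
        ≤ D.s ^ (-π.b2 j - 3 * t) * D.s ^ (π.b2 j - t) :=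
          mul_le_mul p1 cB (add_nonneg (abs_nonneg _) (mul_nonneg hl0 (abs_nonneg _))) (Real.rpow_nonneg hs.1.le _)
      _ = D.s ^ (-(4 * t)) := by
          rw [← Real.rpow_add hs.1]
          congr 1
          ring
  · obtain ⟨p0, p1⟩ := lay_pref1 D π C0 τ κ0 t j H.ok hjG
    have row := lay_lin_row H hj hjG hj1 ρ' ρ hc hE
    have r1 := lay_round (v (Z ρ)) _ hg
    rw [lay_shear_R1, o1, o2]
    set mg : ℝ := (⌊v (Z ρ) / layLinG D π a z⌋ : ℝ) * layLinG D π a z with hmg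
    set Y : ℝ := D.s ^ (π.b1 a + 1 / 2 * z - t) with hY
    have hY0 : 0 ≤ Y := Real.rpow_nonneg hs.1.le _
    have y1 : D.s ^ (π.b1 a + z - t) ≤ Y := lay_rpow_anti hs.1 hs.2 (by linarith)
    have y2 : layLinG D π a z ≤ Y := lay_rpow_anti hs.1 hs.2 (by linarith)
    have T1 : |(D.lab j ρ').Pc - mg| ≤ 10 * Y := by
      have e : (D.lab j ρ').Pc - mg = ((D.lab j ρ').Pc - v (Z ρ)) - (mg - v (Z ρ)) := by ring
      rw [e]
      have := abs_sub ((D.lab j ρ').Pc - v (Z ρ)) (mg - v (Z ρ))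
      linarith
    have h10 := lay_rpow_abs hs.1 H.h10 (π.b1 a + 1 / 2 * z - t)
    have hexp : (π.c1 - τ) * (j - i) = 7 / 4 * z := by
      rw [hτ, hi, hj]
      field_simp
      ring
    calc D.r j / D.f j * |(D.lab j ρ').Pc - mg|
        ≤ D.s ^ (-π.b1 j - 2 * t) * D.s ^ (π.b1 a + 1 / 2 * z - t - t) :=
          mul_le_mul p1 (T1.trans h10) (abs_nonneg _) (Real.rpow_nonneg hs.1.le _)
      _ = D.s ^ (-π.b1 j - 2 * t + (π.b1 a + 1 / 2 * z - t - t)) := by rw [← Real.rpow_add hs.1]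
      _ ≤ _ := lay_rpow_anti hs.1 hs.2 (by rw [hexp, hbj]; linarith)

/-- LEAF LIN2. (sz): `lay_shear_size`.   `|m g| ≤ |v| + g ≤ |Pc_j| + 2 s^(b1 a + z - t) + g`, `|Pc_j| ≤ |al| + 2 |be| |x| + 2 |K| |b| ≤ 5 s^(-2|C0|)` (`bdd`), `b1 a ≥ -c1`:
`≤ 8 s^(-(2|C0| + c1 + 1)) ≤ s^(-(2|C0| + c1 + 2)) ≤ s^(-1/t)` (`H.t1`). -/
theorem lay_lin_sz (H : LayLinSit π C0 τ κ0 t D a z) (hj : j = a + 2 / π.c1 * z) (hjG : j ∈ D.G) (hj1 : j < 1)
    (ρ' : D.Row j) (ρ : D.Row 1) (hc : D.Conn j 1 ρ' ρ) (hE : D.layEvL π a z Z E v ρ) :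
    (layShear 0 0 0 ((⌊v (Z ρ) / layLinG D π a z⌋ : ℝ) * layLinG D π a z)).size ≤ D.s ^ (-(1 / t)) := by
  have hs := H.ok.core.hs
  have htp := H.tpos
  have hz := H.hz
  have hc1 := H.c1
  have ha0 : 0 ≤ a := (H.ok.core.gate.2 a H.ha).1
  have hC0 : 0 ≤ |C0| := abs_nonneg _
  have hC : 0 < 2 * |C0| + π.c1 + 4 := by positivity
  have ht4 : t ≤ 1 / 4 := H.t1.trans (by
    rw [div_le_div_iff₀ hC (by norm_num)]
    linarith)
  have ht1 : 2 * |C0| + π.c1 + 4 ≤ 1 / t := by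
    rw [le_div_iff₀ htp]
    have := H.t1
    rw [le_div_iff₀ hC] at this
    linarith
  have hba : -π.c1 ≤ π.b1 a := by
    unfold SfPar.b1
    rw [H.hq]
    nlinarith
  have hg : 0 < layLinG D π a z := Real.rpow_pos_of_pos hs.1 _
  have row := lay_lin_row H hj hjG hj1 ρ' ρ hc hE
  have r1 := lay_round (v (Z ρ)) _ hg
  set mg : ℝ := (⌊v (Z ρ) / layLinG D π a z⌋ : ℝ) * layLinG D π a z with hmg
  have hM0 : (0 : ℝ) ≤ D.s ^ (-(1 / t)) := Real.rpow_nonneg hs.1.le _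
  set B : ℝ := D.s ^ (-|C0|) with hB
  have hB1 : 1 ≤ B := by
    rw [hB, ← Real.rpow_zero D.s]
    exact lay_rpow_anti hs.1 hs.2 (by linarith)
  have hsz : (D.lab j ρ').size ≤ B :=
    (H.ok.core.bdd j hjG ρ').2.trans (lay_rpow_anti hs.1 hs.2 (by linarith [le_abs_self C0]))
  have s1 : |(D.lab j ρ').al| ≤ B := le_trans (by unfold SfTest.size; simp) hsz
  have s2 : |(D.lab j ρ').be| ≤ B := le_trans (by unfold SfTest.size; simp) hsz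
  have s3 : |(D.lab j ρ').x| ≤ B := le_trans (by unfold SfTest.size; simp) hsz
  have s4 : |(D.lab j ρ').K| ≤ B := le_trans (by unfold SfTest.size; simp) hsz
  have s5 : |(D.lab j ρ').b| ≤ B := le_trans (by unfold SfTest.size; simp) hsz
  have hBB : B * B = D.s ^ (-(2 * |C0|)) := by
    rw [hB, ← Real.rpow_add hs.1]
    congr 1
    ring
  have hPc : |(D.lab j ρ').Pc| ≤ 5 * (B * B) := by
    unfold SfTest.Pc
    have a1 := abs_sub ((D.lab j ρ').al + 2 * (D.lab j ρ').be * (D.lab j ρ').x) (2 * (D.lab j ρ').K * (D.lab j ρ').b)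
    have a2 := abs_add_le (D.lab j ρ').al (2 * (D.lab j ρ').be * (D.lab j ρ').x)
    have a3 : |2 * (D.lab j ρ').be * (D.lab j ρ').x| ≤ 2 * (B * B) := by
      rw [abs_mul, abs_mul, abs_two, mul_assoc]
      exact mul_le_mul_of_nonneg_left (mul_le_mul s2 s3 (abs_nonneg _) (by linarith)) (by norm_num)
    have a4 : |2 * (D.lab j ρ').K * (D.lab j ρ').b| ≤ 2 * (B * B) := by
      rw [abs_mul, abs_mul, abs_two, mul_assoc]
      exact mul_le_mul_of_nonneg_left (mul_le_mul s4 s5 (abs_nonneg _) (by linarith)) (by norm_num)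
    have a5 : B ≤ B * B := by nlinarith
    linarith
  set W : ℝ := D.s ^ (-(2 * |C0| + π.c1 + 1)) with hW
  have hW0 : 0 ≤ W := Real.rpow_nonneg hs.1.le _
  have w10 : 10 * W ≤ D.s ^ (-(1 / t)) :=
    (lay_rpow_abs hs.1 H.h10 _).trans (lay_rpow_anti hs.1 hs.2 (by linarith))
  have w1 : B * B ≤ W := by
    rw [hBB]
    exact lay_rpow_anti hs.1 hs.2 (by linarith)
  have w2 : D.s ^ (π.b1 a + z - t) ≤ W := lay_rpow_anti hs.1 hs.2 (by linarith)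
  have w3 : layLinG D π a z ≤ W := lay_rpow_anti hs.1 hs.2 (by linarith)
  refine lay_shear_size _ _ _ _ _ (by rw [abs_zero]; exact hM0) (by rw [abs_zero]; exact hM0) ?_
  have e : mg = (mg - v (Z ρ)) - ((D.lab j ρ').Pc - v (Z ρ)) + (D.lab j ρ').Pc := by ring
  rw [e]
  have b1 := abs_add_le ((mg - v (Z ρ)) - ((D.lab j ρ').Pc - v (Z ρ))) (D.lab j ρ').Pc
  have b2 := abs_sub (mg - v (Z ρ)) ((D.lab j ρ').Pc - v (Z ρ))
  linarith

end lin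

/-- the closing step common to both cases -/
theorem lay_sep_close {s t x p : ℝ} (h0 : 0 < s) (h1 : s < 1) (ht : 0 < t) (h10 : (10 : ℝ) ≤ s ^ (-t)) (hx : 36 * t ≤ x)
    (hx1 : x ≤ 1 / t) (key : p ≤ s ^ (-t) * (s ^ x) ^ ((2 : ℝ) / 3) + s ^ (1 / t)) : p ≤ s ^ (x / 2) := by
  have cl := lay_close (x := x) h0 h1 ht h10 hx hx1
  have hmono : (s ^ x) ^ ((2 : ℝ) / 3) ≤ (s ^ (x - 5 * t) + s ^ (1 / t)) ^ ((2 : ℝ) / 3) := by
    refine Real.rpow_le_rpow (Real.rpow_nonneg h0.le _) ?_ (by norm_num)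
    have := lay_rpow_anti (x := x) (y := x - 5 * t) h0 h1 (by linarith)
    have h2 := Real.rpow_nonneg h0.le (1 / t)
    linarith
  refine le_trans key (le_trans ?_ cl)
  have := mul_le_mul_of_nonneg_left hmono (Real.rpow_nonneg h0.le (-t))
  linarith

/-- **S2, `c = 1`**, with label prediction of the side. -/
theorem lay_sep_eq (π : SfPar) (hπ : π.Valid) (hq : π.q = π.c2) (h1 : π.c2 = 1) (C0 : ℝ) :
    LaySep π C0 true := by
  refine ⟨1 / 16, 1 / 2, {0, 2}, by norm_num, by norm_num, by norm_num, ?_, ?_⟩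
  · intro c hc
    simp only [Finset.mem_insert, Finset.mem_singleton] at hc
    rcases hc with rfl | rfl <;> norm_num
  intro κ0 hκ
  refine ⟨κ0, hκ, ?_⟩
  intro z0 hz0
  have hC : 0 < |C0| + 4 := by positivity
  refine ⟨min (min (z0 / 40) (κ0 * z0 / 18)) (min (1 / κ0) (1 / (|C0| + 4))), ?_, ?_⟩
  · refine lt_min (lt_min ?_ ?_) (lt_min ?_ ?_) <;> positivity
  intro t ht htt0
  have e1 : t ≤ z0 / 40 := htt0.trans ((min_le_left _ _).trans (min_le_left _ _))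
  have e2 : t ≤ κ0 * z0 / 18 := htt0.trans ((min_le_left _ _).trans (min_le_right _ _))
  have e3 : t ≤ 1 / κ0 := htt0.trans ((min_le_right _ _).trans (min_le_left _ _))
  have e4 : t ≤ 1 / (|C0| + 4) := htt0.trans ((min_le_right _ _).trans (min_le_right _ _))
  obtain ⟨s0, hs0, hs⟩ := lay_s0 t ht
  refine ⟨s0, hs0, ?_⟩
  intro D hDs hD a z hz haG hcs ζ Z E hRow hLab v sl hsl
  have hs01 := hD.core.hs
  have h10 := hs D.s hs01.1 hDs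
  have hz' : 0 < z := lt_of_lt_of_le hz0 hz
  obtain ⟨hiG, -⟩ := hcs 0 (by simp)
  obtain ⟨hjG, hj1⟩ := hcs 2 (by simp)
  have hRi := hRow 0 (by simp)
  have hLj := hLab rfl 2 (by simp)
  have ha0 : 0 ≤ a := (hD.core.gate.2 a haG).1
  have H : LaySit π C0 (1 / 16) κ0 t (1 / 2) D a z sl := ⟨hπ, hD, ht, e4, h10, haG, hz', hsl⟩
  have hia : a + 0 * z = a := by ring
  have hij : a + 0 * z < a + 2 * z := by linarith
  have hji : (a + 2 * z) - (a + 0 * z) = 2 * z := by ring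
  have f4 : κ0 * z0 ≤ κ0 * z := mul_le_mul_of_nonneg_left hz hκ.le
  have key := lay_extract D π C0 (1 / 16) κ0 t (a + 0 * z) (a + 2 * z) hD (by rw [h1]; norm_num) hiG hjG hij hj1
    (by rw [hji]; linarith) (D.layEv π a z Z E v sl) (ℝ × ℤ × ℤ)
    (fun ρ' ρ => layEqCell D π a z v sl (D.layEqTa (a + 0 * z) (a + 2 * z) ρ') (Z ρ))
    (layEqSg D π a z)
    (fun ρ0 => (lay_eq_a H hiG hjG hij hj1 hRi ρ0).trans (lay_rpow_anti hs01.1 hs01.2 (by rw [hji]; linarith)))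
    (fun lam => (lay_eq_b H hiG hjG hij hj1 hLj lam).trans (lay_rpow_anti hs01.1 hs01.2 (by rw [hji]; linarith)))
    (fun ρ' ρ hc hE => lay_eq_sz H hq h1 hia hiG rfl hjG hj1 ρ' ρ hc hE)
    (fun ρ' ρ hc hE => lay_eq_c H hq h1 rfl hia hiG rfl hjG hj1 (by linarith) ρ' ρ hc hE)
  rw [hji] at key
  have hx1 : κ0 * (2 * z) ≤ 1 / t := by
    rw [le_div_iff₀ ht]
    have h3 : t * κ0 ≤ 1 := by rwa [le_div_iff₀ hκ] at e3
    have hz2 : 2 * z ≤ 1 := by linarith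
    nlinarith [mul_nonneg ht.le hκ.le]
  have hfin := lay_sep_close hs01.1 hs01.2 ht h10 (by linarith) hx1 key
  have he : κ0 * (2 * z) / 2 = κ0 * z := by ring
  rw [he] at hfin
  exact hfin

/-- **S2, pure linear.** -/
theorem lay_sep_lin (π : SfPar) (hπ : π.Valid) (h2 : π.c2 = 0) (h1 : 0 < π.c1) (hq : π.q = π.c1 + π.J) (C0 : ℝ) :
    LaySepL π C0 := by
  have hγ : 0 < 2 / π.c1 := by positivity
  refine ⟨π.c1 / 8, {0, 2 / π.c1}, by positivity, ?_, ?_⟩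
  · intro c hc
    simp only [Finset.mem_insert, Finset.mem_singleton] at hc
    rcases hc with rfl | rfl
    · exact le_rfl
    · exact hγ.le
  intro κ0 hκ
  refine ⟨κ0 / π.c1, by positivity, ?_⟩
  intro z0 hz0
  have hC : 0 < 2 * |C0| + π.c1 + 4 := by positivity
  refine ⟨min (min (z0 / 16) (κ0 * (2 / π.c1 * z0) / 36)) (min (1 / κ0) (1 / (2 * |C0| + π.c1 + 4))), ?_, ?_⟩
  · refine lt_min (lt_min ?_ ?_) (lt_min ?_ ?_) <;> positivity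
  intro t ht htt0
  have e1 : t ≤ z0 / 16 := htt0.trans ((min_le_left _ _).trans (min_le_left _ _))
  have e2 : t ≤ κ0 * (2 / π.c1 * z0) / 36 := htt0.trans ((min_le_left _ _).trans (min_le_right _ _))
  have e3 : t ≤ 1 / κ0 := htt0.trans ((min_le_right _ _).trans (min_le_left _ _))
  have e4 : t ≤ 1 / (2 * |C0| + π.c1 + 4) := htt0.trans ((min_le_right _ _).trans (min_le_right _ _))
  obtain ⟨s0, hs0, hs⟩ := lay_s0 t ht
  refine ⟨s0, hs0, ?_⟩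
  intro D hDs hD a z hz haG hcs ζ Z E hRow v
  have hs01 := hD.core.hs
  have h10 := hs D.s hs01.1 hDs
  have hz' : 0 < z := lt_of_lt_of_le hz0 hz
  obtain ⟨hiG, -⟩ := hcs 0 (by simp)
  obtain ⟨hjG, hj1⟩ := hcs (2 / π.c1) (by simp)
  have hRi := hRow 0 (by simp)
  have ha0 : 0 ≤ a := (hD.core.gate.2 a haG).1
  have H : LayLinSit π C0 (π.c1 / 8) κ0 t D a z := ⟨hπ, hD, ht, e4, h10, haG, hz', h2, h1, hq⟩
  have hia : a + 0 * z = a := by ring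
  have hγz : 0 < 2 / π.c1 * z := mul_pos hγ hz'
  have hij : a + 0 * z < a + 2 / π.c1 * z := by linarith
  have hji : (a + 2 / π.c1 * z) - (a + 0 * z) = 2 / π.c1 * z := by ring
  have f4 : κ0 * (2 / π.c1 * z0) ≤ κ0 * (2 / π.c1 * z) :=
    mul_le_mul_of_nonneg_left (mul_le_mul_of_nonneg_left hz hγ.le) hκ.le
  have key := lay_extract_lin D π C0 (π.c1 / 8) κ0 t (a + 0 * z) (a + 2 / π.c1 * z) hD h2 hiG hjG hij hj1
    (by rw [hji]; linarith) (D.layEvL π a z Z E v) ℤ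
    (fun _ ρ => ⌊v (Z ρ) / layLinG D π a z⌋)
    (fun b => layShear 0 0 0 ((b : ℝ) * layLinG D π a z))
    (fun ρ0 => (lay_lin_a H hiG hjG hij hj1 hRi ρ0).trans (lay_rpow_anti hs01.1 hs01.2 (by rw [hji]; linarith)))
    (fun lam => (lay_lin_b H rfl hjG hj1 (by linarith) lam).trans (lay_rpow_anti hs01.1 hs01.2 (by rw [hji]; linarith)))
    (fun ρ' ρ hc hE => lay_lin_sz H rfl hjG hj1 ρ' ρ hc hE)
    (fun ρ' ρ hc hE => by
      obtain ⟨c1, c2⟩ := lay_lin_c H rfl hia rfl hjG hj1 (by linarith) ρ' ρ hc hE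
      exact ⟨c1.trans (lay_rpow_anti hs01.1 hs01.2 (by rw [hji]; linarith)), c2⟩)
  rw [hji] at key
  have hx1 : κ0 * (2 / π.c1 * z) ≤ 1 / t := by
    rw [le_div_iff₀ ht]
    have h3 : t * κ0 ≤ 1 := by rwa [le_div_iff₀ hκ] at e3
    have hz2 : 2 / π.c1 * z ≤ 1 := by linarith
    nlinarith [mul_nonneg ht.le hκ.le]
  have hfin := lay_sep_close hs01.1 hs01.2 ht h10 (by linarith) hx1 key
  have he : κ0 * (2 / π.c1 * z) / 2 = κ0 / π.c1 * z := by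
    field_simp
  rw [he] at hfin
  exact hfin

end Claimed.Agent.R256
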