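import Claimed.Agent.R256.Lay.Patch
import Claimed.Agent.R256.Lay.RiGen
import Claimed.Agent.R256.Lay.RaCross
import Claimed.Agent.R256.Lay.SepEq
import Claimed.Agent.R256.Act.SupDefs

/-!
# Row 256, unit LAY, block LN: THE INSTANCE LIN-ROOT (`ac_lin_root` of `Act/Sup.lean`)      (architect helper142; chief Lay helper189; prefix `lay_ln_`)

Paper: 04 Def. names:side (iii) COARSE PURE LINEAR side (hybrid), (iv) EXACT LINEAR side (classical);  Prop. names:separation, pure linear case (value avoidance).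
FORWARD coordinates `(a, v)`, `a = 1 - t`.   Region: `0 < a < 1`, `0 < v`, hybrid: `v < c1 (1 - a)` (`w(a,v) = b_1(a) + v < 0`).
`layLnRt ex A V B` = the root datum: query `⟨nmDsLin, plin, 0⟩`, side `⟨exact := ex, lin := true, A, V, 0⟩`.
 LN1 `lay_ln_ok_cl`   classical: every `(a, v)`, `0 < a < 1`, `0 ≤ v` is an admissible root of the exact linear side (any `Λ`)
 LN2 `lay_ln_ok_hy`   the coarse side anchored at `(A, V)`
 LN3 `lay_ln_pt`      around a point with `w < 0` there is a rectangle and an anchor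
 LN4 `lay_ln_crp`     the port `LayCrP` from `lay_ra_cross_lin` (helper27) = `lay_sep_lin` + `lay_sepLA` + `lay_value_fine`
 LN5 `lay_ln_main`    = `ac_lin_root` VERBATIM: recipe of `Lay/Patch.lean` (`lay_ae_cover`, `lay_root_patch`, `B = max B1 3`); `ν`: `nm_HP_HM`.
-/

set_option autoImplicit false

namespace Claimed.Agent.R256

open Claimed.Agent.R255 Claimed.Agent.R255.FLaw
open Filter Topology MeasureTheory
open Classical

noncomputable section

/-- the root datum of the pure linear template: exact linear side (`ex = true`), coarse side anchored at `(A, V)` (`ex = false`) -/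
def layLnRt (ex : Bool) (A V B : ℝ) : NmRt :=
  ⟨⟨nmDsLin, NmTp.plin, 0⟩, ⟨ex, true, A, V, 0⟩, 0, 0, 0, 0, B⟩

theorem lay_ln_eqns_cite : True := by
  have := @layLnRt.eq_1
  trivial

variable {π : SfPar} {C0 : ℝ} {κ : ℝ → ℝ}

/-- the query of the pure linear template belongs to the family -/
theorem lay_ln_fam (h0 : π.c2 = 0) (h1 : 0 < π.c1) : (⟨nmDsLin, NmTp.plin, 0⟩ : NmQ).Fam π :=
  ⟨le_rfl, fun h => (by cases h), Or.inr (Or.inl ⟨h0, h1, rfl, rfl⟩)⟩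

/-- LN1. classical, exact linear side -/
theorem lay_ln_ok_cl (h0 : π.c2 = 0) (h1 : 0 < π.c1) (h2 : π.q = π.c1 + π.J) (hc : π.hyb = false) (Λ B a v : ℝ)
    (ha0 : 0 < a) (ha1 : a < 1) (hv : 0 ≤ v) : NmRt.Ok { layLnRt true 0 0 B with a := a, v := v } π Λ where
  q := lay_ln_fam h0 h1
  g0 := rfl
  ha := ⟨ha0, ha1⟩
  hv := hv
  rate := by
    show 0 < π.q - π.J
    rw [h2]; linarith
  hyb := fun h => by rw [hc] at h; cases h
  brq := fun h => by cases h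
  brl := fun _ => Or.inl rfl
  anc := fun h => by cases h
  cq := fun h => by cases h
  eq := fun _ h => by cases h

/-- LN2. the coarse side anchored at `(A, V)` -/
theorem lay_ln_ok_hy (h0 : π.c2 = 0) (h1 : 0 < π.c1) (h2 : π.q = π.c1 + π.J) (Λ A V B a v : ℝ)
    (ha0 : 0 < a) (ha1 : a < 1) (hv : 0 ≤ v) (hw : v < π.c1 * (1 - a)) (hA0 : 0 ≤ A) (hA : A < a)
    (hanc : Λ * (1 + π.c1 + |π.q| + π.J) * (a - A) ≤ V - v) (hW : V < π.c1 * (1 - A)) :
    NmRt.Ok { layLnRt false A V B with a := a, v := v } π Λ where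
  q := lay_ln_fam h0 h1
  g0 := rfl
  ha := ⟨ha0, ha1⟩
  hv := hv
  rate := by
    show 0 < π.q - π.J
    rw [h2]; linarith
  hyb := fun _ => ⟨rfl, by
    show (π.q - π.J) * (a - 1) + v < 0
    rw [h2]; nlinarith⟩
  brq := fun h => by cases h
  brl := fun _ => Or.inl rfl
  anc := fun _ => ⟨hA0, hA, by
    show Λ * (1 + (π.q - π.J) + |π.q| + π.J) * (a - A) ≤ V - v
    have e : π.q - π.J = π.c1 := by rw [h2]; ring
    rw [e]; exact hanc, fun _ => by
    show (π.q - π.J) * (A - 1) + V < 0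
    rw [h2]; nlinarith⟩
  cq := fun _ h => by cases h
  eq := fun h => by cases h

/-- LN3 (real numbers only). around a point with `w < 0`: a rectangle and an anchor -/
theorem lay_ln_pt (c M a v : ℝ) (hc : 0 < c) (hM : 0 ≤ M) (ha0 : 0 < a) (ha1 : a < 1) (hv : 0 < v) (hw : v < c * (1 - a)) :
    ∃ A V a0 a1 v0 v1 : ℝ, a0 < a ∧ a < a1 ∧ v0 < v ∧ v < v1 ∧ 0 ≤ A ∧ A < a0 ∧ a1 < 1 ∧ 0 ≤ v0 ∧ v1 < c * (1 - a1) ∧
      M * (a1 - A) ≤ V - v1 ∧ V < c * (1 - A) := by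
  have hg0 : 0 < c * (1 - a) - v := by linarith
  have hD0 : 0 < 2 * (1 + c + 3 * M) := by positivity
  obtain ⟨ε, hε⟩ : ∃ ε : ℝ, ε = min (min (a / 2) ((1 - a) / 2)) (min v ((c * (1 - a) - v) / (2 * (1 + c + 3 * M)))) := ⟨_, rfl⟩
  have e0 : 0 < ε := by
    rw [hε]
    exact lt_min (lt_min (by linarith) (by linarith)) (lt_min hv (div_pos hg0 hD0))
  have e1 : ε ≤ a / 2 := by rw [hε]; exact (min_le_left _ _).trans (min_le_left _ _)
  have e2 : ε ≤ (1 - a) / 2 := by rw [hε]; exact (min_le_left _ _).trans (min_le_right _ _)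
  have e3 : ε ≤ v := by rw [hε]; exact (min_le_right _ _).trans (min_le_left _ _)
  have e4 : ε ≤ (c * (1 - a) - v) / (2 * (1 + c + 3 * M)) := by rw [hε]; exact (min_le_right _ _).trans (min_le_right _ _)
  have e5 : ε * (2 * (1 + c + 3 * M)) ≤ c * (1 - a) - v := (le_div_iff₀ hD0).1 e4
  have e7 : 0 < ε * c := by positivity
  have e8 : 0 ≤ ε * M := by positivity
  refine ⟨a - 2 * ε, v + ε + 3 * M * ε, a - ε, a + ε, v - ε, v + ε, by linarith, by linarith, by linarith, by linarith, by linarith,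
    by linarith, by linarith, by linarith, ?_, ?_, ?_⟩
  · nlinarith
  · apply le_of_eq
    ring
  · nlinarith

/-- LN4. **the port `LayCrP`** on every patch of the pure linear template below the endpoint -/
theorem lay_ln_crp (S : NmSeq π C0 κ) (hπ : π.Valid) (h0 : π.c2 = 0) (h1 : 0 < π.c1) (h2 : π.q = π.c1 + π.J) (hX : S.HasX)
    (hκ : ∀ τ : ℝ, 0 < τ → 0 < κ τ) : ∃ Λ : ℝ, ∀ (ex : Bool) (A V B a0 a1 v0 v1 : ℝ), (layLnRt ex A V B).Patch π Λ a0 a1 v0 v1 → 3 ≤ B → a1 < 1 →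
      LayCrP S (layLnRt ex A V B) a0 a1 v0 v1 := by
  obtain ⟨Λ, Cs, hCs, H⟩ := lay_ra_cross_lin hπ S hX hκ (lay_sepLA π hπ C0 (lay_sep_lin π hπ h0 h1 h2 C0))
  refine ⟨Λ, ?_⟩
  intro ex A V B a0 a1 v0 v1 hp hB ha1 pk acc hpk hacc
  have hχ : 0 < pk.χ := hpk.2.2.2.1
  have hden : 0 < Cs * pk.χ + 1 := by positivity
  refine ⟨⌈pk.χ⌉₊, fun Rm hRm => ⟨(1 - a1) / (Cs * pk.χ + 1), div_pos (by linarith) hden, ?_⟩⟩
  intro j hj x' _ hx'
  obtain ⟨⟨b1, b2⟩, ⟨b3, b4⟩⟩ := hx'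
  have hpos : (0 : ℝ) < (1 / 2) ^ j := by positivity
  have hok := lay_ok_irrel (hp.2.2 x'.1 x'.2 b1 b2 b3 b4) ((1 / 2) ^ j) Rm B
  refine H { layLnRt ex A V B with a := x'.1, v := x'.2, h := (1 / 2) ^ j, Rm := Rm } hok hB rfl rfl hpos pk acc hpk hacc ?_ ?_
  · show pk.χ ≤ (Rm : ℝ)
    exact (Nat.le_ceil _).trans (by exact_mod_cast hRm)
  · have h3 : (1 / 2 : ℝ) ^ j * (Cs * pk.χ + 1) < 1 - a1 := (lt_div_iff₀ hden).1 hj
    show x'.1 + Cs * (pk.χ * (1 / 2) ^ j) < 1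
    nlinarith

/-- LN5. **LIN-ROOT** = `ac_lin_root` of `Act/Sup.lean`, verbatim -/
theorem lay_ln_main (S : NmSeq π C0 κ) (hπ : π.Valid) (h0 : π.c2 = 0) (h1 : 0 < π.c1) (h2 : π.q = π.c1 + π.J) (hS : S.AcGood) (Lip : ℝ) :
    ∀ᵐ p : ℝ × ℝ, (acLinK S Lip).Reg p.1 p.2 → 0 < (acLinK S Lip).mL p.1 p.2 →
      AcRoot (acHL S) false false true π.c1 π.d ((acLinK S Lip).mL p.1 p.2)
        (fun x => ¬ (acLinK S Lip).hyb → (acLinK S Lip).c < 1 → x = (acLinK S Lip).ν p.1) p := by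
  obtain ⟨Λ1, B1, hB1, HP⟩ := lay_root_patch hπ S hS.hasX {1} hS.flat
  obtain ⟨Λ2, HC⟩ := lay_ln_crp S hπ h0 h1 h2 hS.hasX hS.kpos
  obtain ⟨Λ, hΛ⟩ : ∃ Λ : ℝ, Λ = max (max Λ1 Λ2) 0 := ⟨_, rfl⟩
  have hΛ0 : 0 ≤ Λ := by rw [hΛ]; exact le_max_right _ _
  have hΛ1 : Λ1 ≤ Λ := by rw [hΛ]; exact (le_max_left _ _).trans (le_max_left _ _)
  have hΛ2 : Λ2 ≤ Λ := by rw [hΛ]; exact (le_max_right _ _).trans (le_max_left _ _)
  -- one patch
  have step : ∀ (ex : Bool) (A V a0 a1 v0 v1 : ℝ), (layLnRt ex A V (max B1 3)).Patch π Λ a0 a1 v0 v1 → a1 < 1 →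
      (π.hyb = false → ex = true) →
      ∀ᵐ q : ℝ × ℝ, q ∈ {q : ℝ × ℝ | (1 - q.1, q.2) ∈ Set.Ioo a0 a1 ×ˢ Set.Ioo v0 v1} →
        AcRoot (acHL S) false false true π.c1 π.d ((acLinK S Lip).mL q.1 q.2)
          (fun x => ¬ (acLinK S Lip).hyb → (acLinK S Lip).c < 1 → x = (acLinK S Lip).ν q.1) q := by
    intro ex A V a0 a1 v0 v1 hpatch ha1 hex
    have hmain := HP (layLnRt ex A V (max B1 3)) a0 a1 v0 v1 (lay_patch_mono hπ hpatch hΛ1) (le_max_left _ _)
      (by simp [layLnRt, nmDsLin]) (by intro _ h; simp [layLnRt] at h) false true 1 one_pos (by intro h; cases h)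
      (fun _ => HC ex A V _ a0 a1 v0 v1 (lay_patch_mono hπ hpatch hΛ2) (le_max_right _ _) ha1)
    filter_upwards [hmain] with q hq hmem
    obtain ⟨d1, d2, d3⟩ := hq hmem
    refine ⟨d1, layPar S (layLnRt ex A V (max B1 3)) 1 (1 - q.1, q.2), d2, ?_, rfl, rfl, ?_, d3⟩
    · show π.q - π.J = π.c1
      rw [h2]; ring
    · intro hnh _
      have hcl : π.hyb = false := by
        cases h : π.hyb with
        | false => rfl
        | true => exact absurd h hnh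
      have hx := hex hcl
      subst hx
      show nmNu (S.HM (NmAt.Pc nmDsLin) [NmAt.y0]) π.b1 (1 - q.1) = nmNu (S.HP nmDsLin) π.b1 (1 - q.1)
      have e1 : S.HM (NmAt.Pc nmDsLin) [NmAt.y0] = S.HP nmDsLin := by
        funext x z
        exact (nm_HP_HM S nmDsLin x z).symm
      rw [e1]
  have key : ∀ᵐ p : ℝ × ℝ, p ∈ {p : ℝ × ℝ | (acLinK S Lip).Reg p.1 p.2} →
      AcRoot (acHL S) false false true π.c1 π.d ((acLinK S Lip).mL p.1 p.2)
        (fun x => ¬ (acLinK S Lip).hyb → (acLinK S Lip).c < 1 → x = (acLinK S Lip).ν p.1) p := by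
    refine lay_ae_cover _ _ ?_
    intro p hp
    obtain ⟨ht0, ht1, hv0, -, hh⟩ := hp
    cases hy : π.hyb with
    | false =>
      refine ⟨{q | (1 - q.1, q.2) ∈ Set.Ioo ((1 - p.1) / 2) (1 - p.1 / 2) ×ˢ Set.Ioo (p.2 / 2) (p.2 + 1)},
        lay_ri_nhds _ _ _ _ p ⟨⟨by linarith, by linarith⟩, ⟨by linarith, by linarith⟩⟩, ?_⟩
      refine step true 0 0 _ _ _ _ ⟨by linarith, by linarith, fun a v e1 e2 e3 _ => ?_⟩ (by linarith) (fun _ => rfl)
      exact lay_ln_ok_cl h0 h1 h2 hy Λ _ a v (by linarith) (by linarith) (by linarith)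
    | true =>
      have hw : p.2 < π.c1 * (1 - (1 - p.1)) := by
        have : p.2 < π.c1 * p.1 := hh hy
        linarith
      have hM : 0 ≤ Λ * (1 + π.c1 + |π.q| + π.J) := by
        have := abs_nonneg π.q
        have := hπ.J0
        positivity
      obtain ⟨A, V, a0, a1, v0, v1, c1, c2, c3, c4, c5, c6, c7, c8, c9, c10, c11⟩ :=
        lay_ln_pt π.c1 (Λ * (1 + π.c1 + |π.q| + π.J)) (1 - p.1) p.2 h1 hM (by linarith) (by linarith) hv0 hw
      refine ⟨{q | (1 - q.1, q.2) ∈ Set.Ioo a0 a1 ×ˢ Set.Ioo v0 v1}, lay_ri_nhds _ _ _ _ p ⟨⟨c1, c2⟩, ⟨c3, c4⟩⟩, ?_⟩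
      refine step false A V _ _ _ _ ⟨by linarith, by linarith, fun a v e1 e2 e3 e4 => ?_⟩ c7 (fun h => by rw [hy] at h; cases h)
      refine lay_ln_ok_hy h0 h1 h2 Λ A V _ a v (by linarith) (by linarith) (by linarith) ?_ c5 (by linarith) ?_ c11
      · have : π.c1 * (1 - a1) ≤ π.c1 * (1 - a) := mul_le_mul_of_nonneg_left (by linarith) h1.le
        linarith
      · have : Λ * (1 + π.c1 + |π.q| + π.J) * (a - A) ≤ Λ * (1 + π.c1 + |π.q| + π.J) * (a1 - A) :=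
          mul_le_mul_of_nonneg_left (by linarith) hM
        linarith
  filter_upwards [key] with p hp hL _
  exact hp hL

end

end Claimed.Agent.R256
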