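import Claimed.Agent.R256.Lay.Patch
import Claimed.Agent.R256.Lay.RiGen
import Claimed.Agent.R256.Act.SupDefs
import Claimed.Agent.R256.Nm.Sd.Mark
import Claimed.Agent.R256.Nm.Mrk.Tr

/-!
# Row 256, unit LAY, block RW: THE WEAK CROSSING and the instance EQ-ROOT-W (`ac_eq_root_weak` of `Act/Sup.lean`)      (architect helper274; chief Lay helper189; prefix `lay_rw_`)

## 1. Weak crossing (Prop. names:separation, clipped assertion; 04 l.752-768)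
EXITS `lay_rw_cross`, `lay_rw_crossP`: classical, exact linear side, `p_*(a) = b_1(a)` on `[a0,a1]`  ⟹  the ports `LayRiCr` (Lay/RiGen.lean, helper186), `LayCrP` (Lay/Patch.lean, helper189).   Generic in the display: serves `ac_eq_root_weak` AND `ac_str_root_one`.
NO new exit of Nm is needed.   Fix the root `r = (a, v, h, Rm)`, `x = b_1(a) + χ h`, `Y = (y_0, t_a)`, `Z` = the side, `V = [P]_x`.
 RW1 `lay_rw_prob`   (finite law)  `Z` listed by `Y` (`≤ N`), `V ∈ Lz (Z)`, `|Lz| ≤ M`  ⟹  `pr ≤ pr (sur (V|Y) ≤ log (N M) + t) + e^(-t)`      (`ltk_tail_on`)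
 RW2 `lay_rw_own`    (type A)  the exact linear side is listed by `(y_0, t_a)` with `s^(-acc)` values: `nm_side_pr` at `i = a` + ownership (`clPath`, `clUniq`, `base`, `grid`)
 RW3 `lay_rw_cells`  (one configuration)  `|r - w(Z)| < δ^χ`  ⟹  `[P]_x` lies in a list of `≤ 10` cells which is a function of `Z`  (`L_raw = P - 2 R_a X + 2 k_a B_{t_a}`, all corrections are read from `Z`)
 RW4 `lay_rw_pos`    `HP x a > 0` for `p_*(a) < x ≤ 1`
 RW5 `lay_rw_cross`  assembly: flat scores (`nm_mk_flat_ev`), `nm_mk_main`, `nm_A_uf`.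
## 2. The instance
 `lay_rw_patch` (closed rectangles right of the seam are patches), `lay_rw_main` = `lay_ae_cover` + `lay_root_patch` (Lay/Patch.lean, helper189) + `lay_rw_crossP`;  `lay_rw_root` = the contract VERBATIM.
-/

set_option autoImplicit false

namespace Claimed.Agent.R256

open Claimed.Agent.R255 Claimed.Agent.R255.FLaw
open Filter Topology MeasureTheory
open Classical

noncomputable section

/-! ## 1. the weak crossing -/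

/-- RW1. sparse lists through a side with small lists -/
theorem lay_rw_prob {Ω : Type} [Fintype Ω] {α β γ : Type} (P : FLaw Ω) (V : Ω → α) (Y : Ω → β) (Z : Ω → γ) {N M : ℝ} (hN : 0 < N) (hM : 0 < M)
    (hZ : P.NVal (fun _ => True) Z Y N) (Lz : γ → Finset α) (hL : ∀ z, ((Lz z).card : ℝ) ≤ M) (t : ℝ) :
    P.pr (fun ω => V ω ∈ Lz (Z ω)) ≤ P.pr (fun ω => P.surC V Y ω ≤ Real.log (N * M) + t) + Real.exp (-t) := by
  have hNV : P.NVal (fun ω => V ω ∈ Lz (Z ω)) V Y (N * M) := by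
    intro ω₀
    obtain ⟨S, hS, hmem⟩ := hZ ω₀
    refine ⟨S.biUnion Lz, ?_, fun ω hp hE hY => Finset.mem_biUnion.2 ⟨Z ω, hmem ω hp trivial hY, hE⟩⟩
    have h3 : ((S.biUnion Lz).card : ℝ) ≤ ∑ z ∈ S, ((Lz z).card : ℝ) := by
      have h4 : (S.biUnion Lz).card ≤ ∑ z ∈ S, (Lz z).card := Finset.card_biUnion_le
      exact_mod_cast h4
    have h6 : ∑ z ∈ S, ((Lz z).card : ℝ) ≤ (S.card : ℝ) * M := by
      have := Finset.sum_le_card_nsmul S (fun z => ((Lz z).card : ℝ)) M fun z _ => hL z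
      rwa [nsmul_eq_mul] at this
    exact h3.trans (h6.trans (mul_le_mul_of_nonneg_right hS hM.le))
  have ht := ltk_tail_on P _ V Y (mul_pos hN hM) hNV t
  have hsub : P.pr (fun ω => V ω ∈ Lz (Z ω)) ≤ P.pr (fun ω => P.surC V Y ω ≤ Real.log (N * M) + t ∨
      (V ω ∈ Lz (Z ω) ∧ Real.log (N * M) + t < P.surC V Y ω)) :=
    ent_pr_mono P fun ω _ h => by
      rcases le_or_gt (P.surC V Y ω) (Real.log (N * M) + t) with h' | h'
      · exact Or.inl h'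
      · exact Or.inr ⟨h, h'⟩
  have := ent_pr_or_le P (fun ω => P.surC V Y ω ≤ Real.log (N * M) + t) (fun ω => V ω ∈ Lz (Z ω) ∧ Real.log (N * M) + t < P.surC V Y ω)
  linarith

/-- ownership at one gate: classical rows of a gate `j < 1` are determined by the particle and the time; the time cell of depth `a` leaves few times -/
theorem lay_rw_own_gate {D : SfDoc} {π : SfPar} {C0 t : ℝ} (hD : D.Core π C0 t) (hc : π.hyb = false) {j : ℝ} (hj : j ∈ D.G) (hj1 : j < 1) (a : ℝ)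
    {β : Type} (B : D.Row 1 → β) (N : ℝ) (hN : 0 ≤ N) (hpr : D.RowPr j (fun ω => (D.P 1).p ω ≠ 0 ∧ True) B N) :
    (D.P 1).NVal (fun _ => True) B (pair D.y0 (D.tc a)) ((2 * (D.s ^ a + D.len j) / D.len j + 1) * N) := by
  intro ω₀
  have hl : 0 < D.len j := lt_of_lt_of_le (Real.rpow_pos_of_pos hD.hs.1 _) (hD.hlen.2 j hj).1
  have hsa : 0 < D.s ^ a := Real.rpow_pos_of_pos hD.hs.1 _
  obtain ⟨ST, hST, hmT⟩ := nm_mk_times hD hj (nmRep D.s a (D.T 1 ω₀)) (D.s ^ a + D.len j) (by positivity)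
  choose Sρ hSc hSm using hpr
  let 𝓡 : Finset (D.Row j) := Finset.univ.filter fun ρ => D.idx j ρ = D.idx 1 ω₀ ∧ |D.T j ρ - nmRep D.s a (D.T 1 ω₀)| ≤ D.s ^ a + D.len j
  have hR : (𝓡.card : ℝ) ≤ 2 * (D.s ^ a + D.len j) / D.len j + 1 := by
    refine le_trans ?_ hST
    have : 𝓡.card ≤ ST.card := by
      refine Finset.card_le_card_of_injOn (D.T j) ?_ ?_
      · intro ρ hρ
        exact Finset.mem_coe.2 (hmT ρ (Finset.mem_filter.1 (Finset.mem_coe.1 hρ)).2.2)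
      · intro ρ hρ ρ' hρ' hT
        have h1 := (Finset.mem_filter.1 (Finset.mem_coe.1 hρ)).2.1
        have h2 := (Finset.mem_filter.1 (Finset.mem_coe.1 hρ')).2.1
        exact hD.clUniq hc j hj hj1 ρ ρ' (h1.trans h2.symm) hT
    exact_mod_cast this
  refine ⟨𝓡.biUnion Sρ, ?_, fun ω hω _ hA => ?_⟩
  · have h1 : ((𝓡.biUnion Sρ).card : ℝ) ≤ ∑ ρ ∈ 𝓡, ((Sρ ρ).card : ℝ) := by exact_mod_cast Finset.card_biUnion_le
    have h2 : ∑ ρ ∈ 𝓡, ((Sρ ρ).card : ℝ) ≤ ∑ _ρ ∈ 𝓡, N := Finset.sum_le_sum fun ρ _ => hSc ρ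
    rw [Finset.sum_const, nsmul_eq_mul] at h2
    exact h1.trans (h2.trans (mul_le_mul_of_nonneg_right hR hN))
  · have hpos : 0 < (D.P 1).p ω := lt_of_le_of_ne ((D.P 1).nonneg ω) (Ne.symm hω)
    obtain ⟨ρ, hcn, -⟩ := hD.clPath hc j hj 1 hD.gate.1 hj1 ω hpos
    obtain ⟨b1, b2, b3, -⟩ := hD.base j hj 1 hD.gate.1 hj1 ρ ω hcn
    have hA1 : D.y0 ω = D.y0 ω₀ := congrArg Prod.fst hA
    have hA2 : D.tc a ω = D.tc a ω₀ := congrArg Prod.snd hA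
    have hidx : D.idx 1 ω = D.idx 1 ω₀ := congrArg Prod.fst hA1
    have hrep : nmRep D.s a (D.T 1 ω) = nmRep D.s a (D.T 1 ω₀) := by
      unfold nmRep
      have : nmCell D.s a (D.T 1 ω) = nmCell D.s a (D.T 1 ω₀) := hA2
      rw [this]
    have h3 := nm_rep_abs hD.hs.1 hD.hs.2 a (D.T 1 ω)
    rw [hrep] at h3
    have hs1 : D.len 1 = D.s := hD.hlen.1
    have hs0 := hD.hs.1
    obtain ⟨c1, c2⟩ := abs_le.1 h3
    refine Finset.mem_biUnion.2 ⟨ρ, Finset.mem_filter.2 ⟨Finset.mem_univ _, b3.trans hidx, ?_⟩, hSm ρ ω hcn ⟨hω, trivial⟩⟩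
    rw [abs_le]
    constructor <;> linarith

theorem lay_rw_De_le {π : SfPar} {q : NmQ} (h : q.Fam π) : q.ds.De ≤ 1 := by
  obtain ⟨-, -, h⟩ := h
  rcases h with ⟨-, -, h3, -⟩ | ⟨-, -, h3, -⟩ | ⟨-, -, -, De, -, h2, -, h3⟩
  · rw [h3]; exact le_refl _
  · rw [h3]; exact le_refl _
  · rw [h3]; exact h2

/-- LEAF RW2 (paper free: `Soft/Doc.lean` `Core`, `nm_side_pr`).   **Ownership**: classical, exact linear side: `(y_0, t_a)` lists the side.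
PLAN.  `Λ` of `nm_side_pr`;  given `acc`: `e0, t1` of `nm_side_pr` at `i = r.a`, accuracy `acc / 2`;  `t0 ≤ min {t1, acc / 16, (De - a) / 2, 1/4}` and so small that `5 ≤ t0 ^ (-(acc / 4))` (then `5 ≤ s^(-acc/4)`, `s ≤ t0`).
`j = D.gt r.a ∈ D.G`, `|j - a| ≤ t0` (`nm_gt_near`, `nm_gt_mem` / `nm_pc_gt_mem`), `j < 1`.   For `ω₀`: the rows `ρ` of `j` with `idx ρ = idx ω₀` and `|T_j ρ - c| ≤ R`, `c = nmRep s a (T_1 ω₀)`, `R = s^a + len j`, are `≤ 2 R / len j + 1 ≤ 5 s^(-2 t0)` (`nm_mk_times` of Nm/Mrk/Kit, `clUniq`).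
A charged `ω` with the same `(y_0, t_a)` has an ancestor among them (`clPath`, `base`; `nm_rep_abs`-type bounds for the cell of depth `a`), and its side lies in the list of this ancestor (`RowPr`, event `p ω ≠ 0 ∧ True`).   Union of the lists.      EST 200 -/
theorem lay_rw_own (π : SfPar) (hπ : π.Valid) (hc : π.hyb = false) (C0 τ κ0 : ℝ) : ∃ Λ : ℝ, ∀ r : NmRt, r.Ok π Λ → r.σ.exact = true → r.σ.lin = true →
    NmA π C0 τ κ0 fun acc D => (D.P 1).NVal (fun _ => True) (D.side π r.q r.σ r.a) (pair D.y0 (D.tc r.a)) (D.s ^ (-acc)) := by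
  obtain ⟨Λ, hΛ⟩ := nm_side_pr π hπ C0 τ κ0
  refine ⟨Λ, fun r hr he hl acc hacc => ?_⟩
  obtain ⟨e0, -, t1, ht1, H⟩ := hΛ r hr r.a le_rfl hr.ha.2 (acc / 2) (by positivity)
  have hDe : r.q.ds.De ≤ 1 := lay_rw_De_le hr.q
  have hgap : 0 < (r.q.ds.De - r.a) / 2 := by have := hr.ha.2; linarith
  have h5 : (0 : ℝ) < (5 : ℝ) ^ (-(4 / acc)) := Real.rpow_pos_of_pos (by norm_num) _
  refine ⟨min (min t1 (acc / 16)) (min ((r.q.ds.De - r.a) / 2) ((5 : ℝ) ^ (-(4 / acc)))), by positivity, fun D hF hX => ?_⟩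
  set t0 := min (min t1 (acc / 16)) (min ((r.q.ds.De - r.a) / 2) ((5 : ℝ) ^ (-(4 / acc)))) with ht0
  have a1 : t0 ≤ t1 := (min_le_left _ _).trans (min_le_left _ _)
  have a2 : t0 ≤ acc / 16 := (min_le_left _ _).trans (min_le_right _ _)
  have a3 : t0 ≤ (r.q.ds.De - r.a) / 2 := (min_le_right _ _).trans (min_le_left _ _)
  have a4 : t0 ≤ (5 : ℝ) ^ (-(4 / acc)) := (min_le_right _ _).trans (min_le_right _ _)
  have hs := hF.ok.core.hs
  have hpr := H D (nm_me_fine_mono hF a1) (nm_me_x_mono hs a1 hX) (fun _ => True) (fun _ h => by rw [hl] at h; cases h)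
  have hj : D.gt r.a ∈ D.G := nm_gt_mem D ⟨1, hF.ok.core.gate.1⟩ r.a
  have hnear := nm_gt_near hF hr.ha.1.le (hr.ha.2.le.trans hDe)
  obtain ⟨n1, n2⟩ := abs_le.1 hnear
  have hj1 : D.gt r.a < 1 := by linarith [hr.ha.2]
  have hN0 : 0 ≤ D.s ^ (-(acc / 2)) := (Real.rpow_pos_of_pos hs.1 _).le
  have key := lay_rw_own_gate hF.ok.core hc hj hj1 r.a (D.side π r.q r.σ r.a) _ hN0 hpr
  -- numerics
  have hl0 : 0 < D.len (D.gt r.a) := lt_of_lt_of_le (Real.rpow_pos_of_pos hs.1 _) (hF.ok.core.hlen.2 _ hj).1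
  have hanti : ∀ {x y : ℝ}, x ≤ y → D.s ^ y ≤ D.s ^ x := fun h => Real.rpow_le_rpow_of_exponent_ge hs.1 hs.2.le h
  have m1 : D.s ^ r.a / D.len (D.gt r.a) ≤ D.s ^ (-(acc / 8)) := by
    rw [div_le_iff₀ hl0]
    calc D.s ^ r.a ≤ D.s ^ (-(acc / 8) + (D.gt r.a + t0)) := hanti (by linarith)
      _ = D.s ^ (-(acc / 8)) * D.s ^ (D.gt r.a + t0) := Real.rpow_add hs.1 _ _
      _ ≤ _ := mul_le_mul_of_nonneg_left (hF.ok.core.hlen.2 _ hj).1 (Real.rpow_pos_of_pos hs.1 _).le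
  have m2 : (1 : ℝ) ≤ D.s ^ (-(acc / 8)) := by
    have := hanti (x := -(acc / 8)) (y := 0) (by linarith)
    rwa [Real.rpow_zero] at this
  have m3 : (5 : ℝ) ≤ D.s ^ (-(acc / 4)) := by
    have b1 : D.s ≤ (5 : ℝ) ^ (-(4 / acc)) := hF.sm.trans a4
    have b2 : ((5 : ℝ) ^ (-(4 / acc))) ^ (-(acc / 4)) ≤ D.s ^ (-(acc / 4)) :=
      Real.rpow_le_rpow_of_nonpos hs.1 b1 (by linarith)
    rw [← Real.rpow_mul (by norm_num)] at b2
    have e : -(4 / acc) * -(acc / 4) = 1 := by field_simp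
    rwa [e, Real.rpow_one] at b2
  have m4 : 2 * (D.s ^ r.a + D.len (D.gt r.a)) / D.len (D.gt r.a) + 1 ≤ D.s ^ (-(acc / 4)) * D.s ^ (-(acc / 8)) := by
    have e : 2 * (D.s ^ r.a + D.len (D.gt r.a)) / D.len (D.gt r.a) + 1 = 2 * (D.s ^ r.a / D.len (D.gt r.a)) + 3 := by
      field_simp
      ring
    rw [e]
    nlinarith
  have m5 : (2 * (D.s ^ r.a + D.len (D.gt r.a)) / D.len (D.gt r.a) + 1) * D.s ^ (-(acc / 2)) ≤ D.s ^ (-acc) := by
    calc _ ≤ D.s ^ (-(acc / 4)) * D.s ^ (-(acc / 8)) * D.s ^ (-(acc / 2)) := mul_le_mul_of_nonneg_right m4 hN0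
      _ = D.s ^ (-(acc / 4) + -(acc / 8) + -(acc / 2)) := by rw [Real.rpow_add hs.1, Real.rpow_add hs.1]
      _ ≤ _ := hanti (by linarith)
  intro ω₀
  obtain ⟨S, hS, hm⟩ := key ω₀
  exact ⟨S, hS.trans m5, hm⟩

/-- the ray read from a value of an exact side -/
def layRwRay {I : Type} (z : NmZv I) : SfRay :=
  match z.1.1 with
  | some x => x.2
  | none => ⟨0, 0, 0, 0, 0⟩

/-- the correction `2 R_a X - 2 k_a B_{t_a}` read from a value of an exact side -/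
def layRwCor (s : ℝ) (q : NmQ) (a : ℝ) {I : Type} (z : NmZv I) : ℝ :=
  2 * nmVal s (q.ds.b a) z.2.2.1 * (layRwRay z).X - 2 * nmVal s (q.ds.b a - a) z.2.2.2.1 * (layRwRay z).Bt (nmVal s a z.2.1.2.2)

theorem lay_rw_cor_eqns_cite : True := by
  have := @layRwRay.eq_1
  have := @layRwCor.eq_1
  trivial

theorem lay_rw_cor (D : SfDoc) (π : SfPar) (q : NmQ) (σ : NmSd) (he : σ.exact = true) (a : ℝ) (ω : D.Row 1) :
    (D.raw π q.ds ω).Lraw D.s q a = (D.raw π q.ds ω).P - layRwCor D.s q a (D.side π q σ a ω) := by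
  have h1 : layRwRay (D.side π q σ a ω) = D.ray 1 ω := by
    unfold layRwRay SfDoc.side
    simp only [he, if_true]
    rfl
  unfold layRwCor
  rw [h1]
  show (D.raw π q.ds ω).P - 2 * (D.raw π q.ds ω).Ra D.s q a * (D.ray 1 ω).X
      + 2 * (D.raw π q.ds ω).ka D.s q a * ((D.ray 1 ω).B + (D.raw π q.ds ω).ta D.s a * (D.ray 1 ω).X) =
    (D.raw π q.ds ω).P - (2 * (D.raw π q.ds ω).Ra D.s q a * (D.ray 1 ω).X
      - 2 * (D.raw π q.ds ω).ka D.s q a * ((D.ray 1 ω).B + (D.raw π q.ds ω).ta D.s a * (D.ray 1 ω).X))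
  ring

/-- LEAF RW3 (paper free, one configuration; unfold `SfDoc.side`, `NmRaw.Lraw`, `SfDoc.raw`, `SfDoc.Pc`).   **The value of `r` reads the derivative bin.**
PLAN.  `δ = s^h`, `δ^Rm ≤ δ^χ`, `(s^h)^χ = s^(χ h)`:  `|L_raw - (Ra z + s^(b1 a) w z)| ≤ 2 s^x`, `x = b1 a + χ h`.   `L_raw = P - 2 R_a X + 2 k_a B_{t_a}` where `R_a = nmVal s (b a) z.2.2.1`, `k_a = nmVal s (b a - a) z.2.2.2.1`, `t_a = nmVal s a z.2.1.2.2`
(as in `nm_mk_frame`, Nm/Sd/Mark.lean), `X`, `B` = entries of the ray in `z.1.1 = some (idx, ray)` (`(D.raw ..).z.X = (D.ray 1 ω).X`, same for `B`; `SfRay.Bt` reads only `X, B`).   So `|P - c z| ≤ 2 s^x` with `c` a function of the side.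
`Lz z` = the integers within `5` of `nmCell s x (c z)`  (`nm_cell_close`, `nm_me_int_ball` of Nm/Mem/Uf.lean: `2 * 2 * s^0 + 1 = 5`, card `≤ 11`).      EST 180 -/
theorem lay_rw_cells (D : SfDoc) (π : SfPar) (hs : 0 < D.s ∧ D.s < 1) (r : NmRt) (he : r.σ.exact = true) (hl : r.σ.lin = true) (χ : ℝ) (hχ : 0 < χ) (hh : 0 < r.h)
    (hRm : χ ≤ r.Rm) (Ra : NmZv D.Idx → ℝ)
    (hmk : ∀ ω, (D.P 1).p ω ≠ 0 →
      |(D.smk π r ω).r - ((D.raw π r.q.ds ω).Lraw D.s r.q r.a - Ra (D.side π r.q r.σ r.a ω)) / D.s ^ (π.b1 r.a)| ≤ (D.s ^ r.h) ^ r.Rm)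
    (w : NmZv D.Idx → ℝ) :
    ∃ Lz : NmZv D.Idx → Finset ℤ, (∀ z, ((Lz z).card : ℝ) ≤ 11) ∧ ∀ ω, (D.P 1).p ω ≠ 0 →
      |(D.smk π r ω).r - w (D.side π r.q r.σ r.a ω)| < (D.s ^ r.h) ^ χ → D.Pc π r.q.ds (π.b1 r.a + χ * r.h) ω ∈ Lz (D.side π r.q r.σ r.a ω) := by
  have hb : ∀ z : NmZv D.Idx, ∃ S : Finset ℤ, (S.card : ℝ) ≤ 2 * 5 + 1 ∧ ∀ n : ℤ,
      |((n - nmCell D.s (π.b1 r.a + χ * r.h) (Ra z + D.s ^ (π.b1 r.a) * w z + layRwCor D.s r.q r.a z) : ℤ) : ℝ)| ≤ 5 → n ∈ S :=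
    fun z => nm_me_int_ball _ 5 (by norm_num)
  choose Lz hLc hLm using hb
  refine ⟨Lz, fun z => (hLc z).trans (by norm_num), fun ω hω hr => hLm _ _ ?_⟩
  set z := D.side π r.q r.σ r.a ω with hz
  have hδ0 : 0 < D.s ^ r.h := Real.rpow_pos_of_pos hs.1 _
  have hδ1 : D.s ^ r.h ≤ 1 := Real.rpow_le_one hs.1.le hs.2.le hh.le
  have h1 : (D.s ^ r.h) ^ r.Rm ≤ (D.s ^ r.h) ^ χ := Real.rpow_le_rpow_of_exponent_ge hδ0 hδ1 hRm
  have h2 : (D.s ^ r.h) ^ χ = D.s ^ (χ * r.h) := by rw [← Real.rpow_mul hs.1.le, mul_comm]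
  have hb1 : 0 < D.s ^ (π.b1 r.a) := Real.rpow_pos_of_pos hs.1 _
  have h3 := hmk ω hω
  rw [← hz] at h3
  have h4 : |((D.raw π r.q.ds ω).Lraw D.s r.q r.a - Ra z) / D.s ^ (π.b1 r.a) - w z| ≤ 2 * D.s ^ (χ * r.h) := by
    rw [← h2]
    have e : ((D.raw π r.q.ds ω).Lraw D.s r.q r.a - Ra z) / D.s ^ (π.b1 r.a) - w z
        = ((D.smk π r ω).r - w z) - ((D.smk π r ω).r - ((D.raw π r.q.ds ω).Lraw D.s r.q r.a - Ra z) / D.s ^ (π.b1 r.a)) := by ring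
    rw [e]
    refine (abs_sub _ _).trans ?_
    linarith
  have h5 : |(D.raw π r.q.ds ω).P - (Ra z + D.s ^ (π.b1 r.a) * w z + layRwCor D.s r.q r.a z)| ≤ 2 * D.s ^ (π.b1 r.a + χ * r.h) := by
    have e : (D.raw π r.q.ds ω).P - (Ra z + D.s ^ (π.b1 r.a) * w z + layRwCor D.s r.q r.a z)
        = D.s ^ (π.b1 r.a) * (((D.raw π r.q.ds ω).Lraw D.s r.q r.a - Ra z) / D.s ^ (π.b1 r.a) - w z) := by
      rw [lay_rw_cor D π r.q r.σ he r.a ω, ← hz]
      field_simp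
      ring
    rw [e, abs_mul, abs_of_pos hb1, Real.rpow_add hs.1]
    calc D.s ^ (π.b1 r.a) * _ ≤ D.s ^ (π.b1 r.a) * (2 * D.s ^ (χ * r.h)) := mul_le_mul_of_nonneg_left h4 hb1.le
      _ = _ := by ring
  have h6 := nm_cell_close hs.1 hs.2 (π.b1 r.a + χ * r.h) (π.b1 r.a + χ * r.h) h5
  rw [sub_self, neg_zero, Real.rpow_zero] at h6
  refine h6.trans (by norm_num)

variable {π : SfPar} {C0 : ℝ} {κ : ℝ → ℝ}

/-- RW4. strictly finer bins have a positive score -/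
theorem lay_rw_pos (S : NmSeq π C0 κ) (ds : NmDs) (a x : ℝ) (h1 : S.pst ds a < x) (h2 : x ≤ 1) : 0 < S.HP ds x a := by
  have hnn : 0 ≤ S.HP ds x a := nm_me_HC_nonneg S _ _ (nm_pc_ubdd S (nm_pc_bd_P S ds) x _)
  rcases hnn.lt_or_eq with h | h
  · exact h
  · exfalso
    have hmem : x ∈ {x : ℝ | x ≤ 1 ∧ S.HP ds x a = 0} := ⟨h2, h.symm⟩
    have hb : BddAbove {x : ℝ | x ≤ 1 ∧ S.HP ds x a = 0} := ⟨1, fun y hy => hy.1⟩
    have := le_csSup hb hmem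
    unfold NmSeq.pst at h1
    linarith

theorem lay_rw_De {q : NmQ} (hq : q.Fam π) : q.ds.De ≤ 1 := by
  obtain ⟨-, -, h⟩ := hq
  rcases h with ⟨-, -, h3, -⟩ | ⟨-, -, h3, -⟩ | ⟨-, -, -, De, -, h2, -, h3⟩
  · rw [h3]; exact le_refl _
  · rw [h3]; exact le_refl _
  · rw [h3]; exact h2

/-- the score of the bin in the vocabulary of lists of queries -/
theorem lay_rw_ats (D : SfDoc) (π : SfPar) (ds : NmDs) (x a : ℝ) (ω : D.Row 1) :
    (D.P 1).surC (D.ats π [NmAt.Pc ds x]) (D.ats π [NmAt.tc a, NmAt.y0]) ω = (D.P 1).surC (D.Pc π ds x) (pair D.y0 (D.tc a)) ω := by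
  refine ent_surC_congr _ _ _ _ _ ω (fun ω' _ => ?_) (fun ω' _ _ => ?_)
  · simp [SfDoc.ats, SfDoc.atq, FLaw.pair, and_comm]
  · simp [SfDoc.ats, SfDoc.atq]

/-- RW5. **WEAK CROSSING** -/
theorem lay_rw_cross (S : NmSeq π C0 κ) (hπ : π.Valid) (hX : S.HasX) (Ds : Set ℝ) (hF : S.Flat Ds) (hc : π.hyb = false) :
    ∃ Λ : ℝ, ∀ (r0 : NmRt) (a0 a1 v0 v1 : ℝ), r0.Patch π Λ a0 a1 v0 v1 → 3 ≤ r0.B → r0.q.ds.De ∈ Ds → r0.σ.exact = true → r0.σ.lin = true →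
      (∀ a, a0 ≤ a → a ≤ a1 → S.pst r0.q.ds a = π.b1 a) → LayRiCr S r0 a0 a1 v0 v1 := by
  obtain ⟨Λ, Hown⟩ := lay_rw_own π hπ hc C0 1 (κ 1)
  refine ⟨Λ, fun r0 a0 a1 v0 v1 hpat hB hDe hex hlin hpst χ acc hχ hacc => ?_⟩
  refine ⟨1 / χ, by positivity, fun h hh hh0 Rm hRm a v e1 e2 e3 e4 => ?_⟩
  have hok0 : NmRt.Ok { r0 with a := a, v := v } π Λ := hpat.2.2 a v e1 e2 e3 e4
  set r : NmRt := { r0 with a := a, v := v, h := h, Rm := Rm } with hr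
  have hok : r.Ok π Λ := lay_ok_irrel hok0 h Rm r0.B
  have hrate : 0 < π.q - π.J := by
    have h1 := hok0.rate
    unfold NmRt.c at h1
    rw [if_pos hlin] at h1
    exact h1
  have ha1 : a < 1 := lt_of_lt_of_le hok0.ha.2 (lay_rw_De hok0.q)
  have hb1 : π.b1 a ≤ 0 := by
    rw [SfPar.b1]
    exact mul_nonpos_of_nonneg_of_nonpos hrate.le (by linarith)
  have hχh : χ * h < 1 := by
    have := mul_lt_mul_of_pos_left hh0 hχ
    rwa [mul_one_div_cancel hχ.ne'] at this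
  set x : ℝ := π.b1 a + χ * h with hx
  have hH : 0 < S.HP r0.q.ds x a := by
    refine lay_rw_pos S _ _ _ ?_ (by linarith)
    rw [hpst a e1 e2]
    have : 0 < χ * h := mul_pos hχ hh
    linarith
  set H : ℝ := S.HP r0.q.ds x a with hHdef
  set ε : ℝ := min (acc / 2) (H / 4) with hε
  have hε0 : 0 < ε := lt_min (by positivity) (by positivity)
  have hflat := nm_mk_flat_ev S Ds hF [NmAt.Pc r0.q.ds x] [NmAt.tc a, NmAt.y0]
    (fun y hy => by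
      rw [List.mem_singleton] at hy
      subst hy
      exact ⟨fun h => (by cases h), hDe, Or.inl ⟨r0.q, hok0.q, rfl⟩⟩)
    (fun y hy => by
      simp only [List.mem_cons, List.mem_nil_iff, or_false] at hy
      rcases hy with rfl | rfl <;> trivial) ε hε0
  have hHC : S.HC (S.ats [NmAt.Pc r0.q.ds x]) (S.ats [NmAt.tc a, NmAt.y0]) = H := (nm_HP_HM S r0.q.ds x a).symm
  have hown := nm_A_uf S hX 1 one_pos _ (Hown r hok hex hlin) (H / 4) (by positivity)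
  have hmark := nm_A_uf S hX 1 one_pos _ (nm_mk_main π hπ C0 1 (κ 1) Λ r hok hB hh) 1 one_pos
  have hlg := nm_me_lgs_top S (Real.log (22 / acc) / (H / 4))
  filter_upwards [hflat, hown, hmark, hlg] with n n1 n2 n3 n4 w
  obtain ⟨hs0, hs1⟩ := nm_me_s S n
  have hl := nm_me_lgs_pos S n
  obtain ⟨ta, Ra, ka, -, -, hmk⟩ := n3
  obtain ⟨Lz, hLz, hmem⟩ := lay_rw_cells (S.D n) π ⟨hs0, hs1⟩ r hex hlin χ hχ hh (by show χ ≤ Rm; linarith) Ra
    (fun ω hω => ((hmk ω hω).2.2 hlin).2) w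
  set t : ℝ := H / 4 * (S.D n).lgs - Real.log 11 with ht
  have hp := lay_rw_prob ((S.D n).P 1) ((S.D n).Pc π r0.q.ds x) (pair (S.D n).y0 ((S.D n).tc a)) ((S.D n).side π r0.q r0.σ a)
    (Real.rpow_pos_of_pos hs0 (-(H / 4))) (by norm_num : (0 : ℝ) < 11) n2 Lz hLz t
  have e1 : Real.log ((S.D n).s ^ (-(H / 4)) * 11) + t = H / 2 * (S.D n).lgs := by
    rw [Real.log_mul (Real.rpow_pos_of_pos hs0 _).ne' (by norm_num), nm_me_log_rpow _ hs0, ht]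
    ring
  rw [e1] at hp
  have h1 : ((S.D n).P 1).pr (fun ω => |((S.D n).smk π r ω).r - w ((S.D n).side π r0.q r0.σ a ω)| < ((S.D n).s ^ h) ^ χ)
      ≤ ((S.D n).P 1).pr (fun ω => (S.D n).Pc π r0.q.ds x ω ∈ Lz ((S.D n).side π r0.q r0.σ a ω)) :=
    ent_pr_mono _ fun ω hω hE => hmem ω hω hE
  have h2 : ((S.D n).P 1).pr (fun ω => ((S.D n).P 1).surC ((S.D n).Pc π r0.q.ds x) (pair (S.D n).y0 ((S.D n).tc a)) ω ≤ H / 2 * (S.D n).lgs) ≤ ε := by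
    refine le_trans (ent_pr_mono _ fun ω _ hE => ?_) n1
    rw [lay_rw_ats, hHC]
    have hεH : ε ≤ H / 4 := min_le_right _ _
    have : ε * (S.D n).lgs ≤ H / 4 * (S.D n).lgs := mul_le_mul_of_nonneg_right hεH hl.le
    rw [lt_abs]
    right
    nlinarith
  have h3 : Real.exp (-t) ≤ acc / 2 := by
    have h5 : Real.log (22 / acc) ≤ H / 4 * (S.D n).lgs := by
      rw [div_le_iff₀ (by positivity)] at n4
      linarith
    have h6 : -t ≤ Real.log (acc / 2) := by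
      have : Real.log (acc / 2) = Real.log 11 - Real.log (22 / acc) := by
        rw [← Real.log_div (by norm_num) (by positivity)]
        congr 1
        field_simp
        norm_num
      rw [this, ht]
      linarith
    calc Real.exp (-t) ≤ Real.exp (Real.log (acc / 2)) := Real.exp_le_exp.2 h6
      _ = acc / 2 := Real.exp_log (by positivity)
  have h4 : ε ≤ acc / 2 := min_le_left _ _
  exact h1.trans (by linarith)

/-- the port of helper186 gives the port of `lay_root_patch` (Lay/Patch.lean) -/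
theorem lay_rw_ri_P (S : NmSeq π C0 κ) (r0 : NmRt) (a0 a1 v0 v1 : ℝ) (h : LayRiCr S r0 a0 a1 v0 v1) : LayCrP S r0 a0 a1 v0 v1 := by
  intro pk acc hpk hacc
  obtain ⟨h0, hh0, H⟩ := h pk.χ acc hpk.2.2.2.1 hacc
  refine ⟨⌈pk.χ + 1⌉₊, fun Rm hRm => ⟨h0, hh0, fun j hj x' _ hx' => ?_⟩⟩
  have hR : pk.χ + 1 ≤ (Rm : ℝ) := (Nat.le_ceil _).trans (by exact_mod_cast hRm)
  obtain ⟨⟨e1, e2⟩, e3, e4⟩ := hx'
  filter_upwards [H ((1 / 2) ^ j) (by positivity) hj Rm hR x'.1 x'.2 e1 e2 e3 e4] with n hn dsp w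
  exact hn w

/-- **WEAK CROSSING**, port of `lay_root_patch` -/
theorem lay_rw_crossP (S : NmSeq π C0 κ) (hπ : π.Valid) (hX : S.HasX) (Ds : Set ℝ) (hF : S.Flat Ds) (hc : π.hyb = false) :
    ∃ Λ : ℝ, ∀ (r0 : NmRt) (a0 a1 v0 v1 : ℝ), r0.Patch π Λ a0 a1 v0 v1 → 3 ≤ r0.B → r0.q.ds.De ∈ Ds → r0.σ.exact = true → r0.σ.lin = true →
      (∀ a, a0 ≤ a → a ≤ a1 → S.pst r0.q.ds a = π.b1 a) → LayCrP S r0 a0 a1 v0 v1 := by
  obtain ⟨Λ, H⟩ := lay_rw_cross S hπ hX Ds hF hc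
  exact ⟨Λ, fun r0 a0 a1 v0 v1 e1 e2 e3 e4 e5 e6 => lay_rw_ri_P S r0 a0 a1 v0 v1 (H r0 a0 a1 v0 v1 e1 e2 e3 e4 e5 e6)⟩

/-! ## 2. the instance EQ-ROOT-W -/

/-- the root of the clipped branch with the exact linear side -/
def layRwRt (π : SfPar) (B : ℝ) : NmRt := ⟨⟨nmDsEq π, NmTp.clip, 0⟩, ⟨true, true, 0, 0, 0⟩, 0, 0, 0, 0, B⟩

theorem lay_rw_eqns_cite : True := by
  have := @layRwRt.eq_1
  trivial

/-- every closed rectangle strictly right of the seam is a patch (any `Λ`: the side is exact) -/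
theorem lay_rw_patch (h1 : 0 < π.c2) (h2 : π.q = π.c2) (hc : π.hyb = false) (hC : 0 < π.c2 - π.J) (hJ : 0 ≤ π.J) (Λ B a0 a1 v0 v1 : ℝ)
    (ha : a0 < a1) (hv : v0 < v1) (h0 : 0 < a0) (h1' : a1 < 1) (hs : π.J * (1 - a0) < v0) : (layRwRt π B).Patch π Λ a0 a1 v0 v1 := by
  refine ⟨ha, hv, fun a v e1 e2 e3 e4 => ?_⟩
  have hJa : π.J * (1 - a) ≤ π.J * (1 - a0) := mul_le_mul_of_nonneg_left (by linarith) hJ
  have hJ0 : 0 ≤ π.J * (1 - a) := mul_nonneg hJ (by linarith)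
  refine
    { q := ⟨le_refl _, fun _ => ?_, Or.inl ⟨h1, h2, rfl, fun h => by cases h⟩⟩
      g0 := rfl
      ha := ⟨by show 0 < a; linarith, by show a < 1; linarith⟩
      hv := by show 0 ≤ v; linarith
      rate := ?_
      hyb := fun h => by rw [hc] at h; cases h
      brq := fun h => by cases h
      brl := fun _ => Or.inr ⟨rfl, rfl, ?_⟩
      anc := fun h => by cases h
      cq := fun h => by cases h
      eq := fun _ h => by cases h }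
  · rw [SfPar.Cr, h2]; exact hC
  · show 0 < π.q - π.J
    rw [h2]; exact hC
  · show π.b1 a < (nmDsEq π).b a + v
    rw [SfPar.b1, NmDs.b, h2]
    simp only [nmDsEq]
    nlinarith

/-- **EQ-ROOT-W** in the vocabulary of Nm -/
theorem lay_rw_main (S : NmSeq π C0 κ) (hπ : π.Valid) (h1 : 0 < π.c2) (h2 : π.q = π.c2) (hX : S.HasX) (hF : S.Flat {1}) (hc : π.hyb = false)
    (hC : 0 < π.c2 - π.J) (t0 t1 : ℝ) (ht0 : 0 < t0) (ht1 : t1 < 1)
    (hw : ∀ t, t0 < t → t < t1 → S.pst (nmDsEq π) (1 - t) = -((π.c2 - π.J) * t)) :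
    ∀ᵐ p : ℝ × ℝ, p ∈ {p : ℝ × ℝ | t0 < p.1 ∧ p.1 < t1 ∧ π.J * p.1 < p.2} →
      AcRoot (fun t v => S.H ⟨nmDsEq π, NmTp.clip, 0⟩ (1 - t) v) false false true (π.c2 - π.J) π.d (S.m ⟨nmDsEq π, NmTp.clip, 0⟩ (1 - p.1) p.2)
        (fun x => x = nmNu (S.HP (nmDsEq π)) π.b1 (1 - p.1)) p := by
  obtain ⟨Λ1, B1, -, HP⟩ := lay_root_patch hπ S hX {1} hF
  obtain ⟨Λ2, HC⟩ := lay_rw_crossP S hπ hX {1} hF hc
  refine lay_ae_cover _ _ fun p hp => ?_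
  obtain ⟨p1, p2, p3⟩ := hp
  -- the rectangle
  set ε : ℝ := min (min (p.1 - t0) (t1 - p.1)) ((p.2 - π.J * p.1) / (π.J + 1)) / 2 with hε
  have hJ := hπ.J0
  have hε0 : 0 < ε := by
    have : 0 < (p.2 - π.J * p.1) / (π.J + 1) := div_pos (by linarith) (by linarith)
    have : 0 < min (min (p.1 - t0) (t1 - p.1)) ((p.2 - π.J * p.1) / (π.J + 1)) := lt_min (lt_min (by linarith) (by linarith)) this
    positivity
  have hm : 2 * ε = min (min (p.1 - t0) (t1 - p.1)) ((p.2 - π.J * p.1) / (π.J + 1)) := by rw [hε]; ring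
  have hεa : 2 * ε ≤ p.1 - t0 := hm ▸ (min_le_left _ _).trans (min_le_left _ _)
  have hεb : 2 * ε ≤ t1 - p.1 := hm ▸ (min_le_left _ _).trans (min_le_right _ _)
  have hεc : 2 * ε * (π.J + 1) ≤ p.2 - π.J * p.1 := by
    have : 2 * ε ≤ (p.2 - π.J * p.1) / (π.J + 1) := hm ▸ min_le_right _ _
    rwa [le_div_iff₀ (by linarith)] at this
  set B : ℝ := max B1 3 with hB
  have hpat : ∀ Λ, (layRwRt π B).Patch π Λ (1 - p.1 - ε) (1 - p.1 + ε) (p.2 - ε) (p.2 + ε) := fun Λ =>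
    lay_rw_patch h1 h2 hc hC hJ Λ B _ _ _ _ (by linarith) (by linarith) (by linarith) (by linarith) (by nlinarith)
  have hcr : LayCrP S (layRwRt π B) (1 - p.1 - ε) (1 - p.1 + ε) (p.2 - ε) (p.2 + ε) := by
    refine HC _ _ _ _ _ (hpat Λ2) (le_max_right _ _) rfl rfl rfl fun a e1 e2 => ?_
    have := hw (1 - a) (by linarith) (by linarith)
    rw [sub_sub_cancel] at this
    show S.pst (nmDsEq π) a = π.b1 a
    rw [this, SfPar.b1, h2]
    ring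
  have hmain := HP _ _ _ _ _ (hpat Λ1) (le_max_left _ _) rfl (fun _ h => by cases h) false true 1 one_pos (fun h => by cases h) (fun _ => hcr)
  refine ⟨{q : ℝ × ℝ | (1 - q.1, q.2) ∈ Set.Ioo (1 - p.1 - ε) (1 - p.1 + ε) ×ˢ Set.Ioo (p.2 - ε) (p.2 + ε)},
    lay_ri_nhds _ _ _ _ p ⟨⟨by show 1 - p.1 - ε < 1 - p.1; linarith, by show 1 - p.1 < 1 - p.1 + ε; linarith⟩,
      ⟨by show p.2 - ε < p.2; linarith, by show p.2 < p.2 + ε; linarith⟩⟩, ?_⟩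
  filter_upwards [hmain] with y hy hyU
  obtain ⟨d1, d2, d3⟩ := hy hyU
  refine ⟨d1, layPar S (layRwRt π B) 1 (1 - y.1, y.2), d2, ?_, rfl, rfl, ?_, d3⟩
  · show π.q - π.J = π.c2 - π.J
    rw [h2]
  · show nmNu (S.HM (NmAt.Pc (nmDsEq π)) [NmAt.y0]) π.b1 (1 - y.1) = nmNu (S.HP (nmDsEq π)) π.b1 (1 - y.1)
    congr 1
    funext x z
    exact (nm_HP_HM S (nmDsEq π) x z).symm

/-- **EQ-ROOT-W** = `ac_eq_root_weak` of `Act/Sup.lean`, VERBATIM -/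
theorem lay_rw_root (S : NmSeq π C0 κ) (hπ : π.Valid) (h1 : 0 < π.c2) (h2 : π.q = π.c2) (hS : S.AcGood) (Lip : ℝ) :
    ¬ (acEqK S Lip).hyb → 0 < (acEqK S Lip).C1 → ∀ t0 t1, (acEqK S Lip).IsWeak t0 t1 → ∃ wd : ℝ, 0 < wd ∧
      ∀ᵐ p : ℝ × ℝ, (acEqK S Lip).RStrip t0 t1 wd p → 0 < (acEqK S Lip).mC p.1 p.2 →
        AcRoot (acHC S) false false true (acEqK S Lip).C1 π.d ((acEqK S Lip).mC p.1 p.2)
          (fun x => (acEqK S Lip).c ≤ 1 → (acEqK S Lip).C1 < 1 → x = (acEqK S Lip).ν p.1) p := by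
  intro hy hC t0 t1 hw
  have hc : π.hyb = false := by
    cases h : π.hyb
    · rfl
    · exact absurd h hy
  obtain ⟨w0, -, w2, w3⟩ := hw
  refine ⟨1, one_pos, ?_⟩
  filter_upwards [lay_rw_main S hπ h1 h2 hS.hasX hS.flat hc hC t0 t1 w0 w2 w3] with p hp hR _
  obtain ⟨r1, r2, r3, -⟩ := hR
  obtain ⟨d1, a, a1, a2, a3, a4, a5, hP⟩ := hp ⟨r1, r2, r3⟩
  refine ⟨d1, a, a1, a2, a3, a4, fun hc1 _ => ?_, hP⟩
  rw [a5]
  exact (if_pos hc1).symm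

end

end Claimed.Agent.R256
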