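import Claimed.Agent.R256.Lay.RiPatch
import Claimed.Agent.R256.Lay.RwMain
import Claimed.Agent.R256.Act.SupDefs

/-!
# Row 256, unit LAY, block RI: THE TWO STRICT INSTANCES  `ac_str_root_half`, `ac_str_root_one` of `Act/Sup.lean`      (architect + prover helper197; chief Lay helper189; prefix `asr_`)

No own `sorry`.   Both instances = `lay_ri_lindelof` + a PATCH (elementary inequalities) + the generic patch theorem (`asr_ri_patch` = `lay_ri_patch` of helper186 for ANY bound `B0 ≤ r0.B`).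
* HALF: query `⟨nmDsStr π 1, quad, 0⟩`, coarse quadratic side with the anchor `(A, V) = (a - 2e, v + e + 3Me)`, `M = (|Λ| + 1)(2 + |q| + J)`, rectangle of radius `e`; no separation.
* ONE : query `⟨nmDsStr π 1, clip, 0⟩`, exact linear side, classical; crossing from `lay_rw_cross` (helper274) since `p_* = b_1`; `m > 0` or `m = 0` (`lay_ri_weaken`).
EXITS `asr_half`, `asr_one` (vocabulary of Nm), cited by `Act/Sup.lean`.
-/

set_option autoImplicit false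

namespace Claimed.Agent.R256

open Claimed.Agent.R255 Claimed.Agent.R255.FLaw
open Filter Topology MeasureTheory
open Classical

noncomputable section

variable {π : SfPar} {C0 : ℝ} {κ : ℝ → ℝ}

/-- the generic patch theorem of helper186 (`lay_ri_patch`, same proof) for every bound `B0 ≤ r0.B` of the stored marks -/
theorem asr_ri_patch (S : NmSeq π C0 κ) (hπ : π.Valid) (hX : S.HasX) (Ds : Set ℝ) (hF : S.Flat Ds) :
    ∃ Λ B0 : ℝ, 1 ≤ B0 ∧ ∀ (r0 : NmRt) (a0 a1 v0 v1 : ℝ), r0.Patch π Λ a0 a1 v0 v1 → B0 ≤ r0.B → r0.q.ds.De ∈ Ds →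
      (r0.σ.exact = true → r0.σ.lin = false → ∀ a, a0 ≤ a → a ≤ a1 → r0.σ.xs < S.pst r0.q.ds a) →
      ∀ (av cr : Bool) (e0 : ℝ), 0 < e0 → (av = true → LayRiAv S r0 e0 a0 a1 v0 v1) → (cr = true → LayRiCr S r0 a0 a1 v0 v1) →
      ∀ᵐ p : ℝ × ℝ, (1 - p.1, p.2) ∈ Set.Ioo a0 a1 ×ˢ Set.Ioo v0 v1 →
        AcRoot (fun t v => S.H r0.q (1 - t) v) (!r0.σ.lin) av cr (r0.c π) π.d (S.m r0.q (1 - p.1) p.2)
          (fun x => x = nmNu (S.HM r0.Vq r0.Sd) (r0.Bg π) (1 - p.1)) p := by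
  obtain ⟨Λ, B0, hB0, H⟩ := lay_ri_patch S hπ hX Ds hF
  exact ⟨Λ, B0, by linarith, H⟩

/-- the predicate on `ν` may be forgotten -/
theorem asr_N {H : ℝ → ℝ → ℝ} {quad av cr : Bool} {c d m : ℝ} {N : ℝ → Prop} {p : ℝ × ℝ}
    (h : AcRoot H quad av cr c d m N p) : AcRoot H quad av cr c d m (fun _ => True) p := by
  obtain ⟨h1, a, a1, a2, a3, a4, -, hP⟩ := h
  exact ⟨h1, a, a1, a2, a3, a4, trivial, hP⟩

/-- the slope of a root is nonnegative -/
theorem asr_m_nonneg {H : ℝ → ℝ → ℝ} {quad av cr : Bool} {c d m : ℝ} {N : ℝ → Prop} {p : ℝ × ℝ}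
    (h : AcRoot H quad av cr c d m N p) : 0 ≤ m := by
  obtain ⟨-, a, a1, -, -, a4, -, -⟩ := h
  rw [← a4]
  exact a1.2.2.2.1

/-! ## HALF -/

/-- the root of the artificial quadratic template with the coarse quadratic side anchored at `(A, V)` -/
def asrHalfRt (π : SfPar) (A V B : ℝ) : NmRt := ⟨⟨nmDsStr π 1, NmTp.quad, 0⟩, ⟨false, false, A, V, 0⟩, 0, 0, 0, 0, B⟩

/-- the root of the clipped artificial template with the exact linear side -/
def asrOneRt (π : SfPar) (B : ℝ) : NmRt := ⟨⟨nmDsStr π 1, NmTp.clip, 0⟩, ⟨true, true, 0, 0, 0⟩, 0, 0, 0, 0, B⟩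

theorem asr_eqns_cite : True := by
  have := @asrHalfRt.eq_1
  have := @asrOneRt.eq_1
  trivial

/-- the display of the strict family ending at `1` -/
theorem asr_b (π : SfPar) (a : ℝ) : (nmDsStr π 1).b a = a - 1 := by
  simp only [NmDs.b, nmDsStr, SfPar.b2]
  ring

theorem asr_b1 (π : SfPar) (a : ℝ) : π.b1 a = -((π.q - π.J) * (1 - a)) := by
  rw [SfPar.b1]
  ring

theorem asr_fam (h1 : π.c2 = 1) (h2 : π.q < 1) (tp : NmTp) (htp : tp ≠ NmTp.plin) (hcl : tp = NmTp.clip → 0 < π.q - π.J) :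
    (⟨nmDsStr π 1, tp, 0⟩ : NmQ).Fam π :=
  ⟨le_refl _, hcl, Or.inr (Or.inr ⟨h1, h2, htp, 1, one_pos, le_refl _, fun _ => rfl, rfl⟩)⟩

/-- one admissible root of HALF -/
theorem asr_half_ok (h1 : π.c2 = 1) (h2 : π.q < 1) (hC : 0 < π.q - π.J) (Λ B A V a v : ℝ) (ha0 : 0 < a) (ha1 : a < 1) (hv : 0 ≤ v)
    (hb : v < (1 - (π.q - π.J)) * (1 - a)) (hw : 2 * v < 1 - a) (hA0 : 0 ≤ A) (hAa : A < a)
    (hΛ : Λ * (1 + 1 + |π.q| + π.J) * (a - A) ≤ V - v) (hbA : V < (1 - (π.q - π.J)) * (1 - A)) (hwA : 2 * V < 1 - A) :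
    NmRt.Ok { asrHalfRt π A V B with a := a, v := v } π Λ where
  q := asr_fam h1 h2 _ (fun h => by cases h) (fun h => by cases h)
  g0 := rfl
  ha := ⟨ha0, ha1⟩
  hv := hv
  rate := by
    show (0 : ℝ) < 1
    exact one_pos
  hyb := fun _ => ⟨rfl, by
    show (nmDsStr π 1).b a + 2 * v < 0
    rw [asr_b]
    linarith⟩
  brq := fun _ => ⟨fun h => (by cases h), rfl⟩
  brl := fun h => by cases h
  anc := fun _ => ⟨hA0, hAa, hΛ, fun _ => by
    show (nmDsStr π 1).b A + 2 * V < 0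
    rw [asr_b]
    linarith⟩
  cq := fun _ _ => by
    have e1 : π.b1 1 = 0 := by rw [asr_b1]; ring
    have hAl : A < 1 := hAa.trans ha1
    constructor
    · show (nmDsStr π 1).b a + v < min (π.b1 a) (π.b1 1)
      rw [asr_b, e1, asr_b1]
      refine lt_min (by linarith) ?_
      have : 0 < (π.q - π.J) * (1 - a) := mul_pos hC (by linarith)
      linarith
    · show (nmDsStr π 1).b A + V < min (π.b1 A) (π.b1 1)
      rw [asr_b, e1, asr_b1]
      refine lt_min (by linarith) ?_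
      have : 0 < (π.q - π.J) * (1 - A) := mul_pos hC (by linarith)
      linarith
  eq := fun h => by cases h

/-- **the patch of HALF** around an interior point of the region -/
theorem asr_half_patch (hπ : π.Valid) (h1 : π.c2 = 1) (h2 : π.q < 1) (hC : 0 < π.q - π.J) (Λ B a v : ℝ) (ha0 : 0 < a) (ha1 : a < 1) (hv : 0 < v)
    (hb : v < (1 - (π.q - π.J)) * (1 - a)) (hw : 2 * v < 1 - a) :
    ∃ A V e : ℝ, 0 < e ∧ (asrHalfRt π A V B).Patch π Λ (a - e) (a + e) (v - e) (v + e) := by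
  obtain ⟨c, hc⟩ : ∃ c : ℝ, c = π.q - π.J := ⟨_, rfl⟩
  rw [← hc] at hC hb
  have hJ := hπ.J0
  have hc1 : c < 1 := by rw [hc]; linarith
  obtain ⟨N, hN⟩ : ∃ N : ℝ, N = 1 + 1 + |π.q| + π.J := ⟨_, rfl⟩
  have hN0 : 0 ≤ N := by
    rw [hN]
    have := abs_nonneg π.q
    linarith
  obtain ⟨M, hM⟩ : ∃ M : ℝ, M = (|Λ| + 1) * N := ⟨_, rfl⟩
  have hM0 : 0 ≤ M := by
    rw [hM]
    have := abs_nonneg Λ
    positivity
  obtain ⟨g, hg0, hg1, hg2⟩ : ∃ g : ℝ, 0 < g ∧ g ≤ (1 - c) * (1 - a) - v ∧ g ≤ 1 - a - 2 * v :=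
    ⟨min ((1 - c) * (1 - a) - v) (1 - a - 2 * v), lt_min (by linarith) (by linarith), min_le_left _ _, min_le_right _ _⟩
  obtain ⟨e, he0, he1, he2, he3, he4⟩ : ∃ e : ℝ, 0 < e ∧ e ≤ a / 2 ∧ e ≤ (1 - a) / 2 ∧ e ≤ v ∧ (4 + 6 * M) * e ≤ g := by
    refine ⟨min (min (a / 2) ((1 - a) / 2)) (min v (g / (4 + 6 * M))), ?_, ?_, ?_, ?_, ?_⟩
    · refine lt_min (lt_min (by linarith) (by linarith)) (lt_min hv (by positivity))
    · exact (min_le_left _ _).trans (min_le_left _ _)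
    · exact (min_le_left _ _).trans (min_le_right _ _)
    · exact (min_le_right _ _).trans (min_le_left _ _)
    · have h3 : min (min (a / 2) ((1 - a) / 2)) (min v (g / (4 + 6 * M))) ≤ g / (4 + 6 * M) := (min_le_right _ _).trans (min_le_right _ _)
      rw [le_div_iff₀ (by positivity)] at h3
      linarith
  have hMe : 0 ≤ M * e := mul_nonneg hM0 he0.le
  have hce : 0 ≤ (1 - c) * e := mul_nonneg (by linarith) he0.le
  have hce2 : (1 - c) * e ≤ e := by nlinarith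
  refine ⟨a - 2 * e, v + e + 3 * (M * e), e, he0, by linarith, by linarith, ?_⟩
  intro a' v' e1 e2 e3 e4
  have k1 : (1 - c) * (1 - a') ≥ (1 - c) * (1 - a) - (1 - c) * e := by nlinarith
  have k2 : (1 - c) * (1 - (a - 2 * e)) = (1 - c) * (1 - a) + 2 * ((1 - c) * e) := by ring
  refine asr_half_ok h1 h2 (by rw [← hc]; exact hC) Λ B _ _ a' v' (by linarith) (by linarith) (by linarith) ?_ (by linarith) (by linarith) (by linarith) ?_ ?_ (by linarith)
  · rw [← hc]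
    linarith
  · rw [← hN]
    have k3 : 0 ≤ a' - (a - 2 * e) := by linarith
    have k4 : a' - (a - 2 * e) ≤ 3 * e := by linarith
    have k5 : Λ * N ≤ M := by
      rw [hM]
      have := le_abs_self Λ
      nlinarith
    calc Λ * N * (a' - (a - 2 * e)) ≤ M * (a' - (a - 2 * e)) := mul_le_mul_of_nonneg_right k5 k3
      _ ≤ M * (3 * e) := mul_le_mul_of_nonneg_left k4 hM0
      _ ≤ v + e + 3 * (M * e) - v' := by linarith
  · rw [← hc, k2]
    linarith

/-- **STR-ROOT-H** in the vocabulary of Nm (cited by `ac_str_root_half`, Act/Sup.lean) -/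
theorem asr_half (S : NmSeq π C0 κ) (hπ : π.Valid) (h1 : π.c2 = 1) (h2 : π.q < 1) (hX : S.HasX) (hF : S.Flat {1}) (hC : 0 < π.q - π.J) :
    ∀ᵐ p : ℝ × ℝ, p ∈ {p : ℝ × ℝ | 0 < p.1 ∧ p.1 < 1 ∧ 0 < p.2 ∧ p.2 < (1 - (π.q - π.J)) * p.1 ∧ 2 * p.2 < p.1} →
      ∃ m : ℝ, AcRoot (fun t v => S.H ⟨nmDsStr π 1, NmTp.quad, 0⟩ (1 - t) v) true false false 1 π.d m (fun _ => True) p := by
  obtain ⟨Λ, B0, -, hP⟩ := asr_ri_patch S hπ hX {1} hF
  refine lay_ri_lindelof _ _ ?_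
  rintro p ⟨p1, p2, p3, p4, p5⟩
  obtain ⟨A, V, e, he, hpatch⟩ := asr_half_patch hπ h1 h2 hC Λ B0 (1 - p.1) p.2 (by linarith) (by linarith) p3
    (by rw [sub_sub_cancel]; exact p4) (by rw [sub_sub_cancel]; exact p5)
  refine ⟨_, lay_ri_nhds (1 - p.1 - e) (1 - p.1 + e) (p.2 - e) (p.2 + e) p ⟨⟨by simp [he], by simp [he]⟩, ⟨by simp [he], by simp [he]⟩⟩, ?_⟩
  have key := hP (asrHalfRt π A V B0) _ _ _ _ hpatch le_rfl rfl (fun h => by cases h) false false 1 one_pos (fun h => by cases h) (fun h => by cases h)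
  filter_upwards [key] with y hy hyU
  exact ⟨_, asr_N (hy hyU)⟩

/-! ## ONE -/

/-- one admissible root of ONE -/
theorem asr_one_ok (h1 : π.c2 = 1) (h2 : π.q < 1) (hc : π.hyb = false) (hC : 0 < π.q - π.J) (Λ B a v : ℝ) (ha0 : 0 < a) (ha1 : a < 1) (hv : 0 ≤ v)
    (hb : (1 - (π.q - π.J)) * (1 - a) < v) : NmRt.Ok { asrOneRt π B with a := a, v := v } π Λ where
  q := asr_fam h1 h2 _ (fun h => by cases h) (fun _ => hC)
  g0 := rfl
  ha := ⟨ha0, ha1⟩
  hv := hv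
  rate := hC
  hyb := fun h => by rw [hc] at h; cases h
  brq := fun h => by cases h
  brl := fun _ => Or.inr ⟨rfl, rfl, by
    show π.b1 a < (nmDsStr π 1).b a + v
    rw [asr_b, asr_b1]
    linarith⟩
  anc := fun h => by cases h
  cq := fun h => by cases h
  eq := fun _ h => by cases h

/-- **the patch of ONE** around an interior point of the region -/
theorem asr_one_patch (hπ : π.Valid) (h1 : π.c2 = 1) (h2 : π.q < 1) (hc : π.hyb = false) (hC : 0 < π.q - π.J) (Λ B a v : ℝ) (ha0 : 0 < a) (ha1 : a < 1)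
    (hb : (1 - (π.q - π.J)) * (1 - a) < v) :
    ∃ e : ℝ, 0 < e ∧ 0 < a - e ∧ a + e < 1 ∧ (asrOneRt π B).Patch π Λ (a - e) (a + e) (v - e) (v + e) := by
  obtain ⟨c, hcd⟩ : ∃ c : ℝ, c = π.q - π.J := ⟨_, rfl⟩
  rw [← hcd] at hb
  have hJ := hπ.J0
  have hc1 : c < 1 := by rw [hcd]; linarith
  have hc0 : 0 < c := by rw [hcd]; exact hC
  obtain ⟨e, he0, he1, he2, he3⟩ : ∃ e : ℝ, 0 < e ∧ e ≤ a / 2 ∧ e ≤ (1 - a) / 2 ∧ 3 * e ≤ v - (1 - c) * (1 - a) := by
    refine ⟨min (min (a / 2) ((1 - a) / 2)) ((v - (1 - c) * (1 - a)) / 3), ?_, ?_, ?_, ?_⟩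
    · exact lt_min (lt_min (by linarith) (by linarith)) (by linarith)
    · exact (min_le_left _ _).trans (min_le_left _ _)
    · exact (min_le_left _ _).trans (min_le_right _ _)
    · have := min_le_right (min (a / 2) ((1 - a) / 2)) ((v - (1 - c) * (1 - a)) / 3)
      linarith
  have hce : (1 - c) * e ≤ e := by nlinarith
  have hpos : 0 ≤ (1 - c) * (1 - a) := mul_nonneg (by linarith) (by linarith)
  refine ⟨e, he0, by linarith, by linarith, by linarith, by linarith, ?_⟩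
  intro a' v' e1 e2 e3 e4
  have k1 : (1 - c) * (1 - a') ≤ (1 - c) * (1 - a) + (1 - c) * e := by nlinarith
  refine asr_one_ok h1 h2 hc hC Λ B a' v' (by linarith) (by linarith) (by linarith) ?_
  rw [← hcd]
  linarith

/-- **STR-ROOT-O** in the vocabulary of Nm (cited by `ac_str_root_one`, Act/Sup.lean) -/
theorem asr_one (S : NmSeq π C0 κ) (hπ : π.Valid) (h1 : π.c2 = 1) (h2 : π.q < 1) (hX : S.HasX) (hF : S.Flat {1}) (hc : π.hyb = false) (hC : 0 < π.q - π.J)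
    (hw : ∀ t, 0 < t → t < 1 → S.pst (nmDsStr π 1) (1 - t) = -((π.q - π.J) * t)) :
    ∀ᵐ p : ℝ × ℝ, p ∈ {p : ℝ × ℝ | 0 < p.1 ∧ p.1 < 1 ∧ (1 - (π.q - π.J)) * p.1 < p.2} →
      (∃ m : ℝ, 0 < m ∧ AcRoot (fun t v => S.H ⟨nmDsStr π 1, NmTp.clip, 0⟩ (1 - t) v) false false true (π.q - π.J) π.d m (fun _ => True) p) ∨
        AcRoot (fun t v => S.H ⟨nmDsStr π 1, NmTp.clip, 0⟩ (1 - t) v) false false false (π.q - π.J) π.d 0 (fun _ => True) p := by
  obtain ⟨Λ1, B0, -, hP⟩ := asr_ri_patch S hπ hX {1} hF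
  obtain ⟨Λ2, hCr⟩ := lay_rw_cross S hπ hX {1} hF hc
  refine lay_ri_lindelof _ _ ?_
  rintro p ⟨p1, p2, p3⟩
  obtain ⟨e, he, hlo, hhi, hpatch⟩ := asr_one_patch hπ h1 h2 hc hC (max Λ1 Λ2) (max B0 3) (1 - p.1) p.2 (by linarith) (by linarith)
    (by rw [sub_sub_cancel]; exact p3)
  refine ⟨_, lay_ri_nhds (1 - p.1 - e) (1 - p.1 + e) (p.2 - e) (p.2 + e) p ⟨⟨by simp [he], by simp [he]⟩, ⟨by simp [he], by simp [he]⟩⟩, ?_⟩
  have hcross : LayRiCr S (asrOneRt π (max B0 3)) (1 - p.1 - e) (1 - p.1 + e) (p.2 - e) (p.2 + e) :=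
    hCr _ _ _ _ _ (lay_ri_patch_mono hπ hpatch (le_max_right _ _)) (le_max_right _ _) rfl rfl rfl (fun a ha0 ha1 => by
      have := hw (1 - a) (by linarith) (by linarith)
      rw [sub_sub_cancel] at this
      show S.pst (nmDsStr π 1) a = π.b1 a
      rw [this, asr_b1])
  have key := hP (asrOneRt π (max B0 3)) _ _ _ _ (lay_ri_patch_mono hπ hpatch (le_max_left _ _)) (le_max_left _ _) rfl (fun _ h => by cases h) false true 1 one_pos
    (fun h => by cases h) (fun _ => hcross)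
  filter_upwards [key] with y hy hyU
  have hr : AcRoot (fun t v => S.H ⟨nmDsStr π 1, NmTp.clip, 0⟩ (1 - t) v) false false true (π.q - π.J) π.d
      (S.m ⟨nmDsStr π 1, NmTp.clip, 0⟩ (1 - y.1) y.2) (fun _ => True) y := asr_N (hy hyU)
  rcases (asr_m_nonneg hr).lt_or_eq with hm | hm
  · exact Or.inl ⟨_, hm, hr⟩
  · right
    rw [← hm] at hr
    exact lay_ri_weaken hr false false (fun h => h) (fun h => by cases h)

end

end Claimed.Agent.R256
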