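import Claimed.Agent.R256.Lay.RlAv

/-!
# Row 256, unit LAY, block RL, file 3: THE INSTANCE EQ-ROOT-LEFT      (architect helper165; prefix `lay_rl_`)

`lay_rl_main` = `ac_eq_root_left` of `Act/Sup.lean` VERBATIM  (`Act/Sup.lean` imports this file and cites).
PROOF = recipe of `Lay/Patch.lean` (helper189):  `lay_ae_cover` + `lay_rl_pt_exists` (a left patch around every left point) + `lay_rl_pt_patch` + `lay_root_patch` (`B = max B1 3`, `Λ = max`) + the port `lay_rl_av`.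
-/

set_option autoImplicit false

namespace Claimed.Agent.R256

open Claimed.Agent.R255 Claimed.Agent.R255.FLaw
open Filter Topology MeasureTheory
open Classical

noncomputable section

variable {π : SfPar} {C0 : ℝ} {κ : ℝ → ℝ}

/-- **EQ-ROOT-LEFT** -/
theorem lay_rl_main (S : NmSeq π C0 κ) (hπ : π.Valid) (h1 : 0 < π.c2) (h2 : π.q = π.c2) (hS : S.AcGood) (Lip : ℝ) :
    ∀ᵐ p : ℝ × ℝ, (acEqK S Lip).Left p.1 p.2 → 0 < (acEqK S Lip).mQ p.1 p.2 →
      AcRoot (acHQ S) true true false π.c2 π.d ((acEqK S Lip).mQ p.1 p.2) (fun _ => True) p := by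
  obtain ⟨Λ1, B1, hB1, HP⟩ := lay_root_patch hπ S hS.hasX {1} hS.flat
  obtain ⟨Λ2, e0, hΛ2, he0, HA⟩ := lay_rl_av S hπ h1 h2 hS.hasX hS.kpos
  have hΛ : 0 ≤ max Λ1 Λ2 := le_max_of_le_right hΛ2
  have key : ∀ᵐ p : ℝ × ℝ, p ∈ {p : ℝ × ℝ | (acEqK S Lip).Left p.1 p.2} →
      AcRoot (acHQ S) true true false π.c2 π.d ((acEqK S Lip).mQ p.1 p.2) (fun _ => True) p := by
    refine lay_ae_cover _ _ ?_
    intro p hp
    obtain ⟨ht0, ht1, hv0, -, hJ, hc, hh⟩ := hp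
    have hJ' : p.2 < π.J * (1 - (1 - p.1)) := by
      have : p.2 < π.J * p.1 := hJ
      linarith
    have hc' : p.2 < π.c2 * (1 - (1 - p.1)) := by
      have : p.2 < π.c2 * p.1 := hc
      linarith
    have hh' : π.hyb = true → 2 * p.2 < π.c2 * (1 - (1 - p.1)) := by
      intro e
      have : 2 * p.2 < π.c2 * p.1 := hh e
      linarith
    obtain ⟨A, V, a0, a1, v0, v1, m0, H, e1, e2, e3, e4⟩ :=
      lay_rl_pt_exists π hπ h1 (max Λ1 Λ2) hΛ (1 - p.1) p.2 (by linarith) (by linarith) hv0 hJ' hc' hh'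
    refine ⟨{q | (1 - q.1, q.2) ∈ Set.Ioo a0 a1 ×ˢ Set.Ioo v0 v1}, lay_ri_nhds a0 a1 v0 v1 p ⟨⟨e1, e2⟩, ⟨e3, e4⟩⟩, ?_⟩
    have hpatch := lay_rl_pt_patch π hπ h1 h2 (max Λ1 Λ2) hΛ A V (max B1 3) a0 a1 v0 v1 m0 H
    have hmain := HP (layRlRt π A V (max B1 3)) a0 a1 v0 v1 (lay_patch_mono hπ hpatch (le_max_left _ _)) (le_max_left _ _)
      (by simp [layRlRt, nmDsEq]) (by intro h; simp [layRlRt] at h) true false e0 he0
      (fun _ => HA _ A V _ a0 a1 v0 v1 m0 (le_max_right _ _) (le_max_right _ _) H)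
      (by intro h; cases h)
    filter_upwards [hmain] with q hq hmem
    obtain ⟨d1, d2, d3⟩ := hq hmem
    refine ⟨d1, layPar S (layRlRt π A V (max B1 3)) e0 (1 - q.1, q.2), d2, ?_, rfl, rfl, trivial, d3⟩
    simp [layPar, layRlRt, NmRt.c, nmDsEq]
  filter_upwards [key] with p hp hL _
  exact hp hL

end

end Claimed.Agent.R256
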