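import Claimed.Agent.R255.Iso.Tele
import Claimed.Agent.R255.Iso.StarCopies
import Claimed.Agent.R255.Ent.Restr
import Claimed.Agent.R255.Ent.Prod

/-!
# Row 256, unit LAY (04B), file 2: information budgets on ONE finite law      (chief helper189)

Paper free: `R255/Base/Law` (`FLaw`, `ent`, `entC`, `miC`), lemmas `ent_*` (`R255/Ent`), `ie_*`, `iso_tele_I` (`R255/Iso`).  READ ONLY imports.
Finite form of Prop. names:replica-budgets, (vb) and the first line of (fib)  (04 l.899-1013; reports 873 T1-T2, 885 A1-A2).  No scale, no package, no limit.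
"`A` lists `B`" is used only through `entC B A ≤ l0`  (`l0 = log` of the list size; `ent_entC_le_log_nval`).

* `lay_tele`  (vb):  `C k` = root name at the width `v0 + k K h`, `F k` = fine phase in the frame of the root `k`, `W` = the stored marks:
    `∑_{k<n} I(F k ; W | C k) ≤ H(W | C 0) + 2 n l0`.      `I(F;W|C_k) ≤ I(C_{k+1};W|C_k) + H(F|C_k,C_{k+1})`,  `H(W|C_k,C_{k+1}) ≥ H(W|C_{k+1}) - H(C_k|C_{k+1})`.
* `lay_tele_dec`  (ng):  `C k` = name at the time depth `a0 + k G h`, `W` = fine angular cell.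
* `lay_fib`, `lay_mi_swap` : the chain rule behind (fib).   * `lay_star_entC`, `lay_star_miC_base` : transport between the replica law `P.star Z M` and `P`.
LEAVES: L-256-LAY-BU1 (`lay_tele`, `lay_tele_count`, `lay_tele_dec`, `lay_tele_dec_count`), BU2 (`lay_fib`, `lay_mi_swap`), BU3 (`lay_star_entC`, `lay_star_ent_base`, `lay_star_marks_le`).
-/

set_option autoImplicit false

namespace Claimed.Agent.R256

open Claimed.Agent.R255 Claimed.Agent.R255.FLaw
open Finset
open scoped BigOperators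
open Classical

variable {Ω : Type} [Fintype Ω]

/-- Shannon's inequality in kernel form: `U` is a function of `(A, B)`, `N` is a function of `A` and a function of `B` -/
theorem lay_sub (P : FLaw Ω) {α β γ δ : Type} (A : Ω → α) (B : Ω → β) (U : Ω → γ) (N : Ω → δ)
    (hU : ∀ ω ω', A ω = A ω' → B ω = B ω' → U ω = U ω') (hA : ∀ ω ω', A ω = A ω' → N ω = N ω')
    (hB : ∀ ω ω', B ω = B ω' → N ω = N ω') : P.ent U + P.ent N ≤ P.ent A + P.ent B := by
  have h1 := ent_submod P A B N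
  have h2 : P.ent (pair A N) = P.ent A := ent_pair_of_ker P A N fun ω ω' _ _ h => hA ω ω' h
  have h3 : P.ent (pair B N) = P.ent B := ent_pair_of_ker P B N fun ω ω' _ _ h => hB ω ω' h
  have h4 : P.ent U ≤ P.ent (pair (pair A B) N) := by
    refine ent_mono_ker P _ _ fun ω ω' _ _ h => ?_
    simp only [pair, Prod.mk.injEq] at h
    exact hU ω ω' h.1.1 h.1.2
  linarith

/-- one step of (vb) -/
theorem lay_tele_step (P : FLaw Ω) {α β γ : Type} (C C' : Ω → α) (F : Ω → β) (W : Ω → γ) (l0 : ℝ)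
    (h1 : P.entC C C' ≤ l0) (h2 : P.entC F (pair C C') ≤ l0) :
    P.miC F W C ≤ P.entC W C - P.entC W C' + 2 * l0 := by
  unfold FLaw.miC FLaw.entC at *
  have s1 := lay_sub P (pair (pair F W) C) (pair F (pair C C')) (pair W C') (pair F C)
    (by intro ω ω' a b; simp only [pair, Prod.mk.injEq] at *; tauto)
    (by intro ω ω' a; simp only [pair, Prod.mk.injEq] at *; tauto)
    (by intro ω ω' a; simp only [pair, Prod.mk.injEq] at *; tauto)
  linarith

/-- one step of (ng) -/
theorem lay_dec_step (P : FLaw Ω) {α γ : Type} (C C' : Ω → α) (W : Ω → γ) (l0 : ℝ) (h1 : P.entC C C' ≤ l0) :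
    -l0 ≤ P.entC W C - P.entC W C' := by
  unfold FLaw.entC at *
  have s1 := lay_sub P (pair W C) (pair C C') (pair W C') C
    (by intro ω ω' a b; simp only [pair, Prod.mk.injEq] at *; tauto)
    (by intro ω ω' a; simp only [pair, Prod.mk.injEq] at *; tauto)
    (by intro ω ω' a; simp only [pair, Prod.mk.injEq] at *; tauto)
  linarith

/-- LEAF BU1. **(vb), telescoped.** -/
theorem lay_tele (P : FLaw Ω) {α β γ : Type} (C : ℕ → Ω → α) (F : ℕ → Ω → β) (W : Ω → γ) (n : ℕ) (l0 : ℝ)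
    (h1 : ∀ k, k < n → P.entC (C k) (C (k + 1)) ≤ l0)
    (h2 : ∀ k, k < n → P.entC (F k) (pair (C k) (C (k + 1))) ≤ l0) :
    ∑ k ∈ range n, P.miC (F k) W (C k) ≤ P.entC W (C 0) + 2 * n * l0 := by
  have hs : ∀ k ∈ range n, P.miC (F k) W (C k) ≤ (P.entC W (C k) - P.entC W (C (k + 1))) + 2 * l0 := fun k hk =>
    lay_tele_step P (C k) (C (k + 1)) (F k) W l0 (h1 k (mem_range.1 hk)) (h2 k (mem_range.1 hk))
  refine (Finset.sum_le_sum hs).trans ?_
  rw [Finset.sum_add_distrib, Finset.sum_range_sub', Finset.sum_const, card_range, nsmul_eq_mul]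
  have := ent_entC_nonneg P W (C n)
  linarith

/-- LEAF BU1. number of bad roots -/
theorem lay_tele_count (P : FLaw Ω) {α β γ : Type} (C : ℕ → Ω → α) (F : ℕ → Ω → β) (W : Ω → γ) (n : ℕ)
    (l0 ε : ℝ) (hε : 0 < ε) (h1 : ∀ k, k < n → P.entC (C k) (C (k + 1)) ≤ l0)
    (h2 : ∀ k, k < n → P.entC (F k) (pair (C k) (C (k + 1))) ≤ l0) :
    (((range n).filter fun k => ε < P.miC (F k) W (C k)).card : ℝ) ≤ (P.entC W (C 0) + 2 * n * l0) / ε := by
  rw [le_div_iff₀ hε]
  have h3 := lay_tele P C F W n l0 h1 h2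
  refine le_trans ?_ h3
  calc (((range n).filter fun k => ε < P.miC (F k) W (C k)).card : ℝ) * ε
      = ∑ _k ∈ (range n).filter fun k => ε < P.miC (F k) W (C k), ε := by
        rw [Finset.sum_const, nsmul_eq_mul]
    _ ≤ ∑ k ∈ (range n).filter fun k => ε < P.miC (F k) W (C k), P.miC (F k) W (C k) :=
        Finset.sum_le_sum fun k hk => (Finset.mem_filter.1 hk).2.le
    _ ≤ ∑ k ∈ range n, P.miC (F k) W (C k) :=
        Finset.sum_le_sum_of_subset_of_nonneg (Finset.filter_subset _ _) fun k _ _ => ent_miC_nonneg P _ _ _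

/-- LEAF BU1. **(ng), telescoped**: the decrements of `H(W | C k)` are `≥ - l0` and sum to at most `H(W | C 0)` -/
theorem lay_tele_dec (P : FLaw Ω) {α γ : Type} (C : ℕ → Ω → α) (W : Ω → γ) (n : ℕ) (l0 : ℝ)
    (h1 : ∀ k, k < n → P.entC (C k) (C (k + 1)) ≤ l0) :
    (∀ k, k < n → -l0 ≤ P.entC W (C k) - P.entC W (C (k + 1))) ∧
      ∑ k ∈ range n, (P.entC W (C k) - P.entC W (C (k + 1))) ≤ P.entC W (C 0) := by
  refine ⟨fun k hk => lay_dec_step P (C k) (C (k + 1)) W l0 (h1 k hk), ?_⟩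
  rw [Finset.sum_range_sub']
  have := ent_entC_nonneg P W (C n)
  linarith

/-- LEAF BU1. -/
theorem lay_tele_dec_count (P : FLaw Ω) {α γ : Type} (C : ℕ → Ω → α) (W : Ω → γ) (n : ℕ) (l0 ε : ℝ)
    (hε : 0 < ε) (hl : 0 ≤ l0) (h1 : ∀ k, k < n → P.entC (C k) (C (k + 1)) ≤ l0) :
    (((range n).filter fun k => ε < P.entC W (C k) - P.entC W (C (k + 1))).card : ℝ)
      ≤ (P.entC W (C 0) + n * l0) / ε := by
  rw [le_div_iff₀ hε]
  obtain ⟨h3, h4⟩ := lay_tele_dec P C W n l0 h1
  have h5 : ∑ k ∈ range n, ((P.entC W (C k) - P.entC W (C (k + 1))) + l0) ≤ P.entC W (C 0) + n * l0 := by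
    rw [Finset.sum_add_distrib, Finset.sum_const, card_range, nsmul_eq_mul]
    linarith
  refine le_trans ?_ h5
  calc (((range n).filter fun k => ε < P.entC W (C k) - P.entC W (C (k + 1))).card : ℝ) * ε
      = ∑ _k ∈ (range n).filter fun k => ε < P.entC W (C k) - P.entC W (C (k + 1)), ε := by
        rw [Finset.sum_const, nsmul_eq_mul]
    _ ≤ ∑ k ∈ (range n).filter fun k => ε < P.entC W (C k) - P.entC W (C (k + 1)),
          ((P.entC W (C k) - P.entC W (C (k + 1))) + l0) :=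
        Finset.sum_le_sum fun k hk => by
          have := (Finset.mem_filter.1 hk).2
          linarith
    _ ≤ ∑ k ∈ range n, ((P.entC W (C k) - P.entC W (C (k + 1))) + l0) :=
        Finset.sum_le_sum_of_subset_of_nonneg (Finset.filter_subset _ _) fun k hk _ => by
          have := h3 k (mem_range.1 hk)
          linarith

/-- LEAF BU2. **(fib), chain rule.**  `X` angle (a function of the fine phase `F`), `Q` fibre read of the record `i`, `Xi` its mark, `Xo` the other marks, `C` root, `O` child name of the record `i`.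
`I(X;Q,Xi|C) ≤ I(X;O|C) + H(Q,Xi|O,C)`;  `I(X;Xo|C,Q,Xi) ≤ I(F,Q;Xo|C,Xi) ≤ I(F;Xi,Xo|C) + H(Q|F,Xi)`. -/
theorem lay_fib (P : FLaw Ω) {α β γ δ ε ζ η : Type} (X : Ω → α) (F : Ω → β) (Q : Ω → γ) (Xi : Ω → δ)
    (Xo : Ω → ε) (C : Ω → ζ) (O : Ω → η) (f : β → α) (hX : ∀ ω, X ω = f (F ω)) (l0 : ℝ)
    (ha : P.entC (pair Q Xi) (pair O C) ≤ l0) (hc : P.entC Q (pair F Xi) ≤ l0) :
    P.miC X (pair Q (pair Xi Xo)) C ≤ P.miC X O C + P.miC F (pair Xi Xo) C + 2 * l0 := by
  unfold FLaw.miC FLaw.entC at *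
  -- (i) XOC + QIC ≤ XQIC + QIOC
  have s1 := lay_sub P (pair X (pair Q (pair Xi C))) (pair (pair Q Xi) (pair O C)) (pair (pair X O) C) (pair Q (pair Xi C))
    (by intro ω ω' a b; simp only [pair, Prod.mk.injEq] at *; tauto)
    (by intro ω ω' a; simp only [pair, Prod.mk.injEq] at *; tauto)
    (by intro ω ω' a; simp only [pair, Prod.mk.injEq] at *; tauto)
  -- (ii) FUCQI + XQIC ≤ XQIUC + FCQI
  have s2 := lay_sub P (pair (pair X (pair Q (pair Xi Xo))) C) (pair F (pair C (pair Q Xi)))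
    (pair F (pair Xo (pair C (pair Q Xi)))) (pair X (pair Q (pair Xi C)))
    (by intro ω ω' a b; simp only [pair, Prod.mk.injEq] at *; tauto)
    (by intro ω ω' a; simp only [pair, Prod.mk.injEq] at *; tauto)
    (by
      intro ω ω' a
      simp only [pair, Prod.mk.injEq] at *
      refine ⟨by rw [hX, hX, a.1], ?_⟩
      tauto)
  -- (iii) FCQI + FI ≤ QFI + FCI
  have s3 := lay_sub P (pair Q (pair F Xi)) (pair F (pair C Xi)) (pair F (pair C (pair Q Xi))) (pair F Xi)
    (by intro ω ω' a b; simp only [pair, Prod.mk.injEq] at *; tauto)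
    (by intro ω ω' a; simp only [pair, Prod.mk.injEq] at *; tauto)
    (by intro ω ω' a; simp only [pair, Prod.mk.injEq] at *; tauto)
  -- (iv) FIUC ≤ FUCQI
  have s4 : P.ent (pair (pair F (pair Xi Xo)) C) ≤ P.ent (pair F (pair Xo (pair C (pair Q Xi)))) :=
    ent_mono_ker P _ _ (by intro ω ω' _ _ a; simp only [pair, Prod.mk.injEq] at *; tauto)
  -- (v) QIUC + CI ≤ IUC + QIC
  have s5 := lay_sub P (pair (pair Xi Xo) C) (pair Q (pair Xi C)) (pair (pair Q (pair Xi Xo)) C) (pair C Xi)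
    (by intro ω ω' a b; simp only [pair, Prod.mk.injEq] at *; tauto)
    (by intro ω ω' a; simp only [pair, Prod.mk.injEq] at *; tauto)
    (by intro ω ω' a; simp only [pair, Prod.mk.injEq] at *; tauto)
  -- (vi) FCI + C ≤ FC + CI
  have s6 := lay_sub P (pair F C) (pair C Xi) (pair F (pair C Xi)) C
    (by intro ω ω' a b; simp only [pair, Prod.mk.injEq] at *; tauto)
    (by intro ω ω' a; simp only [pair, Prod.mk.injEq] at *; tauto)
    (by intro ω ω' a; simp only [pair, Prod.mk.injEq] at *; tauto)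
  linarith

/-- LEAF BU2. representative names `X, C` against actual names `Xa, Ca` (mutual lists), `O` lists `Ca`:
`H(X|C) ≤ H(Xa|Ca) + 2 l0`,  `H(X|C,O) ≥ H(Xa|O) - 3 l0`. -/
theorem lay_mi_swap (P : FLaw Ω) {α β γ δ ε : Type} (X : Ω → α) (Xa : Ω → β) (C : Ω → γ) (Ca : Ω → δ)
    (O : Ω → ε) (l0 : ℝ) (h1 : P.entC Ca C ≤ l0) (h2 : P.entC C Ca ≤ l0) (h3 : P.entC X (pair Xa Ca) ≤ l0)
    (h4 : P.entC Xa (pair X C) ≤ l0) (h5 : P.entC Ca O ≤ l0) :
    P.miC X O C ≤ P.entC Xa Ca - P.entC Xa O + 5 * l0 := by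
  unfold FLaw.miC FLaw.entC at *
  have s1 := lay_sub P (pair X (pair Xa Ca)) (pair Xa (pair Ca C)) (pair X C) (pair Xa Ca)
    (by intro ω ω' a b; simp only [pair, Prod.mk.injEq] at *; tauto)
    (by intro ω ω' a; simp only [pair, Prod.mk.injEq] at *; tauto)
    (by intro ω ω' a; simp only [pair, Prod.mk.injEq] at *; tauto)
  have s2 := lay_sub P (pair Xa Ca) (pair Ca C) (pair Xa (pair Ca C)) Ca
    (by intro ω ω' a b; simp only [pair, Prod.mk.injEq] at *; tauto)
    (by intro ω ω' a; simp only [pair, Prod.mk.injEq] at *; tauto)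
    (by intro ω ω' a; simp only [pair, Prod.mk.injEq] at *; tauto)
  have s3 := lay_sub P (pair Xa (pair X C)) (pair (pair X O) C) (pair Xa O) (pair X C)
    (by intro ω ω' a b; simp only [pair, Prod.mk.injEq] at *; tauto)
    (by intro ω ω' a; simp only [pair, Prod.mk.injEq] at *; tauto)
    (by intro ω ω' a; simp only [pair, Prod.mk.injEq] at *; tauto)
  have s4 := lay_sub P (pair Ca O) (pair C Ca) (pair O C) Ca
    (by intro ω ω' a b; simp only [pair, Prod.mk.injEq] at *; tauto)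
    (by intro ω ω' a; simp only [pair, Prod.mk.injEq] at *; tauto)
    (by intro ω ω' a; simp only [pair, Prod.mk.injEq] at *; tauto)
  linarith

/-- LEAF BU3. one record of the replica law has the law of the single experiment (`en_copies_marg`, `iso_star_ent_pm`, `ie_ent`) -/
theorem lay_star_entC (P : FLaw Ω) {υ α β : Type} (Z : Ω → υ) (M : ℕ) (i : Fin M) (g : υ → Ω → α)
    (g' : υ → Ω → β) :
    (P.star Z M).entC (fun x => g (Z x.1) (x.2 i)) (fun x => g' (Z x.1) (x.2 i))
      = P.entC (fun ω => g (Z ω) ω) (fun ω => g' (Z ω) ω) := by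
  unfold FLaw.entC
  have a1 : (P.star Z M).ent (pair (fun x : Ω × (Fin M → Ω) => g (Z x.1) (x.2 i)) (fun x => g' (Z x.1) (x.2 i)))
      = P.ent (pair (fun ω => g (Z ω) ω) (fun ω => g' (Z ω) ω)) := by
    rw [iso_star_ent_pm, ie_ent]
    exact Claimed.Agent.RW.en_copies_marg P.isoPm Z i (fun u ω => (g u ω, g' u ω))
  have a2 : (P.star Z M).ent (fun x : Ω × (Fin M → Ω) => g' (Z x.1) (x.2 i)) = P.ent (fun ω => g' (Z ω) ω) := by
    rw [iso_star_ent_pm, ie_ent]
    exact Claimed.Agent.RW.en_copies_marg P.isoPm Z i g'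
  rw [a1, a2]

/-- LEAF BU3. functions of the side (`en_copies_base`) -/
theorem lay_star_ent_base (P : FLaw Ω) {υ α β : Type} (Z : Ω → υ) (M : ℕ) (g : υ → α) (g' : υ → β) :
    (P.star Z M).entC (fun x => g (Z x.1)) (fun x => g' (Z x.1))
      = P.entC (fun ω => g (Z ω)) (fun ω => g' (Z ω)) := by
  unfold FLaw.entC
  have a1 : (P.star Z M).ent (pair (fun x : Ω × (Fin M → Ω) => g (Z x.1)) (fun x => g' (Z x.1)))
      = P.ent (pair (fun ω => g (Z ω)) (fun ω => g' (Z ω))) := by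
    rw [iso_star_ent_pm, ie_ent]
    exact Claimed.Agent.RW.en_copies_base P.isoPm Z (fun u => (g u, g' u))
  have a2 : (P.star Z M).ent (fun x : Ω × (Fin M → Ω) => g' (Z x.1)) = P.ent (fun ω => g' (Z ω)) := by
    rw [iso_star_ent_pm, ie_ent]
    exact Claimed.Agent.RW.en_copies_base P.isoPm Z g'
  rw [a1, a2]

/-- LEAF BU3. entropy of the `M` stored marks: `≤ M log N` if one mark has at most `N` values -/
theorem lay_star_marks_le (P : FLaw Ω) {υ α β : Type} (Z : Ω → υ) (M : ℕ) (mk : Ω → α) (S : Finset α)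
    (hS : ∀ ω, mk ω ∈ S) (Y : Ω × (Fin M → Ω) → β) :
    (P.star Z M).entC (fun x => fun i => mk (x.2 i)) Y ≤ M * Real.log S.card := by
  refine (ent_entC_le _ _ _).trans ?_
  refine (ent_le_log_card (P.star Z M) (fun x => fun i => mk (x.2 i)) (Fintype.piFinset fun _ : Fin M => S)
    (fun x _ => Fintype.mem_piFinset.2 fun i => hS _)).trans (le_of_eq ?_)
  rw [Fintype.card_piFinset, Finset.prod_const, Finset.card_univ, Fintype.card_fin]
  push_cast
  rw [Real.log_pow]

end Claimed.Agent.R256
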