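import Claimed.Agent.R256.Soft.Win

/-!
# Row 256, unit LAY (04B), file 1: the discrete trace lemma DT      (chief helper189)

Paper free, Mathlib only (+ `sf_sum_blocks`, `sf_dev_sq` of `Soft/Win`).   Finite substitute for Lemma names:score-trace (monotone diagonal trace), for the (ang) half of
names:angular-trace, for names:mixed-trace and for every "almost every layer, then t to 0" of secs. 4-5  (reports 873 T5, 876 LAYER-fin).

`H q u` (`u ≤ q ≤ n`) = score of the name of depth `q` given the conditioning of depth `u`, on the integer grid `0..n`.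
`LayArr n K H` : `H u u = 0`, `0 ≤ H q u ≤ K (q - u)`, increments in `q` do not increase when the conditioning depth `u` increases.
`LayLin H K η p S r` : on the block `[p, p + r S]` the array is `η`-linear on the sub-mesh of step `S` : one rate `g ∈ [0, K]` with `|H v u - g (v - u)| ≤ η r S`.

MAIN `lay_dt` : for `n = r^N`,  `∑_{k<N} #{level-k blocks that are not η-linear} · r^(N-k) ≤ (2K/η + 12K²/η²) r^N`,  INDEPENDENT of `N` and `r`.
PROOF.  child values `c_i = layC`, block value `Hb`, defect `α = layDef = Hb - ∑ c_i ≥ 0` (superadditivity = `incr` with `u' = a`), `layVar = r ∑ c_i² - (∑ c_i)² ≥ 0`, `T = r S`.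
 (1) sandwich `∑_{[i,j)} c ≤ H (p+jS) (p+iS) ≤ ∑_{[i,j)} c + α`;  (2) Cauchy-Schwarz `(∑_{[i,j)} c - (j-i)/r ∑ c)² ≤ layVar`;  so `g = ∑ c / T` works if `α ≤ ηT/2`, `layVar ≤ (ηT/2)²`;
 (3) a bad block is charged `T ≤ (2/η) α + (4/η²) layVar / T`;  (4) energy `∑ c_i²/S ≥ layVar/T + Hb²/T - 2Kα`;
 (5) with `A k = ∑ blocks Hb`, `Q k = ∑ blocks Hb²/T` : `∑ α = A k - A (k+1)`, `∑ layVar/T ≤ Q (k+1) - Q k + 2K (A k - A (k+1))`; telescope; `0 ≤ A ≤ K n`, `0 ≤ Q ≤ K² n`.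
LEAVES: L-256-LAY-DT1 (`lay_super`, `lay_def_nonneg`, `lay_sandwich`), DT2 (`lay_dev`, `lay_var_nonneg`, `lay_lin_of_small`, `lay_charge`), DT3 (`lay_energy`, `lay_level`),
 DT4 (`lay_dt`, `lay_dt_level`, `lay_dt_fam`), DT5 (`lay_fix_arr`, `lay_fix_lin`, `lay_dt_approx`).
-/

set_option autoImplicit false

namespace Claimed.Agent.R256

open Finset
open scoped BigOperators
open Classical

/-- a triangular score array on the grid `0..n` -/
structure LayArr (n : ℕ) (K : ℝ) (H : ℕ → ℕ → ℝ) : Prop where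
  diag : ∀ u, u ≤ n → H u u = 0
  nonneg : ∀ u q, u ≤ q → q ≤ n → 0 ≤ H q u
  lip : ∀ u q, u ≤ q → q ≤ n → H q u ≤ K * ((q : ℝ) - u)
  incr : ∀ u u' a b, u ≤ u' → u' ≤ a → a ≤ b → b ≤ n → H b u' - H a u' ≤ H b u - H a u

/-- the block `[p, p + r S]` is `η`-linear on its sub-mesh of step `S` -/
def LayLin (H : ℕ → ℕ → ℝ) (K η : ℝ) (p S r : ℕ) : Prop :=
  ∃ g : ℝ, 0 ≤ g ∧ g ≤ K ∧ ∀ i j, i ≤ j → j ≤ r →
    |H (p + j * S) (p + i * S) - g * (((j : ℝ) - i) * S)| ≤ η * ((r : ℝ) * S)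

/-- value of the `i`-th child of the block starting at `p` (children of length `S`) -/
def layC (H : ℕ → ℕ → ℝ) (p S i : ℕ) : ℝ := H (p + (i + 1) * S) (p + i * S)

/-- additivity defect of the block -/
def layDef (H : ℕ → ℕ → ℝ) (p S r : ℕ) : ℝ := H (p + r * S) p - ∑ i ∈ range r, layC H p S i

/-- `r² ·` variance of the child values -/
def layVar (H : ℕ → ℕ → ℝ) (p S r : ℕ) : ℝ :=
  (r : ℝ) * ∑ i ∈ range r, layC H p S i ^ 2 - (∑ i ∈ range r, layC H p S i) ^ 2

/-! ## one block -/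

/-- LEAF DT1. superadditivity (induction on `j`, `incr` with `u' = a = p + j S`, `diag`) -/
theorem lay_super {n : ℕ} {K : ℝ} {H : ℕ → ℕ → ℝ} (hH : LayArr n K H) (p S i j : ℕ) (hij : i ≤ j)
    (hn : p + j * S ≤ n) : ∑ l ∈ Ico i j, layC H p S l ≤ H (p + j * S) (p + i * S) := by
  induction j, hij using Nat.le_induction with
  | base =>
    rw [Finset.Ico_self, Finset.sum_empty, hH.diag _ hn]
  | succ j hij ih =>
    have hjj : p + j * S ≤ p + (j + 1) * S := Nat.add_le_add_left (Nat.mul_le_mul_right S (Nat.le_succ j)) p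
    have hij' : p + i * S ≤ p + j * S := Nat.add_le_add_left (Nat.mul_le_mul_right S hij) p
    have h1 := ih (hjj.trans hn)
    have h2 := hH.incr (p + i * S) (p + j * S) (p + j * S) (p + (j + 1) * S) hij' le_rfl hjj hn
    rw [hH.diag _ (hjj.trans hn)] at h2
    rw [Finset.sum_Ico_succ_top hij]
    unfold layC at h1 ⊢
    linarith

/-- LEAF DT1. -/
theorem lay_def_nonneg {n : ℕ} {K : ℝ} {H : ℕ → ℕ → ℝ} (hH : LayArr n K H) (p S r : ℕ)
    (hn : p + r * S ≤ n) : 0 ≤ layDef H p S r := by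
  have h := lay_super hH p S 0 r (Nat.zero_le r) hn
  rw [Nat.Ico_zero_eq_range, Nat.zero_mul, Nat.add_zero] at h
  unfold layDef
  linarith

/-- LEAF DT1. upper half of the sandwich: `H v u ≤ H v p - H u p` (`incr`, `diag`), `H u p ≥ ∑_{[0,i)}`, `H (p+rS) p - H v p ≥ H (p+rS) v ≥ ∑_{[j,r)}` -/
theorem lay_sandwich {n : ℕ} {K : ℝ} {H : ℕ → ℕ → ℝ} (hH : LayArr n K H) (p S r i j : ℕ) (hij : i ≤ j)
    (hjr : j ≤ r) (hn : p + r * S ≤ n) :
    H (p + j * S) (p + i * S) ≤ ∑ l ∈ Ico i j, layC H p S l + layDef H p S r := by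
  have hjr' : p + j * S ≤ p + r * S := Nat.add_le_add_left (Nat.mul_le_mul_right S hjr) p
  have hij' : p + i * S ≤ p + j * S := Nat.add_le_add_left (Nat.mul_le_mul_right S hij) p
  have hpi : p ≤ p + i * S := Nat.le_add_right _ _
  have hpj : p ≤ p + j * S := Nat.le_add_right _ _
  have a1 := hH.incr p (p + i * S) (p + i * S) (p + j * S) hpi le_rfl hij' (hjr'.trans hn)
  rw [hH.diag _ (hij'.trans (hjr'.trans hn))] at a1
  have a2 := lay_super hH p S 0 i (Nat.zero_le i) (hij'.trans (hjr'.trans hn))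
  rw [Nat.zero_mul, Nat.add_zero] at a2
  have a3 := hH.incr p (p + j * S) (p + j * S) (p + r * S) hpj le_rfl hjr' hn
  rw [hH.diag _ (hjr'.trans hn)] at a3
  have a4 := lay_super hH p S j r hjr hn
  have e1 : ∑ l ∈ range r, layC H p S l
      = ∑ l ∈ Ico 0 i, layC H p S l + ∑ l ∈ Ico i j, layC H p S l + ∑ l ∈ Ico j r, layC H p S l := by
    rw [Finset.sum_Ico_consecutive _ (Nat.zero_le i) hij, Finset.sum_Ico_consecutive _ (Nat.zero_le j) hjr,
      Nat.Ico_zero_eq_range]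
  unfold layDef
  rw [e1]
  linarith

/-- LEAF DT2. Cauchy-Schwarz for the partial sums over `[i, j)` (as `sf_dev_sq`) -/
theorem lay_dev (x : ℕ → ℝ) (r i j : ℕ) (hr : 0 < r) (hij : i ≤ j) (hjr : j ≤ r) :
    (∑ l ∈ Ico i j, x l - ((j : ℝ) - i) / r * ∑ l ∈ range r, x l) ^ 2
      ≤ r * ∑ l ∈ range r, x l ^ 2 - (∑ l ∈ range r, x l) ^ 2 := by
  obtain ⟨T, hT⟩ : ∃ T, T = ∑ l ∈ range r, x l := ⟨_, rfl⟩
  rw [← hT]
  have hr' : (0 : ℝ) < r := Nat.cast_pos.2 hr
  have hcard : ((Ico i j).card : ℝ) = (j : ℝ) - i := by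
    rw [Nat.card_Ico, Nat.cast_sub hij]
  have h1 : ∑ l ∈ Ico i j, x l - ((j : ℝ) - i) / r * T = ∑ l ∈ Ico i j, (x l - T / r) := by
    rw [Finset.sum_sub_distrib, Finset.sum_const, nsmul_eq_mul, hcard]
    ring
  have h2 : (∑ l ∈ Ico i j, (x l - T / r)) ^ 2 ≤ ((j : ℝ) - i) * ∑ l ∈ Ico i j, (x l - T / r) ^ 2 := by
    have := sq_sum_le_card_mul_sum_sq (s := Ico i j) (f := fun l => x l - T / r)
    rwa [hcard] at this
  have hsub : Ico i j ⊆ range r := by
    intro l hl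
    exact Finset.mem_range.2 (lt_of_lt_of_le (Finset.mem_Ico.1 hl).2 hjr)
  have h3 : ∑ l ∈ Ico i j, (x l - T / r) ^ 2 ≤ ∑ l ∈ range r, (x l - T / r) ^ 2 :=
    Finset.sum_le_sum_of_subset_of_nonneg hsub (fun _ _ _ => sq_nonneg _)
  have h4 : ∑ l ∈ range r, (x l - T / r) ^ 2 = ∑ l ∈ range r, x l ^ 2 - T ^ 2 / r := by
    have : ∀ l ∈ range r, (x l - T / r) ^ 2 = x l ^ 2 - 2 * (T / r) * x l + (T / r) ^ 2 := fun l _ => by ring
    rw [Finset.sum_congr rfl this, Finset.sum_add_distrib, Finset.sum_sub_distrib, ← Finset.mul_sum,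
      Finset.sum_const, card_range, nsmul_eq_mul, ← hT]
    field_simp
    ring
  have hji : (j : ℝ) - i ≤ r := by
    have h5 : (j : ℝ) ≤ r := Nat.cast_le.2 hjr
    have h6 : (0 : ℝ) ≤ i := Nat.cast_nonneg i
    linarith
  calc (∑ l ∈ Ico i j, x l - ((j : ℝ) - i) / r * T) ^ 2 = (∑ l ∈ Ico i j, (x l - T / r)) ^ 2 := by rw [h1]
    _ ≤ ((j : ℝ) - i) * ∑ l ∈ Ico i j, (x l - T / r) ^ 2 := h2
    _ ≤ (r : ℝ) * ∑ l ∈ range r, (x l - T / r) ^ 2 :=
        mul_le_mul hji h3 (Finset.sum_nonneg fun _ _ => sq_nonneg _) hr'.le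
    _ = r * ∑ l ∈ range r, x l ^ 2 - T ^ 2 := by
        rw [h4]; field_simp

/-- LEAF DT2. -/
theorem lay_var_nonneg (H : ℕ → ℕ → ℝ) (p S r : ℕ) : 0 ≤ layVar H p S r := by
  have := sq_sum_le_card_mul_sum_sq (s := range r) (f := fun i => layC H p S i)
  rw [card_range] at this
  unfold layVar
  linarith

/-- LEAF DT2. small defect and small variance give linearity, with the rate `g = ∑ c / (r S)` -/
theorem lay_lin_of_small {n : ℕ} {K η : ℝ} {H : ℕ → ℕ → ℝ} (hH : LayArr n K H) (p S r : ℕ) (hr : 0 < r)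
    (hS : 0 < S) (hη : 0 < η) (hn : p + r * S ≤ n) (h1 : layDef H p S r ≤ η / 2 * ((r : ℝ) * S))
    (h2 : layVar H p S r ≤ (η / 2 * ((r : ℝ) * S)) ^ 2) : LayLin H K η p S r := by
  have hr' : (0 : ℝ) < r := Nat.cast_pos.2 hr
  have hS' : (0 : ℝ) < S := Nat.cast_pos.2 hS
  have hT : (0 : ℝ) < (r : ℝ) * S := mul_pos hr' hS'
  obtain ⟨C, hC⟩ : ∃ C, C = ∑ l ∈ range r, layC H p S l := ⟨_, rfl⟩
  have hC0 : 0 ≤ C := by
    rw [hC]
    refine Finset.sum_nonneg fun l hl => ?_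
    have hl' : l + 1 ≤ r := Finset.mem_range.1 hl
    exact hH.nonneg _ _ (Nat.add_le_add_left (Nat.mul_le_mul_right S (Nat.le_succ l)) p)
      ((Nat.add_le_add_left (Nat.mul_le_mul_right S hl') p).trans hn)
  have hCK : C ≤ K * ((r : ℝ) * S) := by
    have a1 := lay_def_nonneg hH p S r hn
    have a2 := hH.lip p (p + r * S) (Nat.le_add_right _ _) hn
    unfold layDef at a1
    rw [← hC] at a1
    push_cast at a2
    linarith
  refine ⟨C / ((r : ℝ) * S), div_nonneg hC0 hT.le, (div_le_iff₀ hT).2 hCK, ?_⟩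
  intro i j hij hjr
  have b1 := lay_super hH p S i j hij ((Nat.add_le_add_left (Nat.mul_le_mul_right S hjr) p).trans hn)
  have b2 := lay_sandwich hH p S r i j hij hjr hn
  have b3 := lay_dev (fun l => layC H p S l) r i j hr hij hjr
  have b4 := lay_def_nonneg hH p S r hn
  have e1 : C / ((r : ℝ) * S) * (((j : ℝ) - i) * S) = ((j : ℝ) - i) / r * C := by
    field_simp
  rw [e1]
  have b5 : (∑ l ∈ Ico i j, layC H p S l - ((j : ℝ) - i) / r * C) ^ 2 ≤ (η / 2 * ((r : ℝ) * S)) ^ 2 := by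
    refine le_trans ?_ h2
    unfold layVar
    rw [hC]
    exact b3
  have hb : 0 ≤ η / 2 * ((r : ℝ) * S) := by positivity
  have b6 := abs_le.1 (abs_le_of_sq_le_sq b5 hb)
  rw [abs_le]
  constructor <;> linarith [b6.1, b6.2]

/-- LEAF DT2. a block that is not linear is charged -/
theorem lay_charge {n : ℕ} {K η : ℝ} {H : ℕ → ℕ → ℝ} (hH : LayArr n K H) (p S r : ℕ) (hr : 0 < r)
    (hS : 0 < S) (hη : 0 < η) (hn : p + r * S ≤ n) (hbad : ¬ LayLin H K η p S r) :
    (r : ℝ) * S ≤ 2 / η * layDef H p S r + 4 / η ^ 2 * (layVar H p S r / ((r : ℝ) * S)) := by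
  have hr' : (0 : ℝ) < r := Nat.cast_pos.2 hr
  have hS' : (0 : ℝ) < S := Nat.cast_pos.2 hS
  have hT : (0 : ℝ) < (r : ℝ) * S := mul_pos hr' hS'
  have hα := lay_def_nonneg hH p S r hn
  have hV := lay_var_nonneg H p S r
  have t1 : 0 ≤ 2 / η * layDef H p S r := mul_nonneg (by positivity) hα
  have t2 : 0 ≤ 4 / η ^ 2 * (layVar H p S r / ((r : ℝ) * S)) := mul_nonneg (by positivity) (div_nonneg hV hT.le)
  by_cases h1 : layDef H p S r ≤ η / 2 * ((r : ℝ) * S)
  · by_cases h2 : layVar H p S r ≤ (η / 2 * ((r : ℝ) * S)) ^ 2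
    · exact absurd (lay_lin_of_small hH p S r hr hS hη hn h1 h2) hbad
    · have h2' : (η / 2 * ((r : ℝ) * S)) ^ 2 < layVar H p S r := not_le.1 h2
      have e : (r : ℝ) * S = 4 / η ^ 2 * ((η / 2 * ((r : ℝ) * S)) ^ 2 / ((r : ℝ) * S)) := by
        field_simp
        ring
      have : 4 / η ^ 2 * ((η / 2 * ((r : ℝ) * S)) ^ 2 / ((r : ℝ) * S))
          ≤ 4 / η ^ 2 * (layVar H p S r / ((r : ℝ) * S)) := by
        gcongr
      linarith
  · have h1' : η / 2 * ((r : ℝ) * S) < layDef H p S r := not_le.1 h1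
    have e : (r : ℝ) * S = 2 / η * (η / 2 * ((r : ℝ) * S)) := by
      field_simp
    have : 2 / η * (η / 2 * ((r : ℝ) * S)) ≤ 2 / η * layDef H p S r := by
      gcongr
    linarith

/-- LEAF DT3. energy increment of one block: `(∑ c)² = (Hb - α)² ≥ Hb² - 2 K T α` -/
theorem lay_energy {n : ℕ} {K : ℝ} {H : ℕ → ℕ → ℝ} (hH : LayArr n K H) (p S r : ℕ) (hr : 0 < r)
    (hS : 0 < S) (hn : p + r * S ≤ n) :
    layVar H p S r / ((r : ℝ) * S) + H (p + r * S) p ^ 2 / ((r : ℝ) * S) - 2 * K * layDef H p S r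
      ≤ ∑ i ∈ range r, layC H p S i ^ 2 / (S : ℝ) := by
  have hrR : (0 : ℝ) < r := by exact_mod_cast hr
  have hSR : (0 : ℝ) < S := by exact_mod_cast hS
  have hT : (0 : ℝ) < (r : ℝ) * S := mul_pos hrR hSR
  have hα := lay_def_nonneg hH p S r hn
  have hlip := hH.lip p (p + r * S) (Nat.le_add_right _ _) hn
  have hlip' : H (p + r * S) p ≤ K * ((r : ℝ) * S) := by
    refine hlip.trans (le_of_eq ?_)
    push_cast
    ring
  have e1 : ∑ i ∈ range r, layC H p S i ^ 2 / (S : ℝ) = ((r : ℝ) * ∑ i ∈ range r, layC H p S i ^ 2) / ((r : ℝ) * S) := by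
    rw [← Finset.sum_div]
    field_simp
  rw [e1]
  unfold layVar
  unfold layDef at hα ⊢
  generalize (∑ i ∈ range r, layC H p S i) = c at *
  generalize (∑ i ∈ range r, layC H p S i ^ 2) = q at *
  generalize H (p + r * S) p = Hb at *
  generalize (r : ℝ) * S = T at *
  have key : Hb ^ 2 - c ^ 2 ≤ 2 * K * (Hb - c) * T := by
    have h1 : Hb + c ≤ 2 * (K * T) := by linarith
    have h2 : (Hb - c) * (Hb + c) ≤ (Hb - c) * (2 * (K * T)) := mul_le_mul_of_nonneg_left h1 hα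
    nlinarith
  have e2 : ((r : ℝ) * q - c ^ 2) / T + Hb ^ 2 / T - 2 * K * (Hb - c) = ((r : ℝ) * q + (Hb ^ 2 - c ^ 2 - 2 * K * (Hb - c) * T)) / T := by
    field_simp
    ring
  rw [e2]
  apply div_le_div_of_nonneg_right _ hT.le
  linarith

/-! ## the `r`-adic levels of `[0, r^N]` -/

/-- value of the `j`-th block of level `k` -/
def layB (H : ℕ → ℕ → ℝ) (r N k j : ℕ) : ℝ := H ((j + 1) * r ^ (N - k)) (j * r ^ (N - k))

/-- total block value of level `k` -/
def layA (H : ℕ → ℕ → ℝ) (r N k : ℕ) : ℝ := ∑ j ∈ range (r ^ k), layB H r N k j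

/-- energy of level `k` -/
noncomputable def layQ (H : ℕ → ℕ → ℝ) (r N k : ℕ) : ℝ := ∑ j ∈ range (r ^ k), layB H r N k j ^ 2 / ((r : ℝ) ^ (N - k))

/-- the blocks of level `k` that are not `η`-linear on the mesh of level `k + 1` -/
noncomputable def layBad (H : ℕ → ℕ → ℝ) (K η : ℝ) (r N k : ℕ) : Finset ℕ :=
  (range (r ^ k)).filter fun j => ¬ LayLin H K η (j * r ^ (N - k)) (r ^ (N - k - 1)) r

/-- LEAF DT3. one level (`sf_sum_blocks`, `lay_charge`, `lay_energy`, `lay_def_nonneg`, `lay_var_nonneg`;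
`layC H (j r^(N-k)) (r^(N-k-1)) i = layB H r N (k+1) (j r + i)`) -/
theorem lay_level {K η : ℝ} {H : ℕ → ℕ → ℝ} (r N k : ℕ) (hr : 0 < r) (hk : k < N) (hη : 0 < η) (hK : 0 ≤ K)
    (hH : LayArr (r ^ N) K H) :
    ((layBad H K η r N k).card : ℝ) * (r : ℝ) ^ (N - k)
      ≤ 2 / η * (layA H r N k - layA H r N (k + 1))
        + 4 / η ^ 2 * (layQ H r N (k + 1) - layQ H r N k + 2 * K * (layA H r N k - layA H r N (k + 1))) := by
  obtain ⟨S, hSdef⟩ : ∃ S : ℕ, S = r ^ (N - k - 1) := ⟨_, rfl⟩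
  have hS : 0 < S := hSdef ▸ Nat.pow_pos hr
  have eT : r ^ (N - k) = r * S := by
    rw [hSdef, ← pow_succ']
    congr 1
    omega
  have eS : r ^ (N - (k + 1)) = S := by
    rw [hSdef]
    congr 1
  have hrR : (0 : ℝ) < r := by exact_mod_cast hr
  have hSR : (0 : ℝ) < S := by exact_mod_cast hS
  have hT : (0 : ℝ) < (r : ℝ) * S := mul_pos hrR hSR
  have eTR : (r : ℝ) ^ (N - k) = (r : ℝ) * S := by exact_mod_cast eT
  have eSR : (r : ℝ) ^ (N - (k + 1)) = (S : ℝ) := by exact_mod_cast eS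
  -- the blocks lie in the grid
  have hn : ∀ j ∈ range (r ^ k), j * (r * S) + r * S ≤ r ^ N := by
    intro j hj
    have hj' : j + 1 ≤ r ^ k := Finset.mem_range.1 hj
    calc j * (r * S) + r * S = (j + 1) * (r * S) := by ring
      _ ≤ r ^ k * (r * S) := Nat.mul_le_mul_right _ hj'
      _ = r ^ N := by
        rw [← eT, ← pow_add]
        congr 1
        omega
  -- dictionary
  have dC : ∀ j i, layC H (j * (r * S)) S i = layB H r N (k + 1) (j * r + i) := by
    intro j i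
    unfold layC layB
    rw [eS]
    congr 1 <;> ring
  have dB : ∀ j, H (j * (r * S) + r * S) (j * (r * S)) = layB H r N k j := by
    intro j
    unfold layB
    rw [eT]
    congr 1
    ring
  have sA : ∑ j ∈ range (r ^ k), ∑ i ∈ range r, layC H (j * (r * S)) S i = layA H r N (k + 1) := by
    simp only [dC]
    rw [sf_sum_blocks (fun m => layB H r N (k + 1) m) (r ^ k) r, ← pow_succ]
    rfl
  have sQ : ∑ j ∈ range (r ^ k), ∑ i ∈ range r, layC H (j * (r * S)) S i ^ 2 / (S : ℝ) = layQ H r N (k + 1) := by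
    simp only [dC]
    rw [sf_sum_blocks (fun m => layB H r N (k + 1) m ^ 2 / (S : ℝ)) (r ^ k) r, ← pow_succ]
    unfold layQ
    rw [eSR]
  have sD : ∑ j ∈ range (r ^ k), layDef H (j * (r * S)) S r = layA H r N k - layA H r N (k + 1) := by
    unfold layDef
    rw [Finset.sum_sub_distrib, sA]
    simp only [dB]
    rfl
  have sQk : ∑ j ∈ range (r ^ k), H (j * (r * S) + r * S) (j * (r * S)) ^ 2 / ((r : ℝ) * S) = layQ H r N k := by
    simp only [dB]
    unfold layQ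
    rw [eTR]
  -- the energy inequality, summed
  have hE : ∑ j ∈ range (r ^ k), layVar H (j * (r * S)) S r / ((r : ℝ) * S)
      ≤ layQ H r N (k + 1) - layQ H r N k + 2 * K * (layA H r N k - layA H r N (k + 1)) := by
    have h1 : ∑ j ∈ range (r ^ k), (layVar H (j * (r * S)) S r / ((r : ℝ) * S)
        + H (j * (r * S) + r * S) (j * (r * S)) ^ 2 / ((r : ℝ) * S) - 2 * K * layDef H (j * (r * S)) S r)
        ≤ ∑ j ∈ range (r ^ k), ∑ i ∈ range r, layC H (j * (r * S)) S i ^ 2 / (S : ℝ) :=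
      Finset.sum_le_sum fun j hj => lay_energy hH (j * (r * S)) S r hr hS (hn j hj)
    rw [Finset.sum_sub_distrib, Finset.sum_add_distrib, sQ, sQk, ← Finset.mul_sum, sD] at h1
    linarith
  -- the charge, summed
  have hη2 : 0 < 4 / η ^ 2 := by positivity
  have hη1 : 0 < 2 / η := by positivity
  have hterm : ∀ j ∈ range (r ^ k), 0 ≤ 2 / η * layDef H (j * (r * S)) S r + 4 / η ^ 2 * (layVar H (j * (r * S)) S r / ((r : ℝ) * S)) := by
    intro j hj
    have h1 := lay_def_nonneg hH (j * (r * S)) S r (hn j hj)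
    have h2 := lay_var_nonneg H (j * (r * S)) S r
    have h3 : 0 ≤ layVar H (j * (r * S)) S r / ((r : ℝ) * S) := div_nonneg h2 hT.le
    positivity
  have hC : ((layBad H K η r N k).card : ℝ) * ((r : ℝ) * S)
      ≤ ∑ j ∈ range (r ^ k), (2 / η * layDef H (j * (r * S)) S r + 4 / η ^ 2 * (layVar H (j * (r * S)) S r / ((r : ℝ) * S))) := by
    calc ((layBad H K η r N k).card : ℝ) * ((r : ℝ) * S) = ∑ _j ∈ layBad H K η r N k, ((r : ℝ) * S) := by
          rw [Finset.sum_const, nsmul_eq_mul]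
      _ ≤ ∑ j ∈ layBad H K η r N k, (2 / η * layDef H (j * (r * S)) S r + 4 / η ^ 2 * (layVar H (j * (r * S)) S r / ((r : ℝ) * S))) := by
          refine Finset.sum_le_sum fun j hj => ?_
          unfold layBad at hj
          obtain ⟨hj1, hj2⟩ := Finset.mem_filter.1 hj
          rw [eT, ← hSdef] at hj2
          exact lay_charge hH (j * (r * S)) S r hr hS hη (hn j hj1) hj2
      _ ≤ _ := by
          refine Finset.sum_le_sum_of_subset_of_nonneg ?_ fun j hj _ => hterm j hj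
          unfold layBad
          exact Finset.filter_subset _ _
  rw [Finset.sum_add_distrib, ← Finset.mul_sum, ← Finset.mul_sum, sD] at hC
  rw [eTR]
  refine hC.trans ?_
  have := mul_le_mul_of_nonneg_left hE hη2.le
  linarith

/-- LEAF DT4. **DT** -/
theorem lay_dt {K η : ℝ} {H : ℕ → ℕ → ℝ} (r N : ℕ) (hr : 0 < r) (hη : 0 < η) (hK : 0 ≤ K)
    (hH : LayArr (r ^ N) K H) :
    ∑ k ∈ range N, ((layBad H K η r N k).card : ℝ) * (r : ℝ) ^ (N - k)
      ≤ (2 * K / η + 12 * K ^ 2 / η ^ 2) * (r : ℝ) ^ N := by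
  have hr' : (0 : ℝ) < r := by exact_mod_cast hr
  have h1 : ∑ k ∈ range N, ((layBad H K η r N k).card : ℝ) * (r : ℝ) ^ (N - k)
      ≤ ∑ k ∈ range N, (2 / η * (layA H r N k - layA H r N (k + 1))
        + 4 / η ^ 2 * (layQ H r N (k + 1) - layQ H r N k + 2 * K * (layA H r N k - layA H r N (k + 1)))) :=
    Finset.sum_le_sum fun k hk => lay_level r N k hr (Finset.mem_range.1 hk) hη hK hH
  have h2 : ∑ k ∈ range N, (2 / η * (layA H r N k - layA H r N (k + 1))
        + 4 / η ^ 2 * (layQ H r N (k + 1) - layQ H r N k + 2 * K * (layA H r N k - layA H r N (k + 1))))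
      = 2 / η * (layA H r N 0 - layA H r N N)
        + 4 / η ^ 2 * (layQ H r N N - layQ H r N 0 + 2 * K * (layA H r N 0 - layA H r N N)) := by
    rw [Finset.sum_add_distrib, ← Finset.mul_sum, ← Finset.mul_sum, Finset.sum_add_distrib, ← Finset.mul_sum,
      Finset.sum_range_sub' (fun k => layA H r N k), Finset.sum_range_sub (fun k => layQ H r N k)]
  -- the four boundary terms
  have hA0 : layA H r N 0 ≤ K * (r : ℝ) ^ N := by
    unfold layA layB
    simp only [pow_zero, Finset.sum_range_one, Nat.sub_zero, zero_add, one_mul, zero_mul]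
    have := hH.lip 0 (r ^ N) (Nat.zero_le _) le_rfl
    simpa using this
  have hAN : 0 ≤ layA H r N N := by
    unfold layA layB
    refine Finset.sum_nonneg fun j hj => ?_
    have hj' := Finset.mem_range.1 hj
    simp only [Nat.sub_self, pow_zero, mul_one]
    exact hH.nonneg j (j + 1) (Nat.le_succ j) hj'
  have hQ0 : 0 ≤ layQ H r N 0 := by
    unfold layQ
    exact Finset.sum_nonneg fun j _ => div_nonneg (sq_nonneg _) (pow_pos hr' _).le
  have hQN : layQ H r N N ≤ K ^ 2 * (r : ℝ) ^ N := by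
    unfold layQ layB
    have : ∀ j ∈ range (r ^ N), H ((j + 1) * r ^ (N - N)) (j * r ^ (N - N)) ^ 2 / (r : ℝ) ^ (N - N) ≤ K ^ 2 := by
      intro j hj
      have hj' := Finset.mem_range.1 hj
      simp only [Nat.sub_self, pow_zero, mul_one, div_one]
      have a1 := hH.nonneg j (j + 1) (Nat.le_succ j) hj'
      have a2 := hH.lip j (j + 1) (Nat.le_succ j) hj'
      have a3 : H (j + 1) j ≤ K := by
        have : ((j + 1 : ℕ) : ℝ) - j = 1 := by push_cast; ring
        rw [this, mul_one] at a2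
        exact a2
      exact pow_le_pow_left₀ a1 a3 2
    refine (Finset.sum_le_sum this).trans ?_
    rw [Finset.sum_const, Finset.card_range, nsmul_eq_mul]
    push_cast
    rw [mul_comm]
  refine h1.trans ?_
  rw [h2]
  have hn : 0 < (r : ℝ) ^ N := pow_pos hr' _
  have c1 : 0 ≤ 2 / η := by positivity
  have c2 : 0 ≤ 4 / η ^ 2 := by positivity
  have d1 : layA H r N 0 - layA H r N N ≤ K * (r : ℝ) ^ N := by linarith
  have d2 : layQ H r N N - layQ H r N 0 + 2 * K * (layA H r N 0 - layA H r N N) ≤ 3 * K ^ 2 * (r : ℝ) ^ N := by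
    have := mul_le_mul_of_nonneg_left d1 (by positivity : 0 ≤ 2 * K)
    nlinarith
  calc 2 / η * (layA H r N 0 - layA H r N N)
        + 4 / η ^ 2 * (layQ H r N N - layQ H r N 0 + 2 * K * (layA H r N 0 - layA H r N N))
      ≤ 2 / η * (K * (r : ℝ) ^ N) + 4 / η ^ 2 * (3 * K ^ 2 * (r : ℝ) ^ N) :=
        add_le_add (mul_le_mul_of_nonneg_left d1 c1) (mul_le_mul_of_nonneg_left d2 c2)
    _ = _ := by ring

/-- LEAF DT4. pigeonhole on the level -/
theorem lay_dt_level {K η : ℝ} {H : ℕ → ℕ → ℝ} (r N : ℕ) (hr : 0 < r) (hN : 0 < N) (hη : 0 < η) (hK : 0 ≤ K)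
    (hH : LayArr (r ^ N) K H) :
    ∃ k, k < N ∧ ((layBad H K η r N k).card : ℝ) ≤ (2 * K / η + 12 * K ^ 2 / η ^ 2) / N * (r : ℝ) ^ k := by
  by_contra hcon
  push Not at hcon
  have hr' : (0 : ℝ) < r := by exact_mod_cast hr
  have hN' : (0 : ℝ) < N := by exact_mod_cast hN
  have h := lay_dt r N hr hη hK hH
  have h1 : ∑ k ∈ range N, (2 * K / η + 12 * K ^ 2 / η ^ 2) / N * (r : ℝ) ^ N
      < ∑ k ∈ range N, ((layBad H K η r N k).card : ℝ) * (r : ℝ) ^ (N - k) := by
    refine Finset.sum_lt_sum_of_nonempty (Finset.nonempty_range_iff.2 hN.ne') fun k hk => ?_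
    have hk' := Finset.mem_range.1 hk
    have e : (r : ℝ) ^ N = (r : ℝ) ^ k * (r : ℝ) ^ (N - k) := by
      rw [← pow_add]
      congr 1
      omega
    rw [e, ← mul_assoc]
    exact mul_lt_mul_of_pos_right (hcon k hk') (pow_pos hr' _)
  rw [Finset.sum_const, Finset.card_range, nsmul_eq_mul] at h1
  have e2 : (N : ℝ) * ((2 * K / η + 12 * K ^ 2 / η ^ 2) / N * (r : ℝ) ^ N) = (2 * K / η + 12 * K ^ 2 / η ^ 2) * (r : ℝ) ^ N := by
    field_simp
  rw [e2] at h1
  exact absurd h (not_le.2 h1)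

/-- LEAF DT4. finitely many arrays at once: blocks that are bad for at least one of them -/
theorem lay_dt_fam {ι : Type} [Fintype ι] {K η : ℝ} {H : ι → ℕ → ℕ → ℝ} (r N : ℕ) (hr : 0 < r) (hη : 0 < η)
    (hK : 0 ≤ K) (hH : ∀ a, LayArr (r ^ N) K (H a)) :
    ∑ k ∈ range N, (((range (r ^ k)).filter fun j => ∃ a, j ∈ layBad (H a) K η r N k).card : ℝ) * (r : ℝ) ^ (N - k)
      ≤ (Fintype.card ι : ℝ) * (2 * K / η + 12 * K ^ 2 / η ^ 2) * (r : ℝ) ^ N := by
  have hr' : (0 : ℝ) < r := by exact_mod_cast hr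
  have h1 : ∀ k, (((range (r ^ k)).filter fun j => ∃ a, j ∈ layBad (H a) K η r N k).card : ℝ)
      ≤ ∑ a : ι, ((layBad (H a) K η r N k).card : ℝ) := by
    intro k
    have hsub : ((range (r ^ k)).filter fun j => ∃ a, j ∈ layBad (H a) K η r N k)
        ⊆ (Finset.univ : Finset ι).biUnion fun a => layBad (H a) K η r N k := by
      intro j hj
      obtain ⟨a, ha⟩ := (Finset.mem_filter.1 hj).2
      exact Finset.mem_biUnion.2 ⟨a, Finset.mem_univ _, ha⟩
    have h2 := (Finset.card_le_card hsub).trans Finset.card_biUnion_le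
    exact_mod_cast h2
  calc ∑ k ∈ range N, (((range (r ^ k)).filter fun j => ∃ a, j ∈ layBad (H a) K η r N k).card : ℝ) * (r : ℝ) ^ (N - k)
      ≤ ∑ k ∈ range N, (∑ a : ι, ((layBad (H a) K η r N k).card : ℝ)) * (r : ℝ) ^ (N - k) :=
        Finset.sum_le_sum fun k _ => mul_le_mul_of_nonneg_right (h1 k) (pow_pos hr' _).le
    _ = ∑ a : ι, ∑ k ∈ range N, ((layBad (H a) K η r N k).card : ℝ) * (r : ℝ) ^ (N - k) := by
        simp only [Finset.sum_mul]
        exact Finset.sum_comm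
    _ ≤ ∑ _a : ι, (2 * K / η + 12 * K ^ 2 / η ^ 2) * (r : ℝ) ^ N :=
        Finset.sum_le_sum fun a _ => lay_dt r N hr hη hK (hH a)
    _ = _ := by
        rw [Finset.sum_const, Finset.card_univ, nsmul_eq_mul]
        ring

/-! ## arrays with additive errors -/

/-- a triangular score array up to the additive error `e` (what the scores of a finite law satisfy off a small event) -/
structure LayArrE (n : ℕ) (K e : ℝ) (H : ℕ → ℕ → ℝ) : Prop where
  diag : ∀ u, u ≤ n → |H u u| ≤ e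
  lo : ∀ u q, u ≤ q → q < n → -e ≤ H (q + 1) u - H q u
  hi : ∀ u q, u ≤ q → q < n → H (q + 1) u - H q u ≤ K + e
  incr : ∀ u u' a b, u ≤ u' → u' ≤ a → a ≤ b → b ≤ n → H b u' - H a u' ≤ H b u - H a u + e

/-- the exact array attached to an approximate one -/
def layFix (n : ℕ) (e : ℝ) (H : ℕ → ℕ → ℝ) : ℕ → ℕ → ℝ :=
  fun q u => H q u - H u u + e * (((q : ℝ) - u) * ((n : ℝ) - u))

/-- telescoped increments of an approximate array -/
theorem lay_fix_tel {n : ℕ} {K e : ℝ} {H : ℕ → ℕ → ℝ} (hH : LayArrE n K e H) (u d : ℕ) (hn : u + d ≤ n) :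
    -e * d ≤ H (u + d) u - H u u ∧ H (u + d) u - H u u ≤ (K + e) * d := by
  induction d with
  | zero => simp
  | succ d ih =>
    obtain ⟨i1, i2⟩ := ih (by omega)
    have l1 := hH.lo u (u + d) (by omega) (by omega)
    have l2 := hH.hi u (u + d) (by omega) (by omega)
    have e1 : u + (d + 1) = u + d + 1 := by omega
    rw [e1]
    push_cast
    constructor <;> linarith

/-- LEAF DT5. -/
theorem lay_fix_arr {n : ℕ} {K e : ℝ} {H : ℕ → ℕ → ℝ} (he : 0 ≤ e) (hH : LayArrE n K e H) :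
    LayArr n (K + e + e * n) (layFix n e H) := by
  refine ⟨?_, ?_, ?_, ?_⟩
  · intro u _
    unfold layFix
    simp
  · intro u q huq hqn
    obtain ⟨d, rfl⟩ := Nat.exists_eq_add_of_le huq
    obtain ⟨t1, -⟩ := lay_fix_tel hH u d hqn
    unfold layFix
    have ed : ((u + d : ℕ) : ℝ) - u = d := by push_cast; ring
    rw [ed]
    rcases Nat.eq_zero_or_pos d with rfl | hd
    · simp
    · have h1 : (1 : ℝ) ≤ (n : ℝ) - u := by
        have : u + 1 ≤ n := by omega
        have : ((u + 1 : ℕ) : ℝ) ≤ n := by exact_mod_cast this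
        push_cast at this
        linarith
      have hd0 : (0 : ℝ) ≤ d := Nat.cast_nonneg d
      have h2 : e * (d : ℝ) ≤ e * ((d : ℝ) * ((n : ℝ) - u)) := by
        apply mul_le_mul_of_nonneg_left _ he
        nlinarith
      linarith
  · intro u q huq hqn
    obtain ⟨d, rfl⟩ := Nat.exists_eq_add_of_le huq
    obtain ⟨-, t2⟩ := lay_fix_tel hH u d hqn
    unfold layFix
    have ed : ((u + d : ℕ) : ℝ) - u = d := by push_cast; ring
    rw [ed]
    have hd0 : (0 : ℝ) ≤ d := Nat.cast_nonneg d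
    have hu0 : (0 : ℝ) ≤ u := Nat.cast_nonneg u
    have h2 : e * ((d : ℝ) * ((n : ℝ) - u)) ≤ e * ((d : ℝ) * n) := by
      apply mul_le_mul_of_nonneg_left _ he
      nlinarith
    nlinarith
  · intro u u' a b huu hua hab hbn
    have h := hH.incr u u' a b huu hua hab hbn
    unfold layFix
    rcases Nat.eq_or_lt_of_le hab with rfl | hab'
    · simp
    rcases Nat.eq_or_lt_of_le huu with rfl | huu'
    · simp
    have h1 : (1 : ℝ) ≤ (b : ℝ) - a := by
      have : ((a + 1 : ℕ) : ℝ) ≤ b := by exact_mod_cast hab'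
      push_cast at this
      linarith
    have h2 : (1 : ℝ) ≤ (u' : ℝ) - u := by
      have : ((u + 1 : ℕ) : ℝ) ≤ u' := by exact_mod_cast huu'
      push_cast at this
      linarith
    have h3 : e ≤ e * (((b : ℝ) - a) * ((u' : ℝ) - u)) := by
      have : (1 : ℝ) ≤ ((b : ℝ) - a) * ((u' : ℝ) - u) := by nlinarith
      nlinarith
    nlinarith

/-- LEAF DT5. -/
theorem lay_fix_lin {n : ℕ} {K K' e η : ℝ} {H : ℕ → ℕ → ℝ} (he : 0 ≤ e) (hH : LayArrE n K e H) (p S r : ℕ)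
    (hr : 0 < r) (hS : 0 < S) (hn : p + r * S ≤ n) (h : LayLin (layFix n e H) K' η p S r) :
    LayLin H K' (η + e + e * n) p S r := by
  obtain ⟨g, hg0, hgK, hg⟩ := h
  refine ⟨g, hg0, hgK, fun i j hij hjr => ?_⟩
  have h1 := hg i j hij hjr
  unfold layFix at h1
  have hjS : j * S ≤ r * S := Nat.mul_le_mul_right S hjr
  have hiS : i * S ≤ j * S := Nat.mul_le_mul_right S hij
  have hd := hH.diag (p + i * S) (by omega)
  have hrS : (1 : ℝ) ≤ (r : ℝ) * S := by
    have : 1 ≤ r * S := Nat.mul_pos hr hS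
    exact_mod_cast this
  have eq1 : ((p + j * S : ℕ) : ℝ) - ((p + i * S : ℕ) : ℝ) = ((j : ℝ) - i) * S := by push_cast; ring
  rw [eq1] at h1
  -- sizes
  have hS0 : (0 : ℝ) ≤ S := Nat.cast_nonneg S
  have hji0 : (0 : ℝ) ≤ (j : ℝ) - i := by
    have : (i : ℝ) ≤ j := by exact_mod_cast hij
    linarith
  have hjir : (j : ℝ) - i ≤ r := by
    have : (j : ℝ) ≤ r := by exact_mod_cast hjr
    have : (0 : ℝ) ≤ i := Nat.cast_nonneg i
    linarith
  have a0 : 0 ≤ ((j : ℝ) - i) * S := mul_nonneg hji0 hS0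
  have a1 : ((j : ℝ) - i) * S ≤ (r : ℝ) * S := mul_le_mul_of_nonneg_right hjir hS0
  have b0 : 0 ≤ (n : ℝ) - ((p + i * S : ℕ) : ℝ) := by
    have : p + i * S ≤ n := by omega
    have : ((p + i * S : ℕ) : ℝ) ≤ n := by exact_mod_cast this
    linarith
  have b1 : (n : ℝ) - ((p + i * S : ℕ) : ℝ) ≤ n := by
    have : (0 : ℝ) ≤ ((p + i * S : ℕ) : ℝ) := Nat.cast_nonneg _
    linarith
  have hn0 : (0 : ℝ) ≤ n := Nat.cast_nonneg n
  have c0 : 0 ≤ e * (((j : ℝ) - i) * S * ((n : ℝ) - ((p + i * S : ℕ) : ℝ))) := mul_nonneg he (mul_nonneg a0 b0)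
  have c1 : e * (((j : ℝ) - i) * S * ((n : ℝ) - ((p + i * S : ℕ) : ℝ))) ≤ e * n * ((r : ℝ) * S) := by
    have : ((j : ℝ) - i) * S * ((n : ℝ) - ((p + i * S : ℕ) : ℝ)) ≤ (r : ℝ) * S * n := mul_le_mul a1 b1 b0 (by linarith)
    have := mul_le_mul_of_nonneg_left this he
    linarith
  have c2 : e ≤ e * ((r : ℝ) * S) := by nlinarith
  obtain ⟨d1, d2⟩ := abs_le.1 hd
  obtain ⟨f1, f2⟩ := abs_le.1 h1
  rw [abs_le]
  constructor <;> nlinarith

/-- LEAF DT5. **DT with errors**: harmless as soon as `e (n + 1) ≤ η` -/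
theorem lay_dt_approx {K e η : ℝ} {H : ℕ → ℕ → ℝ} (r N : ℕ) (hr : 0 < r) (hη : 0 < η) (hK : 0 ≤ K) (he : 0 ≤ e)
    (hH : LayArrE (r ^ N) K e H) :
    ∑ k ∈ range N,
        ((layBad H (K + e + e * (r ^ N : ℕ)) (η + e + e * (r ^ N : ℕ)) r N k).card : ℝ) * (r : ℝ) ^ (N - k)
      ≤ (2 * (K + e + e * (r ^ N : ℕ)) / η + 12 * (K + e + e * (r ^ N : ℕ)) ^ 2 / η ^ 2) * (r : ℝ) ^ N := by
  have hr' : (0 : ℝ) < r := by exact_mod_cast hr
  have hK' : 0 ≤ K + e + e * ((r ^ N : ℕ) : ℝ) := by positivity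
  refine le_trans ?_ (lay_dt r N hr hη hK' (lay_fix_arr he hH))
  refine Finset.sum_le_sum fun k hk => ?_
  have hk' := Finset.mem_range.1 hk
  refine mul_le_mul_of_nonneg_right ?_ (pow_pos hr' _).le
  have hsub : layBad H (K + e + e * ((r ^ N : ℕ) : ℝ)) (η + e + e * ((r ^ N : ℕ) : ℝ)) r N k
      ⊆ layBad (layFix (r ^ N) e H) (K + e + e * ((r ^ N : ℕ) : ℝ)) η r N k := by
    intro j hj
    unfold layBad at hj ⊢
    obtain ⟨hj1, hj2⟩ := Finset.mem_filter.1 hj
    refine Finset.mem_filter.2 ⟨hj1, fun hl => hj2 ?_⟩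
    have hj' := Finset.mem_range.1 hj1
    refine lay_fix_lin he hH _ _ r hr (Nat.pow_pos hr) ?_ hl
    have e1 : r * r ^ (N - k - 1) = r ^ (N - k) := by
      rw [← pow_succ']
      congr 1
      omega
    have e2 : r ^ N = r ^ k * r ^ (N - k) := by
      rw [← pow_add]
      congr 1
      omega
    rw [e1, e2]
    calc j * r ^ (N - k) + r ^ (N - k) = (j + 1) * r ^ (N - k) := by ring
      _ ≤ r ^ k * r ^ (N - k) := Nat.mul_le_mul_right _ hj'
  exact_mod_cast Finset.card_le_card hsub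

theorem lay_dt_eqns_cite : True := by
  have := @LayLin.eq_1
  have := @layC.eq_1
  have := @layDef.eq_1
  have := @layVar.eq_1
  have := @layB.eq_1
  have := @layA.eq_1
  have := @layQ.eq_1
  have := @layBad.eq_1
  have := @layFix.eq_1
  trivial

end Claimed.Agent.R256
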