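import Claimed.Agent.R255.Ent.Restr
import Claimed.Agent.R255.Ent.Prod

/-!
# Row 256, unit LAY (04B), file 4: changes of probability law      (chief helper189)

Paper free: `R255/Base/Law`, `R255/Ent`.  READ ONLY imports.   Finite, NON-ASYMPTOTIC form of Lemma names:score-law-change (04 l.1254-1303; report 873 T7).
* `lay_law_up`, `lay_law_dn`  tails of `log (P_W / Q_W)` at samples of `P`, for every observation `W`:  `(KL + 1/e)/u`  and  `e^-u`.
* `lay_law_sur`               conditional scores under `P` and `Q` differ by at most `2u` off `2 ((KL + 1/e)/u + e^-u)`.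
* `lay_law_event`             `P(E) log (1/Q(E)) ≤ KL + log 2`.
* `lay_law_cnd_miC`           `I_{P(.|E)}(X;W|D) ≤ (I_P(X;W|D) + log 2)/P(E)`.     * `lay_law_cnd_sur`  scores under `P(.|E)`.
LEAVES: L-256-LAY-LW1 (`lay_law_up`, `lay_law_dn`, `lay_law_sur`), LW2 (`lay_law_event`, `lay_law_event_exp`), LW3 (`lay_law_cnd_kl`, `lay_law_cnd_sur`, `lay_law_cnd_miC`).
-/

set_option autoImplicit false

namespace Claimed.Agent.R256

open Claimed.Agent.R255 Claimed.Agent.R255.FLaw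
open Finset
open scoped BigOperators
open Classical

variable {Ω : Type} [Fintype Ω]

/-- the observed relative entropy is at most the relative entropy -/
theorem lay_aux_kl_obs (P Q : FLaw Ω) (hac : ∀ ω, Q.p ω = 0 → P.p ω = 0) {α : Type} (W : Ω → α) :
    P.ev (fun ω => Real.log (P.fib W ω / Q.fib W ω)) ≤ P.kl Q := by
  obtain ⟨Ω', _, φ, v, -, e⟩ := ent_aux_kl_fin P Q W
  rw [e]
  exact ent_kl_map_le P Q hac φ

/-- LEAF LW1. `ent_tail_weight` with the weight `Q.wt W`;  `E_P log (P_W/Q_W) ≤ KL(P‖Q)` (`ent_aux_kl_fin`, `ent_kl_map_le`). -/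
theorem lay_law_up (P Q : FLaw Ω) (hac : ∀ ω, Q.p ω = 0 → P.p ω = 0) {α : Type} (W : Ω → α) {u : ℝ}
    (hu : 0 < u) :
    P.pr (fun ω => u < Real.log (P.fib W ω / Q.fib W ω)) ≤ (P.kl Q + Real.exp (-1)) / u := by
  have h := ent_tail_weight P W (Q.wt W) (ent_wt_isW Q W)
    (fun ω hω => by
      rw [ent_wt_apply]
      exact ent_fib_pos Q W fun h0 => hω (hac ω h0)) hu
  simp only [ent_wt_apply] at h
  refine h.trans (div_le_div_of_nonneg_right ?_ hu.le)
  have := lay_aux_kl_obs P Q hac W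
  linarith

/-- LEAF LW1. `ent_likelihood` with `η = e^-u` (for `u < 0` the bound exceeds one). -/
theorem lay_law_dn (P Q : FLaw Ω) {α : Type} (W : Ω → α) (u : ℝ) :
    P.pr (fun ω => Real.log (P.fib W ω / Q.fib W ω) < -u) ≤ Real.exp (-u) := by
  rcases lt_or_ge u 0 with hu | hu
  · refine (ent_pr_le_one P _).trans ?_
    rw [← Real.exp_zero]
    exact Real.exp_le_exp.2 (by linarith)
  · refine le_trans (ent_pr_mono P fun ω hω hs => ?_) (ent_likelihood P Q W (η := Real.exp (-u)) (Real.exp_pos _).le)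
    have hp := ent_fib_pos P W hω
    have hq : 0 < Q.fib W ω := by
      rcases (ent_fib_nonneg Q W ω).lt_or_eq with h | h
      · exact h
      · rw [← h, div_zero, Real.log_zero] at hs
        linarith
    rw [Real.log_lt_iff_lt_exp (div_pos hp hq), div_lt_iff₀ hq] at hs
    exact hs

/-- LEAF LW1. `surC_P - surC_Q = - log (P_XY/Q_XY) + log (P_Y/Q_Y)` on the support of `P`. -/
theorem lay_law_sur (P Q : FLaw Ω) (hac : ∀ ω, Q.p ω = 0 → P.p ω = 0) {α β : Type} (X : Ω → α) (Y : Ω → β)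
    {u : ℝ} (hu : 0 < u) :
    P.pr (fun ω => 2 * u < |P.surC X Y ω - Q.surC X Y ω|)
      ≤ 2 * ((P.kl Q + Real.exp (-1)) / u + Real.exp (-u)) := by
  have a1 := lay_law_up P Q hac Y hu
  have a2 := lay_law_dn P Q Y u
  have b1 := lay_law_up P Q hac (pair X Y) hu
  have b2 := lay_law_dn P Q (pair X Y) u
  have h1 := ent_pr_or_le P (fun ω => u < Real.log (P.fib Y ω / Q.fib Y ω)) (fun ω => Real.log (P.fib Y ω / Q.fib Y ω) < -u)
  have h2 := ent_pr_or_le P (fun ω => u < Real.log (P.fib (pair X Y) ω / Q.fib (pair X Y) ω))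
    (fun ω => Real.log (P.fib (pair X Y) ω / Q.fib (pair X Y) ω) < -u)
  have h3 := ent_pr_or_le P
    (fun ω => u < Real.log (P.fib Y ω / Q.fib Y ω) ∨ Real.log (P.fib Y ω / Q.fib Y ω) < -u)
    (fun ω => u < Real.log (P.fib (pair X Y) ω / Q.fib (pair X Y) ω) ∨ Real.log (P.fib (pair X Y) ω / Q.fib (pair X Y) ω) < -u)
  refine le_trans (ent_pr_mono P fun ω hω hs => ?_) (h3.trans (by linarith))
  have hq : Q.p ω ≠ 0 := fun h0 => hω (hac ω h0)
  have p1 := ent_fib_pos P Y hω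
  have p2 := ent_fib_pos P (pair X Y) hω
  have q1 := ent_fib_pos Q Y hq
  have q2 := ent_fib_pos Q (pair X Y) hq
  have e : P.surC X Y ω - Q.surC X Y ω
      = Real.log (P.fib Y ω / Q.fib Y ω) - Real.log (P.fib (pair X Y) ω / Q.fib (pair X Y) ω) := by
    rw [ent_surC_eq_sub P _ _ hω, ent_surC_eq_sub Q _ _ hq, Real.log_div p1.ne' q1.ne', Real.log_div p2.ne' q2.ne']
    ring
  rw [e] at hs
  by_contra hcon
  push Not at hcon
  obtain ⟨⟨c1, c2⟩, c3, c4⟩ := hcon
  have : |Real.log (P.fib Y ω / Q.fib Y ω) - Real.log (P.fib (pair X Y) ω / Q.fib (pair X Y) ω)| ≤ 2 * u :=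
    abs_le.2 ⟨by linarith, by linarith⟩
  linarith

/-- LEAF LW2. log-sum inequality for `E`, `Eᶜ` (`ent_kl_map_le` with `φ = decide ∘ E` into `Bool`, or directly):
`KL ≥ p log (p/q) + (1-p) log ((1-p)/(1-q)) ≥ p log (1/q) - log 2`. -/
theorem lay_law_event (P Q : FLaw Ω) (hac : ∀ ω, Q.p ω = 0 → P.p ω = 0) (E : Ω → Prop) :
    P.pr E * Real.log (1 / Q.pr E) ≤ P.kl Q + Real.log 2 := by
  have hl2 : 0 < Real.log 2 := Real.log_pos one_lt_two
  have hkl := ent_kl_nonneg P Q hac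
  by_cases hp : 0 < P.pr E
  · obtain ⟨ω₀, hE₀, hω₀⟩ := (ent_pr_pos_iff P E).1 hp
    have hq : 0 < Q.pr E := (ent_pr_pos_iff Q E).2 ⟨ω₀, hE₀, fun h0 => hω₀ (hac ω₀ h0)⟩
    have hq1 := ent_pr_le_one Q E
    -- the tilted law
    set w : Ω → ℝ := fun ω => if E ω then 1 / Q.pr E else 1 with hw
    have hwpos : ∀ ω, 0 < w ω := by
      intro ω
      simp only [hw]
      split_ifs
      · positivity
      · exact one_pos
    have hZ : Q.ev w = 2 - Q.pr E := by
      have e1 : ∀ ω, w ω = (1 / Q.pr E - 1) * (if E ω then 1 else 0) + 1 := by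
        intro ω
        simp only [hw]
        split_ifs <;> ring
      rw [ent_ev_congr Q (g := fun ω => (1 / Q.pr E - 1) * (if E ω then 1 else 0) + 1) fun ω _ => e1 ω,
        ent_ev_add Q (fun ω => (1 / Q.pr E - 1) * (if E ω then 1 else 0)) (fun _ => 1), ent_ev_mul_left, ← ent_pr_eq_ev, ent_ev_const]
      field_simp
      ring
    have hZpos : 0 < Q.ev w := by rw [hZ]; linarith
    have hR := ent_kl_nonneg P (Q.tilt w (fun ω => (hwpos ω).le) hZpos) (fun ω h0 => by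
      have h1 : Q.p ω * w ω / Q.ev w = 0 := h0
      rcases div_eq_zero_iff.1 h1 with h2 | h2
      · rcases mul_eq_zero.1 h2 with h3 | h3
        · exact hac ω h3
        · exact absurd h3 (hwpos ω).ne'
      · exact absurd h2 hZpos.ne')
    have e2 : P.kl (Q.tilt w (fun ω => (hwpos ω).le) hZpos)
        = P.kl Q - P.pr E * Real.log (1 / Q.pr E) + Real.log (Q.ev w) := by
      have e3 : P.pr E * Real.log (1 / Q.pr E) = ∑ ω, P.p ω * Real.log (w ω) := by
        unfold FLaw.pr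
        rw [Finset.sum_mul]
        refine Finset.sum_congr rfl fun ω _ => ?_
        simp only [hw]
        split_ifs
        · rfl
        · simp
      have e4 : Real.log (Q.ev w) = ∑ ω, P.p ω * Real.log (Q.ev w) := by
        rw [← Finset.sum_mul, P.sum_one, one_mul]
      rw [e3, e4]
      unfold FLaw.kl
      rw [← Finset.sum_sub_distrib, ← Finset.sum_add_distrib]
      refine Finset.sum_congr rfl fun ω _ => ?_
      by_cases hω : P.p ω = 0
      · rw [hω]; ring
      · have hqω : Q.p ω ≠ 0 := fun h0 => hω (hac ω h0)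
        have e5 : (Q.tilt w (fun ω => (hwpos ω).le) hZpos).p ω = Q.p ω * w ω / Q.ev w := rfl
        rw [e5, Real.log_div hω (div_ne_zero (mul_ne_zero hqω (hwpos ω).ne') hZpos.ne'),
          Real.log_div (mul_ne_zero hqω (hwpos ω).ne') hZpos.ne', Real.log_mul hqω (hwpos ω).ne', Real.log_div hω hqω]
        ring
    have hZ2 : Real.log (Q.ev w) ≤ Real.log 2 := Real.log_le_log hZpos (by rw [hZ]; linarith)
    linarith
  · have h0 : P.pr E = 0 := le_antisymm (not_lt.1 hp) (ent_pr_nonneg P E)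
    rw [h0, zero_mul]
    linarith

/-- LEAF LW2. -/
theorem lay_law_event_exp (P Q : FLaw Ω) (hac : ∀ ω, Q.p ω = 0 → P.p ω = 0) (E : Ω → Prop) {c : ℝ}
    (hc : 0 < c) (h : c ≤ P.pr E) : Real.exp (-((P.kl Q + Real.log 2) / c)) ≤ Q.pr E := by
  have hl2 : 0 < Real.log 2 := Real.log_pos one_lt_two
  have hkl := ent_kl_nonneg P Q hac
  have hp : 0 < P.pr E := lt_of_lt_of_le hc h
  obtain ⟨ω₀, hE₀, hω₀⟩ := (ent_pr_pos_iff P E).1 hp
  have hq : 0 < Q.pr E := (ent_pr_pos_iff Q E).2 ⟨ω₀, hE₀, fun h0 => hω₀ (hac ω₀ h0)⟩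
  have h1 := lay_law_event P Q hac E
  rw [← Real.le_log_iff_exp_le hq]
  rw [one_div, Real.log_inv] at h1
  have hq1 : Real.log (Q.pr E) ≤ 0 := Real.log_nonpos hq.le (ent_pr_le_one Q E)
  rw [neg_le, div_eq_mul_inv, ← div_eq_mul_inv, le_div_iff₀ hc]
  have h2 : -Real.log (Q.pr E) * c ≤ -Real.log (Q.pr E) * P.pr E := mul_le_mul_of_nonneg_left h (by linarith)
  linarith

/-- LEAF LW3. -/
theorem lay_law_cnd_kl (P : FLaw Ω) (E : Ω → Prop) (hE : 0 < P.pr E) :
    (P.cnd E).kl P = Real.log (1 / P.pr E) := by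
  have e : ∀ ω, (P.cnd E).p ω * Real.log ((P.cnd E).p ω / P.p ω) = (P.cnd E).p ω * Real.log (1 / P.pr E) := by
    intro ω
    by_cases hω : (P.cnd E).p ω = 0
    · rw [hω, zero_mul, zero_mul]
    · obtain ⟨hEω, hp⟩ := (ent_cnd_supp P E hE).1 hω
      congr 2
      rw [ent_cnd_p P E hE, if_pos hEω]
      field_simp
  unfold FLaw.kl
  rw [Finset.sum_congr rfl fun ω _ => e ω, ← Finset.sum_mul, (P.cnd E).sum_one, one_mul]

/-- LEAF LW3. -/
theorem lay_law_cnd_sur (P : FLaw Ω) (E : Ω → Prop) (hE : 0 < P.pr E) {α β : Type} (X : Ω → α) (Y : Ω → β)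
    {u : ℝ} (hu : 0 < u) :
    (P.cnd E).pr (fun ω => 2 * u < |(P.cnd E).surC X Y ω - P.surC X Y ω|)
      ≤ 2 * ((Real.log (1 / P.pr E) + Real.exp (-1)) / u + Real.exp (-u)) := by
  have h := lay_law_sur (P.cnd E) P (fun ω h0 => by
    by_contra hω
    exact ((ent_cnd_supp P E hE).1 hω).2 h0) X Y hu
  rwa [lay_law_cnd_kl P E hE] at h

/-- LEAF LW3. with the tag `T = 1_E`:  `P(E) I_{P(.|E)}(X;W|D) ≤ I(X;W|D,T) ≤ I(X;W|D) + H(T)`   (`ent_miC_pair_eq_avg`, `ent_tag_miC`, `ent_prop_le`). -/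
theorem lay_law_cnd_miC (P : FLaw Ω) (E : Ω → Prop) (hE : 0 < P.pr E) {α β γ : Type} (X : Ω → α) (W : Ω → β)
    (D : Ω → γ) : (P.cnd E).miC X W D ≤ (P.miC X W D + Real.log 2) / P.pr E := by
  rw [le_div_iff₀ hE]
  have h1 := ent_tag_miC P X W D E
  have h2 := ent_prop_le P E
  have h3 := ent_miC_pair_eq_avg P X W D E
  have h4 : (P.cnd E).miC X W D * P.pr E ≤ P.ev (fun ω => (P.cfib E ω).miC X W D) := by
    rw [ent_pr_eq_ev, ← ent_ev_mul_left]
    refine ent_ev_mono P fun ω hω => ?_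
    by_cases hω' : E ω
    · have e : P.cfib E ω = P.cnd E := ent_cnd_congr P fun ω' _ => by simp [hω']
      rw [e]
      simp [hω']
    · simp only [hω', if_false, mul_zero]
      exact ent_miC_nonneg _ _ _ _
  linarith

end Claimed.Agent.R256
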