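import Claimed.Agent.R256.Lay.Dt
import Claimed.Agent.R255.Ent.Restr
import Claimed.Agent.R255.Ent.Prod

/-!
# Row 256, unit LAY (04B), file 3: scores of individual outcomes on ONE finite law      (chief helper189)

Paper free: `R255/Base/Law`, `R255/Ent` (`surC`, `NVal`, `ent_surC_chain`, `ent_surC_tail`, `ent_likelihood`), `Lay/Dt`.  READ ONLY imports.
Finite form of Lemma names:score-limits, Cor. names:score-future-prefix  (04 l.1084-1252; reports 873 T4, T6).  No limit law, no tightness, no a.e. layer.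

The score of the name `A q` given `(F u, D)` at the sample `ω`, in units of `Lu` (= log-size of ONE grid step), is `P.surC (A q) (pair (F u) D) ω / Lu`.
* `lay_lp`        (LP)  refining the conditioning raises a score by more than `t` only with probability `≤ e^-t`.
* `lay_list_swap`       a listed name may be added to / removed from the conditioning at the price `log N + t`, off `2 e^-t`.
* `lay_sco_arr`         off probability `4 (n+1)^4 e^-t` the random array is an approximate score array `LayArrE n K e` of `Lay/Dt`.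
* `lay_dt_rand`         DT averaged over the sample:  `∑_k ∑_j P{block (k,j) not linear} r^(N-k) ≤ (C(K',η) + N P{not an array}) r^N`.
* `lay_future`          on a block which is `η`-linear for `V` and for `(U,V)`:  score of `U_{p+jS}` given `F_p`, the FUTURE `V_{p+rS}`, `D`  `= (j/r) (H_UV - H_V)(block) ± (7 η r S + 4 e)`.
LEAVES: L-256-LAY-SC1 (`lay_lp`, `lay_list_swap`, `lay_sur_incr`), SC2 (`lay_sco_arr`), SC3 (`lay_dt_rand`, `lay_dt_rand_level`), SC4 (`lay_future`).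
-/

set_option autoImplicit false

namespace Claimed.Agent.R256

open Claimed.Agent.R255 Claimed.Agent.R255.FLaw
open Finset
open scoped BigOperators
open Classical

variable {Ω : Type} [Fintype Ω]

/-- helper of `lay_lp`: likelihood threshold against a comparison weight (as `ent_likelihood_weight` of `R255/Ent/Star`, which is not imported here) -/
theorem lay_lp_aux_weight (U : FLaw Ω) {γ : Type} (C : Ω → γ) (q : γ → ℝ) (hq : IsW q) {η : ℝ}
    (hη : 0 ≤ η) : U.pr (fun ω => U.fib C ω < η * q (C ω)) ≤ η := by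
  obtain ⟨S, hS⟩ : ∃ S : Finset γ, S = Finset.univ.image C := ⟨_, rfl⟩
  have hSmem : ∀ ω, C ω ∈ S := fun ω => hS ▸ Finset.mem_image_of_mem _ (Finset.mem_univ ω)
  rw [ent_pr_sum_values U _ C S fun ω _ _ => hSmem ω]
  have h1 : ∀ c ∈ S, U.pr (fun ω => U.fib C ω < η * q (C ω) ∧ C ω = c) ≤ η * q c := by
    intro c _
    by_cases hex : ∃ ω, U.fib C ω < η * q (C ω) ∧ C ω = c
    · obtain ⟨ω, hω, rfl⟩ := hex
      exact le_trans (ent_pr_mono U fun ω' _ h => h.2) hω.le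
    · push Not at hex
      rw [ent_pr_eq_zero U fun ω _ h => hex ω h.1 h.2]
      exact mul_nonneg hη (hq.1 _)
  refine (Finset.sum_le_sum h1).trans ?_
  rw [← Finset.mul_sum]
  calc η * ∑ c ∈ S, q c ≤ η * 1 := mul_le_mul_of_nonneg_left (hq.2 S) hη
    _ = η := mul_one η

/-- helper of `lay_lp`: the conditional law of `X` given `C = b` is a weight -/
theorem lay_lp_aux_condW (P : FLaw Ω) {α β : Type} (X : Ω → α) (C : Ω → β) (b : β) :
    IsW (fun x => P.pr (fun ω => X ω = x ∧ C ω = b) / P.pr (fun ω => C ω = b)) := by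
  refine ⟨fun x => div_nonneg (ent_pr_nonneg _ _) (ent_pr_nonneg _ _), fun S => ?_⟩
  rw [← Finset.sum_div]
  by_cases h0 : P.pr (fun ω => C ω = b) = 0
  · rw [h0, div_zero]
    exact zero_le_one
  · have hpos : 0 < P.pr (fun ω => C ω = b) := lt_of_le_of_ne (ent_pr_nonneg _ _) (Ne.symm h0)
    rw [div_le_one hpos]
    have h1 := ent_pr_sum_values P (fun ω => C ω = b ∧ X ω ∈ S) X S (fun ω _ h => h.2)
    have h2 : ∑ x ∈ S, P.pr (fun ω => (C ω = b ∧ X ω ∈ S) ∧ X ω = x) = ∑ x ∈ S, P.pr (fun ω => X ω = x ∧ C ω = b) := by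
      refine Finset.sum_congr rfl fun x hx => ent_pr_congr P fun ω _ =>
        ⟨fun h => ⟨h.2, h.1.1⟩, fun h => ⟨⟨h.2, h.1 ▸ hx⟩, h.1⟩⟩
    rw [← h2, ← h1]
    exact ent_pr_mono P fun ω _ h => h.1

/-- LEAF SC1. **(LP)**  `C = g ∘ C'` is coarser than `C'`.   `∑ over the values with P(x|c') < e^-t P(x|c)` of `P(c') P(x|c') ≤ e^-t`.
(`ent_likelihood`-type argument, or `ent_markov` for `P(x|c)/P(x|c')`, whose mean is `≤ 1`.) -/
theorem lay_lp (P : FLaw Ω) {α β γ : Type} (X : Ω → α) (C : Ω → β) (C' : Ω → γ) (g : γ → β)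
    (hg : ∀ ω, C ω = g (C' ω)) (t : ℝ) :
    P.pr (fun ω => P.surC X C ω + t < P.surC X C' ω) ≤ Real.exp (-t) := by
  have hq : IsW (fun x : α × γ => P.wt C' x.2 *
      (P.pr (fun ω => X ω = x.1 ∧ C ω = g x.2) / P.pr (fun ω => C ω = g x.2))) :=
    ent_aux_isW_skew (ent_wt_isW P C')
      (μ := fun c' x => P.pr (fun ω => X ω = x ∧ C ω = g c') / P.pr (fun ω => C ω = g c'))
      (fun c' => lay_lp_aux_condW P X C (g c'))
  refine le_trans (ent_pr_mono P fun ω hω hs => ?_) (lay_lp_aux_weight P (pair X C') _ hq (Real.exp_pos (-t)).le)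
  have e1 := ent_exp_neg_surC P X C hω
  have e2 := ent_exp_neg_surC P X C' hω
  have hlt : Real.exp (- P.surC X C' ω) < Real.exp (-t) * Real.exp (- P.surC X C ω) := by
    rw [← Real.exp_add]
    exact Real.exp_lt_exp.2 (by linarith)
  rw [e1, e2, div_lt_iff₀ (ent_fib_pos P C' hω)] at hlt
  have e3 : P.pr (fun ω' => X ω' = X ω ∧ C ω' = g (C' ω)) = P.fib (pair X C) ω := by
    rw [← hg ω, ent_fib_pair]
  have e4 : P.pr (fun ω' => C ω' = g (C' ω)) = P.fib C ω := by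
    rw [← hg ω]
    rfl
  show P.fib (pair X C') ω < Real.exp (-t) * (P.wt C' (C' ω) *
      (P.pr (fun ω' => X ω' = X ω ∧ C ω' = g (C' ω)) / P.pr (fun ω' => C ω' = g (C' ω))))
  rw [e3, e4, ent_wt_apply]
  calc P.fib (pair X C') ω < Real.exp (-t) * (P.fib (pair X C) ω / P.fib C ω) * P.fib C' ω := hlt
    _ = Real.exp (-t) * (P.fib C' ω * (P.fib (pair X C) ω / P.fib C ω)) := by ring

/-- LEAF SC1. `W` has at most `N` values over each value of `C`:
`surC X (W, C) - surC X C = surC W (X, C) - surC W C ∈ [-(log N + t), log N + t]` off `2 e^-t`  (`ent_surC_chain` twice, `ent_surC_tail`, `ent_surC_nonneg`). -/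
theorem lay_list_swap (P : FLaw Ω) {α β γ : Type} (X : Ω → α) (W : Ω → β) (C : Ω → γ) {N : ℝ} (hN : 1 ≤ N)
    (h : P.NVal (fun _ => True) W C N) (t : ℝ) :
    P.pr (fun ω => Real.log N + t < |P.surC X (pair W C) ω - P.surC X C ω|) ≤ 2 * Real.exp (-t) := by
  have hN0 : 0 < N := by linarith
  have h' : P.NVal (fun _ => True) W (pair X C) N := by
    intro ω₀
    obtain ⟨S, hS1, hS2⟩ := h ω₀
    exact ⟨S, hS1, fun ω hω hT he => hS2 ω hω hT (congrArg Prod.snd he)⟩
  have t1 := ent_surC_tail P W C hN0 h t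
  have t2 := ent_surC_tail P W (pair X C) hN0 h' t
  have hor := ent_pr_or_le P (fun ω => Real.log N + t < P.surC W C ω) (fun ω => Real.log N + t < P.surC W (pair X C) ω)
  refine le_trans (ent_pr_mono P fun ω hω hs => ?_) (hor.trans (by linarith))
  have e := ent_surC_swap P X W C hω
  have n1 := ent_surC_nonneg P W C hω
  have n2 := ent_surC_nonneg P W (pair X C) hω
  have e' : P.surC X (pair W C) ω - P.surC X C ω = P.surC W (pair X C) ω - P.surC W C ω := by linarith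
  rw [e'] at hs
  by_contra hcon
  push Not at hcon
  have : |P.surC W (pair X C) ω - P.surC W C ω| ≤ Real.log N + t := by
    rw [abs_le]
    constructor <;> linarith [hcon.1, hcon.2]
  linarith

/-- LEAF SC1. the increment identity on the support -/
theorem lay_sur_incr (P : FLaw Ω) {α β γ : Type} (A : Ω → α) (B : Ω → β) (C : Ω → γ) {ω : Ω} (h : P.p ω ≠ 0) :
    P.surC B C ω - P.surC A C ω = P.surC B (pair A C) ω - P.surC A (pair B C) ω := by
  exact ent_surC_swap P B A C h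

/-- refining the conditioning keeps a list bound -/
theorem lay_nval_refine (P : FLaw Ω) {α β γ : Type} {B : Ω → β} {A : Ω → α} {A' : Ω → γ} {N : ℝ}
    (h : P.NVal (fun _ => True) B A N) (hg : ∀ ω ω', A' ω = A' ω' → A ω = A ω') :
    P.NVal (fun _ => True) B A' N := by
  intro ω₀
  obtain ⟨S, hS, hm⟩ := h ω₀
  exact ⟨S, hS, fun ω hp hE hA => hm ω hp hE (hg _ _ hA)⟩

/-- the deterministic half of `lay_sco_arr` -/
theorem lay_sco_arr_det (P : FLaw Ω) {α φ δ : Type} (A : ℕ → Ω → α) (F : ℕ → Ω → φ) (D : Ω → δ) (n : ℕ)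
    (N0 N1 K e t Lu : ℝ) (hLu : 0 < Lu) (hN0 : 1 ≤ N0) (ht : 0 ≤ t)
    (hK : Real.log N1 ≤ K * Lu) (he : Real.log N0 + 2 * t ≤ e * Lu) {ω : Ω} (hω : P.p ω ≠ 0)
    (h1 : ∀ u u' a b, u ≤ u' → u' ≤ n → a ≤ n → b ≤ n →
      P.surC (A b) (pair (A a) (pair (F u') D)) ω ≤ P.surC (A b) (pair (A a) (pair (F u) D)) ω + t)
    (h2 : ∀ u a b, u ≤ n → a ≤ b → b ≤ n → P.surC (A a) (pair (A b) (pair (F u) D)) ω ≤ Real.log N0 + t)
    (h3 : ∀ u q, u ≤ n → q < n → P.surC (A (q + 1)) (pair (A q) (pair (F u) D)) ω ≤ Real.log N1 + t)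
    (h4 : ∀ u, u ≤ n → P.surC (A u) (pair (F u) D) ω ≤ Real.log N0 + t) :
    LayArrE n K e (fun q u => P.surC (A q) (pair (F u) D) ω / Lu) := by
  have hl0 : 0 ≤ Real.log N0 := Real.log_nonneg hN0
  have he0 : 0 ≤ e := by
    by_contra hneg
    have : e * Lu < 0 := mul_neg_of_neg_of_pos (not_le.1 hneg) hLu
    linarith
  refine ⟨fun u hu => ?_, fun u q huq hq => ?_, fun u q huq hq => ?_, fun u u' a b huu hua hab hb => ?_⟩
  · have a1 := ent_surC_nonneg P (A u) (pair (F u) D) hω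
    have a2 := h4 u hu
    rw [abs_of_nonneg (div_nonneg a1 hLu.le), div_le_iff₀ hLu]
    linarith
  · have a1 := ent_surC_swap P (A (q + 1)) (A q) (pair (F u) D) hω
    have a2 := ent_surC_nonneg P (A (q + 1)) (pair (A q) (pair (F u) D)) hω
    have a3 := h2 u q (q + 1) (by omega) (by omega) (by omega)
    rw [← sub_div, le_div_iff₀ hLu]
    linarith
  · have a1 := ent_surC_swap P (A (q + 1)) (A q) (pair (F u) D) hω
    have a2 := ent_surC_nonneg P (A q) (pair (A (q + 1)) (pair (F u) D)) hω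
    have a3 := h3 u q (by omega) hq
    rw [← sub_div, div_le_iff₀ hLu]
    nlinarith
  · have a1 := ent_surC_swap P (A b) (A a) (pair (F u') D) hω
    have a2 := ent_surC_swap P (A b) (A a) (pair (F u) D) hω
    have a3 := ent_surC_nonneg P (A a) (pair (A b) (pair (F u') D)) hω
    have a4 := h1 u u' a b huu (by omega) (by omega) hb
    have a5 := h2 u a b (by omega) hab hb
    rw [← sub_div, ← sub_div, div_add' _ _ _ hLu.ne', div_le_div_iff_of_pos_right hLu]
    linarith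

/-- LEAF SC2. **the random score array is an approximate score array.**
`hnest` coarser names are listed by finer ones, `hcap` capacity of one step, `hdiag` `(F u, D)` lists `A u`, `hF` the conditioning array is exactly nested.
Exceptional events: (LP) for `(u,u',a,b)`: `(n+1)^4`;  `surC (A a) (A b, F u, D) > log N0 + t`: `(n+1)^3`;  `surC (A (q+1)) (A q, F u, D) > log N1 + t`: `(n+1)^2`;  diagonal: `n+1`.
`incr`:  `H b u' - H a u' ≤ surC (A b)(A a, F u', D) ≤ surC (A b)(A a, F u, D) + t = H b u - H a u + surC (A a)(A b, F u, D) + t`   (`lay_sur_incr`). -/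
theorem lay_sco_arr (P : FLaw Ω) {α φ δ : Type} (A : ℕ → Ω → α) (F : ℕ → Ω → φ) (D : Ω → δ) (n : ℕ)
    (N0 N1 K e t Lu : ℝ) (hLu : 0 < Lu) (hN0 : 1 ≤ N0) (hN1 : 1 ≤ N1) (ht : 0 ≤ t)
    (hnest : ∀ a b, a ≤ b → b ≤ n → P.NVal (fun _ => True) (A a) (A b) N0)
    (hcap : ∀ q, q < n → P.NVal (fun _ => True) (A (q + 1)) (pair (A q) D) N1)
    (hdiag : ∀ u, u ≤ n → P.NVal (fun _ => True) (A u) (pair (F u) D) N0)
    (hF : ∀ u u', u ≤ u' → u' ≤ n → ∃ f : φ → φ, ∀ ω, F u ω = f (F u' ω))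
    (hK : Real.log N1 ≤ K * Lu) (he : Real.log N0 + 2 * t ≤ e * Lu) :
    P.pr (fun ω => ¬ LayArrE n K e (fun q u => P.surC (A q) (pair (F u) D) ω / Lu))
      ≤ 4 * ((n : ℝ) + 1) ^ 4 * Real.exp (-t) := by
  have hN0' : 0 < N0 := by linarith
  have hN1' : 0 < N1 := by linarith
  have hx : 0 ≤ Real.exp (-t) := (Real.exp_pos _).le
  let E1 : ℕ × ℕ × ℕ × ℕ → Ω → Prop := fun i ω => i.1 ≤ i.2.1 ∧
    P.surC (A i.2.2.2) (pair (A i.2.2.1) (pair (F i.1) D)) ω + t
      < P.surC (A i.2.2.2) (pair (A i.2.2.1) (pair (F i.2.1) D)) ω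
  let E2 : ℕ × ℕ × ℕ → Ω → Prop := fun i ω => i.2.1 ≤ i.2.2 ∧
    Real.log N0 + t < P.surC (A i.2.1) (pair (A i.2.2) (pair (F i.1) D)) ω
  let E3 : ℕ × ℕ → Ω → Prop := fun i ω => i.2 < n ∧
    Real.log N1 + t < P.surC (A (i.2 + 1)) (pair (A i.2) (pair (F i.1) D)) ω
  let E4 : ℕ → Ω → Prop := fun u ω => Real.log N0 + t < P.surC (A u) (pair (F u) D) ω
  have p1 : ∀ i ∈ range (n + 1) ×ˢ range (n + 1) ×ˢ range (n + 1) ×ˢ range (n + 1), P.pr (E1 i) ≤ Real.exp (-t) := by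
    rintro ⟨u, u', a, b⟩ hi
    simp only [Finset.mem_product, Finset.mem_range] at hi
    by_cases huu : u ≤ u'
    · obtain ⟨f, hf⟩ := hF u u' huu (by omega)
      refine le_trans (ent_pr_mono P fun ω _ h => h.2) (lay_lp P (A b) (pair (A a) (pair (F u) D))
        (pair (A a) (pair (F u') D)) (fun x => (x.1, (f x.2.1, x.2.2))) (fun ω => ?_) t)
      simp only [FLaw.pair, hf ω]
    · rw [ent_pr_eq_zero P fun ω _ h => huu h.1]
      exact hx
  have p2 : ∀ i ∈ range (n + 1) ×ˢ range (n + 1) ×ˢ range (n + 1), P.pr (E2 i) ≤ Real.exp (-t) := by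
    rintro ⟨u, a, b⟩ hi
    simp only [Finset.mem_product, Finset.mem_range] at hi
    by_cases hab : a ≤ b
    · refine le_trans (ent_pr_mono P fun ω _ h => h.2) (ent_surC_tail P (A a) (pair (A b) (pair (F u) D)) hN0'
        (lay_nval_refine P (hnest a b hab (by omega)) fun ω ω' h => ?_) t)
      exact congrArg Prod.fst h
    · rw [ent_pr_eq_zero P fun ω _ h => hab h.1]
      exact hx
  have p3 : ∀ i ∈ range (n + 1) ×ˢ range (n + 1), P.pr (E3 i) ≤ Real.exp (-t) := by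
    rintro ⟨u, q⟩ hi
    by_cases hq : q < n
    · refine le_trans (ent_pr_mono P fun ω _ h => h.2) (ent_surC_tail P (A (q + 1)) (pair (A q) (pair (F u) D)) hN1'
        (lay_nval_refine P (hcap q hq) fun ω ω' h => ?_) t)
      simp only [FLaw.pair, Prod.mk.injEq] at h ⊢
      exact ⟨h.1, h.2.2⟩
    · rw [ent_pr_eq_zero P fun ω _ h => hq h.1]
      exact hx
  have p4 : ∀ u ∈ range (n + 1), P.pr (E4 u) ≤ Real.exp (-t) := by
    intro u hu
    exact ent_surC_tail P (A u) (pair (F u) D) hN0' (hdiag u (by have := Finset.mem_range.1 hu; omega)) t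
  have q1 := (ent_pr_exists_le P _ E1).trans (Finset.sum_le_card_nsmul _ _ _ p1)
  have q2 := (ent_pr_exists_le P _ E2).trans (Finset.sum_le_card_nsmul _ _ _ p2)
  have q3 := (ent_pr_exists_le P _ E3).trans (Finset.sum_le_card_nsmul _ _ _ p3)
  have q4 := (ent_pr_exists_le P _ E4).trans (Finset.sum_le_card_nsmul _ _ _ p4)
  simp only [Finset.card_product, Finset.card_range, nsmul_eq_mul] at q1 q2 q3 q4
  push_cast at q1 q2 q3 q4
  have hmono : P.pr (fun ω => ¬ LayArrE n K e (fun q u => P.surC (A q) (pair (F u) D) ω / Lu))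
      ≤ P.pr (fun ω => ((∃ i ∈ range (n + 1) ×ˢ range (n + 1) ×ˢ range (n + 1) ×ˢ range (n + 1), E1 i ω) ∨
          (∃ i ∈ range (n + 1) ×ˢ range (n + 1) ×ˢ range (n + 1), E2 i ω)) ∨
          ((∃ i ∈ range (n + 1) ×ˢ range (n + 1), E3 i ω) ∨ (∃ u ∈ range (n + 1), E4 u ω))) := by
    refine ent_pr_mono P fun ω hω hnot => ?_
    by_contra hcon
    push Not at hcon
    obtain ⟨⟨c1, c2⟩, c3, c4⟩ := hcon
    refine hnot (lay_sco_arr_det P A F D n N0 N1 K e t Lu hLu hN0 ht hK he hω ?_ ?_ ?_ ?_)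
    · intro u u' a b huu hu' ha hb
      have := c1 (u, u', a, b) (by simp only [Finset.mem_product, Finset.mem_range]; omega)
      exact not_lt.1 fun hlt => this ⟨huu, hlt⟩
    · intro u a b hu hab hb
      have := c2 (u, a, b) (by simp only [Finset.mem_product, Finset.mem_range]; omega)
      exact not_lt.1 fun hlt => this ⟨hab, hlt⟩
    · intro u q hu hq
      have := c3 (u, q) (by simp only [Finset.mem_product, Finset.mem_range]; omega)
      exact not_lt.1 fun hlt => this ⟨hq, hlt⟩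
    · intro u hu
      have := c4 u (by simp only [Finset.mem_range]; omega)
      exact not_lt.1 this
  have r1 := ent_pr_or_le P (fun ω => (∃ i ∈ range (n + 1) ×ˢ range (n + 1) ×ˢ range (n + 1) ×ˢ range (n + 1), E1 i ω) ∨
      (∃ i ∈ range (n + 1) ×ˢ range (n + 1) ×ˢ range (n + 1), E2 i ω))
    (fun ω => (∃ i ∈ range (n + 1) ×ˢ range (n + 1), E3 i ω) ∨ (∃ u ∈ range (n + 1), E4 u ω))
  have r2 := ent_pr_or_le P (fun ω => ∃ i ∈ range (n + 1) ×ˢ range (n + 1) ×ˢ range (n + 1) ×ˢ range (n + 1), E1 i ω)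
    (fun ω => ∃ i ∈ range (n + 1) ×ˢ range (n + 1) ×ˢ range (n + 1), E2 i ω)
  have r3 := ent_pr_or_le P (fun ω => ∃ i ∈ range (n + 1) ×ˢ range (n + 1), E3 i ω) (fun ω => ∃ u ∈ range (n + 1), E4 u ω)
  have hm : (1 : ℝ) ≤ (n : ℝ) + 1 := by
    have : (0 : ℝ) ≤ n := Nat.cast_nonneg n
    linarith
  obtain ⟨m, hmdef⟩ : ∃ m : ℝ, m = (n : ℝ) + 1 := ⟨_, rfl⟩
  rw [← hmdef] at q1 q2 q3 q4 hm ⊢
  have s2 : m ≤ m ^ 4 := by nlinarith [mul_nonneg (sub_nonneg.2 hm) (sub_nonneg.2 hm), sq_nonneg m, sq_nonneg (m ^ 2)]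
  have s3 : m * m ≤ m ^ 4 := by nlinarith [mul_nonneg (sub_nonneg.2 hm) (sub_nonneg.2 hm), sq_nonneg m, sq_nonneg (m ^ 2)]
  have s4 : m * (m * m) ≤ m ^ 4 := by nlinarith [mul_nonneg (sub_nonneg.2 hm) (sub_nonneg.2 hm), sq_nonneg m, sq_nonneg (m ^ 2), pow_pos (by linarith : (0:ℝ) < m) 3]
  have s5 : m * (m * (m * m)) = m ^ 4 := by ring
  have t2 := mul_le_mul_of_nonneg_right s2 hx
  have t3 := mul_le_mul_of_nonneg_right s3 hx
  have t4 := mul_le_mul_of_nonneg_right s4 hx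
  rw [s5] at q1
  linarith

/-- a sum of indicators -/
theorem lay_sum_ind {s B : Finset ℕ} (hB : B ⊆ s) (f : ℕ → ℝ) (h1 : ∀ x ∈ B, f x = 1) (h0 : ∀ x, x ∉ B → f x = 0) :
    ∑ i ∈ s, f i = B.card := by
  rw [← Finset.sum_subset hB (fun x _ hx => h0 x hx), Finset.sum_congr rfl h1, Finset.sum_const, nsmul_eq_mul, mul_one]

/-- LEAF SC3. **DT averaged over the sample** (`lay_dt_approx` on the good event, `card ≤ r^k` on the bad one; `P.pr = P.ev` of the indicator, `ent_ev_sum`). -/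
theorem lay_dt_rand (P : FLaw Ω) (H : Ω → ℕ → ℕ → ℝ) {K e η : ℝ} (r N : ℕ) (hr : 0 < r) (hη : 0 < η)
    (hK : 0 ≤ K) (he : 0 ≤ e) :
    ∑ k ∈ range N, ∑ j ∈ range (r ^ k),
        P.pr (fun ω => j ∈ layBad (H ω) (K + e + e * (r ^ N : ℕ)) (η + e + e * (r ^ N : ℕ)) r N k) * (r : ℝ) ^ (N - k)
      ≤ (2 * (K + e + e * (r ^ N : ℕ)) / η + 12 * (K + e + e * (r ^ N : ℕ)) ^ 2 / η ^ 2
          + N * P.pr (fun ω => ¬ LayArrE (r ^ N) K e (H ω))) * (r : ℝ) ^ N := by
  obtain ⟨K', hK'def⟩ : ∃ K' : ℝ, K' = K + e + e * (r ^ N : ℕ) := ⟨_, rfl⟩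
  obtain ⟨η', hη'def⟩ : ∃ η' : ℝ, η' = η + e + e * (r ^ N : ℕ) := ⟨_, rfl⟩
  have hr' : (0 : ℝ) < r := by exact_mod_cast hr
  have hK'0 : 0 ≤ K' := by rw [hK'def]; positivity
  have happ : ∀ ω, LayArrE (r ^ N) K e (H ω) →
      ∑ k ∈ range N, ((layBad (H ω) K' η' r N k).card : ℝ) * (r : ℝ) ^ (N - k)
        ≤ (2 * K' / η + 12 * K' ^ 2 / η ^ 2) * (r : ℝ) ^ N := by
    intro ω hω
    rw [hK'def, hη'def]
    exact lay_dt_approx r N hr hη hK he hω
  rw [← hK'def, ← hη'def]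
  have h1 : ∀ k, ∑ j ∈ range (r ^ k), P.pr (fun ω => j ∈ layBad (H ω) K' η' r N k) * (r : ℝ) ^ (N - k)
      = P.ev (fun ω => ((layBad (H ω) K' η' r N k).card : ℝ) * (r : ℝ) ^ (N - k)) := by
    intro k
    have h2 : ∑ j ∈ range (r ^ k), P.pr (fun ω => j ∈ layBad (H ω) K' η' r N k)
        = P.ev (fun ω => ((layBad (H ω) K' η' r N k).card : ℝ)) := by
      simp only [ent_pr_eq_ev]
      rw [← ent_ev_sum]
      refine ent_ev_congr P fun ω _ => ?_
      have hsub : layBad (H ω) K' η' r N k ⊆ range (r ^ k) := by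
        unfold layBad
        exact Finset.filter_subset _ _
      exact lay_sum_ind hsub _ (fun x hx => if_pos hx) (fun x hx => if_neg hx)
    rw [← Finset.sum_mul, h2, mul_comm, ← ent_ev_mul_left]
    exact ent_ev_congr P fun ω _ => mul_comm _ _
  rw [Finset.sum_congr rfl fun k _ => h1 k, ← ent_ev_sum]
  have hC0 : 0 ≤ (2 * K' / η + 12 * K' ^ 2 / η ^ 2) * (r : ℝ) ^ N := by positivity
  have h3 : ∀ ω, ∑ k ∈ range N, ((layBad (H ω) K' η' r N k).card : ℝ) * (r : ℝ) ^ (N - k)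
      ≤ (2 * K' / η + 12 * K' ^ 2 / η ^ 2) * (r : ℝ) ^ N
        + (N * (r : ℝ) ^ N) * (if ¬ LayArrE (r ^ N) K e (H ω) then 1 else 0) := by
    intro ω
    by_cases hω : LayArrE (r ^ N) K e (H ω)
    · rw [if_neg (not_not.2 hω), mul_zero, add_zero]
      exact happ ω hω
    · rw [if_pos hω, mul_one]
      have h4 : ∑ k ∈ range N, ((layBad (H ω) K' η' r N k).card : ℝ) * (r : ℝ) ^ (N - k)
          ≤ ∑ _k ∈ range N, (r : ℝ) ^ N := by
        refine Finset.sum_le_sum fun k hk => ?_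
        have hk' := Finset.mem_range.1 hk
        have h5 : ((layBad (H ω) K' η' r N k).card : ℝ) ≤ (r : ℝ) ^ k := by
          have : (layBad (H ω) K' η' r N k).card ≤ r ^ k := by
            unfold layBad
            exact (Finset.card_filter_le _ _).trans (by rw [Finset.card_range])
          exact_mod_cast this
        calc ((layBad (H ω) K' η' r N k).card : ℝ) * (r : ℝ) ^ (N - k) ≤ (r : ℝ) ^ k * (r : ℝ) ^ (N - k) :=
              mul_le_mul_of_nonneg_right h5 (pow_pos hr' _).le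
          _ = (r : ℝ) ^ N := by
              rw [← pow_add]
              congr 1
              omega
      rw [Finset.sum_const, Finset.card_range, nsmul_eq_mul] at h4
      linarith
  refine (ent_ev_mono P fun ω _ => h3 ω).trans (le_of_eq ?_)
  have h6 : P.ev (fun ω => if ¬ LayArrE (r ^ N) K e (H ω) then (1 : ℝ) else 0)
      = P.pr (fun ω => ¬ LayArrE (r ^ N) K e (H ω)) := by
    unfold FLaw.ev FLaw.pr
    refine Finset.sum_congr rfl fun ω _ => ?_
    by_cases h : LayArrE (r ^ N) K e (H ω) <;> simp [h]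
  rw [ent_ev_add, ent_ev_const, ent_ev_mul_left, h6]
  ring

/-- LEAF SC3. one good level: the mean over the blocks of the probability of being bad is `≤ (C + N q)/N` -/
theorem lay_dt_rand_level (P : FLaw Ω) (H : Ω → ℕ → ℕ → ℝ) {K e η : ℝ} (r N : ℕ) (hr : 0 < r) (hN : 0 < N)
    (hη : 0 < η) (hK : 0 ≤ K) (he : 0 ≤ e) :
    ∃ k, k < N ∧ ∑ j ∈ range (r ^ k),
        P.pr (fun ω => j ∈ layBad (H ω) (K + e + e * (r ^ N : ℕ)) (η + e + e * (r ^ N : ℕ)) r N k)
      ≤ ((2 * (K + e + e * (r ^ N : ℕ)) / η + 12 * (K + e + e * (r ^ N : ℕ)) ^ 2 / η ^ 2) / N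
          + P.pr (fun ω => ¬ LayArrE (r ^ N) K e (H ω))) * (r : ℝ) ^ k := by
  have hr' : (0 : ℝ) < r := by exact_mod_cast hr
  have hN' : (0 : ℝ) < N := by exact_mod_cast hN
  have hmain := lay_dt_rand P H (K := K) (e := e) (η := η) r N hr hη hK he
  obtain ⟨Cc, hCc⟩ : ∃ Cc : ℝ, Cc = 2 * (K + e + e * (r ^ N : ℕ)) / η + 12 * (K + e + e * (r ^ N : ℕ)) ^ 2 / η ^ 2 := ⟨_, rfl⟩
  obtain ⟨qq, hqq⟩ : ∃ qq : ℝ, qq = P.pr (fun ω => ¬ LayArrE (r ^ N) K e (H ω)) := ⟨_, rfl⟩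
  rw [← hCc, ← hqq] at hmain ⊢
  have h1 : ∑ k ∈ range N, ∑ j ∈ range (r ^ k),
        P.pr (fun ω => j ∈ layBad (H ω) (K + e + e * (r ^ N : ℕ)) (η + e + e * (r ^ N : ℕ)) r N k) * (r : ℝ) ^ (N - k)
      ≤ ∑ _k ∈ range N, (Cc / N + qq) * (r : ℝ) ^ N := by
    refine hmain.trans (le_of_eq ?_)
    rw [Finset.sum_const, Finset.card_range, nsmul_eq_mul]
    field_simp
  obtain ⟨k, hk, hle⟩ := Finset.exists_le_of_sum_le (Finset.nonempty_range_iff.2 hN.ne') h1
  have hk' := Finset.mem_range.1 hk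
  refine ⟨k, hk', ?_⟩
  rw [← Finset.sum_mul] at hle
  have e1 : (r : ℝ) ^ N = (r : ℝ) ^ k * (r : ℝ) ^ (N - k) := by
    rw [← pow_add]
    congr 1
    omega
  rw [e1, ← mul_assoc] at hle
  exact le_of_mul_le_mul_right hle (pow_pos hr' _)

/-- helper of `lay_future`: the arithmetic -/
theorem lay_fut_real {A a1 a2 b d c1 Lu l0 t e η g g' θ R : ℝ} (hLu : 0 < Lu) (hl0 : 0 ≤ l0) (ht : 0 ≤ t) (hη : 0 ≤ η)
    (hR : 0 ≤ R) (hθ0 : 0 ≤ θ) (hθ1 : θ ≤ 1) (he : l0 + 2 * t ≤ e * Lu)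
    (hlo : (a1 - a2) - (b - a2 - d) - (4 * l0 + 5 * t) ≤ A) (hhi : A ≤ (a1 - a2) + l0 + 2 * t)
    (v1 : |b / Lu - g * R| ≤ η * R) (v2 : |a2 / Lu - g * (θ * R)| ≤ η * R) (v3 : |d / Lu - g * ((1 - θ) * R)| ≤ η * R)
    (w1 : |c1 / Lu - g' * R| ≤ η * R) (w2 : |a1 / Lu - g' * (θ * R)| ≤ η * R) :
    |A / Lu - θ * (c1 / Lu - b / Lu)| ≤ 7 * η * R + 4 * e := by
  have hηR : 0 ≤ η * R := mul_nonneg hη hR
  have lo' : (a1 / Lu - a2 / Lu) - (b / Lu - a2 / Lu - d / Lu) - 4 * e ≤ A / Lu := by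
    have h1 : (a1 - a2) - (b - a2 - d) - 4 * (e * Lu) ≤ A := by linarith
    have h2 : (a1 / Lu - a2 / Lu) - (b / Lu - a2 / Lu - d / Lu) - 4 * e = ((a1 - a2) - (b - a2 - d) - 4 * (e * Lu)) / Lu := by
      field_simp
    rw [h2]
    exact div_le_div_of_nonneg_right h1 hLu.le
  have hi' : A / Lu ≤ (a1 / Lu - a2 / Lu) + e := by
    have h1 : A ≤ (a1 - a2) + e * Lu := by linarith
    have h2 : (a1 / Lu - a2 / Lu) + e = ((a1 - a2) + e * Lu) / Lu := by
      field_simp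
    rw [h2]
    exact div_le_div_of_nonneg_right h1 hLu.le
  have he0 : 0 ≤ e := by
    by_contra hneg
    have : e * Lu < 0 := mul_neg_of_neg_of_pos (not_le.1 hneg) hLu
    linarith
  obtain ⟨v1a, v1b⟩ := abs_le.1 v1
  obtain ⟨v2a, v2b⟩ := abs_le.1 v2
  obtain ⟨v3a, v3b⟩ := abs_le.1 v3
  obtain ⟨w1a, w1b⟩ := abs_le.1 w1
  obtain ⟨w2a, w2b⟩ := abs_le.1 w2
  have q0 : θ * (η * R) ≤ η * R := by
    have := mul_le_mul_of_nonneg_right hθ1 hηR
    linarith
  have q1 : θ * (b / Lu - g * R) ≤ η * R := (mul_le_mul_of_nonneg_left v1b hθ0).trans q0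
  have q2 : -(η * R) ≤ θ * (b / Lu - g * R) := by
    have := mul_le_mul_of_nonneg_left v1a hθ0
    linarith
  have q3 : θ * (c1 / Lu - g' * R) ≤ η * R := (mul_le_mul_of_nonneg_left w1b hθ0).trans q0
  have q4 : -(η * R) ≤ θ * (c1 / Lu - g' * R) := by
    have := mul_le_mul_of_nonneg_left w1a hθ0
    linarith
  rw [abs_le]
  constructor <;> nlinarith

/-- helper of `lay_future`: the deterministic half -/
theorem lay_fut_pt (P : FLaw Ω) {α β φ δ : Type} (Uu : Ω → α) (Vu Vv : Ω → β) (Fu Fp : Ω → φ) (D : Ω → δ) (f : φ → φ)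
    (hf : ∀ ω, Fp ω = f (Fu ω)) {l0 t : ℝ} {ω : Ω} (hω : P.p ω ≠ 0)
    (n1 : P.surC Vv (pair Uu (pair Vu (pair Fp D))) ω ≤ P.surC Vv (pair Vu (pair Fp D)) ω + t)
    (n2 : P.surC Vv (pair Fu (pair Uu (pair Vu (pair Fp D)))) ω ≤ P.surC Vv (pair Uu (pair Vu (pair Fp D))) ω + t)
    (n3 : P.surC Uu (pair Fu D) ω ≤ l0 + t)
    (n4 : P.surC Vu (pair Uu (pair Fu D)) ω ≤ l0 + t)
    (n5 : P.surC Vu (pair Vv (pair Fp D)) ω ≤ l0 + t)
    (n6 : P.surC Vu (pair Uu (pair Vv (pair Fp D))) ω ≤ l0 + t) (hl0 : 0 ≤ l0) (ht : 0 ≤ t) :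
    (P.surC (pair Uu Vu) (pair Fp D) ω - P.surC Vu (pair Fp D) ω)
        - (P.surC Vv (pair Fp D) ω - P.surC Vu (pair Fp D) ω - P.surC Vv (pair Fu D) ω) - (4 * l0 + 5 * t)
      ≤ P.surC Uu (pair Vv (pair Fp D)) ω ∧
    P.surC Uu (pair Vv (pair Fp D)) ω ≤ (P.surC (pair Uu Vu) (pair Fp D) ω - P.surC Vu (pair Fp D) ω) + l0 + 2 * t := by
  have i1 := ent_surC_chain P Uu Vu (pair Fp D) hω
  have i1' := ent_surC_swap P Uu Vu (pair Fp D) hω
  have i2 := ent_surC_swap P Uu Vv (pair Vu (pair Fp D)) hω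
  have i3 := ent_surC_swap P Vv Vu (pair Fp D) hω
  have i4 := ent_surC_swap P Uu Vu (pair Vv (pair Fp D)) hω
  have i5 := ent_surC_swap P Vv Vu (pair Uu (pair Fu D)) hω
  have i6 := ent_surC_swap P Vv Uu (pair Fu D) hω
  have c4 : P.surC Uu (pair Vu (pair Vv (pair Fp D))) ω = P.surC Uu (pair Vv (pair Vu (pair Fp D))) ω := by
    refine ent_surC_congr P Uu Uu _ _ ω (fun ω' _ => ?_) (fun _ _ _ => Iff.rfl)
    simp only [FLaw.pair, Prod.mk.injEq]
    tauto
  have c5 : P.surC Vv (pair Fu (pair Uu (pair Vu (pair Fp D)))) ω = P.surC Vv (pair Vu (pair Uu (pair Fu D))) ω := by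
    refine ent_surC_congr P Vv Vv _ _ ω (fun ω' _ => ?_) (fun _ _ _ => Iff.rfl)
    simp only [FLaw.pair, Prod.mk.injEq]
    constructor
    · rintro ⟨h1, h2, h3, -, h5⟩
      exact ⟨h3, h2, h1, h5⟩
    · rintro ⟨h3, h2, h1, h5⟩
      exact ⟨h1, h2, h3, by rw [hf, hf, h1], h5⟩
  have p1 := ent_surC_nonneg P Vu (pair Vv (pair Uu (pair Fu D))) hω
  have p2 := ent_surC_nonneg P Uu (pair Vv (pair Fu D)) hω
  have p3 := ent_surC_nonneg P Vu (pair Vv (pair Fp D)) hω
  have p4 := ent_surC_nonneg P Vu (pair Uu (pair Vv (pair Fp D))) hω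
  constructor <;> linarith

/-- LEAF SC4. **prefixes with future conditioning.**   `u = p + j S`, `v = p + r S`, `C0 = (F p, D)`, `HV q u' = surC (V q)(F u', D)/Lu`, `HUV` the same for the pair `(U q, V q)`.
 (1) `surC (U u)(V u, C0) = Lu (HUV u p - HV u p)` (chain rule, identity);
 (2) `surC (U u)(V v, V u, C0) = surC (U u)(V u, C0) - J`, `J = surC (V v)(V u, C0) - surC (V v)(U u, V u, C0)`;  `J ≥ -t` (LP);
 (3) `J ≤ surC (V v)(V u, C0) - surC (V v)(F u, U u, V u, C0) + t` (LP) `≤ Lu (HV v p - HV u p - HV v u) + 3 log N0 + 3 t`  (`lay_sur_incr`, `lay_list_swap`: `(F u, D)` lists `U u`, `V u` and determines `F p`);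
 (4) `V v` lists `V u`: remove `V u` from the conditioning (`lay_list_swap`);  (5) linearity: `|HV v p - HV u p - HV v u| ≤ 3 η r S`, `|H u p - (j/r) H v p| ≤ 2 η r S` for `HV`, `HUV`. -/
theorem lay_future (P : FLaw Ω) {α β φ δ : Type} (U : ℕ → Ω → α) (V : ℕ → Ω → β) (F : ℕ → Ω → φ) (D : Ω → δ)
    (p S r : ℕ) (hr : 0 < r) (N0 K η e t Lu : ℝ) (hLu : 0 < Lu) (hN0 : 1 ≤ N0) (ht : 0 ≤ t) (hη : 0 ≤ η)
    (hnest : ∀ a b, a ≤ b → b ≤ p + r * S → P.NVal (fun _ => True) (V a) (V b) N0)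
    (hdU : ∀ u, u ≤ p + r * S → P.NVal (fun _ => True) (U u) (pair (F u) D) N0)
    (hdV : ∀ u, u ≤ p + r * S → P.NVal (fun _ => True) (V u) (pair (F u) D) N0)
    (hF : ∀ u u', u ≤ u' → u' ≤ p + r * S → ∃ f : φ → φ, ∀ ω, F u ω = f (F u' ω))
    (he : Real.log N0 + 2 * t ≤ e * Lu) :
    P.pr (fun ω =>
        LayLin (fun q u => P.surC (V q) (pair (F u) D) ω / Lu) K η p S r ∧
        LayLin (fun q u => P.surC (pair (U q) (V q)) (pair (F u) D) ω / Lu) K η p S r ∧
        ∃ j, j ≤ r ∧ 7 * η * ((r : ℝ) * S) + 4 * e <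
          |P.surC (U (p + j * S)) (pair (V (p + r * S)) (pair (F p) D)) ω / Lu
            - (j : ℝ) / r * (P.surC (pair (U (p + r * S)) (V (p + r * S))) (pair (F p) D) ω / Lu
                - P.surC (V (p + r * S)) (pair (F p) D) ω / Lu)|)
      ≤ 8 * ((r : ℝ) + 1) * Real.exp (-t) := by
  have hN0' : 0 < N0 := by linarith
  have hl0 : 0 ≤ Real.log N0 := Real.log_nonneg hN0
  have hx : 0 ≤ Real.exp (-t) := (Real.exp_pos _).le
  have hr' : (0 : ℝ) < r := by exact_mod_cast hr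
  obtain ⟨v, hv⟩ : ∃ v : ℕ, v = p + r * S := ⟨_, rfl⟩
  rw [← hv] at hnest hdU hdV hF ⊢
  let E : ℕ → Ω → Prop := fun j ω =>
    ((P.surC (V v) (pair (V (p + j * S)) (pair (F p) D)) ω + t
        < P.surC (V v) (pair (U (p + j * S)) (pair (V (p + j * S)) (pair (F p) D))) ω ∨
      P.surC (V v) (pair (U (p + j * S)) (pair (V (p + j * S)) (pair (F p) D))) ω + t
        < P.surC (V v) (pair (F (p + j * S)) (pair (U (p + j * S)) (pair (V (p + j * S)) (pair (F p) D)))) ω) ∨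
      (Real.log N0 + t < P.surC (U (p + j * S)) (pair (F (p + j * S)) D) ω ∨
      Real.log N0 + t < P.surC (V (p + j * S)) (pair (U (p + j * S)) (pair (F (p + j * S)) D)) ω)) ∨
      (Real.log N0 + t < P.surC (V (p + j * S)) (pair (V v) (pair (F p) D)) ω ∨
      Real.log N0 + t < P.surC (V (p + j * S)) (pair (U (p + j * S)) (pair (V v) (pair (F p) D))) ω)
  have hE : ∀ j ∈ range (r + 1), P.pr (E j) ≤ 6 * Real.exp (-t) := by
    intro j hj
    have hj' : j ≤ r := by have := Finset.mem_range.1 hj; omega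
    have hu : p + j * S ≤ v := by rw [hv]; exact Nat.add_le_add_left (Nat.mul_le_mul_right S hj') p
    have e1 := lay_lp P (V v) (pair (V (p + j * S)) (pair (F p) D))
      (pair (U (p + j * S)) (pair (V (p + j * S)) (pair (F p) D))) Prod.snd (fun _ => rfl) t
    have e2 := lay_lp P (V v) (pair (U (p + j * S)) (pair (V (p + j * S)) (pair (F p) D)))
      (pair (F (p + j * S)) (pair (U (p + j * S)) (pair (V (p + j * S)) (pair (F p) D)))) Prod.snd (fun _ => rfl) t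
    have e3 := ent_surC_tail P (U (p + j * S)) (pair (F (p + j * S)) D) hN0' (hdU _ hu) t
    have e4 := ent_surC_tail P (V (p + j * S)) (pair (U (p + j * S)) (pair (F (p + j * S)) D)) hN0'
      (lay_nval_refine P (hdV _ hu) fun _ _ h => congrArg Prod.snd h) t
    have e5 := ent_surC_tail P (V (p + j * S)) (pair (V v) (pair (F p) D)) hN0'
      (lay_nval_refine P (hnest _ v hu le_rfl) fun _ _ h => congrArg Prod.fst h) t
    have e6 := ent_surC_tail P (V (p + j * S)) (pair (U (p + j * S)) (pair (V v) (pair (F p) D))) hN0'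
      (lay_nval_refine P (hnest _ v hu le_rfl) fun _ _ h => congrArg (fun x => x.2.1) h) t
    have o1 := ent_pr_or_le P
      (fun ω => (P.surC (V v) (pair (V (p + j * S)) (pair (F p) D)) ω + t
        < P.surC (V v) (pair (U (p + j * S)) (pair (V (p + j * S)) (pair (F p) D))) ω ∨
      P.surC (V v) (pair (U (p + j * S)) (pair (V (p + j * S)) (pair (F p) D))) ω + t
        < P.surC (V v) (pair (F (p + j * S)) (pair (U (p + j * S)) (pair (V (p + j * S)) (pair (F p) D)))) ω) ∨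
      (Real.log N0 + t < P.surC (U (p + j * S)) (pair (F (p + j * S)) D) ω ∨
      Real.log N0 + t < P.surC (V (p + j * S)) (pair (U (p + j * S)) (pair (F (p + j * S)) D)) ω))
      (fun ω => Real.log N0 + t < P.surC (V (p + j * S)) (pair (V v) (pair (F p) D)) ω ∨
      Real.log N0 + t < P.surC (V (p + j * S)) (pair (U (p + j * S)) (pair (V v) (pair (F p) D))) ω)
    have o2 := ent_pr_or_le P
      (fun ω => P.surC (V v) (pair (V (p + j * S)) (pair (F p) D)) ω + t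
        < P.surC (V v) (pair (U (p + j * S)) (pair (V (p + j * S)) (pair (F p) D))) ω ∨
      P.surC (V v) (pair (U (p + j * S)) (pair (V (p + j * S)) (pair (F p) D))) ω + t
        < P.surC (V v) (pair (F (p + j * S)) (pair (U (p + j * S)) (pair (V (p + j * S)) (pair (F p) D)))) ω)
      (fun ω => Real.log N0 + t < P.surC (U (p + j * S)) (pair (F (p + j * S)) D) ω ∨
      Real.log N0 + t < P.surC (V (p + j * S)) (pair (U (p + j * S)) (pair (F (p + j * S)) D)) ω)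
    have o3 := ent_pr_or_le P
      (fun ω => P.surC (V v) (pair (V (p + j * S)) (pair (F p) D)) ω + t
        < P.surC (V v) (pair (U (p + j * S)) (pair (V (p + j * S)) (pair (F p) D))) ω)
      (fun ω => P.surC (V v) (pair (U (p + j * S)) (pair (V (p + j * S)) (pair (F p) D))) ω + t
        < P.surC (V v) (pair (F (p + j * S)) (pair (U (p + j * S)) (pair (V (p + j * S)) (pair (F p) D)))) ω)
    have o4 := ent_pr_or_le P
      (fun ω => Real.log N0 + t < P.surC (U (p + j * S)) (pair (F (p + j * S)) D) ω)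
      (fun ω => Real.log N0 + t < P.surC (V (p + j * S)) (pair (U (p + j * S)) (pair (F (p + j * S)) D)) ω)
    have o5 := ent_pr_or_le P
      (fun ω => Real.log N0 + t < P.surC (V (p + j * S)) (pair (V v) (pair (F p) D)) ω)
      (fun ω => Real.log N0 + t < P.surC (V (p + j * S)) (pair (U (p + j * S)) (pair (V v) (pair (F p) D))) ω)
    show P.pr (E j) ≤ 6 * Real.exp (-t)
    have : P.pr (E j) ≤ _ := o1
    linarith
  have hun := (ent_pr_exists_le P (range (r + 1)) E).trans (Finset.sum_le_card_nsmul _ _ _ hE)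
  rw [Finset.card_range, nsmul_eq_mul] at hun
  push_cast at hun
  refine le_trans (ent_pr_mono P fun ω hω h => ?_) (hun.trans ?_)
  · obtain ⟨⟨g, -, -, hg⟩, ⟨g', -, -, hg'⟩, j, hj, hbad⟩ := h
    by_contra hcon
    push Not at hcon
    have hc := hcon j (Finset.mem_range.2 (by omega))
    have hc' : ¬ E j ω := hc
    simp only [E, not_or, not_lt] at hc'
    obtain ⟨⟨⟨n1, n2⟩, n3, n4⟩, n5, n6⟩ := hc'
    have hu : p + j * S ≤ v := by rw [hv]; exact Nat.add_le_add_left (Nat.mul_le_mul_right S hj) p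
    obtain ⟨f, hf⟩ := hF p (p + j * S) (Nat.le_add_right _ _) hu
    obtain ⟨lo, hi⟩ := lay_fut_pt P (U (p + j * S)) (V (p + j * S)) (V v) (F (p + j * S)) (F p) D f hf hω n1 n2 n3 n4 n5 n6 hl0 ht
    have hjr : (j : ℝ) ≤ r := by exact_mod_cast hj
    have eθ : (j : ℝ) / r * ((r : ℝ) * S) = (j : ℝ) * S := by field_simp
    have a1 := hg 0 r (Nat.zero_le _) le_rfl
    have a2 := hg 0 j (Nat.zero_le _) hj
    have a3 := hg j r hj le_rfl
    have b1 := hg' 0 r (Nat.zero_le _) le_rfl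
    have b2 := hg' 0 j (Nat.zero_le _) hj
    simp only [zero_mul, add_zero, Nat.cast_zero, sub_zero, ← hv] at a1 a2 a3 b1 b2
    refine absurd hbad (not_lt.2 ?_)
    refine lay_fut_real (g := g) (g' := g') hLu hl0 ht hη (by positivity) (by positivity) ((div_le_one hr').2 hjr) he lo hi
      a1 ?_ ?_ b1 ?_
    · rw [eθ]; exact a2
    · have : (1 - (j : ℝ) / r) * ((r : ℝ) * S) = ((r : ℝ) - j) * S := by field_simp
      rw [this]; exact a3
    · rw [eθ]; exact b2
  · have : 0 ≤ ((r : ℝ) + 1) * Real.exp (-t) := by positivity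
    nlinarith

end Claimed.Agent.R256
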