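import Claimed.Agent.R255.Iso.StarCopies
import Claimed.Agent.R255.Ent.Restr
import Claimed.Agent.R255.Ent.Prod

/-!
# Row 256, unit LAY (04B), file 5: stationary conditional walks      (chief helper189)

Paper free: `R255/Base/Law`, `R255/Ent` (`kerOf`, `ext`, `ent_resample_ci`, `ent_kerOf_*`, `ent_tail_weight`), `R255/Iso/StarCopies`.  READ ONLY imports.
Finite form of Cor. names:walks, (leg), of (int:walk-kl) and (int:motion-independence)   (04 l.1016-1062, 05 l.620-640, 745-770; report 873 T3).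

`R : FLaw (σ × ξ)` = the MARKED LAW: `σ` = values of the side `Z` (with its phase), `ξ` = values of the tuple of stored marks.
`G k : σ × ξ → γ` = the data kept by the leg `k`  ( = `(C_*, marks, Q_{i_k})`, possibly with an angular prefix).  It determines the marks (`hG`).
`layWalk R G n : FLaw ((Fin (n+1) → σ) × ξ)` = law of `(Z_0, …, Z_n ; marks)`:  `(Z_0, marks) ~ R`,  `Z_{k+1} ~ R( side | G k = G k (Z_k, marks))`.
* `lay_walk_stat` every `(Z_j, marks)` has the law `R`;  `lay_walk_keep` the leg keeps its data;  `lay_walk_ci` the new side is CI of the history given the kept data.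
* `lay_walk_kl`   `∑_k H_R(X|C_k) - H_W(X(Z_1),…,X(Z_n) | Z_0, marks) ≤ ∑_k I_R(X ; G k | C_k)`;   `lay_walk_lik` the same as a likelihood tail at actual samples.
* `lay_star_motion`  several draws from ONE kernel (`R.star G M`);  `lay_star_exch` exchangeability;  `lay_mi_prefix` a retained prefix only lowers the budget.
* `lay_leg_quad`, `lay_leg_lin`  (leg): equal fibre reads up to `e` give the increments up to `e`, resp. `e (1 + |X'|)`.
LEAVES: L-256-LAY-WK1 (`lay_leg_step_stat`, `lay_leg_step_keep`), WK2 (`lay_walk_prev`, `lay_walk_stat`, `lay_walk_keep`, `lay_walk_ci`), WK3 (`lay_walk_kl`), WK4 (`lay_walk_lik`),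
 WK5 (`lay_star_motion`, `lay_star_exch`, `lay_mi_prefix`), WK6 (`lay_leg_quad`, `lay_leg_lin`).
-/

set_option autoImplicit false

namespace Claimed.Agent.R256

open Claimed.Agent.R255 Claimed.Agent.R255.FLaw
open Finset
open scoped BigOperators
open Classical

variable {σ ξ : Type} [Fintype σ] [Fintype ξ]

/-- the kernel of one leg: from a history `h` with current marked side `cur h`, draw a new side from `R( side | G = G (cur h))` -/
noncomputable def layLegKer {Θ γ : Type} (R : FLaw (σ × ξ)) (G : σ × ξ → γ) (cur : Θ → σ × ξ) : Ker Θ σ where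
  k := fun h => (R.kerOf Prod.fst G).k (cur h)
  nonneg := fun h => (R.kerOf Prod.fst G).nonneg (cur h)
  sum_one := fun h => (R.kerOf Prod.fst G).sum_one (cur h)

/-- the walk -/
noncomputable def layWalk {γ : Type} (R : FLaw (σ × ξ)) (G : ℕ → σ × ξ → γ) :
    (n : ℕ) → FLaw ((Fin (n + 1) → σ) × ξ)
  | 0 => R.map (fun y => ((fun _ => y.1), y.2))
  | n + 1 => ((layWalk R G n).ext (layLegKer R (G n) (fun h => (h.1 (Fin.last n), h.2)))).map
      (fun y => (Fin.snoc (α := fun _ => σ) y.1.1 y.2, y.1.2))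

theorem lay_walk_eqns_cite : True := by
  have := @layLegKer.eq_1
  have := @layWalk.eq_1
  have := @layWalk.eq_2
  trivial

/-! ## one leg on an arbitrary history space -/

/-- image of an image law -/
theorem lay_wk_map_map {Ω Ω' Ω'' : Type} [Fintype Ω] [Fintype Ω'] [Fintype Ω''] (P : FLaw Ω) (φ : Ω → Ω') (ψ : Ω' → Ω'') :
    (P.map φ).map ψ = P.map (fun ω => ψ (φ ω)) := by
  refine ent_law_ext _ _ fun x => ?_
  exact ent_map_pr P φ (fun y => ψ y = x)

/-- the mass of a point -/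
theorem lay_wk_pr_eq {Ω : Type} [Fintype Ω] (P : FLaw Ω) (x : Ω) : P.pr (fun ω => ω = x) = P.p x :=
  ent_fib_id P x

theorem lay_wk_map_id {Ω : Type} [Fintype Ω] (P : FLaw Ω) (φ : Ω → Ω) (hφ : ∀ ω, φ ω = ω) : P.map φ = P := by
  refine ent_law_ext _ _ fun x => ?_
  show P.pr (fun ω => φ ω = x) = P.p x
  rw [← lay_wk_pr_eq P x]
  exact ent_pr_congr P fun ω _ => by rw [hφ]

theorem lay_wk_map_congr {Ω Ω' : Type} [Fintype Ω] [Fintype Ω'] (P : FLaw Ω) (φ ψ : Ω → Ω') (h : ∀ ω, φ ω = ψ ω) :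
    P.map φ = P.map ψ := by
  have e : φ = ψ := funext h
  rw [e]

/-- a point of positive mass of an image law has a preimage of positive mass -/
theorem lay_wk_map_supp {Ω Ω' : Type} [Fintype Ω] [Fintype Ω'] (P : FLaw Ω) (φ : Ω → Ω') {x : Ω'} (hx : (P.map φ).p x ≠ 0) :
    ∃ ω, φ ω = x ∧ P.p ω ≠ 0 := by
  have h1 : 0 < P.pr (fun ω => φ ω = x) := lt_of_le_of_ne (ent_pr_nonneg P _) (Ne.symm hx)
  exact (ent_pr_pos_iff P _).1 h1

/-- conditional independence under an image law -/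
theorem lay_wk_map_ci {Ω Ω' α β γ : Type} [Fintype Ω] [Fintype Ω'] (P : FLaw Ω) (φ : Ω → Ω') (U : Ω' → α) (V : Ω' → β)
    (Z : Ω' → γ) (h : P.CI (fun ω => U (φ ω)) (fun ω => V (φ ω)) (fun ω => Z (φ ω))) : (P.map φ).CI U V Z := by
  intro u v z
  rw [ent_map_pr, ent_map_pr, ent_map_pr, ent_map_pr]
  exact h u v z

/-- one leg seen from the current marked side -/
theorem lay_wk_transfer {Θ γ : Type} [Fintype Θ] (Q : FLaw Θ) (R : FLaw (σ × ξ)) (G : σ × ξ → γ)
    (cur : Θ → σ × ξ) (hQ : Q.map cur = R) :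
    (Q.ext (layLegKer R G cur)).map (fun x => (cur x.1, x.2)) = R.ext (R.kerOf Prod.fst G) := by
  refine ent_law_ext _ _ fun w => ?_
  obtain ⟨y, z⟩ := w
  show (Q.ext (layLegKer R G cur)).pr (fun x => (cur x.1, x.2) = (y, z)) = R.p y * (R.kerOf Prod.fst G).k y z
  have e1 : (Q.ext (layLegKer R G cur)).pr (fun x => (cur x.1, x.2) = (y, z)) =
      (Q.ext (layLegKer R G cur)).pr (fun x => x.2 = z ∧ cur x.1 = y) :=
    ent_pr_congr _ fun x _ => by
      rw [Prod.mk.injEq]
      exact and_comm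
  rw [e1, ent_aux_ext_pr Q (layLegKer R G cur) (fun h => cur h = y) z, ← hQ]
  show _ = Q.pr (fun h => cur h = y) * _
  rw [ent_pr_eq_ev, mul_comm, ← ent_ev_mul_left]
  refine ent_ev_congr Q fun h _ => ?_
  by_cases hh : cur h = y
  · rw [if_pos hh, if_pos hh, mul_one, hQ]
    show (R.kerOf Prod.fst G).k (cur h) z = _
    rw [hh]
  · rw [if_neg hh, if_neg hh, mul_zero]

/-- LEAF WK1. **stationarity of one leg.**  `P(z', x) = ∑_{g : π g = x} R(G = g) R(z' | g) = R(z', x)`. -/
theorem lay_leg_step_stat {Θ γ : Type} [Fintype Θ] (Q : FLaw Θ) (R : FLaw (σ × ξ)) (G : σ × ξ → γ)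
    (cur : Θ → σ × ξ) (hG : ∀ y y', G y = G y' → y.2 = y'.2) (hQ : Q.map cur = R) :
    (Q.ext (layLegKer R G cur)).map (fun x => (x.2, (cur x.1).2)) = R := by
  have e1 : (Q.ext (layLegKer R G cur)).map (fun x => (x.2, (cur x.1).2)) =
      (R.ext (R.kerOf Prod.fst G)).map (fun w => (w.2, w.1.2)) := by
    rw [← lay_wk_transfer Q R G cur hQ, lay_wk_map_map]
  rw [e1]
  refine ent_law_ext _ _ fun w => ?_
  obtain ⟨z, x⟩ := w
  show (R.ext (R.kerOf Prod.fst G)).pr (fun w => (w.2, w.1.2) = (z, x)) = R.p (z, x)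
  have e2 : (R.ext (R.kerOf Prod.fst G)).pr (fun w => (w.2, w.1.2) = (z, x)) =
      (R.ext (R.kerOf Prod.fst G)).pr (fun w => (fun (z' : σ) (g : γ) => z' = z ∧ ∃ y, G y = g ∧ y.2 = x) w.2 (G w.1)) :=
    ent_pr_congr _ fun w _ => by
      rw [Prod.mk.injEq]
      constructor
      · rintro ⟨h1, h2⟩
        exact ⟨h1, w.1, rfl, h2⟩
      · rintro ⟨h1, y, h2, h3⟩
        exact ⟨h1, by rw [← hG y w.1 h2, h3]⟩
  rw [e2, ent_aux_kerOf_pr R Prod.fst G (fun (z' : σ) (g : γ) => z' = z ∧ ∃ y, G y = g ∧ y.2 = x), ← lay_wk_pr_eq R (z, x)]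
  refine ent_pr_congr R fun y _ => ?_
  constructor
  · rintro ⟨h1, y', h2, h3⟩
    exact Prod.ext h1 (by rw [← hG y' y h2, h3])
  · intro h
    rw [h]
    exact ⟨rfl, (z, x), rfl, rfl⟩

/-- LEAF WK1. the leg keeps its data -/
theorem lay_leg_step_keep {Θ γ : Type} [Fintype Θ] (Q : FLaw Θ) (R : FLaw (σ × ξ)) (G : σ × ξ → γ)
    (cur : Θ → σ × ξ) (hG : ∀ y y', G y = G y' → y.2 = y'.2) (hQ : Q.map cur = R) (x : Θ × σ)
    (hx : (Q.ext (layLegKer R G cur)).p x ≠ 0) : G (x.2, (cur x.1).2) = G (cur x.1) := by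
  have hx' : Q.p x.1 * (R.kerOf Prod.fst G).k (cur x.1) x.2 ≠ 0 := hx
  have hq : Q.p x.1 ≠ 0 := left_ne_zero_of_mul hx'
  have hk : ((R.cfib G (cur x.1)).map Prod.fst).p x.2 ≠ 0 := right_ne_zero_of_mul hx'
  have hR : R.p (cur x.1) ≠ 0 := by
    rw [← hQ]
    exact ent_map_supp Q cur hq
  obtain ⟨y', hy1, hy2⟩ := lay_wk_map_supp _ _ hk
  have hy3 : G y' = G (cur x.1) := ((ent_cnd_supp R _ (ent_fib_pos R G hR)).1 hy2).1
  have hy4 : y' = (x.2, (cur x.1).2) := Prod.ext hy1 (hG y' (cur x.1) hy3 : y'.2 = (cur x.1).2)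
  rw [← hy4]
  exact hy3

/-! ## the walk -/

/-- LEAF WK2. forgetting the last side -/
theorem lay_walk_prev {γ : Type} (R : FLaw (σ × ξ)) (G : ℕ → σ × ξ → γ) (n : ℕ) :
    (layWalk R G (n + 1)).map (fun h => ((fun j : Fin (n + 1) => h.1 j.castSucc), h.2)) = layWalk R G n := by
  rw [layWalk, lay_wk_map_map]
  have e := ent_ext_map_fst (layWalk R G n) (layLegKer R (G n) (fun h => (h.1 (Fin.last n), h.2)))
  refine Eq.trans (lay_wk_map_congr _ _ _ fun y => ?_) e
  refine Prod.ext ?_ rfl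
  funext j
  exact Fin.snoc_castSucc (α := fun _ => σ) _ _ _

/-- LEAF WK2. **each leg preserves the marked marginal** -/
theorem lay_walk_stat {γ : Type} (R : FLaw (σ × ξ)) (G : ℕ → σ × ξ → γ)
    (hG : ∀ k y y', G k y = G k y' → y.2 = y'.2) (n : ℕ) (j : Fin (n + 1)) :
    (layWalk R G n).map (fun h => (h.1 j, h.2)) = R := by
  induction n with
  | zero =>
    rw [layWalk, lay_wk_map_map]
    exact lay_wk_map_id R _ fun y => rfl
  | succ n ih =>
    refine Fin.lastCases ?_ (fun i => ?_) j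
    · rw [layWalk, lay_wk_map_map]
      refine Eq.trans (lay_wk_map_congr _ _ _ fun y => ?_)
        (lay_leg_step_stat (layWalk R G n) R (G n) (fun h => (h.1 (Fin.last n), h.2)) (hG n) (ih (Fin.last n)))
      refine Prod.ext ?_ rfl
      exact Fin.snoc_last (α := fun _ => σ) _ _
    · have e : (layWalk R G (n + 1)).map (fun h => (h.1 i.castSucc, h.2)) =
          ((layWalk R G (n + 1)).map (fun h => ((fun j : Fin (n + 1) => h.1 j.castSucc), h.2))).map (fun h => (h.1 i, h.2)) :=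
        (lay_wk_map_map (layWalk R G (n + 1)) (fun h => ((fun j : Fin (n + 1) => h.1 j.castSucc), h.2)) (fun h => (h.1 i, h.2))).symm
      rw [e, lay_walk_prev]
      exact ih i

/-- LEAF WK2. -/
theorem lay_walk_keep {γ : Type} (R : FLaw (σ × ξ)) (G : ℕ → σ × ξ → γ)
    (hG : ∀ k y y', G k y = G k y' → y.2 = y'.2) (n : ℕ) (h : (Fin (n + 1) → σ) × ξ)
    (hh : (layWalk R G n).p h ≠ 0) (j : Fin n) :
    G j (h.1 j.succ, h.2) = G j (h.1 j.castSucc, h.2) := by
  induction n with
  | zero => exact j.elim0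
  | succ n ih =>
    rw [layWalk] at hh
    obtain ⟨y, rfl, hy⟩ := lay_wk_map_supp _ _ hh
    have hy' : (layWalk R G n).p y.1 * (layLegKer R (G n) (fun h => (h.1 (Fin.last n), h.2))).k y.1 y.2 ≠ 0 := hy
    refine Fin.lastCases ?_ (fun i => ?_) j
    · have h1 := lay_leg_step_keep (layWalk R G n) R (G n) (fun h => (h.1 (Fin.last n), h.2)) (hG n)
        (lay_walk_stat R G hG n (Fin.last n)) y hy
      have e1 : (Fin.snoc (α := fun _ => σ) y.1.1 y.2 : Fin (n + 1 + 1) → σ) (Fin.last n).succ = y.2 :=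
        Fin.snoc_last (α := fun _ => σ) _ _
      have e2 : (Fin.snoc (α := fun _ => σ) y.1.1 y.2 : Fin (n + 1 + 1) → σ) (Fin.last n).castSucc = y.1.1 (Fin.last n) :=
        Fin.snoc_castSucc (α := fun _ => σ) _ _ _
      show G (Fin.last n : ℕ) ((Fin.snoc (α := fun _ => σ) y.1.1 y.2 : Fin (n + 1 + 1) → σ) (Fin.last n).succ, y.1.2) =
        G (Fin.last n : ℕ) ((Fin.snoc (α := fun _ => σ) y.1.1 y.2 : Fin (n + 1 + 1) → σ) (Fin.last n).castSucc, y.1.2)
      rw [e1, e2, Fin.val_last]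
      exact h1
    · have h1 := ih y.1 (left_ne_zero_of_mul hy') i
      have e1 : (Fin.snoc (α := fun _ => σ) y.1.1 y.2 : Fin (n + 1 + 1) → σ) i.castSucc.succ = y.1.1 i.succ := by
        rw [Fin.succ_castSucc]
        exact Fin.snoc_castSucc (α := fun _ => σ) _ _ _
      have e2 : (Fin.snoc (α := fun _ => σ) y.1.1 y.2 : Fin (n + 1 + 1) → σ) i.castSucc.castSucc = y.1.1 i.castSucc :=
        Fin.snoc_castSucc (α := fun _ => σ) _ _ _
      show G (i.castSucc : ℕ) ((Fin.snoc (α := fun _ => σ) y.1.1 y.2 : Fin (n + 1 + 1) → σ) i.castSucc.succ, y.1.2) =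
        G (i.castSucc : ℕ) ((Fin.snoc (α := fun _ => σ) y.1.1 y.2 : Fin (n + 1 + 1) → σ) i.castSucc.castSucc, y.1.2)
      rw [e1, e2, Fin.val_castSucc]
      exact h1

/-- LEAF WK2. the new side is conditionally independent of the whole history given the kept data (`ent_resample_ci`) -/
theorem lay_walk_ci {γ : Type} (R : FLaw (σ × ξ)) (G : ℕ → σ × ξ → γ) (n : ℕ) :
    (layWalk R G (n + 1)).CI (fun h => h.1 (Fin.last (n + 1)))
      (fun h => ((fun j : Fin (n + 1) => h.1 j.castSucc), h.2))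
      (fun h => G n (h.1 (Fin.last n).castSucc, h.2)) := by
  rw [layWalk]
  refine lay_wk_map_ci _ _ _ _ _ ?_
  have h1 := ent_resample_ci (layWalk R G n) (layLegKer R (G n) (fun h => (h.1 (Fin.last n), h.2)))
    (fun h => G n (h.1 (Fin.last n), h.2)) (fun h h' hh => ent_kerOf_congr R Prod.fst (G n) hh) (fun h => h)
  have e1 : (fun y : ((Fin (n + 1) → σ) × ξ) × σ => (Fin.snoc (α := fun _ => σ) y.1.1 y.2 : Fin (n + 1 + 1) → σ) (Fin.last (n + 1))) =
      fun y => y.2 := by
    funext y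
    exact Fin.snoc_last (α := fun _ => σ) _ _
  have e2 : (fun y : ((Fin (n + 1) → σ) × ξ) × σ =>
      ((fun j : Fin (n + 1) => (Fin.snoc (α := fun _ => σ) y.1.1 y.2 : Fin (n + 1 + 1) → σ) j.castSucc), y.1.2)) = fun y => y.1 := by
    funext y
    refine Prod.ext ?_ rfl
    funext j
    exact Fin.snoc_castSucc (α := fun _ => σ) _ _ _
  have e3 : (fun y : ((Fin (n + 1) → σ) × ξ) × σ =>
      G n ((Fin.snoc (α := fun _ => σ) y.1.1 y.2 : Fin (n + 1 + 1) → σ) (Fin.last n).castSucc, y.1.2)) =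
      fun y => G n (y.1.1 (Fin.last n), y.1.2) := by
    funext y
    rw [Fin.snoc_castSucc (α := fun _ => σ)]
  show FLaw.CI _ (fun y : ((Fin (n + 1) → σ) × ξ) × σ => (Fin.snoc (α := fun _ => σ) y.1.1 y.2 : Fin (n + 1 + 1) → σ) (Fin.last (n + 1)))
    (fun y : ((Fin (n + 1) → σ) × ξ) × σ =>
      ((fun j : Fin (n + 1) => (Fin.snoc (α := fun _ => σ) y.1.1 y.2 : Fin (n + 1 + 1) → σ) j.castSucc), y.1.2))
    (fun y : ((Fin (n + 1) → σ) × ξ) × σ =>
      G n ((Fin.snoc (α := fun _ => σ) y.1.1 y.2 : Fin (n + 1 + 1) → σ) (Fin.last n).castSucc, y.1.2))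
  rw [e1, e2, e3]
  exact h1

/-- one step of the chronological chain rule: the new angle given the earlier angles, the start and the marks has at least the entropy of `X` given the kept data -/
theorem lay_wk_step {γ α : Type} (R : FLaw (σ × ξ)) (G : ℕ → σ × ξ → γ)
    (hG : ∀ k y y', G k y = G k y' → y.2 = y'.2) (X : σ → α) (n : ℕ) :
    R.entC (fun y => X y.1) (G n) ≤ (layWalk R G (n + 1)).entC (fun h => X (h.1 (Fin.last (n + 1))))
      (pair (fun h => fun j : Fin n => X (h.1 j.succ.castSucc)) (fun h => (h.1 0, h.2))) := by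
  have hci := lay_walk_ci R G n
  have hci2 := ent_ci_comp (layWalk R G (n + 1)) _ _ _ hci (fun z _ => X z) (fun v _ => v)
  have hmi := (ent_ci_iff (layWalk R G (n + 1)) _ _ _).1 hci2
  rw [ent_miC_eq] at hmi
  have h1 : (layWalk R G (n + 1)).entC (fun h => X (h.1 (Fin.last (n + 1))))
      (pair (fun h => ((fun j : Fin (n + 1) => h.1 j.castSucc), h.2)) (fun h => G n (h.1 (Fin.last n).castSucc, h.2))) ≤
      (layWalk R G (n + 1)).entC (fun h => X (h.1 (Fin.last (n + 1))))
      (pair (fun h => fun j : Fin n => X (h.1 j.succ.castSucc)) (fun h => (h.1 0, h.2))) := by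
    refine ent_entC_anti _ _ _ _ fun ω ω' _ _ h => ?_
    have h2 : ((fun j : Fin (n + 1) => ω.1 j.castSucc), ω.2) = ((fun j : Fin (n + 1) => ω'.1 j.castSucc), ω'.2) := (Prod.mk.inj h).1
    have h3 : ∀ j : Fin (n + 1), ω.1 j.castSucc = ω'.1 j.castSucc := fun j => congrFun (Prod.mk.inj h2).1 j
    have h4 : ω.2 = ω'.2 := (Prod.mk.inj h2).2
    refine Prod.ext ?_ (Prod.ext ?_ h4)
    · funext j
      show X (ω.1 j.succ.castSucc) = X (ω'.1 j.succ.castSucc)
      rw [h3]
    · exact h3 0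
  have h2 : (layWalk R G (n + 1)).entC (fun h => X (h.1 (Fin.last (n + 1)))) (fun h => G n (h.1 (Fin.last n).castSucc, h.2)) =
      R.entC (fun y => X y.1) (G n) := by
    have e1 : (layWalk R G (n + 1)).entC (fun h => X (h.1 (Fin.last (n + 1)))) (fun h => G n (h.1 (Fin.last n).castSucc, h.2)) =
        (layWalk R G (n + 1)).entC (fun h => X (h.1 (Fin.last (n + 1)))) (fun h => G n (h.1 (Fin.last (n + 1)), h.2)) := by
      have hk : ∀ ω, (layWalk R G (n + 1)).p ω ≠ 0 → G n (ω.1 (Fin.last (n + 1)), ω.2) = G n (ω.1 (Fin.last n).castSucc, ω.2) := by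
        intro ω hω
        have := lay_walk_keep R G hG (n + 1) ω hω (Fin.last n)
        rw [Fin.val_last] at this
        exact this
      refine ent_entC_congr _ _ _ _ _ (fun ω ω' h3 h4 => ?_) (fun _ _ _ _ _ => Iff.rfl)
      rw [hk ω h3, hk ω' h4]
    rw [e1]
    have e2 := ent_map_entC (layWalk R G (n + 1)) (fun h => (h.1 (Fin.last (n + 1)), h.2)) (fun y : σ × ξ => X y.1) (G n)
    rw [lay_walk_stat R G hG (n + 1) (Fin.last (n + 1))] at e2
    exact e2.symm
  rw [h2] at hmi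
  linarith

/-- chronological chain rule -/
theorem lay_wk_lower {γ α : Type} (R : FLaw (σ × ξ)) (G : ℕ → σ × ξ → γ)
    (hG : ∀ k y y', G k y = G k y' → y.2 = y'.2) (X : σ → α) (n : ℕ) :
    ∑ k ∈ range n, R.entC (fun y => X y.1) (G k) ≤
      (layWalk R G n).entC (fun h => fun j : Fin n => X (h.1 j.succ)) (fun h => (h.1 0, h.2)) := by
  induction n with
  | zero =>
    rw [Finset.sum_range_zero]
    exact ent_entC_nonneg _ _ _
  | succ n ih =>
    rw [Finset.sum_range_succ]
    have e1 : (layWalk R G (n + 1)).entC (fun h => fun j : Fin (n + 1) => X (h.1 j.succ)) (fun h => (h.1 0, h.2)) =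
        (layWalk R G (n + 1)).entC (pair (fun h => fun j : Fin n => X (h.1 j.succ.castSucc)) (fun h => X (h.1 (Fin.last (n + 1)))))
          (fun h => (h.1 0, h.2)) := by
      refine ent_entC_congr _ _ _ _ _ (fun _ _ _ _ => Iff.rfl) (fun ω ω' _ _ _ => ?_)
      constructor
      · intro h
        refine Prod.ext ?_ ?_
        · funext j
          have := congrFun h j.castSucc
          rw [Fin.succ_castSucc] at this
          exact this
        · exact congrFun h (Fin.last n)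
      · intro h
        funext j
        refine Fin.lastCases ?_ (fun i => ?_) j
        · exact (Prod.mk.inj h).2
        · have := congrFun (Prod.mk.inj h).1 i
          show X (ω.1 i.castSucc.succ) = X (ω'.1 i.castSucc.succ)
          rw [Fin.succ_castSucc]
          exact this
    have e2 : (layWalk R G (n + 1)).entC (fun h => fun j : Fin n => X (h.1 j.succ.castSucc)) (fun h => (h.1 0, h.2)) =
        (layWalk R G n).entC (fun h => fun j : Fin n => X (h.1 j.succ)) (fun h => (h.1 0, h.2)) := by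
      rw [← lay_walk_prev R G n, ent_map_entC]
      rfl
    rw [e1, ent_entC_chain, e2]
    exact add_le_add ih (lay_wk_step R G hG X n)

/-- LEAF WK3. **(int:walk-kl), entropy form.**   `X` = a fixed finite-depth angular name of the side, `C k = c ∘ G k` (root name, possibly with a retained prefix).
Chain rule in chronological order: `H(X_1..X_n | Z_0, marks) = ∑ H(X_{k+1} | Z_0, marks, X_1..X_k) ≥ ∑ H(X_{k+1} | history_k) = ∑ H(X_{k+1} | kept data) = ∑ H_R(X | G k)`,
`H_R(X | C k) - H_R(X | G k) = I_R(X ; G k | C k)`.   Induction on `n` with `lay_walk_prev`, `lay_walk_ci`, `lay_walk_stat`, `lay_walk_keep`. -/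
theorem lay_walk_kl {γ κ α : Type} (R : FLaw (σ × ξ)) (G : ℕ → σ × ξ → γ)
    (hG : ∀ k y y', G k y = G k y' → y.2 = y'.2) (C : ℕ → σ × ξ → κ)
    (hC : ∀ k, ∃ c : γ → κ, ∀ y, C k y = c (G k y)) (X : σ → α) (n : ℕ) :
    ∑ k ∈ range n, R.entC (fun y => X y.1) (C k)
        - (layWalk R G n).entC (fun h => fun j : Fin n => X (h.1 j.succ)) (fun h => (h.1 0, h.2))
      ≤ ∑ k ∈ range n, R.miC (fun y => X y.1) (G k) (C k) := by
  have h1 := lay_wk_lower R G hG X n
  have h2 : ∀ k, R.miC (fun y => X y.1) (G k) (C k) = R.entC (fun y => X y.1) (C k) - R.entC (fun y => X y.1) (G k) := by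
    intro k
    rw [ent_miC_eq]
    obtain ⟨c, hc⟩ := hC k
    have e : R.entC (fun y => X y.1) (pair (G k) (C k)) = R.entC (fun y => X y.1) (G k) :=
      ent_entC_congr R _ _ _ _
        (fun ω ω' _ _ => ⟨fun h => (Prod.mk.inj h).1, fun h => Prod.ext h (by
          show C k ω = C k ω'
          rw [hc, hc, h])⟩)
        (fun _ _ _ _ _ => Iff.rfl)
    rw [e]
  rw [Finset.sum_congr rfl (fun k _ => h2 k), Finset.sum_sub_distrib]
  linarith

/-- on the support of the walk every marked side is in the support of `R` -/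
theorem lay_lik_supp {γ : Type} (R : FLaw (σ × ξ)) (G : ℕ → σ × ξ → γ)
    (hG : ∀ k y y', G k y = G k y' → y.2 = y'.2) (n : ℕ) (h : (Fin (n + 1) → σ) × ξ)
    (hh : (layWalk R G n).p h ≠ 0) (j : Fin (n + 1)) : R.p (h.1 j, h.2) ≠ 0 := by
  have h1 := ent_map_supp (layWalk R G n) (fun h => (h.1 j, h.2)) hh
  rw [lay_walk_stat R G hG n j] at h1
  exact h1

/-- a root name kept by all the legs is constant along the walk -/
theorem lay_lik_root {γ κ : Type} (R : FLaw (σ × ξ)) (G : ℕ → σ × ξ → γ)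
    (hG : ∀ k y y', G k y = G k y' → y.2 = y'.2) (C : σ × ξ → κ)
    (hC : ∀ k, ∃ c : γ → κ, ∀ y, C y = c (G k y)) (n : ℕ) (h : (Fin (n + 1) → σ) × ξ)
    (hh : (layWalk R G n).p h ≠ 0) (j : Fin (n + 1)) : C (h.1 j, h.2) = C (h.1 0, h.2) := by
  induction j using Fin.induction with
  | zero => rfl
  | succ i ih =>
    obtain ⟨c, hc⟩ := hC i
    rw [← ih, hc, hc, lay_walk_keep R G hG n h hh i]

/-- stationarity, for expectations -/
theorem lay_lik_ev {γ : Type} (R : FLaw (σ × ξ)) (G : ℕ → σ × ξ → γ)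
    (hG : ∀ k y y', G k y = G k y' → y.2 = y'.2) (n : ℕ) (j : Fin (n + 1)) (f : σ × ξ → ℝ) :
    (layWalk R G n).ev (fun h => f (h.1 j, h.2)) = R.ev f := by
  have h1 := ent_map_ev (layWalk R G n) (fun h => (h.1 j, h.2)) f
  rw [lay_walk_stat R G hG n j] at h1
  exact h1.symm

/-- LEAF WK4. **(int:walk-kl), likelihood form at actual samples**: the joint law of (start, marks, new angles) against `law(start, marks) ⊗_C ∏ law(X | C)`, one root name `C` kept by all legs.
`ent_tail_weight` for the observation `((X_j)_j, (Z_0, marks))` with that product weight; its mean log-ratio is the left side of `lay_walk_kl`  (`C (Z_j, marks) = C (Z_0, marks)` on the support). -/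
theorem lay_walk_lik {γ κ α : Type} (R : FLaw (σ × ξ)) (G : ℕ → σ × ξ → γ)
    (hG : ∀ k y y', G k y = G k y' → y.2 = y'.2) (C : σ × ξ → κ)
    (hC : ∀ k, ∃ c : γ → κ, ∀ y, C y = c (G k y)) (X : σ → α) (n : ℕ) {v : ℝ} (hv : 0 < v) :
    (layWalk R G n).pr (fun h => v < Real.log
        ((layWalk R G n).fib (pair (fun h' => fun j : Fin n => X (h'.1 j.succ)) (fun h' => (h'.1 0, h'.2))) h
          / ((layWalk R G n).fib (fun h' => (h'.1 0, h'.2)) h
              * ∏ j : Fin n, (R.fib (pair (fun y => X y.1) C) (h.1 j.succ, h.2) / R.fib C (h.1 j.succ, h.2)))))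
      ≤ (∑ k ∈ range n, R.miC (fun y => X y.1) (G k) C + Real.exp (-1)) / v := by
  -- the comparison weight
  obtain ⟨q, hq⟩ : ∃ q : (Fin n → α) × (σ × ξ) → ℝ, q = fun x =>
      (layWalk R G n).wt (fun h' => (h'.1 0, h'.2)) x.2
        * ∏ j : Fin n, (R.cfib C x.2).wt (fun y => X y.1) (x.1 j) := ⟨_, rfl⟩
  have hW : IsW q := by
    rw [hq]
    exact ent_aux_isW_skew (ν := (layWalk R G n).wt (fun h' => (h'.1 0, h'.2)))
      (μ := fun (y : σ × ξ) (a : Fin n → α) => ∏ j : Fin n, (R.cfib C y).wt (fun y => X y.1) (a j))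
      (ent_wt_isW _ _) (fun y => ent_isW_pi (fun _ => ent_wt_isW _ _))
  -- its value at the samples
  have hval : ∀ h, (layWalk R G n).p h ≠ 0 →
      q (pair (fun h' => fun j : Fin n => X (h'.1 j.succ)) (fun h' => (h'.1 0, h'.2)) h)
        = (layWalk R G n).fib (fun h' => (h'.1 0, h'.2)) h
          * ∏ j : Fin n, (R.fib (pair (fun y => X y.1) C) (h.1 j.succ, h.2) / R.fib C (h.1 j.succ, h.2)) := by
    intro h hh
    rw [hq]
    show (layWalk R G n).wt (fun h' => (h'.1 0, h'.2)) (h.1 0, h.2)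
        * ∏ j : Fin n, (R.cfib C (h.1 0, h.2)).wt (fun y => X y.1) (X (h.1 j.succ)) = _
    rw [ent_wt_apply (layWalk R G n) (fun h' => (h'.1 0, h'.2)) h]
    congr 1
    refine Finset.prod_congr rfl fun j _ => ?_
    have hr := lay_lik_root R G hG C hC n h hh j.succ
    have hp : 0 < R.fib C (h.1 0, h.2) := ent_fib_pos R C (lay_lik_supp R G hG n h hh 0)
    rw [ent_wt_apply (R.cfib C (h.1 0, h.2)) (fun y => X y.1) (h.1 j.succ, h.2),
      ent_cfib_fib R C (fun y => X y.1) hp hr, ent_fib_congr R C hr]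
  have hfac : ∀ h, (layWalk R G n).p h ≠ 0 → ∀ j : Fin n,
      0 < R.fib (pair (fun y => X y.1) C) (h.1 j.succ, h.2) / R.fib C (h.1 j.succ, h.2) := fun h hh j =>
    div_pos (ent_fib_pos R _ (lay_lik_supp R G hG n h hh j.succ))
      (ent_fib_pos R _ (lay_lik_supp R G hG n h hh j.succ))
  have hpos : ∀ h, (layWalk R G n).p h ≠ 0 →
      0 < q (pair (fun h' => fun j : Fin n => X (h'.1 j.succ)) (fun h' => (h'.1 0, h'.2)) h) := by
    intro h hh
    rw [hval h hh]
    exact mul_pos (ent_fib_pos _ _ hh) (Finset.prod_pos fun j _ => hfac h hh j)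
  have htail := ent_tail_weight (layWalk R G n)
    (pair (fun h' => fun j : Fin n => X (h'.1 j.succ)) (fun h' => (h'.1 0, h'.2))) q hW hpos hv
  -- the event
  have hev : (layWalk R G n).pr (fun h => v < Real.log
        ((layWalk R G n).fib (pair (fun h' => fun j : Fin n => X (h'.1 j.succ)) (fun h' => (h'.1 0, h'.2))) h
          / ((layWalk R G n).fib (fun h' => (h'.1 0, h'.2)) h
              * ∏ j : Fin n, (R.fib (pair (fun y => X y.1) C) (h.1 j.succ, h.2) / R.fib C (h.1 j.succ, h.2)))))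
      = (layWalk R G n).pr (fun h => v < Real.log
        ((layWalk R G n).fib (pair (fun h' => fun j : Fin n => X (h'.1 j.succ)) (fun h' => (h'.1 0, h'.2))) h
          / q (pair (fun h' => fun j : Fin n => X (h'.1 j.succ)) (fun h' => (h'.1 0, h'.2)) h))) :=
    ent_pr_congr _ fun h hh => by rw [hval h hh]
  -- the mean
  have hmean : (layWalk R G n).ev (fun h => Real.log
        ((layWalk R G n).fib (pair (fun h' => fun j : Fin n => X (h'.1 j.succ)) (fun h' => (h'.1 0, h'.2))) h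
          / q (pair (fun h' => fun j : Fin n => X (h'.1 j.succ)) (fun h' => (h'.1 0, h'.2)) h)))
      = ∑ k ∈ range n, R.entC (fun y => X y.1) C
        - (layWalk R G n).entC (fun h => fun j : Fin n => X (h.1 j.succ)) (fun h => (h.1 0, h.2)) := by
    have e1 : (layWalk R G n).ev (fun h => Real.log
        ((layWalk R G n).fib (pair (fun h' => fun j : Fin n => X (h'.1 j.succ)) (fun h' => (h'.1 0, h'.2))) h
          / q (pair (fun h' => fun j : Fin n => X (h'.1 j.succ)) (fun h' => (h'.1 0, h'.2)) h)))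
        = (layWalk R G n).ev (fun h => (∑ j : Fin n, R.surC (fun y => X y.1) C (h.1 j.succ, h.2))
            - (layWalk R G n).surC (fun h => fun j : Fin n => X (h.1 j.succ)) (fun h => (h.1 0, h.2)) h) := by
      refine ent_ev_congr _ fun h hh => ?_
      rw [hval h hh, Real.log_div (ent_fib_pos _ _ hh).ne'
        (mul_pos (ent_fib_pos _ _ hh) (Finset.prod_pos fun j _ => hfac h hh j)).ne',
        Real.log_mul (ent_fib_pos _ _ hh).ne' (Finset.prod_pos fun j _ => hfac h hh j).ne',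
        Real.log_prod (fun j _ => (hfac h hh j).ne'), ent_surC_eq_sub _ _ _ hh]
      unfold surC
      rw [Finset.sum_neg_distrib]
      ring
    rw [e1, ent_ev_sub, ent_ev_sum, ← ent_entC_eq_ev]
    congr 1
    rw [Finset.sum_congr rfl fun (j : Fin n) _ =>
      lay_lik_ev R G hG n j.succ (R.surC (fun y => X y.1) C), ← ent_entC_eq_ev]
    simp
  have hkl := lay_walk_kl R G hG (fun _ => C) hC X n
  rw [hev]
  refine htail.trans ?_
  rw [hmean]
  exact div_le_div_of_nonneg_right (by linarith) hv.le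

/-! ## several draws from one kernel -/

/-- the kernel of the star law -/
noncomputable def layStarKer {Ω γ : Type} [Fintype Ω] (R : FLaw Ω) (G : Ω → γ) (M : ℕ) : Ker Ω (Fin M → Ω) where
  k := fun ω b => (Claimed.Agent.RW.Pm.pi fun _ : Fin M => R.isoPm.cond G (G ω)).w b
  nonneg := fun ω b => (Claimed.Agent.RW.Pm.pi fun _ : Fin M => R.isoPm.cond G (G ω)).nonneg b
  sum_one := fun ω => (Claimed.Agent.RW.Pm.pi fun _ : Fin M => R.isoPm.cond G (G ω)).sum_one

theorem lay_star_eq_ext {Ω γ : Type} [Fintype Ω] (R : FLaw Ω) (G : Ω → γ) (M : ℕ) :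
    R.star G M = R.ext (layStarKer R G M) := by
  refine ent_law_ext _ _ fun x => ?_
  rfl

/-- in the star law the replicas are CI of the target given the kept data -/
theorem lay_star_ci {Ω γ : Type} [Fintype Ω] (R : FLaw Ω) (G : Ω → γ) (M : ℕ) :
    (R.star G M).CI (fun x => x.2) (fun x => x.1) (fun x => G x.1) := by
  rw [lay_star_eq_ext]
  exact ent_resample_ci R (layStarKer R G M) G (fun ω ω' h => by
    funext b
    show (Claimed.Agent.RW.Pm.pi fun _ : Fin M => R.isoPm.cond G (G ω)).w b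
      = (Claimed.Agent.RW.Pm.pi fun _ : Fin M => R.isoPm.cond G (G ω')).w b
    rw [h]) (fun ω => ω)

/-- LEAF WK5. **(int:motion-independence).**   `I((Y_s)_s ; target | C) = I((Y_s)_s ; B | C) = H((Y_s)|C) - ∑ H(Y_s|B) ≤ ∑ I(Y_s ; B | C)`, `B = G(target)`. -/
theorem lay_star_motion {Ω γ κ α : Type} [Fintype Ω] (R : FLaw Ω) (G : Ω → γ) (C : Ω → κ) (c : γ → κ)
    (hC : ∀ y, C y = c (G y)) (X : Ω → α) (M : ℕ) :
    (R.star G M).miC (fun x => fun s : Fin M => X (x.2 s)) (fun x => x.1) (fun x => C x.1)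
      ≤ M * R.miC X G C := by
  have hci : (R.star G M).miC (fun x => fun s : Fin M => X (x.2 s)) (fun x => x.1) (fun x => G x.1) = 0 :=
    (ent_ci_iff _ _ _ _).1
      (ent_ci_comp (R.star G M) _ _ _ (lay_star_ci R G M) (fun b _ => fun s => X (b s)) (fun ω _ => ω))
  have a1 : (R.star G M).ent (pair (fun x => x.1) (fun x => G x.1)) = (R.star G M).ent (fun x => x.1) :=
    ent_pair_of_ker _ _ _ fun ω ω' _ _ h => by
      have h' : ω.1 = ω'.1 := h
      show G ω.1 = G ω'.1
      rw [h']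
  have a2 : (R.star G M).ent (pair (pair (fun x => fun s : Fin M => X (x.2 s)) (fun x => x.1)) (fun x => G x.1))
      = (R.star G M).ent (pair (fun x => fun s : Fin M => X (x.2 s)) (fun x => x.1)) :=
    ent_pair_of_ker _ _ _ fun ω ω' _ _ h => by
      have h' : ω.1 = ω'.1 := (Prod.mk.inj h).2
      show G ω.1 = G ω'.1
      rw [h']
  have a3 : (R.star G M).ent (pair (fun x => x.1) (fun x => C x.1)) = (R.star G M).ent (fun x => x.1) :=
    ent_pair_of_ker _ _ _ fun ω ω' _ _ h => by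
      have h' : ω.1 = ω'.1 := h
      show C ω.1 = C ω'.1
      rw [h']
  have a4 : (R.star G M).ent (pair (pair (fun x => fun s : Fin M => X (x.2 s)) (fun x => x.1)) (fun x => C x.1))
      = (R.star G M).ent (pair (fun x => fun s : Fin M => X (x.2 s)) (fun x => x.1)) :=
    ent_pair_of_ker _ _ _ fun ω ω' _ _ h => by
      have h' : ω.1 = ω'.1 := (Prod.mk.inj h).2
      show C ω.1 = C ω'.1
      rw [h']
  have b1 : (R.star G M).ent (fun x => G x.1) = R.ent G := by
    rw [lay_star_eq_ext]; exact ent_ext_ent_fst R _ G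
  have b3 : (R.star G M).ent (fun x => C x.1) = R.ent C := by
    rw [lay_star_eq_ext]; exact ent_ext_ent_fst R _ C
  have h := iso_star_lower R M C G X c hC
  have c1 : (R.star G M).ent (starY M C X)
      = (R.star G M).ent (pair (fun x => fun s : Fin M => X (x.2 s)) (fun x => C x.1)) :=
    ent_pair_comm (R.star G M) (fun x => C x.1) (fun x => fun s : Fin M => X (x.2 s))
  have c2 : (R.star G M).ent (pair (fun x => G x.1) (starY M C X))
      = (R.star G M).ent (pair (fun x => fun s : Fin M => X (x.2 s)) (fun x => G x.1)) := by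
    refine ent_congr_ker _ _ _ fun ω ω' _ _ => ⟨fun h => ?_, fun h => ?_⟩
    · simp only [pair, starY, Prod.mk.injEq] at h ⊢
      exact ⟨h.2.2, h.1⟩
    · simp only [pair, starY, Prod.mk.injEq] at h ⊢
      exact ⟨h.2, by rw [hC, hC, h.2], h.1⟩
  have c3 : R.ent (pair G C) = R.ent G :=
    ent_pair_of_ker _ _ _ fun ω ω' _ _ h => by rw [hC, hC, h]
  rw [ent_miC_comm R G X C] at h
  unfold entC at h
  rw [c1, c2, c3] at h
  unfold miC at hci
  rw [a1, a2, b1] at hci
  show (R.star G M).ent _ + (R.star G M).ent _ - (R.star G M).ent _ - (R.star G M).ent _ ≤ _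
  rw [a3, a4, b3]
  linarith

/-- joint law of the target and one replica -/
theorem lay_star_joint {Ω γ : Type} [Fintype Ω] (R : FLaw Ω) (G : Ω → γ) (M : ℕ) (s : Fin M) (a b : Ω) :
    (R.star G M).pr (fun x => x.1 = a ∧ x.2 s = b) = R.p a * (R.isoPm.cond G (G a)).w b := by
  unfold FLaw.pr
  rw [Fintype.sum_prod_type, Finset.sum_eq_single a]
  · calc _ = ∑ y : Fin M → Ω, R.p a * ((Claimed.Agent.RW.Pm.pi fun _ : Fin M => R.isoPm.cond G (G a)).w y
            * (if y s = b then 1 else 0)) := by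
          refine Finset.sum_congr rfl fun y _ => ?_
          by_cases hy : y s = b
          · rw [if_pos (show (fun x : Ω × (Fin M → Ω) => x.1 = a ∧ x.2 s = b) (a, y) from ⟨rfl, hy⟩),
              if_pos hy, mul_one]; rfl
          · rw [if_neg (show ¬ (fun x : Ω × (Fin M → Ω) => x.1 = a ∧ x.2 s = b) (a, y) from fun h => hy h.2),
              if_neg hy, mul_zero, mul_zero]
      _ = _ := by
          rw [← Finset.mul_sum, Claimed.Agent.RW.en_cp_pi_marg (fun _ : Fin M => R.isoPm.cond G (G a)) s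
            (fun ω => if ω = b then 1 else 0)]
          simp
  · intro ω _ hω
    exact Finset.sum_eq_zero fun y _ => if_neg fun h => hω h.1
  · intro h; exact absurd (Finset.mem_univ a) h

theorem lay_star_joint_symm {Ω γ : Type} [Fintype Ω] (R : FLaw Ω) (G : Ω → γ) (a b : Ω) :
    R.p a * (R.isoPm.cond G (G a)).w b = R.p b * (R.isoPm.cond G (G b)).w a := by
  by_cases ha : R.p a = 0
  · by_cases hb : R.p b = 0
    · rw [ha, hb, zero_mul, zero_mul]
    · rw [Claimed.Agent.RW.en_cp_cond_w R.isoPm G (G b) (Claimed.Agent.RW.en_cp_pr_ne_zero R.isoPm G b hb), ha, zero_mul]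
      split_ifs
      · show 0 = R.p b * (R.p a / _)
        rw [ha, zero_div, mul_zero]
      · rw [mul_zero]
  · by_cases hb : R.p b = 0
    · rw [Claimed.Agent.RW.en_cp_cond_w R.isoPm G (G a) (Claimed.Agent.RW.en_cp_pr_ne_zero R.isoPm G a ha), hb, zero_mul]
      split_ifs
      · show R.p a * (R.p b / _) = 0
        rw [hb, zero_div, mul_zero]
      · rw [mul_zero]
    · rw [Claimed.Agent.RW.en_cp_cond_w R.isoPm G (G a) (Claimed.Agent.RW.en_cp_pr_ne_zero R.isoPm G a ha),
        Claimed.Agent.RW.en_cp_cond_w R.isoPm G (G b) (Claimed.Agent.RW.en_cp_pr_ne_zero R.isoPm G b hb)]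
      by_cases hab : G a = G b
      · rw [if_pos hab.symm, if_pos hab, hab]
        show R.p a * (R.p b / _) = R.p b * (R.p a / _)
        ring
      · rw [if_neg (fun h => hab h.symm), if_neg hab, mul_zero, mul_zero]

/-- LEAF WK5. target and resampled point are exchangeable -/
theorem lay_star_exch {Ω γ : Type} [Fintype Ω] (R : FLaw Ω) (G : Ω → γ) (M : ℕ) (s : Fin M) :
    (R.star G M).map (fun x => (x.2 s, x.1)) = (R.star G M).map (fun x => (x.1, x.2 s)) := by
  refine ent_law_ext _ _ fun y => ?_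
  obtain ⟨a, b⟩ := y
  show (R.star G M).pr (fun x => (x.2 s, x.1) = (a, b)) = (R.star G M).pr (fun x => (x.1, x.2 s) = (a, b))
  have e1 : (R.star G M).pr (fun x => (x.2 s, x.1) = (a, b))
      = (R.star G M).pr (fun x => x.1 = b ∧ x.2 s = a) :=
    ent_pr_congr _ fun x _ => by
      simp only [Prod.mk.injEq]
      exact and_comm
  have e2 : (R.star G M).pr (fun x => (x.1, x.2 s) = (a, b))
      = (R.star G M).pr (fun x => x.1 = a ∧ x.2 s = b) :=
    ent_pr_congr _ fun x _ => by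
      simp only [Prod.mk.injEq]
  rw [e1, e2, lay_star_joint, lay_star_joint, lay_star_joint_symm]

/-- LEAF WK5. retaining a prefix of `A` only lowers the budget: `I(A;B|C) = I(f A;B|C) + I(A;B|C,f A)` -/
theorem lay_mi_prefix {Ω α β γ δ : Type} [Fintype Ω] (P : FLaw Ω) (A : Ω → α) (B : Ω → β) (C : Ω → γ)
    (f : α → δ) : P.miC A B (pair C (fun ω => f (A ω))) ≤ P.miC A B C := by
  have e1 : P.ent (pair A (pair C (fun ω => f (A ω)))) = P.ent (pair A C) := by
    refine ent_congr_ker P _ _ fun ω ω' _ _ => ⟨fun h => ?_, fun h => ?_⟩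
    · simp only [pair, Prod.mk.injEq] at h ⊢
      exact ⟨h.1, h.2.1⟩
    · simp only [pair, Prod.mk.injEq] at h ⊢
      exact ⟨h.1, h.2, by rw [h.1]⟩
  have e2 : P.ent (pair (pair A B) (pair C (fun ω => f (A ω)))) = P.ent (pair (pair A B) C) := by
    refine ent_congr_ker P _ _ fun ω ω' _ _ => ⟨fun h => ?_, fun h => ?_⟩
    · simp only [pair, Prod.mk.injEq] at h ⊢
      exact ⟨h.1, h.2.1⟩
    · simp only [pair, Prod.mk.injEq] at h ⊢
      exact ⟨h.1, h.2, by rw [h.1.1]⟩
  have h := ent_entC_pair_le P B C (fun ω => f (A ω))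
  unfold entC at h
  unfold miC
  rw [e1, e2]
  linarith

/-! ## (leg) -/

/-- LEAF WK6. **(leg), quadratic.**  primes = new endpoint, `A = X' - X`. -/
theorem lay_leg_quad (X B P Y N D X' B' P' Y' N' D' θ r e : ℝ)
    (h1 : |(B + θ * X) - (B' + θ * X')| ≤ e) (h2 : |(Y + θ * X ^ 2) - (Y' + θ * X' ^ 2)| ≤ e)
    (h3 : |(D + θ * N) - (D' + θ * N')| ≤ e) (h4 : |(P - 2 * r * X) - (P' - 2 * r * X')| ≤ e)
    (h5 : |(N - P * X + r * X ^ 2) - (N' - P' * X' + r * X' ^ 2)| ≤ e) :
    |(B' - B) + θ * (X' - X)| ≤ e ∧ |(Y' - Y) + θ * (2 * X * (X' - X) + (X' - X) ^ 2)| ≤ e ∧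
      |(D' - D) + θ * (N' - N)| ≤ e ∧ |(P' - P) - 2 * r * (X' - X)| ≤ e ∧
      |(N' - N) - (P * (X' - X) + r * (X' - X) ^ 2)| ≤ e * (1 + |X'|) := by
  refine ⟨?_, ?_, ?_, ?_, ?_⟩
  · have e1 : (B' - B) + θ * (X' - X) = -((B + θ * X) - (B' + θ * X')) := by ring
    rw [e1, abs_neg]; exact h1
  · have e1 : (Y' - Y) + θ * (2 * X * (X' - X) + (X' - X) ^ 2) = -((Y + θ * X ^ 2) - (Y' + θ * X' ^ 2)) := by ring
    rw [e1, abs_neg]; exact h2
  · have e1 : (D' - D) + θ * (N' - N) = -((D + θ * N) - (D' + θ * N')) := by ring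
    rw [e1, abs_neg]; exact h3
  · have e1 : (P' - P) - 2 * r * (X' - X) = -((P - 2 * r * X) - (P' - 2 * r * X')) := by ring
    rw [e1, abs_neg]; exact h4
  · have e5 : (N' - N) - (P * (X' - X) + r * (X' - X) ^ 2)
        = -((N - P * X + r * X ^ 2) - (N' - P' * X' + r * X' ^ 2)) - ((P - 2 * r * X) - (P' - 2 * r * X')) * X' := by ring
    rw [e5]
    have h6 : |((P - 2 * r * X) - (P' - 2 * r * X')) * X'| ≤ e * |X'| := by
      rw [abs_mul]; exact mul_le_mul_of_nonneg_right h4 (abs_nonneg _)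
    obtain ⟨a1, a2⟩ := abs_le.1 h5
    obtain ⟨b1, b2⟩ := abs_le.1 h6
    exact abs_le.2 ⟨by linarith, by linarith⟩

/-- LEAF WK6. **(leg), linear.** -/
theorem lay_leg_lin (X B Y N D X' B' Y' N' D' θ r e : ℝ)
    (h1 : |(B + θ * X) - (B' + θ * X')| ≤ e) (h2 : |(Y + θ * X ^ 2) - (Y' + θ * X' ^ 2)| ≤ e)
    (h3 : |(D + θ * N) - (D' + θ * N')| ≤ e) (h4 : |(N - r * X) - (N' - r * X')| ≤ e) :
    |(B' - B) + θ * (X' - X)| ≤ e ∧ |(Y' - Y) + θ * (2 * X * (X' - X) + (X' - X) ^ 2)| ≤ e ∧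
      |(D' - D) + θ * (N' - N)| ≤ e ∧ |(N' - N) - r * (X' - X)| ≤ e := by
  refine ⟨?_, ?_, ?_, ?_⟩
  · have e1 : (B' - B) + θ * (X' - X) = -((B + θ * X) - (B' + θ * X')) := by ring
    rw [e1, abs_neg]; exact h1
  · have e1 : (Y' - Y) + θ * (2 * X * (X' - X) + (X' - X) ^ 2) = -((Y + θ * X ^ 2) - (Y' + θ * X' ^ 2)) := by ring
    rw [e1, abs_neg]; exact h2
  · have e1 : (D' - D) + θ * (N' - N) = -((D + θ * N) - (D' + θ * N')) := by ring
    rw [e1, abs_neg]; exact h3
  · have e1 : (N' - N) - r * (X' - X) = -((N - r * X) - (N' - r * X')) := by ring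
    rw [e1, abs_neg]; exact h4

end Claimed.Agent.R256
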