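import Claimed.Agent.R256.Lay.SepKit
import Claimed.Agent.R256.Lay.Dt
import Claimed.Agent.R256.Lay.Bud
import Claimed.Agent.R256.Lay.Sco
import Claimed.Agent.R256.Lay.Law
import Claimed.Agent.R256.Lay.Walk

/-!
# Row 256, unit LAY = 04-canonical-names.tex l.730-1340 (04B): THE CONTRACT      (chief helper189; reports 873, 885)

## ENTRY  (what Lay consumes)
 E1  Soft (helper19)  `SfDoc`, `SfDoc.Ok π C0 τ κ0 t` through `SfExit`: fields `base trans own grid cmpA cmpB eqK linP sp tp mincost bdd hlen hr hf`.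
 E2  Nm (04A)         (a) predictability of the side: `D.RowPr i E Z (s^-t)` at the gates `i ≥ a` (848 X5/X7; 04 l.672-684), `D.LabPr` at `c = 1` (left slack); `E` = success event of an exact side;
                      (b) a grid datum `g : LayGr` with `g.In na nv K Kf RQ RX B0 N0` (`Lay/Defs`: X1, X7, X10, X11 as `NVal`), `N0 = δ^(-acc')`;
                      (c) at most roots: the angular score for the ACTUAL names (`(ang)` + flattening), `Tan.AdmM`, `Tan.AdmG` for `g.tan i k`  (hypothesis `hNm` of `lay_select`);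
                      (d) the marks of `g` are the normalised `(T_1, β_1(T_1))`, resp. `Pc`, of the final label in a frame that is a function of the side  (then S1-S3 give the hypothesis of `lay_exit_avoid`).
 E3  Int (helper196)  `Tan`, `Tan.Adm`, `Tan.Avoid`, `Tan.Cross` (definitions only).
## EXIT  (what Lay delivers; consumers Int = helper196, Prj = helper186, Act = helper277)
 X0  paper-free kits, ON MAIN:  `Lay/Dt` (DT), `Lay/Bud` (budgets), `Lay/Sco` (scores, future prefix, random DT), `Lay/Law` (law change), `Lay/Walk` (walks, walk-kl, motion independence, (leg)).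
 S   names:separation:   `lay_sep_time`, `lay_sep_lt`, `lay_sep_gt`, `lay_sep_eq`, `lay_sep_lin`, `lay_avoid_doc` = A4 (on `SfDoc`), `lay_sep_line`, `lay_cross_star`, `lay_cross_of_value` (one finite law).
 G   names:replica-budgets on the grid:   `lay_exit_t0` (T0), `lay_exit_vb` (A1), `lay_exit_ng`, `lay_exit_fib` (A2), `lay_exit_ang`, `lay_exit_avoid`, `lay_exit_cross`, `lay_exit_mean`,  `lay_select` = `Tan.Adm` at all but `3 ε` of the roots.
 P   `Lay/Prod.lean` (imports this file + Nm/Defs): `layGrOf` (grid datum of the names of Nm), `lay_uf_count`, `lay_root_ae`, `lay_bud_ae` = (vb), (fib) at ALMOST EVERY root in the form asked by `AcProd` (Act/Raw): the datum served at `p` is rooted at a grid point within `η h`.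
 R   root selection, finite form (fallback if Act leaves the pointwise `AcProd`):   `lay_ent_arr` (entropy arrays are `LayArrE`: gap selection by `lay_dt_approx`), `lay_adm_perturb`, `lay_cover` (the traces `m, ν` depend on the root: finite subcover of `[0,1]²`), `lay_bridge` (most grid roots at arbitrarily small gaps ⇒ a.e. root).
## ORDER OF CONSTANTS   `π, C0` → `τ` (S) → `κ0` (SfExit) → `e0` → `σ` → [Int: `τ', κ0', pk, acc` for a finite cover of `(m, ν)`] → `RX > RQ`, `Kf`, grid steps `Ga, Kv` → `ε` → `h` (small; level of DT) → `na, nv` → `acc'`, gates → `t` → `s0` → `D`.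
## UNITS  (lines; depends on; architect)
 B1 Bud 400, B2 Dt 650 DONE, B3 Sco 900, B4 Law 500, B1' Walk 1300: leaves L-256-LAY-BU*, SC*, LW*, WK* (open, paper free).
 B6 `Lay/SepKit` (extraction `sp ∘ mincost`, time confinement, counting, `lay_sep_time`): leaves SK1-4 | B7a `Lay/SepLt` CUT (leaves LT1-2, `lay_sep_lt` proved from them) | B7b `Lay/SepGt`, B7c-d `Lay/SepEq`: full exponent tables in the headers, cut in progress (helper189)
 B7e `lay_sep_line`, `lay_cross_*` 350 (paper free)    | B8a `lay_exit_*`, `lay_select` 1200 (B1, Defs) | B8b `lay_ent_arr`, `lay_adm_perturb`, `lay_cover` 500 (paper free) | B8c `lay_bridge` 500 (Mathlib)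
 B5 Read (X10, X11, `qlist`, freezing, wedge) 3100-4100 lives with the DEFINITION of the names: it is E2(b), owner = chief of Nm; Lay offers `qlist` and the algebra of 04 l.963-1000 (`lay_read_quad`, `lay_read_lin` below).
-/

set_option autoImplicit false

namespace Claimed.Agent.R256

open Claimed.Agent.R255 Claimed.Agent.R255.FLaw
open Finset
open scoped BigOperators
open Classical

/-! ## S. separation -/

/-! `lay_sep_time` : `Lay/SepKit`;   `lay_sep_lt` : `Lay/SepLt`;   `lay_sep_gt` : `Lay/SepGt`;   `lay_sep_eq`, `lay_sep_lin` : `Lay/SepEq`. -/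

/-- **S3 (paper free): vertical + graph ⇒ arbitrary lines**, in bounded normalised marks `(θ, r)`.   Split the side values by `|be| < w^χ`. -/
theorem lay_sep_line {Ω ζ : Type} [Fintype Ω] (P : FLaw Ω) (Z : Ω → ζ) (E : Ω → Prop) (θ r : Ω → ℝ) (B0 w χ pV pG : ℝ)
    (hB : 1 ≤ B0) (hw : 0 < w) (hχ : 0 < χ) (hχ1 : χ < 1) (hw2 : w ^ χ ≤ 1 / 2)
    (hr : ∀ ω, P.p ω ≠ 0 → |r ω| ≤ B0)
    (hV : ∀ I : ζ → ℝ, P.pr (fun ω => E ω ∧ |θ ω - I (Z ω)| ≤ 4 * B0 * w ^ χ) ≤ pV)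
    (hG : ∀ v sl : ζ → ℝ, (∀ x, |sl x| ≤ w ^ (-χ)) →
      P.pr (fun ω => E ω ∧ |r ω - (v (Z ω) + sl (Z ω) * θ ω)| ≤ w ^ (1 - χ)) ≤ pG)
    (al be ga : ζ → ℝ) (hn : ∀ x, al x ^ 2 + be x ^ 2 = 1) :
    P.pr (fun ω => E ω ∧ |al (Z ω) * θ ω + be (Z ω) * r ω - ga (Z ω)| ≤ w) ≤ pV + pG := by
  have hwχ : 0 < w ^ χ := Real.rpow_pos_of_pos hw χ
  have hw1 : w ≤ 1 := by
    by_contra hcon
    have : 1 ≤ w ^ χ := Real.one_le_rpow (not_le.1 hcon).le hχ.le
    linarith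
  have hwle : w ≤ w ^ χ := by
    have := Real.rpow_le_rpow_of_exponent_ge hw hw1 hχ1.le
    rwa [Real.rpow_one] at this
  have hneg : w ^ (-χ) = (w ^ χ)⁻¹ := Real.rpow_neg hw.le χ
  have hsub : w ^ (1 - χ) = w / w ^ χ := by rw [Real.rpow_sub hw, Real.rpow_one]
  have hsl : ∀ x, |(if |be x| < w ^ χ then 0 else -al x / be x)| ≤ w ^ (-χ) := by
    intro x
    split_ifs with hx
    · rw [abs_zero]; exact (Real.rpow_pos_of_pos hw _).le
    · have hb : w ^ χ ≤ |be x| := not_lt.1 hx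
      have ha : |al x| ≤ 1 := by
        rw [← abs_one, ← sq_le_sq]
        nlinarith [hn x, sq_nonneg (be x)]
      rw [abs_div, abs_neg, hneg, div_eq_mul_inv]
      calc |al x| * |be x|⁻¹ ≤ 1 * (w ^ χ)⁻¹ :=
            mul_le_mul ha (inv_anti₀ hwχ hb) (inv_nonneg.2 (abs_nonneg _)) zero_le_one
        _ = (w ^ χ)⁻¹ := one_mul _
  refine le_trans (le_trans (ent_pr_mono P fun ω hω h => ?_) (ent_pr_or_le P _ _))
    (add_le_add (hV fun x => ga x / al x)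
      (hG (fun x => if |be x| < w ^ χ then 0 else ga x / be x)
        (fun x => if |be x| < w ^ χ then 0 else -al x / be x) hsl))
  obtain ⟨hE, h⟩ := h
  by_cases hx : |be (Z ω)| < w ^ χ
  · refine Or.inl ⟨hE, ?_⟩
    have hb2 : be (Z ω) ^ 2 ≤ 1 / 4 := by
      have h1 : |be (Z ω)| ≤ 1 / 2 := hx.le.trans hw2
      have := abs_nonneg (be (Z ω))
      rw [← sq_abs]
      nlinarith
    have ha2 : (1 / 2 : ℝ) ≤ |al (Z ω)| := by
      have h3 : (3 / 4 : ℝ) ≤ |al (Z ω)| ^ 2 := by rw [sq_abs]; linarith [hn (Z ω)]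
      by_contra hcon
      have h4 := not_le.1 hcon
      have := abs_nonneg (al (Z ω))
      nlinarith
    have ha0 : al (Z ω) ≠ 0 := by
      intro h0; rw [h0, abs_zero] at ha2; linarith
    have e1 : θ ω - ga (Z ω) / al (Z ω)
        = ((al (Z ω) * θ ω + be (Z ω) * r ω - ga (Z ω)) - be (Z ω) * r ω) / al (Z ω) := by
      field_simp; ring
    have h5 : |be (Z ω) * r ω| ≤ w ^ χ * B0 := by
      rw [abs_mul]
      exact mul_le_mul hx.le (hr ω hω) (abs_nonneg _) hwχ.le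
    have h6 : |(al (Z ω) * θ ω + be (Z ω) * r ω - ga (Z ω)) - be (Z ω) * r ω| ≤ 2 * B0 * w ^ χ := by
      refine (abs_sub _ _).trans ?_
      nlinarith
    show |θ ω - ga (Z ω) / al (Z ω)| ≤ 4 * B0 * w ^ χ
    rw [e1, abs_div, div_le_iff₀ (by linarith)]
    have h7 : 0 ≤ 4 * B0 * w ^ χ := by positivity
    nlinarith
  · refine Or.inr ⟨hE, ?_⟩
    have hb : w ^ χ ≤ |be (Z ω)| := not_lt.1 hx
    have hb0 : be (Z ω) ≠ 0 := by
      intro h0; rw [h0, abs_zero] at hb; linarith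
    show |r ω - ((if |be (Z ω)| < w ^ χ then 0 else ga (Z ω) / be (Z ω))
      + (if |be (Z ω)| < w ^ χ then 0 else -al (Z ω) / be (Z ω)) * θ ω)| ≤ w ^ (1 - χ)
    rw [if_neg hx, if_neg hx, hsub]
    have e1 : r ω - (ga (Z ω) / be (Z ω) + -al (Z ω) / be (Z ω) * θ ω)
        = (al (Z ω) * θ ω + be (Z ω) * r ω - ga (Z ω)) / be (Z ω) := by
      field_simp; ring
    rw [e1, abs_div]
    exact div_le_div₀ hw.le h hwχ hb

/-- **A4, core (ONE configuration; change of variables + `lay_sep_line`).**   LEAF A4a.   Marks `θ = (T_1 - ta)/s^a`, `r = (β_1(T_1) - Ra - ka (T_1 - ta))/s^(b(a))` in a frame which is a function of the side.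
`hV` = one predicted time interval of length `8 B0 w^χ s^a`;   `hG` = graph form: an affine trajectory of slope `≤ Sl` is met within `w^(1-χ) s^(b(a))`, where `|ka| + w^-χ s^(b(a)-a) ≤ Sl`   (`c2 ≤ 1`: `ka = 0`, `Sl = (B0 + w^-χ) s^(b(a)-a)` is enough;   `c2 > 1`: `ka = [K_1]` is only polynomially bounded, defect found by helper51).
Suppliers of `hG`: `LaySep` (`lay_avoid_doc`), or E1 = Lemma act:stationary-boundary (helper279) for the exact side at `c = 1`, `J = 0`.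
PROOF.  `lay_sep_line` with `P = D.P 1`.   (V) `|θ - I| ≤ 4 B0 w^χ ⟺ T_1 ∈ [ta + s^a (I - 4 B0 w^χ), .. + 8 B0 w^χ s^a]`.   (G) `r - (v + sl θ) = (β_1 - (v' + sl' T_1))/s^(b(a))` with `sl' = ka + s^(b(a)-a) sl`, `v' = Ra - ka ta + s^(b(a)) v - s^(b(a)-a) sl ta`. -/
theorem lay_avoid_core (π : SfPar) (D : SfDoc) (hs : 0 < D.s) (a w χ B0 Sl pV pG : ℝ) (hB : 1 ≤ B0) (hw : 0 < w) (hχ : 0 < χ)
    (hχ1 : χ < 1) (hw2 : w ^ χ ≤ 1 / 2) (ζ : Type) (Z : D.Row 1 → ζ) (E : D.Row 1 → Prop)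
    (hV : ∀ I : ζ → ℝ, (D.P 1).pr (fun ρ => E ρ ∧ I (Z ρ) ≤ D.T 1 ρ ∧ D.T 1 ρ ≤ I (Z ρ) + 8 * B0 * w ^ χ * D.s ^ a) ≤ pV)
    (hG : ∀ v sl : ζ → ℝ, (∀ x, |sl x| ≤ Sl) →
      (D.P 1).pr (fun ρ => E ρ ∧ |(D.lab 1 ρ).be - (v (Z ρ) + sl (Z ρ) * D.T 1 ρ)| ≤ w ^ (1 - χ) * D.s ^ (π.b2 a)) ≤ pG)
    (ta Ra ka : ζ → ℝ) (hka : ∀ x, |ka x| + w ^ (-χ) * D.s ^ (π.b2 a - a) ≤ Sl)
    (hr : ∀ ρ, (D.P 1).p ρ ≠ 0 →
      |((D.lab 1 ρ).be - (Ra (Z ρ) + ka (Z ρ) * (D.T 1 ρ - ta (Z ρ)))) / D.s ^ (π.b2 a)| ≤ B0)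
    (al be ga : ζ → ℝ) (hn : ∀ x, al x ^ 2 + be x ^ 2 = 1) :
    (D.P 1).pr (fun ρ => E ρ ∧ |al (Z ρ) * ((D.T 1 ρ - ta (Z ρ)) / D.s ^ a)
        + be (Z ρ) * (((D.lab 1 ρ).be - (Ra (Z ρ) + ka (Z ρ) * (D.T 1 ρ - ta (Z ρ)))) / D.s ^ (π.b2 a))
        - ga (Z ρ)| ≤ w) ≤ pV + pG := by
  have hsa : 0 < D.s ^ a := Real.rpow_pos_of_pos hs _
  have hsb : 0 < D.s ^ (π.b2 a) := Real.rpow_pos_of_pos hs _
  have hsba : D.s ^ (π.b2 a - a) = D.s ^ (π.b2 a) / D.s ^ a := Real.rpow_sub hs _ _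
  have hsba0 : 0 < D.s ^ (π.b2 a - a) := Real.rpow_pos_of_pos hs _
  refine lay_sep_line (D.P 1) Z E (fun ρ => (D.T 1 ρ - ta (Z ρ)) / D.s ^ a)
    (fun ρ => ((D.lab 1 ρ).be - (Ra (Z ρ) + ka (Z ρ) * (D.T 1 ρ - ta (Z ρ)))) / D.s ^ (π.b2 a)) B0 w χ pV pG hB hw hχ hχ1 hw2 hr
    (fun I => ?_) (fun v sl hsl => ?_) al be ga hn
  · refine le_trans (ent_pr_mono (D.P 1) fun ρ _ h => ?_) (hV fun x => ta x + D.s ^ a * (I x - 4 * B0 * w ^ χ))
    obtain ⟨hE, h⟩ := h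
    refine ⟨hE, ?_⟩
    obtain ⟨h1, h2⟩ := abs_le.1 h
    have e1 : D.T 1 ρ - ta (Z ρ) = D.s ^ a * ((D.T 1 ρ - ta (Z ρ)) / D.s ^ a) := by
      field_simp
    have h3 := mul_le_mul_of_nonneg_left h1 hsa.le
    have h4 := mul_le_mul_of_nonneg_left h2 hsa.le
    constructor
    · show ta (Z ρ) + D.s ^ a * (I (Z ρ) - 4 * B0 * w ^ χ) ≤ D.T 1 ρ
      nlinarith
    · show D.T 1 ρ ≤ ta (Z ρ) + D.s ^ a * (I (Z ρ) - 4 * B0 * w ^ χ) + 8 * B0 * w ^ χ * D.s ^ a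
      nlinarith
  · refine le_trans (ent_pr_mono (D.P 1) fun ρ _ h => ?_)
      (hG (fun x => Ra x - ka x * ta x + D.s ^ (π.b2 a) * v x - D.s ^ (π.b2 a - a) * sl x * ta x)
        (fun x => ka x + D.s ^ (π.b2 a - a) * sl x) (fun x => ?_))
    · obtain ⟨hE, h⟩ := h
      refine ⟨hE, ?_⟩
      show |(D.lab 1 ρ).be - ((Ra (Z ρ) - ka (Z ρ) * ta (Z ρ) + D.s ^ (π.b2 a) * v (Z ρ) - D.s ^ (π.b2 a - a) * sl (Z ρ) * ta (Z ρ))
        + (ka (Z ρ) + D.s ^ (π.b2 a - a) * sl (Z ρ)) * D.T 1 ρ)| ≤ w ^ (1 - χ) * D.s ^ (π.b2 a)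
      have e1 : (D.lab 1 ρ).be - ((Ra (Z ρ) - ka (Z ρ) * ta (Z ρ) + D.s ^ (π.b2 a) * v (Z ρ) - D.s ^ (π.b2 a - a) * sl (Z ρ) * ta (Z ρ))
          + (ka (Z ρ) + D.s ^ (π.b2 a - a) * sl (Z ρ)) * D.T 1 ρ)
          = (((D.lab 1 ρ).be - (Ra (Z ρ) + ka (Z ρ) * (D.T 1 ρ - ta (Z ρ)))) / D.s ^ (π.b2 a)
            - (v (Z ρ) + sl (Z ρ) * ((D.T 1 ρ - ta (Z ρ)) / D.s ^ a))) * D.s ^ (π.b2 a) := by
        rw [hsba]
        field_simp
        ring
      rw [e1, abs_mul, abs_of_pos hsb]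
      exact mul_le_mul_of_nonneg_right h hsb.le
    · refine (abs_add_le _ _).trans ?_
      rw [abs_mul, abs_of_pos hsba0]
      have := mul_le_mul_of_nonneg_left (hsl x) hsba0.le
      have := hka x
      linarith

/-- powers of `w = (s^h)^u` -/
theorem lay_a4b_w {s h u : ℝ} (hs : 0 < s) (θ : ℝ) : ((s ^ h) ^ u) ^ θ = s ^ (h * u * θ) := by
  rw [← Real.rpow_mul hs.le, ← Real.rpow_mul hs.le]

/-- all the small factors -/
theorem lay_a4b_small {s h u u0 θ θm B0 : ℝ} (hs : 0 < s) (hs1 : s < 1) (hh : 0 < h) (hu0 : 0 < u0) (hu : u0 ≤ u) (hθm : 0 < θm) (hθ : θm ≤ θ) (hB : 1 ≤ B0)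
    (hs0 : s < (1 / (8 * B0)) ^ (1 / (h * u0 * θm))) : ((s ^ h) ^ u) ^ θ ≤ 1 / (8 * B0) := by
  rw [lay_a4b_w hs]
  have hp : 0 < h * u0 * θm := by positivity
  have hu' : 0 < u := lt_of_lt_of_le hu0 hu
  have h1 : h * u0 * θm ≤ h * u * θ := by
    have : h * u0 ≤ h * u := mul_le_mul_of_nonneg_left hu hh.le
    exact mul_le_mul this hθ hθm.le (by positivity)
  have h2 : s ^ (h * u * θ) ≤ s ^ (h * u0 * θm) := Real.rpow_le_rpow_of_exponent_ge hs hs1.le h1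
  have h3 : s ^ (h * u0 * θm) ≤ ((1 / (8 * B0)) ^ (1 / (h * u0 * θm))) ^ (h * u0 * θm) := Real.rpow_le_rpow hs.le hs0.le hp.le
  have h4 : ((1 / (8 * B0)) ^ (1 / (h * u0 * θm))) ^ (h * u0 * θm) = 1 / (8 * B0) := by
    rw [← Real.rpow_mul (by positivity), one_div_mul_cancel hp.ne', Real.rpow_one]
  rw [h4] at h3
  exact h2.trans h3

/-- the slope of the frame for `c2 > 1` -/
theorem lay_a4b_slope {s c a x k : ℝ} (hs : 0 < s) (hs2 : s < 1 / 2) (hc : 1 < c) (ha0 : 0 ≤ a) (ha1 : a ≤ 1) (hx : x ≤ 2)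
    (hk : k ≤ s ^ (-(c + 2))) : k + s ^ (-x + (c * (a - 1) - a)) ≤ s ^ (-(c + 5)) := by
  have hs1 : s ≤ 1 := by linarith
  have hca : 0 ≤ c * a := mul_nonneg (by linarith) ha0
  have q2 : s ^ (-x + (c * (a - 1) - a)) ≤ s ^ (-(c + 4)) :=
    Real.rpow_le_rpow_of_exponent_ge hs hs1 (by linarith)
  have q3 : s ^ (-(c + 2)) ≤ s ^ (-(c + 4)) := Real.rpow_le_rpow_of_exponent_ge hs hs1 (by linarith)
  have q4 : 2 * s ^ (-(c + 4)) ≤ s ^ (-(c + 5)) := by
    have e : s ^ (-(c + 5)) = s ^ (-(c + 4)) * s ^ (-1 : ℝ) := by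
      rw [← Real.rpow_add hs]
      congr 1
      ring
    rw [e, Real.rpow_neg_one]
    have h2 : 2 ≤ s⁻¹ := by
      rw [le_inv_comm₀ (by norm_num) hs]
      linarith
    have h3 := Real.rpow_pos_of_pos hs (-(c + 4))
    calc 2 * s ^ (-(c + 4)) = s ^ (-(c + 4)) * 2 := by ring
      _ ≤ s ^ (-(c + 4)) * s⁻¹ := mul_le_mul_of_nonneg_left h2 h3.le
  linarith

set_option maxHeartbeats 1000000 in
/-- **A4 = names:separation for the normalised marks of the final label**, in a frame `(ta, Ra, ka)` that is a function of the side: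
`θ = (T_1 - ta)/s^a`, `r = (β_1(T_1) - Ra - ka (T_1 - ta))/s^(b(a))`, `δ = s^h`.   LEAF A4b.   From `lay_avoid_core` (`w = δ^u`), `LaySep` (`z = (1-χ) u h`), `lay_sep_time` (`y = χ u h / 2`), `χ = χ_S / 4`, `e0 = min (d χ / 4) (e1 (1-χ)) / 2`.
`e0` is chosen BEFORE the range `[u0, u1]` of the exponents and before `h`. -/
theorem lay_avoid_doc (π : SfPar) (hπ : π.Valid) (C0 : ℝ) (lb : Bool) (hS : LaySep π C0 lb) :
    ∃ (τ : ℝ) (cs : Finset ℝ), 0 < τ ∧ (∀ c ∈ cs, 0 ≤ c) ∧ ∀ κ0 : ℝ, 0 < κ0 → ∃ e0 : ℝ, 0 < e0 ∧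
      ∀ B0 u0 u1 h : ℝ, 1 ≤ B0 → 0 < u0 → u0 ≤ u1 → 0 < h → ∃ t0 : ℝ, 0 < t0 ∧ ∀ t : ℝ, 0 < t → t ≤ t0 →
      ∃ s0 : ℝ, 0 < s0 ∧ ∀ D : SfDoc, D.s < s0 → D.Ok π C0 τ κ0 t →
        ∀ a u : ℝ, u0 ≤ u → u ≤ u1 → a ∈ D.G → (∀ c ∈ cs, a + c * (u * h) ∈ D.G ∧ a + c * (u * h) < 1) →
        ∀ (ζ : Type) (Z : D.Row 1 → ζ) (E : D.Row 1 → Prop), (∀ c ∈ cs, D.RowPr (a + c * (u * h)) E Z (D.s ^ (-t))) →
          (lb = true → ∀ c ∈ cs, D.LabPr (a + c * (u * h)) E Z (fun _ => ()) (D.s ^ (-t))) →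
        ∀ ta Ra ka : ζ → ℝ, (∀ x, |ka x| ≤ if 1 < π.c2 then D.s ^ (-(π.c2 + 2)) else B0 * D.s ^ (π.b2 a - a)) →
          (∀ ρ, (D.P 1).p ρ ≠ 0 →
            |((D.lab 1 ρ).be - (Ra (Z ρ) + ka (Z ρ) * (D.T 1 ρ - ta (Z ρ)))) / D.s ^ (π.b2 a)| ≤ B0) →
        ∀ al be ga : ζ → ℝ, (∀ x, al x ^ 2 + be x ^ 2 = 1) →
          (D.P 1).pr (fun ρ => E ρ ∧ |al (Z ρ) * ((D.T 1 ρ - ta (Z ρ)) / D.s ^ a)
              + be (Z ρ) * (((D.lab 1 ρ).be - (Ra (Z ρ) + ka (Z ρ) * (D.T 1 ρ - ta (Z ρ)))) / D.s ^ (π.b2 a))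
              - ga (Z ρ)| ≤ (D.s ^ h) ^ u) ≤ (D.s ^ h) ^ (e0 * u) := by
  obtain ⟨τ, χS, csS, hτ, hχS0, hχS1, hcsS, hS⟩ := hS
  obtain ⟨hd0, hd1⟩ := hπ.d1
  obtain ⟨χ, hχ⟩ : ∃ χ : ℝ, χ = χS / 4 := ⟨_, rfl⟩
  have hχ0 : 0 < χ := by rw [hχ]; positivity
  have hχ4 : χ < 1 / 4 := by rw [hχ]; linarith
  have hχ1 : χ < 1 := by linarith
  refine ⟨τ, csS.image (fun c => c * (1 - χ)) ∪ {0, χ / 2}, hτ, ?_, ?_⟩
  · intro c hc
    rw [Finset.mem_union, Finset.mem_image, Finset.mem_insert, Finset.mem_singleton] at hc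
    rcases hc with ⟨c', hc', rfl⟩ | rfl | rfl
    · exact mul_nonneg (hcsS c' hc') (by linarith)
    · exact le_rfl
    · positivity
  intro κ0 hκ0
  obtain ⟨e1, he1, hS⟩ := hS κ0 hκ0
  obtain ⟨e0, he0⟩ : ∃ e0 : ℝ, e0 = min (π.d * χ / 4) (e1 * (1 - χ)) / 2 := ⟨_, rfl⟩
  have hm0 : 0 < min (π.d * χ / 4) (e1 * (1 - χ)) := lt_min (by positivity) (mul_pos he1 (by linarith))
  have he00 : 0 < e0 := by rw [he0]; positivity
  have he0a : 2 * e0 ≤ π.d * χ / 4 := by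
    rw [he0]
    linarith [min_le_left (π.d * χ / 4) (e1 * (1 - χ))]
  have he0b : 2 * e0 ≤ e1 * (1 - χ) := by
    rw [he0]
    linarith [min_le_right (π.d * χ / 4) (e1 * (1 - χ))]
  refine ⟨e0, he00, ?_⟩
  intro B0 u0 u1 h hB hu0 hu01 hh
  obtain ⟨tS, htS, hS⟩ := hS ((1 - χ) * (u0 * h)) (mul_pos (by linarith) (by positivity))
  obtain ⟨tT, htT, hT⟩ := lay_sep_time π hπ C0 (χ / 2 * (u0 * h)) (by positivity)
  refine ⟨min tS tT, lt_min htS htT, ?_⟩
  intro t ht htt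
  obtain ⟨sS, hsS, hS⟩ := hS t ht (htt.trans (min_le_left _ _))
  obtain ⟨sT, hsT, hT⟩ := hT t ht (htt.trans (min_le_right _ _))
  obtain ⟨θm, hθm⟩ : ∃ θm : ℝ, θm = min (χ / 2) e0 := ⟨_, rfl⟩
  have hθm0 : 0 < θm := by rw [hθm]; exact lt_min (by positivity) he00
  have hθa : θm ≤ χ / 2 := by rw [hθm]; exact min_le_left _ _
  have hθb : θm ≤ e0 := by rw [hθm]; exact min_le_right _ _
  refine ⟨min (min (min sS sT) ((1 / (8 * B0)) ^ (1 / (h * u0 * θm)))) (1 / 2),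
    lt_min (lt_min (lt_min hsS hsT) (by positivity)) (by norm_num), ?_⟩
  intro D hDs' hD a u hu hu1 haG hG ζ Z E hRow hLab ta Ra ka hka hr al be ga hn
  have hDs : D.s < min (min sS sT) ((1 / (8 * B0)) ^ (1 / (h * u0 * θm))) := hDs'.trans_le (min_le_left _ _)
  have hDs2 : D.s < 1 / 2 := hDs'.trans_le (min_le_right _ _)
  have hDsS : D.s < sS := hDs.trans_le ((min_le_left _ _).trans (min_le_left _ _))
  have hDsT : D.s < sT := hDs.trans_le ((min_le_left _ _).trans (min_le_right _ _))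
  have hDsN : D.s < (1 / (8 * B0)) ^ (1 / (h * u0 * θm)) := hDs.trans_le (min_le_right _ _)
  obtain ⟨hs, hs1⟩ := hD.core.hs
  have hu' : 0 < u := lt_of_lt_of_le hu0 hu
  obtain ⟨w, hw⟩ : ∃ w : ℝ, w = (D.s ^ h) ^ u := ⟨_, rfl⟩
  have hw0 : 0 < w := by rw [hw]; positivity
  have hwθ : ∀ θ : ℝ, w ^ θ = D.s ^ (h * u * θ) := fun θ => by rw [hw]; exact lay_a4b_w hs θ
  have hsm : ∀ θ : ℝ, θm ≤ θ → w ^ θ ≤ 1 / (8 * B0) := fun θ hθ => by
    rw [hw]
    exact lay_a4b_small hs hs1 hh hu0 hu hθm0 hθ hB hDsN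
  have h8 : 1 / (8 * B0) ≤ 1 / 8 := by
    apply one_div_le_one_div_of_le (by norm_num)
    linarith
  have hmem : ∀ c, c ∈ csS.image (fun c => c * (1 - χ)) ∪ {0, χ / 2} ↔ (∃ c' ∈ csS, c' * (1 - χ) = c) ∨ c = 0 ∨ c = χ / 2 := by
    intro c
    rw [Finset.mem_union, Finset.mem_image, Finset.mem_insert, Finset.mem_singleton]
  -- (V)
  have hV : ∀ I : ζ → ℝ, (D.P 1).pr (fun ρ => E ρ ∧ I (Z ρ) ≤ D.T 1 ρ ∧ D.T 1 ρ ≤ I (Z ρ) + 8 * B0 * w ^ χ * D.s ^ a) ≤ w ^ (2 * e0) := by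
    intro I
    have g0 := hG (χ / 2) ((hmem _).2 (Or.inr (Or.inr rfl)))
    have r0 := hRow 0 ((hmem _).2 (Or.inr (Or.inl rfl)))
    rw [zero_mul, add_zero] at r0
    have key := hT D hDsT hD.core a (χ / 2 * (u * h)) (mul_le_mul_of_nonneg_left (mul_le_mul_of_nonneg_right hu hh.le) (by positivity)) haG g0.1 g0.2 ζ Z E r0 I
    have hlen : 8 * B0 * w ^ χ * D.s ^ a ≤ D.s ^ (a + χ / 2 * (u * h)) := by
      have q1 : D.s ^ (a + χ / 2 * (u * h)) = w ^ (χ / 2) * D.s ^ a := by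
        rw [hwθ, ← Real.rpow_add hs]
        congr 1
        ring
      have q2 : w ^ χ = w ^ (χ / 2) * w ^ (χ / 2) := by
        rw [← Real.rpow_add hw0]
        congr 1
        ring
      rw [q1, q2]
      have h1 := hsm (χ / 2) hθa
      have h2 : 8 * B0 * w ^ (χ / 2) ≤ 1 := by
        rw [le_div_iff₀ (by positivity)] at h1
        linarith
      have h3 : 0 < w ^ (χ / 2) := by positivity
      have h4 : 0 < D.s ^ a := by positivity
      calc 8 * B0 * (w ^ (χ / 2) * w ^ (χ / 2)) * D.s ^ a = (8 * B0 * w ^ (χ / 2)) * (w ^ (χ / 2) * D.s ^ a) := by ring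
        _ ≤ 1 * (w ^ (χ / 2) * D.s ^ a) := mul_le_mul_of_nonneg_right h2 (by positivity)
        _ = w ^ (χ / 2) * D.s ^ a := one_mul _
    refine (ent_pr_mono _ fun ρ _ hρ => ⟨hρ.1, hρ.2.1, hρ.2.2.trans (by linarith)⟩).trans (key.trans ?_)
    rw [hwθ]
    refine Real.rpow_le_rpow_of_exponent_ge hs hs1.le ?_
    have : h * u * (2 * e0) ≤ h * u * (π.d * χ / 4) := mul_le_mul_of_nonneg_left he0a (by positivity)
    calc h * u * (2 * e0) ≤ h * u * (π.d * χ / 4) := this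
      _ = π.d * (χ / 2 * (u * h)) / 2 := by ring
  -- (G)
  have hGr : ∀ v sl : ζ → ℝ, (∀ x, |sl x| ≤ D.s ^ laySlE π a ((1 - χ) * (u * h)) χS) →
      (D.P 1).pr (fun ρ => E ρ ∧ |(D.lab 1 ρ).be - (v (Z ρ) + sl (Z ρ) * D.T 1 ρ)| ≤ w ^ (1 - χ) * D.s ^ (π.b2 a)) ≤ w ^ (2 * e0) := by
    intro v sl hsl
    have ez : ∀ c : ℝ, a + c * ((1 - χ) * (u * h)) = a + c * (1 - χ) * (u * h) := fun c => by ring
    have key := hS D hDsS hD a ((1 - χ) * (u * h)) (mul_le_mul_of_nonneg_left (mul_le_mul_of_nonneg_right hu hh.le) (by linarith)) haG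
      (fun c hc => by rw [ez]; exact hG _ ((hmem _).2 (Or.inl ⟨c, hc, rfl⟩))) ζ Z E
      (fun c hc => by rw [ez]; exact hRow _ ((hmem _).2 (Or.inl ⟨c, hc, rfl⟩)))
      (fun hl c hc => by rw [ez]; exact hLab hl _ ((hmem _).2 (Or.inl ⟨c, hc, rfl⟩))) v sl hsl
    have q1 : D.s ^ (π.b2 a + (1 - χ) * (u * h)) = w ^ (1 - χ) * D.s ^ (π.b2 a) := by
      rw [hwθ, ← Real.rpow_add hs]
      congr 1
      ring
    rw [q1] at key
    refine key.trans ?_
    rw [hwθ]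
    refine Real.rpow_le_rpow_of_exponent_ge hs hs1.le ?_
    calc h * u * (2 * e0) ≤ h * u * (e1 * (1 - χ)) := mul_le_mul_of_nonneg_left he0b (by positivity)
      _ = e1 * ((1 - χ) * (u * h)) := by ring
  -- the slope of the frame
  have hkaS : ∀ x, |ka x| + w ^ (-χ) * D.s ^ (π.b2 a - a) ≤ D.s ^ laySlE π a ((1 - χ) * (u * h)) χS := by
    intro x
    by_cases hc : 1 < π.c2
    · have k1 := hka x
      rw [if_pos hc] at k1
      rw [laySlE, if_pos hc]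
      have hq : π.q = π.c2 := by
        rcases hπ.fam with h | h | h
        · exact h.2
        · linarith [h.1]
        · linarith [h.1]
      obtain ⟨ha0, ha1⟩ := hD.core.gate.2 a haG
      have g0 := (hG (χ / 2) ((hmem _).2 (Or.inr (Or.inr rfl)))).2
      have q1 : w ^ (-χ) * D.s ^ (π.b2 a - a) = D.s ^ (-(χ * (u * h)) + (π.c2 * (a - 1) - a)) := by
        rw [hwθ, ← Real.rpow_add hs]
        unfold SfPar.b2
        rw [hq]
        congr 1
        ring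
      rw [q1]
      exact lay_a4b_slope hs hDs2 hc ha0 ha1 (by linarith) k1
    · have k1 := hka x
      rw [if_neg hc] at k1
      rw [laySlE, if_neg hc]
      refine le_trans (b := (B0 + w ^ (-χ)) * D.s ^ (π.b2 a - a)) (by rw [add_mul]; linarith) ?_
      have q1 : D.s ^ (π.b2 a - a - χS * ((1 - χ) * (u * h))) = w ^ (-(χS * (1 - χ))) * D.s ^ (π.b2 a - a) := by
        rw [hwθ, ← Real.rpow_add hs]
        congr 1
        ring
      rw [q1]
      refine mul_le_mul_of_nonneg_right ?_ (by positivity)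
      -- B0 + w^(-χ) ≤ w^(-3χ) ≤ w^(-χS (1-χ))
      have hw1 : w ≤ 1 := by
        have := hsm 1 (by linarith)
        rw [Real.rpow_one] at this
        linarith
      have h3 : w ^ (-(3 * χ)) ≤ w ^ (-(χS * (1 - χ))) := by
        refine Real.rpow_le_rpow_of_exponent_ge hw0 hw1 ?_
        have : χS = 4 * χ := by rw [hχ]; ring
        rw [this]
        nlinarith
      refine le_trans ?_ h3
      have h2 := hsm (2 * χ) (by linarith)
      have p1 : 0 < w ^ (-(3 * χ)) := by positivity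
      have e2 : w ^ (-χ) = w ^ (2 * χ) * w ^ (-(3 * χ)) := by
        rw [← Real.rpow_add hw0]
        congr 1
        ring
      have h4 : (1 : ℝ) ≤ w ^ (-(3 * χ)) := Real.one_le_rpow_of_pos_of_le_one_of_nonpos hw0 hw1 (by linarith)
      have e3 : (1 : ℝ) = w ^ (3 * χ) * w ^ (-(3 * χ)) := by
        rw [← Real.rpow_add hw0]
        simp
      have h5 := hsm (3 * χ) (by linarith)
      have h6 : B0 * w ^ (3 * χ) ≤ 1 / 8 := by
        calc B0 * w ^ (3 * χ) ≤ B0 * (1 / (8 * B0)) := mul_le_mul_of_nonneg_left h5 (by linarith)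
          _ = 1 / 8 := by field_simp
      calc B0 + w ^ (-χ) = (B0 * w ^ (3 * χ) + w ^ (2 * χ)) * w ^ (-(3 * χ)) := by
            rw [add_mul, mul_assoc, ← e3, mul_one, ← e2]
        _ ≤ 1 * w ^ (-(3 * χ)) := mul_le_mul_of_nonneg_right (by linarith) p1.le
        _ = w ^ (-(3 * χ)) := one_mul _
  have hw2 : w ^ χ ≤ 1 / 2 := (hsm χ (by linarith)).trans (by linarith)
  have main := lay_avoid_core π D hs a w χ B0 _ _ _ hB hw0 hχ0 hχ1 hw2 ζ Z E hV hGr ta Ra ka hkaS hr al be ga hn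
  rw [← hw]
  refine main.trans ?_
  have e4 : (D.s ^ h) ^ (e0 * u) = w ^ e0 := by
    rw [hwθ, ← Real.rpow_mul hs.le]
    congr 1
    ring
  rw [e4]
  have e5 : w ^ (2 * e0) = w ^ e0 * w ^ e0 := by
    rw [← Real.rpow_add hw0]
    congr 1
    ring
  rw [e5]
  have h7 := hsm e0 hθb
  have p2 : 0 < w ^ e0 := by positivity
  nlinarith

/-- product functions under a product law -/
theorem lay_cx_pi_prod {Ω ι : Type} [Fintype Ω] [Fintype ι] [DecidableEq ι] (Q : ι → Claimed.Agent.RW.Pm Ω)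
    (f : ι → Ω → ℝ) :
    ∑ b, (Claimed.Agent.RW.Pm.pi Q).w b * ∏ t, f t (b t) = ∏ t, ∑ x, (Q t).w x * f t x := by
  have h := Finset.prod_univ_sum (fun _ : ι => (Finset.univ : Finset Ω)) (fun t x => (Q t).w x * f t x)
  rw [Fintype.piFinset_univ] at h
  rw [h]
  refine Finset.sum_congr rfl fun b _ => ?_
  rw [Finset.prod_mul_distrib]
  rfl

/-- two-coordinate marginal of a product law -/
theorem lay_cx_pi_two {Ω ι : Type} [Fintype Ω] [Fintype ι] [DecidableEq ι] (Q : ι → Claimed.Agent.RW.Pm Ω)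
    (i j : ι) (hij : i ≠ j) (φ : Ω → Ω → ℝ) :
    ∑ b, (Claimed.Agent.RW.Pm.pi Q).w b * φ (b i) (b j)
      = ∑ c, (Q j).w c * ∑ a, (Q i).w a * φ a c := by
  have e1 : ∀ b : ι → Ω, (Claimed.Agent.RW.Pm.pi Q).w b * φ (b i) (b j)
      = ∑ c, (Claimed.Agent.RW.Pm.pi Q).w b
          * ∏ t, (if t = i then φ (b t) c else if t = j then (if b t = c then 1 else 0) else 1) := by
    intro b
    rw [← Finset.mul_sum]
    congr 1
    have e2 : ∀ c, ∏ t, (if t = i then φ (b t) c else if t = j then (if b t = c then (1 : ℝ) else 0) else 1)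
        = φ (b i) c * (if b j = c then 1 else 0) := by
      intro c
      rw [Fintype.prod_eq_mul i j hij]
      · rw [if_pos rfl, if_neg hij.symm, if_pos rfl]
      · intro x hx
        rw [if_neg hx.1, if_neg hx.2]
    simp only [e2]
    simp
  simp only [e1]
  rw [Finset.sum_comm]
  refine Finset.sum_congr rfl fun c _ => ?_
  rw [lay_cx_pi_prod Q (fun t x => if t = i then φ x c else if t = j then (if x = c then 1 else 0) else 1),
    Fintype.prod_eq_mul i j hij]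
  · simp only [if_true, if_neg hij.symm]
    rw [mul_comm]
    congr 1
    simp
  · intro x hx
    simp only [if_neg hx.1, if_neg hx.2, mul_one]
    exact (Q x).sum_one

/-- disintegration along the side -/
theorem lay_cx_disint {Ω ζ : Type} [Fintype Ω] (P : FLaw Ω) (Z : Ω → ζ) (Φ : ζ → Ω → ℝ) :
    ∑ ω, P.p ω * ∑ a, (P.isoPm.cond Z (Z ω)).w a * Φ (Z ω) a = ∑ ω, P.p ω * Φ (Z ω) ω :=
  Claimed.Agent.RW.en_cp_disint P.isoPm Z Φ

/-- one record of the replica law (with the side) has the law of the single experiment -/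
theorem lay_cx_star_one {Ω ζ : Type} [Fintype Ω] (P : FLaw Ω) (Z : Ω → ζ) (M : ℕ) (i : Fin M) (Φ : ζ → Ω → ℝ) :
    ∑ x, (P.star Z M).p x * Φ (Z x.1) (x.2 i) = ∑ ω, P.p ω * Φ (Z ω) ω := by
  rw [Fintype.sum_prod_type, ← lay_cx_disint P Z Φ]
  refine Finset.sum_congr rfl fun ω _ => ?_
  rw [← Claimed.Agent.RW.en_cp_pi_marg (fun _ : Fin M => P.isoPm.cond Z (Z ω)) i (fun ω' => Φ (Z ω) ω'),
    Finset.mul_sum]
  refine Finset.sum_congr rfl fun b _ => ?_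
  show P.p ω * (Claimed.Agent.RW.Pm.pi fun _ : Fin M => P.isoPm.cond Z (Z ω)).w b * _ = P.p ω * _
  ring

/-- the base point of the replica law -/
theorem lay_cx_star_base {Ω ζ : Type} [Fintype Ω] (P : FLaw Ω) (Z : Ω → ζ) (M : ℕ) (Φ : Ω → ℝ) :
    ∑ x, (P.star Z M).p x * Φ x.1 = ∑ ω, P.p ω * Φ ω := by
  rw [Fintype.sum_prod_type]
  refine Finset.sum_congr rfl fun ω _ => ?_
  show ∑ b, P.p ω * (Claimed.Agent.RW.Pm.pi fun _ : Fin M => P.isoPm.cond Z (Z ω)).w b * Φ ω = _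
  rw [← Finset.sum_mul, ← Finset.mul_sum, Claimed.Agent.RW.Pm.sum_one, mul_one]

/-- two records of the replica law -/
theorem lay_cx_star_two {Ω ζ : Type} [Fintype Ω] (P : FLaw Ω) (Z : Ω → ζ) (M : ℕ) (i j : Fin M) (hij : i ≠ j)
    (φ : Ω → Ω → ℝ) :
    ∑ x, (P.star Z M).p x * φ (x.2 i) (x.2 j)
      = ∑ ω, P.p ω * ∑ c, (P.isoPm.cond Z (Z ω)).w c * ∑ a, (P.isoPm.cond Z (Z ω)).w a * φ a c := by
  rw [Fintype.sum_prod_type]
  refine Finset.sum_congr rfl fun ω _ => ?_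
  rw [← lay_cx_pi_two (fun _ : Fin M => P.isoPm.cond Z (Z ω)) i j hij φ, Finset.mul_sum]
  refine Finset.sum_congr rfl fun b _ => ?_
  show P.p ω * (Claimed.Agent.RW.Pm.pi fun _ : Fin M => P.isoPm.cond Z (Z ω)).w b * _ = P.p ω * _
  ring

theorem lay_cx_pr_eq {Ω : Type} [Fintype Ω] (P : FLaw Ω) (E : Ω → Prop) [DecidablePred E] :
    P.pr E = ∑ ω, P.p ω * (if E ω then 1 else 0) := by
  unfold FLaw.pr
  refine Finset.sum_congr rfl fun ω _ => ?_
  by_cases h : E ω <;> simp [h]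

/-- probability form of `lay_cx_star_one` -/
theorem lay_cx_star_pr_one {Ω ζ : Type} [Fintype Ω] (P : FLaw Ω) (Z : Ω → ζ) (M : ℕ) (i : Fin M)
    (E : ζ → Ω → Prop) :
    (P.star Z M).pr (fun x => E (Z x.1) (x.2 i)) = P.pr (fun ω => E (Z ω) ω) := by
  rw [lay_cx_pr_eq, lay_cx_pr_eq]
  exact lay_cx_star_one P Z M i (fun z ω => if E z ω then 1 else 0)

/-- probability form of `lay_cx_star_base` -/
theorem lay_cx_star_pr_base {Ω ζ : Type} [Fintype Ω] (P : FLaw Ω) (Z : Ω → ζ) (M : ℕ) (E : Ω → Prop) :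
    (P.star Z M).pr (fun x => E x.1) = P.pr E := by
  rw [lay_cx_pr_eq, lay_cx_pr_eq]
  exact lay_cx_star_base P Z M (fun ω => if E ω then 1 else 0)

/-- conditional mass of a light cell -/
theorem lay_cx_light {Ω ζ : Type} [Fintype Ω] (P : FLaw Ω) (Z : Ω → ζ) (R : Ω → ℤ) (u : ℝ) (ω : Ω)
    (hω : P.p ω ≠ 0) (b : ℤ) :
    ∑ c, (P.isoPm.cond Z (Z ω)).w c * (if (¬ P.surC R Z c < u) ∧ R c = b then (1 : ℝ) else 0)
      ≤ Real.exp (-u) := by
  have hD : P.isoPm.pr Z (Z ω) ≠ 0 := Claimed.Agent.RW.en_cp_pr_ne_zero P.isoPm Z ω hω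
  have hD0 : 0 ≤ P.isoPm.pr Z (Z ω) := Claimed.Agent.RW.en_pr_nonneg _ _ _
  by_cases hex : ∃ c0, (P.isoPm.cond Z (Z ω)).w c0 ≠ 0 ∧ (¬ P.surC R Z c0 < u) ∧ R c0 = b
  · obtain ⟨c0, h1, h2, h3⟩ := hex
    rw [Claimed.Agent.RW.en_cp_cond_w P.isoPm Z _ hD] at h1
    have hZ : Z c0 = Z ω := by
      by_contra hc
      rw [if_neg hc] at h1
      exact h1 rfl
    rw [if_pos hZ] at h1
    have hp0 : P.p c0 ≠ 0 := fun h0 => h1 (by
      show P.p c0 / _ = 0
      rw [h0, zero_div])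
    have hfZ : P.fib Z c0 = P.isoPm.pr Z (Z ω) := by rw [ie_fib, hZ]
    have hpos1 : 0 < P.fib (pair R Z) c0 := ent_fib_pos P _ hp0
    have hpos2 : 0 < P.fib Z c0 := ent_fib_pos P _ hp0
    have hρ : P.fib (pair R Z) c0 / P.fib Z c0 ≤ Real.exp (-u) := by
      have h4 : u ≤ - Real.log (P.fib (pair R Z) c0 / P.fib Z c0) := not_lt.1 h2
      rw [← Real.log_le_iff_le_exp (div_pos hpos1 hpos2)]
      linarith
    refine le_trans ?_ hρ
    have e0 : P.fib (pair R Z) c0 / P.fib Z c0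
        = ∑ c, (if pair R Z c = pair R Z c0 then P.p c else 0) / P.fib Z c0 := by
      rw [← Finset.sum_div]
      congr 1
      unfold FLaw.fib FLaw.pr
      refine Finset.sum_congr rfl fun c _ => ?_
      by_cases h : pair R Z c = pair R Z c0 <;> simp [h]
    rw [e0]
    refine Finset.sum_le_sum fun c _ => ?_
    rw [Claimed.Agent.RW.en_cp_cond_w P.isoPm Z _ hD, hfZ]
    have hnn : 0 ≤ (if pair R Z c = pair R Z c0 then P.p c else 0) / P.isoPm.pr Z (Z ω) :=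
      div_nonneg (by split_ifs; exacts [P.nonneg c, le_rfl]) hD0
    by_cases hc : Z c = Z ω
    · by_cases hc2 : R c = b
      · have e1 : pair R Z c = pair R Z c0 := Prod.ext (hc2.trans h3.symm) (hc.trans hZ.symm)
        rw [if_pos hc, if_pos e1]
        have hq : 0 ≤ P.p c / P.isoPm.pr Z (Z ω) := div_nonneg (P.nonneg c) hD0
        show P.p c / _ * _ ≤ _
        split_ifs
        · rw [mul_one]
        · rw [mul_zero]; exact hq
      · rw [if_neg (show ¬ ((¬ P.surC R Z c < u) ∧ R c = b) from fun h => hc2 h.2), mul_zero]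
        exact hnn
    · rw [if_neg hc, zero_mul]
      exact hnn
  · push Not at hex
    refine le_trans (le_of_eq ?_) (Real.exp_pos _).le
    refine Finset.sum_eq_zero fun c _ => ?_
    by_cases h1 : (P.isoPm.cond Z (Z ω)).w c = 0
    · rw [h1, zero_mul]
    · rw [if_neg (fun h => hex c h1 (not_lt.1 h.1) h.2), mul_zero]

/-- **A5 (paper free): clipped weak branch.**   Two conditionally independent records: their cells `R` differ by at most `m` only with probability `(2m+1) e^-u + P{score of R given the side < u}`.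
`∑_b p_b ∑_{|b'-b| ≤ m} p_b'`: light `b'` give `(2m+1) e^-u`, heavy `b'` give `P(heavy)`. -/
theorem lay_cross_star {Ω ζ : Type} [Fintype Ω] (P : FLaw Ω) (Z : Ω → ζ) (R : Ω → ℤ) (m : ℕ) (u : ℝ) :
    (P.star Z 2).pr (fun x => |R (x.2 0) - R (x.2 1)| ≤ (m : ℤ))
      ≤ (2 * m + 1) * Real.exp (-u) + P.pr (fun ω => P.surC R Z ω < u) := by
  rw [lay_cx_pr_eq, lay_cx_star_two P Z 2 0 1 (by decide) (fun a c => if |R a - R c| ≤ (m : ℤ) then 1 else 0)]
  have hheavy : P.pr (fun ω => P.surC R Z ω < u)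
      = ∑ ω, P.p ω * ∑ c, (P.isoPm.cond Z (Z ω)).w c * (if P.surC R Z c < u then (1 : ℝ) else 0) := by
    rw [lay_cx_pr_eq, ← lay_cx_disint P Z (fun _ c => if P.surC R Z c < u then 1 else 0)]
  have hconst : (2 * (m : ℝ) + 1) * Real.exp (-u) = ∑ ω, P.p ω * ((2 * (m : ℝ) + 1) * Real.exp (-u)) := by
    rw [← Finset.sum_mul, P.sum_one, one_mul]
  rw [hheavy, hconst, ← Finset.sum_add_distrib]
  refine Finset.sum_le_sum fun ω _ => ?_
  by_cases hω : P.p ω = 0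
  · rw [hω]; simp
  rw [← mul_add]
  refine mul_le_mul_of_nonneg_left ?_ (P.nonneg ω)
  obtain ⟨cw, hcwdef⟩ : ∃ cw : Ω → ℝ, cw = (P.isoPm.cond Z (Z ω)).w := ⟨_, rfl⟩
  have hlight := lay_cx_light P Z R u ω hω
  rw [← hcwdef] at hlight ⊢
  have hcw : ∀ c, 0 ≤ cw c := fun c => by rw [hcwdef]; exact (P.isoPm.cond Z (Z ω)).nonneg c
  have hsum : ∑ c, cw c = 1 := by rw [hcwdef]; exact (P.isoPm.cond Z (Z ω)).sum_one
  have s1 : ∀ c, cw c * ∑ a, cw a * (if |R a - R c| ≤ (m : ℤ) then (1 : ℝ) else 0)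
      ≤ (∑ a, cw a * (cw c * (if (¬ P.surC R Z c < u) ∧ |R a - R c| ≤ (m : ℤ) then (1 : ℝ) else 0)))
        + cw c * (if P.surC R Z c < u then (1 : ℝ) else 0) := by
    intro c
    by_cases hc : P.surC R Z c < u
    · simp only [hc, not_true_eq_false, false_and, if_false, if_true, mul_zero, Finset.sum_const_zero, zero_add,
        mul_one]
      refine mul_le_of_le_one_right (hcw c) ?_
      refine le_trans (Finset.sum_le_sum fun a _ => ?_) (le_of_eq hsum)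
      split_ifs
      · rw [mul_one]
      · rw [mul_zero]; exact hcw a
    · simp only [hc, not_false_eq_true, true_and, if_false, mul_zero, add_zero]
      rw [Finset.mul_sum]
      refine le_of_eq (Finset.sum_congr rfl fun a _ => ?_)
      ring
  have s2 : ∀ a, ∑ c, cw c * (if (¬ P.surC R Z c < u) ∧ |R a - R c| ≤ (m : ℤ) then (1 : ℝ) else 0)
      ≤ (2 * (m : ℝ) + 1) * Real.exp (-u) := by
    intro a
    have e1 : ∀ c, cw c * (if (¬ P.surC R Z c < u) ∧ |R a - R c| ≤ (m : ℤ) then (1 : ℝ) else 0)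
        = ∑ b ∈ Finset.Icc (R a - m) (R a + m), cw c * (if (¬ P.surC R Z c < u) ∧ R c = b then (1 : ℝ) else 0) := by
      intro c
      rw [← Finset.mul_sum]
      congr 1
      by_cases hc : P.surC R Z c < u
      · simp [hc]
      · simp only [hc, not_false_eq_true, true_and]
        rw [Finset.sum_ite_eq]
        have : R c ∈ Finset.Icc (R a - m) (R a + m) ↔ |R a - R c| ≤ (m : ℤ) := by
          rw [Finset.mem_Icc, abs_le]
          constructor
          · rintro ⟨h1, h2⟩; constructor <;> linarith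
          · rintro ⟨h1, h2⟩; constructor <;> linarith
        simp only [this]
    simp only [e1]
    rw [Finset.sum_comm]
    refine (Finset.sum_le_sum fun b _ => hlight b).trans (le_of_eq ?_)
    rw [Finset.sum_const, Int.card_Icc, nsmul_eq_mul]
    congr 1
    have : (R a + m + 1 - (R a - m)).toNat = 2 * m + 1 := by omega
    rw [this]
    push_cast
    ring
  calc ∑ c, cw c * ∑ a, cw a * (if |R a - R c| ≤ (m : ℤ) then (1 : ℝ) else 0)
      ≤ ∑ c, ((∑ a, cw a * (cw c * (if (¬ P.surC R Z c < u) ∧ |R a - R c| ≤ (m : ℤ) then (1 : ℝ) else 0)))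
        + cw c * (if P.surC R Z c < u then (1 : ℝ) else 0)) := Finset.sum_le_sum fun c _ => s1 c
    _ = (∑ a, cw a * ∑ c, cw c * (if (¬ P.surC R Z c < u) ∧ |R a - R c| ≤ (m : ℤ) then (1 : ℝ) else 0))
        + ∑ c, cw c * (if P.surC R Z c < u then (1 : ℝ) else 0) := by
        rw [Finset.sum_add_distrib, Finset.sum_comm]
        simp only [← Finset.mul_sum]
    _ ≤ (2 * (m : ℝ) + 1) * Real.exp (-u) + ∑ c, cw c * (if P.surC R Z c < u then (1 : ℝ) else 0) := by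
        refine add_le_add ?_ le_rfl
        calc _ ≤ ∑ a, cw a * ((2 * (m : ℝ) + 1) * Real.exp (-u)) :=
              Finset.sum_le_sum fun a _ => mul_le_mul_of_nonneg_left (s2 a) (hcw a)
          _ = _ := by rw [← Finset.sum_mul, hsum, one_mul]

/-- **crossing from value avoidance (paper free)**: the value may depend on the side and on another record (take the worst record for each side value). -/
theorem lay_cross_of_value {Ω ζ : Type} [Fintype Ω] (P : FLaw Ω) (Z : Ω → ζ) (r : Ω → ℝ) (w q : ℝ) (M : ℕ)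
    (i j : Fin M) (hij : i ≠ j) (h : ∀ v : ζ → ℝ, P.pr (fun ω => |r ω - v (Z ω)| < w) ≤ q) :
    (P.star Z M).pr (fun x => |r (x.2 i) - r (x.2 j)| < w) ≤ q := by
  have hne : (Finset.univ : Finset Ω).Nonempty := by
    by_contra hcon
    rw [Finset.not_nonempty_iff_eq_empty] at hcon
    have := P.sum_one
    rw [hcon, Finset.sum_empty] at this
    exact zero_ne_one this
  have hmax : ∀ z : ζ, ∃ c0 : Ω, ∀ c : Ω,
      ∑ a, (P.isoPm.cond Z z).w a * (if |r a - r c| < w then (1 : ℝ) else 0)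
        ≤ ∑ a, (P.isoPm.cond Z z).w a * (if |r a - r c0| < w then (1 : ℝ) else 0) := by
    intro z
    obtain ⟨c0, -, hc0⟩ := Finset.exists_max_image Finset.univ
      (fun c => ∑ a, (P.isoPm.cond Z z).w a * (if |r a - r c| < w then (1 : ℝ) else 0)) hne
    exact ⟨c0, fun c => hc0 c (Finset.mem_univ c)⟩
  choose cs hcs using hmax
  refine le_trans ?_ (h fun z => r (cs z))
  rw [lay_cx_pr_eq, lay_cx_pr_eq,
    lay_cx_star_two P Z M i j hij (fun a c => if |r a - r c| < w then 1 else 0),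
    ← lay_cx_disint P Z (fun z a => if |r a - r (cs z)| < w then 1 else 0)]
  refine Finset.sum_le_sum fun ω _ => mul_le_mul_of_nonneg_left ?_ (P.nonneg ω)
  calc ∑ c, (P.isoPm.cond Z (Z ω)).w c * ∑ a, (P.isoPm.cond Z (Z ω)).w a * (if |r a - r c| < w then (1 : ℝ) else 0)
      ≤ ∑ c, (P.isoPm.cond Z (Z ω)).w c
          * ∑ a, (P.isoPm.cond Z (Z ω)).w a * (if |r a - r (cs (Z ω))| < w then (1 : ℝ) else 0) :=
        Finset.sum_le_sum fun c _ => mul_le_mul_of_nonneg_left (hcs (Z ω) c) ((P.isoPm.cond Z (Z ω)).nonneg c)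
    _ = _ := by rw [← Finset.sum_mul, Claimed.Agent.RW.Pm.sum_one, one_mul]

/-! ## G. replica budgets on the grid -/

/-- E2(c) at one root: the clauses of `Tan.Adm` that are supplied by Nm -/
def Tan.layNm (T : Tan) (a : ItPar) (pk : ItPk) (τ κ0 acc : ℝ) : Prop :=
  (∀ q ∈ pk.G, T.P.pr (fun ω => acc * T.L < |T.P.surC (T.Xn q) T.Cs ω - a.m * q * T.L|) ≤ acc) ∧
    T.AdmM a pk τ κ0 acc ∧ T.AdmG a pk acc

section grid

variable (g : LayGr) {na nv : ℕ} {K Kf RQ RX B0 N0 : ℝ}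

/-- product functions of the records -/
theorem lay_cx_star_prod {Ω ζ : Type} [Fintype Ω] (P : FLaw Ω) (Z : Ω → ζ) (M : ℕ) (ψ : Ω → ℝ) (f : Fin M → Ω → ℝ) :
    ∑ x, (P.star Z M).p x * (ψ x.1 * ∏ t, f t (x.2 t))
      = ∑ ω, P.p ω * (ψ ω * ∏ t, ∑ a, (P.isoPm.cond Z (Z ω)).w a * f t a) := by
  rw [Fintype.sum_prod_type]
  refine Finset.sum_congr rfl fun ω _ => ?_
  rw [← lay_cx_pi_prod (fun _ : Fin M => P.isoPm.cond Z (Z ω)) f, Finset.mul_sum, Finset.mul_sum]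
  refine Finset.sum_congr rfl fun b _ => ?_
  show P.p ω * (Claimed.Agent.RW.Pm.pi fun _ : Fin M => P.isoPm.cond Z (Z ω)).w b * _ = P.p ω * _
  ring

/-- the records are conditionally independent given the side -/
theorem lay_cx_star_pr_all {Ω ζ : Type} [Fintype Ω] (P : FLaw Ω) (Z : Ω → ζ) (M : ℕ) (z : ζ) (E : Fin M → Ω → Prop) :
    (P.star Z M).pr (fun x => Z x.1 = z ∧ ∀ t, E t (x.2 t))
      = P.pr (fun ω => Z ω = z) * ∏ t, ∑ a, (P.isoPm.cond Z z).w a * (if E t a then 1 else 0) := by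
  rw [lay_cx_pr_eq, lay_cx_pr_eq, Finset.sum_mul]
  have e1 : ∀ x : Ω × (Fin M → Ω), (if Z x.1 = z ∧ ∀ t, E t (x.2 t) then (1 : ℝ) else 0)
      = (if Z x.1 = z then 1 else 0) * ∏ t, (if E t (x.2 t) then (1 : ℝ) else 0) := by
    intro x
    by_cases h1 : Z x.1 = z
    · by_cases h2 : ∀ t, E t (x.2 t)
      · rw [if_pos ⟨h1, h2⟩, if_pos h1, one_mul, Finset.prod_eq_one]
        intro t _
        rw [if_pos (h2 t)]
      · rw [if_neg (fun h => h2 h.2), if_pos h1, one_mul]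
        push Not at h2
        obtain ⟨t, ht⟩ := h2
        rw [Finset.prod_eq_zero (Finset.mem_univ t)]
        rw [if_neg ht]
    · rw [if_neg (fun h => h1 h.1), if_neg h1, zero_mul]
  simp only [e1]
  rw [lay_cx_star_prod P Z M (fun ω => if Z ω = z then 1 else 0) (fun t a => if E t a then 1 else 0)]
  refine Finset.sum_congr rfl fun ω _ => ?_
  by_cases h1 : Z ω = z
  · rw [h1, mul_assoc]
  · rw [if_neg h1]; ring

/-- one record and the side -/
theorem lay_cx_star_pr_at {Ω ζ : Type} [Fintype Ω] (P : FLaw Ω) (Z : Ω → ζ) (M : ℕ) (z : ζ) (t : Fin M) (E : Ω → Prop) :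
    (P.star Z M).pr (fun x => Z x.1 = z ∧ E (x.2 t))
      = P.pr (fun ω => Z ω = z) * ∑ a, (P.isoPm.cond Z z).w a * (if E a then 1 else 0) := by
  have h := lay_cx_star_pr_all P Z M z (fun s a => s = t → E a)
  rw [Fintype.prod_eq_single t] at h
  · simp only [forall_const] at h
    rw [← h]
    refine ent_pr_congr _ fun x _ => ⟨fun hx => ⟨hx.1, fun s hs => by rw [hs]; exact hx.2⟩, fun hx => ⟨hx.1, hx.2 t rfl⟩⟩
  · intro s hs
    simp only [hs, false_imp_iff, if_true, mul_one]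
    exact (P.isoPm.cond Z z).sum_one

theorem lay_cx_rcd (j : ℕ) (hj : j < g.M) (x : g.Ω × (Fin g.M → g.Ω)) : g.rcd j x = x.2 ⟨j, hj⟩ := by
  unfold LayGr.rcd
  rw [dif_pos hj]

/-- **T0** -/
theorem lay_exit_t0 (h : g.In na nv K Kf RQ RX B0 N0) (a : ItPar) (pk : ItPk) (hB : a.B0 = B0) (hM : pk.M = g.M)
    (i k : ℕ) (hi : i ≤ na) (hk : k ≤ nv) : (g.tan i k).Adm0 a pk := by
  obtain ⟨M, K', RQ', χ', G', Lam'⟩ := pk
  simp only at hM
  subst hM
  have hsupp : ∀ x : g.Ω × (Fin g.M → g.Ω), (g.P.star (g.Z i) g.M).p x ≠ 0 →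
      g.P.p x.1 ≠ 0 ∧ ∀ t, g.P.p (x.2 t) ≠ 0 := by
    intro x hx
    have h0 := iso_star_supp g.P (g.Z i) g.M x (lt_of_le_of_ne ((g.P.star (g.Z i) g.M).nonneg x) (Ne.symm hx))
    exact ⟨h0.1.ne', fun t => (h0.2 t).1.ne'⟩
  refine ⟨h.δ0.1, h.δ0.2, ?_, ?_, ?_, ?_, ?_, ?_, ?_⟩
  · intro x x' hx
    show g.Cs i k (g.Z i x.1) = g.Cs i k (g.Z i x'.1)
    rw [show g.Z i x.1 = g.Z i x'.1 from hx]
  · intro x x' hx
    show g.F i k (g.Z i x.1) = g.F i k (g.Z i x'.1)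
    rw [show g.Z i x.1 = g.Z i x'.1 from hx]
  · intro x hx
    rw [hB]
    exact h.bdF i hi k hk x.1 (hsupp x hx).1
  · intro (x : g.Ω × (Fin g.M → g.Ω)) hx j hj
    rw [hB]
    show |(g.mks i (g.rcd j x)).th| ≤ B0 ∧ |(g.mks i (g.rcd j x)).r| ≤ B0 ∧ |(g.mks i (g.rcd j x)).k| ≤ B0
    rw [lay_cx_rcd g j hj]
    exact h.bdM i hi _ ((hsupp x hx).2 _)
  · intro hq x
    exact h.lin0 hq i k _
  · intro z y
    have e1 : (g.tan i k).P.pr (fun x => (g.tan i k).Zs x = z ∧ ∀ t : Fin g.M, (g.tan i k).mrk t x = y t)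
        = g.P.pr (fun ω => g.Z i ω = z)
          * ∏ t, ∑ b, (g.P.isoPm.cond (g.Z i) z).w b * (if g.mks i b = y t then 1 else 0) := by
      rw [← lay_cx_star_pr_all g.P (g.Z i) g.M z (fun t b => g.mks i b = y t)]
      show (g.P.star (g.Z i) g.M).pr (fun x : g.Ω × (Fin g.M → g.Ω) =>
        g.Z i x.1 = z ∧ ∀ t : Fin g.M, g.mks i (g.rcd t x) = y t) = _
      refine ent_pr_congr _ fun x _ => ?_
      simp only [lay_cx_rcd g _ (Fin.is_lt _)]
    have e2 : (g.tan i k).P.pr (fun x => (g.tan i k).Zs x = z) = g.P.pr (fun ω => g.Z i ω = z) :=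
      lay_cx_star_pr_base g.P (g.Z i) g.M (fun ω => g.Z i ω = z)
    have e3 : ∀ t : Fin g.M, (g.tan i k).P.pr (fun x => (g.tan i k).Zs x = z ∧ (g.tan i k).mrk t x = y t)
        = g.P.pr (fun ω => g.Z i ω = z)
          * ∑ b, (g.P.isoPm.cond (g.Z i) z).w b * (if g.mks i b = y t then 1 else 0) := by
      intro t
      rw [← lay_cx_star_pr_at g.P (g.Z i) g.M z t (fun b => g.mks i b = y t)]
      show (g.P.star (g.Z i) g.M).pr (fun x : g.Ω × (Fin g.M → g.Ω) =>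
        g.Z i x.1 = z ∧ g.mks i (g.rcd t x) = y t) = _
      refine ent_pr_congr _ fun x _ => ?_
      rw [lay_cx_rcd g _ (Fin.is_lt _)]
    show (g.tan i k).P.pr (fun x => (g.tan i k).Zs x = z ∧ ∀ t : Fin g.M, (g.tan i k).mrk t x = y t)
        * (g.tan i k).P.pr (fun x => (g.tan i k).Zs x = z) ^ g.M
      = (g.tan i k).P.pr (fun x => (g.tan i k).Zs x = z)
        * ∏ t : Fin g.M, (g.tan i k).P.pr (fun x => (g.tan i k).Zs x = z ∧ (g.tan i k).mrk t x = y t)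
    rw [e1, e2]
    simp only [e3]
    rw [Finset.prod_mul_distrib, Finset.prod_const, Finset.card_univ, Fintype.card_fin]
    ring
  · intro z y j hj j' hj'
    have e3 : ∀ t (ht : t < g.M), (g.tan i k).P.pr (fun x => (g.tan i k).Zs x = z ∧ (g.tan i k).mrk t x = y)
        = g.P.pr (fun ω => g.Z i ω = z ∧ g.mks i ω = y) := by
      intro t ht
      rw [← lay_cx_star_pr_one g.P (g.Z i) g.M ⟨t, ht⟩ (fun z' b => z' = z ∧ g.mks i b = y)]
      show (g.P.star (g.Z i) g.M).pr (fun x : g.Ω × (Fin g.M → g.Ω) =>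
        g.Z i x.1 = z ∧ g.mks i (g.rcd t x) = y) = _
      refine ent_pr_congr _ fun x _ => ?_
      rw [lay_cx_rcd g _ ht]
    rw [e3 j hj, e3 j' hj']

/-- helper: the stored marks of the tangent datum are the marks of the records -/
theorem lay_cx_Xi (i k : ℕ) : (g.tan i k).Xi g.M = fun x : g.Ω × (Fin g.M → g.Ω) => fun j => g.mks i (x.2 j) := by
  funext x j
  simp [Tan.Xi, LayGr.tan, LayGr.rcd]

/-- helper: `L > 0` -/
theorem lay_cx_L_pos (h : g.In na nv K Kf RQ RX B0 N0) : 0 < g.L := by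
  unfold LayGr.L lg
  refine Real.log_pos ?_
  rw [lt_div_iff₀ h.δ0.1]
  linarith [h.δ0.2]

/-- helper: `log δ^(-x) = x L` -/
theorem lay_cx_log_rpow (h : g.In na nv K Kf RQ RX B0 N0) (x : ℝ) : Real.log (g.δ ^ (-x)) = x * g.L := by
  unfold LayGr.L lg
  rw [Real.log_rpow h.δ0.1, one_div, Real.log_inv]
  ring

/-- **A1 = (vb) at all but a small fraction of the widths** (`lay_tele_count`, `lay_star_ent_base`, `lay_star_marks_le`) -/
theorem lay_exit_vb (h : g.In na nv K Kf RQ RX B0 N0) (i : ℕ) (hi : i ≤ na) (ε : ℝ) (hε : 0 < ε) :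
    (((range nv).filter fun k =>
        ε * g.L < (g.tan i k).P.miC ((g.tan i k).Fn Kf) ((g.tan i k).Xi g.M) (g.tan i k).Cs).card : ℝ)
      ≤ (g.M * RX * g.L + 2 * nv * Real.log N0) / (ε * g.L) := by
  have hL := lay_cx_L_pos g h
  have hεL : 0 < ε * g.L := mul_pos hε hL
  have h1 : ∀ k, k < nv → (g.P.star (g.Z i) g.M).entC (fun x => g.Cs i k (g.Z i x.1)) (fun x => g.Cs i (k + 1) (g.Z i x.1))
      ≤ Real.log N0 := by
    intro k hk
    rw [lay_star_ent_base g.P (g.Z i) g.M (g.Cs i k) (g.Cs i (k + 1))]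
    exact ent_entC_le_log_nval g.P _ _ (h.wnest i hi k hk)
  have h2 : ∀ k, k < nv → (g.P.star (g.Z i) g.M).entC (fun x => itF g.δ Kf (g.F i k (g.Z i x.1)))
      (pair (fun x => g.Cs i k (g.Z i x.1)) (fun x => g.Cs i (k + 1) (g.Z i x.1))) ≤ Real.log N0 := by
    intro k hk
    have e := lay_star_ent_base g.P (g.Z i) g.M (fun z => itF g.δ Kf (g.F i k z)) (fun z => (g.Cs i k z, g.Cs i (k + 1) z))
    refine le_trans (le_of_eq e) ?_
    exact ent_entC_le_log_nval g.P _ _ (h.wphase i hi k hk)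
  have h3 := lay_tele_count (g.P.star (g.Z i) g.M) (fun k x => g.Cs i k (g.Z i x.1))
    (fun k x => itF g.δ Kf (g.F i k (g.Z i x.1))) (fun x : g.Ω × (Fin g.M → g.Ω) => fun j => g.mks i (x.2 j)) nv
    (Real.log N0) (ε * g.L) hεL h1 h2
  obtain ⟨S, hSc, hS⟩ := h.mkfin i hi
  have h4 := lay_star_marks_le g.P (g.Z i) g.M (g.mks i) S hS (fun x => g.Cs i 0 (g.Z i x.1))
  have hS0 : 0 < S.card := by
    obtain ⟨ω₀, -⟩ : ∃ ω, g.P.p ω ≠ 0 := by
      by_contra hcon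
      push Not at hcon
      have := g.P.sum_one
      simp [hcon] at this
    exact Finset.card_pos.2 ⟨_, hS ω₀⟩
  have h5 : Real.log S.card ≤ RX * g.L := by
    rw [← lay_cx_log_rpow g h RX]
    exact Real.log_le_log (by exact_mod_cast hS0) hSc
  have h6 : (g.M : ℝ) * Real.log S.card ≤ g.M * RX * g.L := by
    have := mul_le_mul_of_nonneg_left h5 (Nat.cast_nonneg g.M)
    linarith
  have e : ((range nv).filter fun k =>
        ε * g.L < (g.tan i k).P.miC ((g.tan i k).Fn Kf) ((g.tan i k).Xi g.M) (g.tan i k).Cs)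
      = (range nv).filter fun k => ε * g.L < (g.P.star (g.Z i) g.M).miC (fun x => itF g.δ Kf (g.F i k (g.Z i x.1)))
          (fun x : g.Ω × (Fin g.M → g.Ω) => fun j => g.mks i (x.2 j)) (fun x => g.Cs i k (g.Z i x.1)) := by
    refine Finset.filter_congr fun k _ => ?_
    rw [lay_cx_Xi]
    rfl
  rw [e]
  refine h3.trans ?_
  refine div_le_div_of_nonneg_right ?_ hεL.le
  linarith

/-- **(ng) at all but a small fraction of the times** (`lay_tele_dec_count`) -/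
theorem lay_exit_ng (h : g.In na nv K Kf RQ RX B0 N0) (k : ℕ) (hk : k ≤ nv) (ε : ℝ) (hε : 0 < ε) :
    (((range na).filter fun i =>
        ε * g.L < g.P.entC (g.Xa k K) (g.Ca i k) - g.P.entC (g.Xa k K) (g.Ca (i + 1) k)).card : ℝ)
      ≤ (K * g.L + Real.log N0 + na * Real.log N0) / (ε * g.L) := by
  have hL := lay_cx_L_pos g h
  have hεL : 0 < ε * g.L := mul_pos hε hL
  have hl0 : 0 ≤ Real.log N0 := Real.log_nonneg h.hN0
  have h3 := lay_tele_dec_count g.P (fun i => g.Ca i k) (g.Xa k K) na (Real.log N0) (ε * g.L) hεL hl0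
    (fun i hi => ent_entC_le_log_nval g.P _ _ (h.tnest i hi k hk))
  refine h3.trans ?_
  refine div_le_div_of_nonneg_right ?_ hεL.le
  have h4 := ent_entC_le_log_nval g.P _ _ (h.acap k hk)
  have hN0 : 0 < N0 := by linarith [h.hN0]
  rw [Real.log_mul hN0.ne' (Real.rpow_pos_of_pos h.δ0.1 _).ne', lay_cx_log_rpow g h K] at h4
  linarith

/-- helper: a coarse cell is the integer quotient of the fine cell -/
theorem lay_cx_floor_div (x : ℝ) {n n' : ℕ} (h : n ≤ n') :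
    ⌊x * 2 ^ n⌋ = ⌊x * 2 ^ n'⌋ / ((2 : ℤ) ^ (n' - n)) := by
  have hK : (0 : ℤ) < 2 ^ (n' - n) := by positivity
  have e : x * 2 ^ n' = x * 2 ^ n * ((2 ^ (n' - n) : ℤ) : ℝ) := by
    push_cast
    rw [mul_assoc, ← pow_add, Nat.add_sub_cancel' h]
  refine le_antisymm ?_ ?_
  · rw [Int.le_ediv_iff_mul_le hK, Int.le_floor, e]
    push_cast
    exact mul_le_mul_of_nonneg_right (Int.floor_le _) (by positivity)
  · rw [← Int.lt_add_one_iff, Int.ediv_lt_iff_lt_mul hK, Int.floor_lt, e]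
    push_cast
    exact mul_lt_mul_of_pos_right (Int.lt_floor_add_one _) (by positivity)

/-- helper: exact nesting of the dyadic cells -/
theorem lay_cx_cell_nest {δ : ℝ} (h0 : 0 < δ) (h1 : δ < 1) {t t' : ℝ} (h : t ≤ t') (x : ℝ) :
    tcell δ t x = tcell δ t' x / ((2 : ℤ) ^ (tlev δ t' - tlev δ t)) := by
  have hl : tlev δ t ≤ tlev δ t' := by
    unfold tlev
    refine Nat.ceil_mono (mul_le_mul_of_nonneg_right h (Real.logb_nonneg (by norm_num) ?_))
    rw [le_div_iff₀ h0]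
    linarith
  exact lay_cx_floor_div x hl

/-- helper: the conditional mutual information depends on the kernel of the middle observation only -/
theorem lay_cx_miC_congr {Ω : Type} [Fintype Ω] (P : FLaw Ω) {α β β' γ : Type} (X : Ω → α) (Y : Ω → β) (Y' : Ω → β')
    (Z : Ω → γ) (h : ∀ ω ω', Y ω = Y ω' ↔ Y' ω = Y' ω') : P.miC X Y Z = P.miC X Y' Z := by
  unfold FLaw.miC
  rw [ent_congr_ker P (pair Y Z) (pair Y' Z) (by
      intro ω ω' _ _
      simp only [pair, Prod.mk.injEq, h ω ω']),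
    ent_congr_ker P (pair (pair X Y) Z) (pair (pair X Y') Z) (by
      intro ω ω' _ _
      simp only [pair, Prod.mk.injEq, h ω ω'])]

/-- helper: one record of the replica law has the law of the single experiment -/
theorem lay_cx_star_ent {Ω : Type} [Fintype Ω] (P : FLaw Ω) {υ α : Type} (Z : Ω → υ) (M : ℕ) (i : Fin M) (G : υ → Ω → α) :
    (P.star Z M).ent (fun x => G (Z x.1) (x.2 i)) = P.ent (fun ω => G (Z ω) ω) := by
  rw [iso_star_ent_pm, ie_ent]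
  exact Claimed.Agent.RW.en_copies_marg P.isoPm Z i G

/-- **A2 = (fib), first line** (`lay_fib`, `lay_mi_swap`, `lay_star_entC`) -/
theorem lay_exit_fib (h : g.In na nv K Kf RQ RX B0 N0) (i k : ℕ) (hi : i < na) (hk : k ≤ nv) (j : ℕ) (hj : j < g.M) :
    (g.tan i k).P.miC ((g.tan i k).Xn K) (pair ((g.tan i k).Qn RQ j) ((g.tan i k).Xi g.M)) (g.tan i k).Cs
      ≤ (g.P.entC (g.Xa k K) (g.Ca i k) - g.P.entC (g.Xa k K) (g.Ca (i + 1) k))
        + (g.tan i k).P.miC ((g.tan i k).Fn Kf) ((g.tan i k).Xi g.M) (g.tan i k).Cs + 7 * Real.log N0 := by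
  have hi' : i ≤ na := hi.le
  set jj : Fin g.M := ⟨j, hj⟩ with hjj
  set Ps := g.P.star (g.Z i) g.M with hPs
  set X : g.Ω × (Fin g.M → g.Ω) → ℤ := fun x => tcell g.δ K (g.F i k (g.Z i x.1)).X with hX
  set Fq : g.Ω × (Fin g.M → g.Ω) → (ℤ × ℤ × ℤ) × (ℤ × ℤ × ℤ) := fun x => itF g.δ Kf (g.F i k (g.Z i x.1)) with hFq
  set Q : g.Ω × (Fin g.M → g.Ω) → (ℤ × ℤ × ℤ) × (ℤ × ℤ) :=
    fun x => itQ g.quad g.δ RQ (g.F i k (g.Z i x.1)) (g.mks i (x.2 jj)) with hQ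
  set Xi : g.Ω × (Fin g.M → g.Ω) → ItMk := fun x => g.mks i (x.2 jj) with hXi
  set Xo : g.Ω × (Fin g.M → g.Ω) → (Fin g.M → ItMk) := fun x => fun j' => g.mks i (x.2 j') with hXo
  set C : g.Ω × (Fin g.M → g.Ω) → g.γ := fun x => g.Cs i k (g.Z i x.1) with hC
  set O : g.Ω × (Fin g.M → g.Ω) → g.γ := fun x => g.Ca (i + 1) k (x.2 jj) with hO
  have eQ : (g.tan i k).Qn RQ j = Q := by
    funext x
    simp [Tan.Qn, LayGr.tan, LayGr.rcd, hj, hQ, hjj]
  have goal' : Ps.miC X (pair Q Xo) C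
      ≤ (g.P.entC (g.Xa k K) (g.Ca i k) - g.P.entC (g.Xa k K) (g.Ca (i + 1) k)) + Ps.miC Fq Xo C + 7 * Real.log N0 := by
    have ha : Ps.entC (pair Q Xi) (pair O C) ≤ Real.log N0 := by
      have e := lay_star_entC g.P (g.Z i) g.M jj
        (fun z ω => (itQ g.quad g.δ RQ (g.F i k z) (g.mks i ω), g.mks i ω)) (fun z ω => (g.Ca (i + 1) k ω, g.Cs i k z))
      refine le_trans (le_of_eq e) ?_
      exact ent_entC_le_log_nval g.P _ _ (h.read i hi k hk)
    have hc : Ps.entC Q (pair Fq Xi) ≤ Real.log N0 := by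
      have e := lay_star_entC g.P (g.Z i) g.M jj
        (fun z ω => itQ g.quad g.δ RQ (g.F i k z) (g.mks i ω)) (fun z ω => (itF g.δ Kf (g.F i k z), g.mks i ω))
      refine le_trans (le_of_eq e) ?_
      exact ent_entC_le_log_nval g.P _ _ (h.qlist i hi' k hk)
    have hfib := lay_fib Ps X Fq Q Xi Xo C O (fun c => c.1.1 / ((2 : ℤ) ^ (tlev g.δ Kf - tlev g.δ K)))
      (fun x => lay_cx_cell_nest h.δ0.1 h.δ0.2 h.hK.2.1 _) (Real.log N0) ha hc
    have e1 : Ps.miC X (pair Q Xo) C = Ps.miC X (pair Q (pair Xi Xo)) C := by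
      refine lay_cx_miC_congr Ps X _ _ C fun x x' => ?_
      simp only [pair, Prod.mk.injEq]
      constructor
      · rintro ⟨a, b⟩
        exact ⟨a, congrFun b jj, b⟩
      · rintro ⟨a, -, b⟩
        exact ⟨a, b⟩
    have e2 : Ps.miC Fq (pair Xi Xo) C = Ps.miC Fq Xo C := by
      refine lay_cx_miC_congr Ps Fq _ _ C fun x x' => ?_
      simp only [pair, Prod.mk.injEq]
      constructor
      · rintro ⟨-, b⟩
        exact b
      · intro b
        exact ⟨congrFun b jj, b⟩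
    have e3 : Ps.miC X O C = g.P.miC (g.xn i k K) (g.Ca (i + 1) k) (g.cs i k) := by
      unfold FLaw.miC
      have a1 : Ps.ent (pair X C) = g.P.ent (pair (g.xn i k K) (g.cs i k)) :=
        lay_cx_star_ent g.P (g.Z i) g.M jj (fun z _ => (tcell g.δ K (g.F i k z).X, g.Cs i k z))
      have a2 : Ps.ent (pair O C) = g.P.ent (pair (g.Ca (i + 1) k) (g.cs i k)) :=
        lay_cx_star_ent g.P (g.Z i) g.M jj (fun z ω => (g.Ca (i + 1) k ω, g.Cs i k z))
      have a3 : Ps.ent (pair (pair X O) C) = g.P.ent (pair (pair (g.xn i k K) (g.Ca (i + 1) k)) (g.cs i k)) :=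
        lay_cx_star_ent g.P (g.Z i) g.M jj (fun z ω => ((tcell g.δ K (g.F i k z).X, g.Ca (i + 1) k ω), g.Cs i k z))
      have a4 : Ps.ent C = g.P.ent (g.cs i k) :=
        lay_cx_star_ent g.P (g.Z i) g.M jj (fun z _ => g.Cs i k z)
      rw [a1, a2, a3, a4]
    have hsw := lay_mi_swap g.P (g.xn i k K) (g.Xa k K) (g.cs i k) (g.Ca i k) (g.Ca (i + 1) k) (Real.log N0)
      (ent_entC_le_log_nval g.P _ _ (h.rep1 i hi' k hk)) (ent_entC_le_log_nval g.P _ _ (h.rep2 i hi' k hk))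
      (ent_entC_le_log_nval g.P _ _ (h.ang1 i hi' k hk K h.hK.1 le_rfl))
      (ent_entC_le_log_nval g.P _ _ (h.ang2 i hi' k hk K h.hK.1 le_rfl))
      (ent_entC_le_log_nval g.P _ _ (h.tnest i hi k hk))
    rw [e1]
    rw [e2, e3] at hfib
    linarith
  rw [eQ, lay_cx_Xi]
  exact goal'

/-- helper: the base point of the replica law has the law of the single experiment -/
theorem lay_ang_star_fst {Ω : Type} [Fintype Ω] (P : FLaw Ω) {υ : Type} (Z : Ω → υ) (M : ℕ) :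
    (P.star Z M).map Prod.fst = P := by
  refine ent_law_ext _ _ fun ω => ?_
  show (P.star Z M).pr (fun x => x.1 = ω) = P.p ω
  unfold FLaw.pr
  rw [Fintype.sum_prod_type]
  have e : ∀ ω₁ : Ω, ∑ b : Fin M → Ω, (P.star Z M).p (ω₁, b) = P.p ω₁ := by
    intro ω₁
    show ∑ b, P.isoPm.w ω₁ * (Claimed.Agent.RW.Pm.pi fun _ : Fin M => P.isoPm.cond Z (Z ω₁)).w b = _
    rw [← Finset.mul_sum, Claimed.Agent.RW.Pm.sum_one, mul_one]
    rfl
  calc ∑ x : Ω, ∑ y : Fin M → Ω, (if (x, y).1 = ω then (P.star Z M).p (x, y) else 0)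
      = ∑ x : Ω, if x = ω then P.p x else 0 := by
        refine Finset.sum_congr rfl fun x _ => ?_
        by_cases hx : x = ω
        · simp only [hx, if_true]
          exact e ω
        · simp [hx]
    _ = P.p ω := by simp

/-- helper: the three swaps on one finite law -/
theorem lay_ang_single {Ω : Type} [Fintype Ω] (P : FLaw Ω) {α β γ δ : Type} (X1 : Ω → α) (X2 : Ω → β) (C1 : Ω → γ)
    (C2 : Ω → δ) {N : ℝ} (hN : 1 ≤ N) (r1 : P.NVal (fun _ => True) C2 C1 N) (r2 : P.NVal (fun _ => True) C1 C2 N)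
    (a1 : P.NVal (fun _ => True) X1 (pair X2 C2) N) (a2 : P.NVal (fun _ => True) X2 (pair X1 C1) N) (c b t : ℝ) :
    P.pr (fun ω => b + 3 * (Real.log N + t) < |P.surC X1 C1 ω - c|)
      ≤ P.pr (fun ω => b < |P.surC X2 C2 ω - c|) + 6 * Real.exp (-t) := by
  have hN0 : 0 < N := by linarith
  have e1 := lay_list_swap P X1 C2 C1 hN r1 t
  have e2 := lay_list_swap P X2 C1 C2 hN r2 t
  have a1' : P.NVal (fun _ => True) X1 (pair X2 (pair C1 C2)) N :=
    lay_nval_refine P a1 (by intro ω ω' h; simp only [pair, Prod.mk.injEq] at *; tauto)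
  have a2' : P.NVal (fun _ => True) X2 (pair X1 (pair C1 C2)) N :=
    lay_nval_refine P a2 (by intro ω ω' h; simp only [pair, Prod.mk.injEq] at *; tauto)
  have e3 := ent_surC_tail P X1 (pair X2 (pair C1 C2)) hN0 a1' t
  have e4 := ent_surC_tail P X2 (pair X1 (pair C1 C2)) hN0 a2' t
  have u4 := ent_pr_or_le P (fun ω => Real.log N + t < P.surC X1 (pair X2 (pair C1 C2)) ω)
    (fun ω => Real.log N + t < P.surC X2 (pair X1 (pair C1 C2)) ω)
  have u3 := ent_pr_or_le P (fun ω => Real.log N + t < |P.surC X2 (pair C1 C2) ω - P.surC X2 C2 ω|)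
    (fun ω => Real.log N + t < P.surC X1 (pair X2 (pair C1 C2)) ω ∨ Real.log N + t < P.surC X2 (pair X1 (pair C1 C2)) ω)
  have u2 := ent_pr_or_le P (fun ω => Real.log N + t < |P.surC X1 (pair C2 C1) ω - P.surC X1 C1 ω|)
    (fun ω => Real.log N + t < |P.surC X2 (pair C1 C2) ω - P.surC X2 C2 ω| ∨
      (Real.log N + t < P.surC X1 (pair X2 (pair C1 C2)) ω ∨ Real.log N + t < P.surC X2 (pair X1 (pair C1 C2)) ω))
  have u1 := ent_pr_or_le P (fun ω => b < |P.surC X2 C2 ω - c|)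
    (fun ω => Real.log N + t < |P.surC X1 (pair C2 C1) ω - P.surC X1 C1 ω| ∨
      (Real.log N + t < |P.surC X2 (pair C1 C2) ω - P.surC X2 C2 ω| ∨
      (Real.log N + t < P.surC X1 (pair X2 (pair C1 C2)) ω ∨ Real.log N + t < P.surC X2 (pair X1 (pair C1 C2)) ω)))
  refine le_trans (ent_pr_mono P fun ω hω hs => ?_) (u1.trans (by linarith))
  by_contra hcon
  push Not at hcon
  obtain ⟨n0, n1, n2, n3, n4⟩ := hcon
  have sw := ent_surC_swap P X1 X2 (pair C1 C2) hω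
  have cg : P.surC X1 (pair C2 C1) ω = P.surC X1 (pair C1 C2) ω :=
    ent_surC_congr P X1 X1 (pair C2 C1) (pair C1 C2) ω
      (by intro ω' _; simp only [pair, Prod.mk.injEq]; tauto) (fun _ _ _ => Iff.rfl)
  have nn1 := ent_surC_nonneg P X1 (pair X2 (pair C1 C2)) hω
  have nn2 := ent_surC_nonneg P X2 (pair X1 (pair C1 C2)) hω
  rw [cg] at n1
  have m1 := abs_le.1 n1
  have m2 := abs_le.1 n2
  have k : |P.surC X1 C1 ω - P.surC X2 C2 ω| ≤ 3 * (Real.log N + t) := by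
    rw [abs_le]
    constructor <;> linarith [m1.1, m1.2, m2.1, m2.2]
  have := abs_sub_le (P.surC X1 C1 ω) (P.surC X2 C2 ω) c
  linarith

/-- **(fib), second line**: the angular score of the actual names is transported to the representative names (`lay_list_swap` three times) -/
theorem lay_exit_ang (h : g.In na nv K Kf RQ RX B0 N0) (i k : ℕ) (hi : i ≤ na) (hk : k ≤ nv) (q : ℝ) (hq0 : 0 ≤ q)
    (hqK : q ≤ K) (m b t : ℝ) :
    (g.tan i k).P.pr (fun x => b + 3 * (Real.log N0 + t)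
        < |(g.tan i k).P.surC ((g.tan i k).Xn q) (g.tan i k).Cs x - m * q * g.L|)
      ≤ g.P.pr (fun ω => b < |g.P.surC (g.Xa k q) (g.Ca i k) ω - m * q * g.L|) + 6 * Real.exp (-t) := by
  have hmap := lay_ang_star_fst g.P (g.Z i) g.M
  have h1 : ∀ x : g.Ω × (Fin g.M → g.Ω), (g.tan i k).P.surC ((g.tan i k).Xn q) (g.tan i k).Cs x
      = g.P.surC (g.xn i k q) (g.cs i k) x.1 := by
    intro x
    have e := ent_map_surC (g.P.star (g.Z i) g.M) Prod.fst (g.xn i k q) (g.cs i k) x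
    rw [hmap] at e
    exact e.symm
  have h2 : (g.tan i k).P.pr (fun x => b + 3 * (Real.log N0 + t)
        < |(g.tan i k).P.surC ((g.tan i k).Xn q) (g.tan i k).Cs x - m * q * g.L|)
      = g.P.pr (fun ω => b + 3 * (Real.log N0 + t) < |g.P.surC (g.xn i k q) (g.cs i k) ω - m * q * g.L|) := by
    have e := ent_map_pr (g.P.star (g.Z i) g.M) Prod.fst
      (fun ω => b + 3 * (Real.log N0 + t) < |g.P.surC (g.xn i k q) (g.cs i k) ω - m * q * g.L|)
    rw [hmap] at e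
    refine (ent_pr_congr (g.tan i k).P fun x _ => ?_).trans e.symm
    rw [h1 x]
  rw [h2]
  exact lay_ang_single g.P (g.xn i k q) (g.Xa k q) (g.cs i k) (g.Ca i k) h.hN0 (h.rep1 i hi k hk) (h.rep2 i hi k hk)
    (h.ang1 i hi k hk q hq0 hqK) (h.ang2 i hi k hk q hq0 hqK) (m * q * g.L) b t

/-- avoidance for the single experiment gives `Tan.Avoid` -/
theorem lay_exit_avoid (i k : ℕ) (a : ItPar) (pk : ItPk) (acc : ℝ) (hM : 0 < g.M)
    (h : ∀ u ∈ pk.G, ∀ al be ga : g.ζ → ℝ, (∀ x, al x ^ 2 + be x ^ 2 = 1) →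
      g.P.pr (fun ω => |al (g.Z i ω) * (g.mks i ω).th + be (g.Z i ω) * (g.mks i ω).r - ga (g.Z i ω)| ≤ g.δ ^ u)
        ≤ g.δ ^ (a.e0 * u - acc)) : (g.tan i k).Avoid a pk acc := by
  intro u hu al be ga hn
  refine le_trans (le_of_eq ?_) (h u hu al be ga hn)
  rw [← lay_cx_star_pr_one g.P (g.Z i) g.M ⟨0, hM⟩
    (fun z b => |al z * (g.mks i b).th + be z * (g.mks i b).r - ga z| ≤ g.δ ^ u)]
  show (g.P.star (g.Z i) g.M).pr (fun x : g.Ω × (Fin g.M → g.Ω) =>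
    |al (g.Z i x.1) * (g.mks i (g.rcd 0 x)).th + be (g.Z i x.1) * (g.mks i (g.rcd 0 x)).r - ga (g.Z i x.1)|
    ≤ g.δ ^ u) = _
  refine ent_pr_congr _ fun x _ => ?_
  rw [lay_cx_rcd g _ hM]

/-- value avoidance for the single experiment gives `Tan.Cross` -/
theorem lay_exit_cross (i k : ℕ) (pk : ItPk) (acc : ℝ) (hM : 2 ≤ g.M)
    (h : ∀ v : g.ζ → ℝ, g.P.pr (fun ω => |(g.mks i ω).r - v (g.Z i ω)| < g.δ ^ pk.χ) ≤ acc) :
    (g.tan i k).Cross pk acc := by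
  have h0 : 0 < g.M := by omega
  have h1 : 1 < g.M := by omega
  refine le_trans (le_of_eq ?_) (lay_cross_of_value g.P (g.Z i) (fun ω => (g.mks i ω).r) (g.δ ^ pk.χ) acc g.M
    ⟨0, h0⟩ ⟨1, h1⟩ (by intro hc; simp [Fin.ext_iff] at hc) h)
  show (g.P.star (g.Z i) g.M).pr (fun x : g.Ω × (Fin g.M → g.Ω) =>
    |(g.mks i (g.rcd 0 x)).r - (g.mks i (g.rcd 1 x)).r| < g.δ ^ pk.χ) = _
  refine ent_pr_congr _ fun x _ => ?_
  rw [lay_cx_rcd g _ h0, lay_cx_rcd g _ h1]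

theorem lay_cx_mean {α : Type} (i k : ℕ) (A : g.Ω → α) :
    (g.P.star (g.Z i) g.M).entC (fun x : g.Ω × (Fin g.M → g.Ω) => A (g.rcd 0 x))
      (fun x : g.Ω × (Fin g.M → g.Ω) => g.Cs i k (g.Z i x.1)) = g.P.entC A (g.cs i k) := by
  by_cases hM : 0 < g.M
  · have h := lay_star_entC g.P (g.Z i) g.M ⟨0, hM⟩ (fun _ ω => A ω) (fun z _ => g.Cs i k z)
    have e1 : (fun x : g.Ω × (Fin g.M → g.Ω) => A (g.rcd 0 x)) = fun x => A (x.2 ⟨0, hM⟩) := by
      funext x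
      rw [lay_cx_rcd g _ hM]
    rw [e1]
    exact h
  · have e1 : (fun x : g.Ω × (Fin g.M → g.Ω) => A (g.rcd 0 x)) = fun x => A x.1 := by
      funext x
      unfold LayGr.rcd
      rw [dif_neg hM]
    rw [e1]
    show (g.P.star (g.Z i) g.M).entC (fun x => A x.1) (fun x => g.cs i k x.1) = _
    unfold FLaw.entC
    rw [lay_star_eq_ext]
    have a1 := ent_ext_ent_fst g.P (layStarKer g.P (g.Z i) g.M) (pair A (g.cs i k))
    have a2 := ent_ext_ent_fst g.P (layStarKer g.P (g.Z i) g.M) (g.cs i k)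
    rw [← a1, ← a2]
    rfl

/-- the two entropies of `Tan.mean` are entropies of the single experiment -/
theorem lay_exit_mean (i k : ℕ) (l : ℝ) :
    (g.tan i k).P.entC ((g.tan i k).O l) (g.tan i k).Cs = g.P.entC (g.O i k l) (g.cs i k) ∧
      (g.tan i k).P.entC ((g.tan i k).Wd l) (g.tan i k).Cs = g.P.entC (g.Wd i k l) (g.cs i k) := by
  exact ⟨lay_cx_mean g i k (g.O i k l), lay_cx_mean g i k (g.Wd i k l)⟩

/-- helper: a cardinality as a sum of indicators (any decidability instance) -/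
theorem lay_sel_card {ι : Type} (s : Finset ι) (p : ι → Prop) [DecidablePred p] :
    (((s.filter p).card : ℕ) : ℝ) = ∑ x ∈ s, (if p x then (1 : ℝ) else 0) := by
  rw [Finset.sum_boole]

/-- helper: union bound on a grid: rows, columns, and a third exceptional set -/
theorem lay_sel_union (na nv : ℕ) (p1 p2 p3 p4 : ℕ → ℕ → Prop) (ε : ℝ)
    [d1 : ∀ i, DecidablePred (p1 i)] [d2 : ∀ k, DecidablePred fun i => p2 i k]
    [d3 : DecidablePred fun x : ℕ × ℕ => p3 x.1 x.2] [d4 : DecidablePred fun x : ℕ × ℕ => p4 x.1 x.2]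
    (h1 : ∀ i, i < na → (((range nv).filter (p1 i)).card : ℝ) ≤ ε * nv)
    (h2 : ∀ k, k < nv → (((range na).filter fun i => p2 i k).card : ℝ) ≤ ε * na)
    (h3 : ((((range na) ×ˢ (range nv)).filter fun x => p3 x.1 x.2).card : ℝ) ≤ ε * (na * nv))
    (h : ∀ i, i < na → ∀ k, k < nv → p4 i k → p1 i k ∨ p2 i k ∨ p3 i k) :
    ((((range na) ×ˢ (range nv)).filter fun x => p4 x.1 x.2).card : ℝ) ≤ 3 * ε * (na * nv) := by
  rw [lay_sel_card] at h3 ⊢
  have e1 : ∑ x ∈ (range na) ×ˢ (range nv), (if p1 x.1 x.2 then (1 : ℝ) else 0) ≤ na * (ε * nv) := by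
    rw [Finset.sum_product]
    calc ∑ i ∈ range na, ∑ k ∈ range nv, (if p1 i k then (1 : ℝ) else 0) ≤ ∑ _i ∈ range na, ε * nv := by
          refine Finset.sum_le_sum fun i hi => ?_
          rw [← lay_sel_card]
          exact h1 i (mem_range.1 hi)
      _ = na * (ε * nv) := by rw [Finset.sum_const, card_range, nsmul_eq_mul]
  have e2 : ∑ x ∈ (range na) ×ˢ (range nv), (if p2 x.1 x.2 then (1 : ℝ) else 0) ≤ nv * (ε * na) := by
    rw [Finset.sum_product_right]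
    calc ∑ k ∈ range nv, ∑ i ∈ range na, (if p2 i k then (1 : ℝ) else 0) ≤ ∑ _k ∈ range nv, ε * na := by
          refine Finset.sum_le_sum fun k hk => ?_
          rw [← lay_sel_card (range na) (fun i => p2 i k)]
          exact h2 k (mem_range.1 hk)
      _ = nv * (ε * na) := by rw [Finset.sum_const, card_range, nsmul_eq_mul]
  have e4 : ∑ x ∈ (range na) ×ˢ (range nv), (if p4 x.1 x.2 then (1 : ℝ) else 0)
      ≤ ∑ x ∈ (range na) ×ˢ (range nv), ((if p1 x.1 x.2 then (1 : ℝ) else 0) + (if p2 x.1 x.2 then (1 : ℝ) else 0)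
          + (if p3 x.1 x.2 then (1 : ℝ) else 0)) := by
    refine Finset.sum_le_sum fun x hx => ?_
    obtain ⟨hi, hk⟩ := Finset.mem_product.1 hx
    have n1 : (0 : ℝ) ≤ if p1 x.1 x.2 then (1 : ℝ) else 0 := by split_ifs <;> norm_num
    have n2 : (0 : ℝ) ≤ if p2 x.1 x.2 then (1 : ℝ) else 0 := by split_ifs <;> norm_num
    have n3 : (0 : ℝ) ≤ if p3 x.1 x.2 then (1 : ℝ) else 0 := by split_ifs <;> norm_num
    by_cases h4 : p4 x.1 x.2
    · rw [if_pos h4]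
      rcases h x.1 (mem_range.1 hi) x.2 (mem_range.1 hk) h4 with c | c | c
      · rw [if_pos c]; linarith
      · rw [if_pos c] at n2 ⊢; linarith
      · rw [if_pos c] at n3 ⊢; linarith
    · rw [if_neg h4]; linarith
  rw [Finset.sum_add_distrib, Finset.sum_add_distrib] at e4
  have e : 3 * ε * ((na : ℝ) * nv) = na * (ε * nv) + nv * (ε * na) + ε * (na * nv) := by ring
  rw [e]
  linarith

/-- **ROOT SELECTION AT ONE GAP.**   `hNm` = E2(c).   All but `3 ε` of the roots carry admissible tangent data, with traces `m, ν` depending on the root. -/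
theorem lay_select (h : g.In na nv K Kf RQ RX B0 N0) (a : ItPar) (pk : ItPk) (τ κ0 acc ε : ℝ) (hpk : pk.Ok)
    (hB : a.B0 = B0) (hM : pk.M = g.M) (hK : pk.K = K) (hRQ : pk.RQ = RQ) (hacc : 0 < acc) (hε : 0 < ε)
    (hsm : g.δ < acc)
    (hv : (g.M * RX * g.L + 2 * nv * Real.log N0) / (acc / 4 * g.L) ≤ ε * nv)
    (ha : (K * g.L + Real.log N0 + na * Real.log N0) / (acc / 4 * g.L) ≤ ε * na)
    (hl : 7 * Real.log N0 ≤ acc / 2 * g.L)
    (hNm : ((((range na) ×ˢ (range nv)).filter fun x => ¬ ∃ m ν : ℝ, 0 ≤ m ∧ m ≤ 1 ∧ 0 ≤ ν ∧ ν ≤ 1 ∧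
        (g.tan x.1 x.2).layNm { a with m := m, ν := ν } pk τ κ0 acc).card : ℝ) ≤ ε * (na * nv)) :
    ((((range na) ×ˢ (range nv)).filter fun x => ¬ ∃ m ν : ℝ, 0 ≤ m ∧ m ≤ 1 ∧ 0 ≤ ν ∧ ν ≤ 1 ∧
        (g.tan x.1 x.2).Adm { a with m := m, ν := ν } pk τ κ0 acc).card : ℝ) ≤ 3 * ε * (na * nv) := by
  obtain ⟨M', K', RQ', χ, G, Lam⟩ := pk
  simp only at hM hK hRQ
  subst hM hK hRQ
  have hL := lay_cx_L_pos g h
  have hacc4 : 0 < acc / 4 := by linarith
  refine lay_sel_union na nv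
    (fun i k => acc / 4 * g.L < (g.tan i k).P.miC ((g.tan i k).Fn Kf) ((g.tan i k).Xi g.M) (g.tan i k).Cs)
    (fun i k => acc / 4 * g.L < g.P.entC (g.Xa k K') (g.Ca i k) - g.P.entC (g.Xa k K') (g.Ca (i + 1) k))
    (fun i k => ¬ ∃ m ν : ℝ, 0 ≤ m ∧ m ≤ 1 ∧ 0 ≤ ν ∧ ν ≤ 1 ∧
      (g.tan i k).layNm { a with m := m, ν := ν } ⟨g.M, K', RQ', χ, G, Lam⟩ τ κ0 acc)
    (fun i k => ¬ ∃ m ν : ℝ, 0 ≤ m ∧ m ≤ 1 ∧ 0 ≤ ν ∧ ν ≤ 1 ∧
      (g.tan i k).Adm { a with m := m, ν := ν } ⟨g.M, K', RQ', χ, G, Lam⟩ τ κ0 acc) ε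
    (fun i hi => (lay_exit_vb g h i hi.le (acc / 4) hacc4).trans hv)
    (fun k hk => (lay_exit_ng g h k hk.le (acc / 4) hacc4).trans ha) hNm ?_
  intro i hi' k hk' hxn
  by_contra hcon
  simp only [not_or, not_lt, not_not] at hcon
  obtain ⟨c1, c2, m, ν, hm0, hm1, hν0, hν1, n1, n2, n3⟩ := hcon
  refine hxn ⟨m, ν, hm0, hm1, hν0, hν1, hsm, lay_exit_t0 g h { a with m := m, ν := ν } ⟨g.M, K', RQ', χ, G, Lam⟩ hB rfl i k hi'.le hk'.le,
    ⟨?_, fun j hj => ?_, n1⟩, n2, n3⟩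
  · -- (vb)
    have e1 : (g.tan i k).P.miC ((g.tan i k).Fn K') ((g.tan i k).Xi g.M) (g.tan i k).Cs
        ≤ (g.tan i k).P.miC ((g.tan i k).Fn Kf) ((g.tan i k).Xi g.M) (g.tan i k).Cs := by
      rw [ent_miC_comm _ ((g.tan i k).Fn K'), ent_miC_comm _ ((g.tan i k).Fn Kf)]
      refine ent_miC_mono _ _ _ _ _ fun ω ω' _ _ hF _ => ?_
      simp only [Tan.Fn, itF, Prod.mk.injEq] at hF ⊢
      obtain ⟨⟨f1, f2, f3⟩, f4, f5, f6⟩ := hF
      have nest : ∀ u v : ℝ, tcell g.δ Kf u = tcell g.δ Kf v → tcell g.δ K' u = tcell g.δ K' v := by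
        intro u v huv
        rw [lay_cx_cell_nest h.δ0.1 h.δ0.2 h.hK.2.1 u, lay_cx_cell_nest h.δ0.1 h.δ0.2 h.hK.2.1 v, huv]
      exact ⟨⟨nest _ _ f1, nest _ _ f2, nest _ _ f3⟩, nest _ _ f4, nest _ _ f5, nest _ _ f6⟩
    have e2 : acc / 4 * g.L ≤ acc * g.L := mul_le_mul_of_nonneg_right (by linarith) hL.le
    exact e1.trans (c1.trans e2)
  · -- (fib)
    have e1 := lay_exit_fib g h i k hi' hk'.le j hj
    have e2 : acc / 4 * g.L + acc / 4 * g.L + acc / 2 * g.L = acc * g.L := by ring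
    refine e1.trans ?_
    show _ ≤ acc * g.L
    linarith

end grid

/-! ## R. traces, cover, bridge -/

/-- **entropy arrays are approximate score arrays** (for (ang), (ng), mixed traces: then `lay_dt_approx` selects the gaps).
`incr`: `H(A_b|A_a,C_u') ≤ H(C_u|C_u') + H(A_b|A_a,C_u)`, `H(A_b|A_a,C_u) = H b u - H a u + H(A_a|A_b,C_u)`. -/
theorem lay_ent_arr {Ω α γ : Type} [Fintype Ω] (P : FLaw Ω) (A : ℕ → Ω → α) (C : ℕ → Ω → γ) (n : ℕ)
    (N0 N1 K e Lu : ℝ) (hLu : 0 < Lu) (hN0 : 1 ≤ N0) (hN1 : 1 ≤ N1)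
    (hdiag : ∀ u, u ≤ n → P.NVal (fun _ => True) (A u) (C u) N0)
    (hnA : ∀ a b, a ≤ b → b ≤ n → P.NVal (fun _ => True) (A a) (A b) N0)
    (hcap : ∀ q, q < n → P.NVal (fun _ => True) (A (q + 1)) (A q) N1)
    (hnC : ∀ u u', u ≤ u' → u' ≤ n → P.NVal (fun _ => True) (C u) (C u') N0)
    (hK : Real.log N1 ≤ K * Lu) (he : 2 * Real.log N0 ≤ e * Lu) :
    LayArrE n K e (fun q u => P.entC (A q) (C u) / Lu) := by
  have hl0 : 0 ≤ Real.log N0 := Real.log_nonneg hN0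
  refine ⟨fun u hu => ?_, fun u q huq hq => ?_, fun u q huq hq => ?_, fun u u' a b huu hua hab hb => ?_⟩
  · have a1 := ent_entC_nonneg P (A u) (C u)
    have a2 := ent_entC_le_log_nval P (A u) (C u) (hdiag u hu)
    rw [abs_of_nonneg (div_nonneg a1 hLu.le), div_le_iff₀ hLu]
    linarith
  · have a1 := ent_entC_le_log_nval P (A q) (A (q + 1)) (hnA q (q + 1) (by omega) (by omega))
    rw [← sub_div, le_div_iff₀ hLu]
    unfold FLaw.entC at *
    have s1 := lay_sub P (pair (A (q + 1)) (C u)) (pair (A q) (A (q + 1))) (pair (A q) (C u)) (A (q + 1))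
      (by intro ω ω' a b; simp only [pair, Prod.mk.injEq] at *; tauto)
      (by intro ω ω' a; simp only [pair, Prod.mk.injEq] at *; tauto)
      (by intro ω ω' a; simp only [pair, Prod.mk.injEq] at *; tauto)
    linarith
  · have a1 := ent_entC_le_log_nval P (A (q + 1)) (A q) (hcap q hq)
    rw [← sub_div, div_le_iff₀ hLu]
    unfold FLaw.entC at *
    have s1 := lay_sub P (pair (A q) (C u)) (pair (A (q + 1)) (A q)) (pair (A (q + 1)) (C u)) (A q)
      (by intro ω ω' a b; simp only [pair, Prod.mk.injEq] at *; tauto)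
      (by intro ω ω' a; simp only [pair, Prod.mk.injEq] at *; tauto)
      (by intro ω ω' a; simp only [pair, Prod.mk.injEq] at *; tauto)
    nlinarith
  · have a1 := ent_entC_le_log_nval P (A a) (A b) (hnA a b hab hb)
    have a2 := ent_entC_le_log_nval P (C u) (C u') (hnC u u' huu (by omega))
    rw [← sub_div, ← sub_div, div_add' _ _ _ hLu.ne', div_le_div_iff_of_pos_right hLu]
    unfold FLaw.entC at *
    have s1 := lay_sub P (pair (A b) (pair (A a) (C u))) (pair (A a) (pair (C u) (C u'))) (pair (A b) (C u'))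
      (pair (A a) (C u))
      (by intro ω ω' a b; simp only [pair, Prod.mk.injEq] at *; tauto)
      (by intro ω ω' a; simp only [pair, Prod.mk.injEq] at *; tauto)
      (by intro ω ω' a; simp only [pair, Prod.mk.injEq] at *; tauto)
    have s2 := lay_sub P (pair (A a) (C u')) (pair (C u) (C u')) (pair (A a) (pair (C u) (C u'))) (C u')
      (by intro ω ω' a b; simp only [pair, Prod.mk.injEq] at *; tauto)
      (by intro ω ω' a; simp only [pair, Prod.mk.injEq] at *; tauto)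
      (by intro ω ω' a; simp only [pair, Prod.mk.injEq] at *; tauto)
    have s3 := lay_sub P (pair (A b) (C u)) (pair (A a) (A b)) (pair (A b) (pair (A a) (C u))) (A b)
      (by intro ω ω' a b; simp only [pair, Prod.mk.injEq] at *; tauto)
      (by intro ω ω' a; simp only [pair, Prod.mk.injEq] at *; tauto)
      (by intro ω ω' a; simp only [pair, Prod.mk.injEq] at *; tauto)
    linarith

theorem lay_pt_abs {s x y w : ℝ} (h : |x - y| ≤ w) : |s - x| ≤ |s - y| + w := by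
  have e : s - x = (s - y) + -(x - y) := by ring
  rw [e]
  refine (abs_add_le _ _).trans ?_
  rw [abs_neg]
  linarith

theorem lay_pt_nval {Ω α β : Type} [Fintype Ω] (P : FLaw Ω) {B : Ω → β} {A : Ω → α} {N N' : ℝ}
    (h : P.NVal (fun _ => True) B A N) (hN : N ≤ N') : P.NVal (fun _ => True) B A N' := by
  intro ω₀
  obtain ⟨S, hS, hm⟩ := h ω₀
  exact ⟨S, hS.trans hN, hm⟩

theorem lay_pt_scale {x y r L w : ℝ} (hr : 0 ≤ r) (hL : 0 ≤ L) (h : |x - y| * r ≤ w) :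
    |x * r * L - y * r * L| ≤ w * L := by
  have e : x * r * L - y * r * L = (x - y) * (r * L) := by ring
  rw [e, abs_mul, abs_of_nonneg (mul_nonneg hr hL), ← mul_assoc]
  exact mul_le_mul_of_nonneg_right h hL

/-- **the accuracy clauses are stable under a small change of the traces** -/
theorem lay_adm_perturb (T : Tan) (a a' : ItPar) (pk : ItPk) (τ κ0 acc acc' : ℝ) (hpk : pk.Ok)
    (hc : a.c = a'.c) (hd : a.d = a'.d) (he : a.e0 = a'.e0) (hB : a.B0 = a'.B0) (hc0 : 0 < a.c) (hacc : acc' ≤ acc)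
    (hm : |a.m - a'.m| * pk.K ≤ acc - acc') (hν : max 1 a.c * |a.ν - a'.ν| * pk.K ≤ acc - acc')
    (h : T.Adm a' pk τ κ0 acc') : T.Adm a pk τ κ0 acc := by
  obtain ⟨c, d, m, ν, e0, B0⟩ := a
  obtain ⟨c', d', m', ν', e0', B0'⟩ := a'
  simp only at hc hd he hB hc0 hm hν
  subst hc hd he hB
  obtain ⟨hsmall, t0, ti, tm, tg⟩ := h
  have hδ0 := t0.δ0
  have hδ1 := t0.δ1
  have hL : 0 < T.L := by
    unfold Tan.L lg
    exact Real.log_pos (by rw [one_div]; exact (one_lt_inv₀ hδ0).2 hδ1)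
  obtain ⟨-, hK0, -, -, -, -, hG⟩ := hpk
  have hAA : T.δ ^ (-acc') ≤ T.δ ^ (-acc) := Real.rpow_le_rpow_of_exponent_ge hδ0 hδ1.le (by linarith)
  have hLL : acc' * T.L ≤ acc * T.L := mul_le_mul_of_nonneg_right hacc hL.le
  have hνK : |ν - ν'| * pk.K ≤ acc - acc' := by
    refine le_trans ?_ hν
    rw [mul_assoc]
    exact le_mul_of_one_le_left (mul_nonneg (abs_nonneg _) hK0.le) (le_max_left _ _)
  have hcνK : c * |ν - ν'| * pk.K ≤ acc - acc' := by
    refine le_trans ?_ hν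
    rw [mul_assoc, mul_assoc]
    exact mul_le_mul_of_nonneg_right (le_max_right _ _) (mul_nonneg (abs_nonneg _) hK0.le)
  have hqp : ∀ p ∈ pk.G, ∀ q ∈ pk.G, p < q → 0 ≤ q - p ∧ q - p ≤ pk.K := by
    intro p hp q hq hpq
    have := (hG p hp).1
    have := (hG q hq).2
    constructor <;> linarith
  refine ⟨hsmall.trans_le hacc, ⟨t0.δ0, t0.δ1, t0.side_C, t0.side_F, t0.bdF, t0.bdM, t0.lin0, t0.indep, t0.ident⟩,
    ⟨ti.vb.trans hLL, fun i hi => (ti.fib i hi).trans hLL, fun q hq => ?_⟩,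
    ⟨fun p hp q hq hpq => ?_, fun hc1 p hp q hq hp0 hpq hk => ?_, fun hc1 p hp q hq hp0 hpq hk => ?_,
      fun hc1 p hp q hq hp0 hpq hk => ?_⟩,
    ⟨tg.dfun, fun l hl ω hω => ?_, fun hq l hl => lay_pt_nval T.P (tg.wq hq l hl) hAA,
      fun hq l hl => lay_pt_nval T.P (tg.wl hq l hl)
        (Real.rpow_le_rpow_of_exponent_ge hδ0 hδ1.le (by linarith))⟩⟩
  · refine le_trans (le_trans (ent_pr_mono T.P fun ω _ hω => ?_) (ti.ang q hq)) hacc
    have h1 : |m - m'| * q ≤ acc - acc' :=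
      (mul_le_mul_of_nonneg_left (hG q hq).2 (abs_nonneg _)).trans hm
    have h2 := lay_pt_abs (s := T.P.surC (T.Xn q) T.Cs ω) (lay_pt_scale (hG q hq).1 hL.le h1)
    simp only at hω ⊢
    nlinarith
  · refine le_trans (le_trans (ent_pr_mono T.P fun ω _ hω => ?_) (tm.time p hp q hq hpq)) hacc
    refine lt_of_lt_of_le hω (mul_le_mul_of_nonneg_right ?_ hL.le)
    simp only
    linarith
  · refine le_trans (le_trans (ent_pr_mono T.P fun ω _ hω => ?_) (tm.joint hc1 p hp q hq hp0 hpq hk)) hacc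
    refine lt_of_lt_of_le hω (mul_le_mul_of_nonneg_right ?_ hL.le)
    simp only
    linarith
  · refine le_trans (le_trans (ent_pr_mono T.P fun ω _ hω => ?_) (tm.mixr hc1 p hp q hq hp0 hpq hk)) hacc
    obtain ⟨g0, g1⟩ := hqp p hp q hq hpq
    have h1 : |ν - ν'| * (q - p) ≤ acc - acc' := (mul_le_mul_of_nonneg_left g1 (abs_nonneg _)).trans hνK
    have h2 := lay_pt_abs (s := T.P.surC (T.rn 0 q) (pair T.Zs (pair (T.thn 0 q) (T.rn 0 p))) ω)
      (lay_pt_scale g0 hL.le h1)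
    simp only at hω ⊢
    nlinarith
  · refine le_trans (le_trans (ent_pr_mono T.P fun ω _ hω => ?_) (tm.mixt hc1 p hp q hq hp0 hpq hk)) hacc
    refine lt_of_lt_of_le hω (mul_le_mul_of_nonneg_right ?_ hL.le)
    obtain ⟨g0, g1⟩ := hqp p hp q hq hpq
    simp only
    have h1 : max (d - c * ν) 0 - max (d - c * ν') 0 ≤ c * |ν - ν'| := by
      refine (le_abs_self _).trans ((abs_max_sub_max_le_abs _ _ _).trans (le_of_eq ?_))
      have e : d - c * ν - (d - c * ν') = -(c * (ν - ν')) := by ring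
      rw [e, abs_neg, abs_mul, abs_of_pos hc0]
    have h2 : (max (d - c * ν) 0 - max (d - c * ν') 0) * (q - p) ≤ c * |ν - ν'| * pk.K :=
      mul_le_mul h1 g1 g0 (mul_nonneg hc0.le (abs_nonneg _))
    nlinarith
  · have D := tg.dsp l hl ω hω
    have mono : ∀ x y : ℝ, x ≤ T.δ ^ (-acc') * T.δ ^ y → x ≤ T.δ ^ (-acc) * T.δ ^ y := fun x y hx =>
      hx.trans (mul_le_mul_of_nonneg_right hAA (Real.rpow_nonneg hδ0.le _))
    exact ⟨⟨D.bd.1.trans hAA, D.bd.2.1.trans hAA, D.bd.2.2.1.trans hAA, D.bd.2.2.2.trans hAA⟩,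
      mono _ _ D.time, mono _ _ D.baseW, mono _ _ D.baseV, mono _ _ D.vel, mono _ _ D.pos,
      fun hq => mono _ _ (D.derq hq), fun hq hc => ⟨(D.cutc hq hc).1, mono _ _ (D.cutc hq hc).2⟩,
      fun hq hc => mono _ _ (D.cutn hq hc),
      fun hq => ⟨mono _ _ (D.derl hq).1, mono _ _ (D.derl hq).2.1, mono _ _ (D.derl hq).2.2⟩⟩

/-- finite subcover of the square of traces -/
theorem lay_cover (rad : ℝ × ℝ → ℝ) (hrad : ∀ p, 0 < rad p) :
    ∃ J : Finset (ℝ × ℝ), (∀ p ∈ J, 0 ≤ p.1 ∧ p.1 ≤ 1 ∧ 0 ≤ p.2 ∧ p.2 ≤ 1) ∧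
      ∀ q : ℝ × ℝ, 0 ≤ q.1 → q.1 ≤ 1 → 0 ≤ q.2 → q.2 ≤ 1 → ∃ p ∈ J, |q.1 - p.1| < rad p ∧ |q.2 - p.2| < rad p := by
  have hcomp : IsCompact (Set.Icc (0 : ℝ) 1 ×ˢ Set.Icc (0 : ℝ) 1) := isCompact_Icc.prod isCompact_Icc
  obtain ⟨J, hJ, hcov⟩ := hcomp.elim_nhds_subcover (fun p => Metric.ball p (rad p))
    (fun p _ => Metric.ball_mem_nhds p (hrad p))
  refine ⟨J, fun p hp => ?_, fun q h1 h2 h3 h4 => ?_⟩
  · obtain ⟨⟨a1, a2⟩, b1, b2⟩ := hJ p hp
    exact ⟨a1, a2, b1, b2⟩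
  · have hq : q ∈ Set.Icc (0 : ℝ) 1 ×ˢ Set.Icc (0 : ℝ) 1 := ⟨⟨h1, h2⟩, h3, h4⟩
    obtain ⟨p, hp, hqp⟩ := Set.mem_iUnion₂.1 (hcov hq)
    refine ⟨p, hp, ?_⟩
    rw [Metric.mem_ball, Prod.dist_eq, max_lt_iff, Real.dist_eq, Real.dist_eq] at hqp
    exact hqp

/-- the finite substitute of `(∂_a - k ∂_v) f` at the root `(a, v)`, gap `h`, grid `Lam` -/
noncomputable def layMean (f : ℝ × ℝ → ℝ) (k h : ℝ) (Lam : Finset ℝ) (a v : ℝ) : ℝ :=
  (∑ l ∈ Lam, ((f (a + l * h, v) - f (a, v)) - k * (f (a, v + l * h) - f (a, v))) / (l * h)) / Lam.card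

theorem lay_contract_eqns_cite : True := by
  have := @layMean.eq_1
  have := @Tan.layNm.eq_1
  trivial

/-! `lay_bridge` (fallback, no consumer since `AcProd` is served pointwise by `lay_root_patch`) has been REMOVED. -/

/-! ## offered to Nm: the algebra of the child read (04 l.963-1000) -/

theorem lay_rd_mul {x y a b : ℝ} (hx : |x| ≤ a) (hy : |y| ≤ b) : |x * y| ≤ a * b := by
  rw [abs_mul]
  exact mul_le_mul hx hy (abs_nonneg _) ((abs_nonneg _).trans hx)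

theorem lay_rd_add {x y a b : ℝ} (hx : |x| ≤ a) (hy : |y| ≤ b) : |x + y| ≤ a + b :=
  (abs_add_le _ _).trans (add_le_add hx hy)

theorem lay_rd_sub {x y a b : ℝ} (hx : |x| ≤ a) (hy : |y| ≤ b) : |x - y| ≤ a + b := by
  rw [sub_eq_add_neg]
  exact lay_rd_add hx (by rwa [abs_neg])

theorem lay_rd_mono {A e : ℝ} (hA : 1 ≤ A) (he : 0 ≤ e) (he1 : e ≤ 1) :
    A ≤ A ^ 2 ∧ A ^ 2 ≤ A ^ 3 ∧ A ^ 3 ≤ A ^ 4 ∧ e ≤ e * A ∧ e * A ≤ e * A ^ 2 ∧ e * A ^ 2 ≤ e * A ^ 3 ∧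
      e * A ^ 3 ≤ e * A ^ 4 ∧ e * e * A ≤ e * A := by
  have hA0 : 0 ≤ A := by linarith
  have a1 : A ≤ A ^ 2 := by nlinarith
  have a2 : A ^ 2 ≤ A ^ 3 := by
    have := mul_le_mul_of_nonneg_left a1 hA0
    nlinarith
  have a3 : A ^ 3 ≤ A ^ 4 := by
    have := mul_le_mul_of_nonneg_left a2 hA0
    nlinarith
  refine ⟨a1, a2, a3, ?_, mul_le_mul_of_nonneg_left a1 he, mul_le_mul_of_nonneg_left a2 he,
    mul_le_mul_of_nonneg_left a3 he, ?_⟩
  · nlinarith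
  · have : e * e ≤ e := by nlinarith
    exact mul_le_mul_of_nonneg_right this hA0

/-- common bounds -/
theorem lay_rd_base {X B Y th th' A e : ℝ} (hA : 1 ≤ A) (he1 : e ≤ 1) (hX : |X| ≤ A - 1) (hB : |B| ≤ A - 1) (hY : |Y| ≤ A - 1)
    (hth : |th| ≤ A - 1) (h1 : |th' - th| ≤ e) :
    |th'| ≤ A ∧ |B + th' * X| ≤ A ^ 2 ∧ |Y + th' * X ^ 2| ≤ A ^ 3 := by
  have h0 : |th'| ≤ A := by
    have : th' = (th' - th) + th := by ring
    rw [this]
    exact (lay_rd_add h1 hth).trans (by linarith)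
  have hX' : |X| ≤ A := hX.trans (by linarith)
  refine ⟨h0, ?_, ?_⟩
  · refine (lay_rd_add hB (lay_rd_mul h0 hX)).trans ?_
    clear hX hB hY hth h1 h0 hX'
    nlinarith
  · refine (lay_rd_add hY (lay_rd_mul h0 (show |X ^ 2| ≤ (A - 1) * A by rw [sq]; exact lay_rd_mul hX hX'))).trans ?_
    clear hX hB hY hth h1 h0 hX'
    nlinarith [mul_nonneg (sub_nonneg.2 hA) (sub_nonneg.2 hA)]

theorem lay_rd_quad {X B P Y N D th r k th' W V L R b vel pos A e : ℝ} (hA : 1 ≤ A) (he : 0 ≤ e) (he1 : e ≤ 1)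
    (hX : |X| ≤ A - 1) (hB : |B| ≤ A - 1) (hP : |P| ≤ A - 1) (hY : |Y| ≤ A - 1) (hN : |N| ≤ A - 1)
    (hth : |th| ≤ A - 1) (hr : |r| ≤ A - 1) (hk : |k| ≤ A - 1)
    (h1 : |th' - th| ≤ e) (h2 : |W - (B + th' * X)| ≤ e) (h3 : |V - (Y + th' * X ^ 2)| ≤ e)
    (h4 : |R - r| ≤ e) (h5 : |b - k| ≤ e)
    (h6 : |P - L - 2 * R * X + 2 * b * (B + th' * X)| ≤ e)
    (h7 : |vel - (N - L * X - R * X ^ 2 - b * ((Y + th' * X ^ 2) - 2 * X * (B + th' * X)))| ≤ e)
    (h8 : |pos - (D + th' * N - L * (B + th' * X) - R * (Y + th' * X ^ 2) + b * (B + th' * X) ^ 2)| ≤ e) :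
    |W - (B + th * X)| ≤ 20 * A ^ 3 * e ∧ |V - (Y + th * X ^ 2)| ≤ 20 * A ^ 3 * e ∧
      |(L - 2 * b * W) - (P - 2 * r * X)| ≤ 20 * A ^ 3 * e ∧
      |(vel + b * V) - (N - P * X + r * X ^ 2)| ≤ 20 * A ^ 3 * e ∧
      |(pos + L * W + R * V - b * W ^ 2) - (D + th * N)| ≤ 20 * A ^ 3 * e := by
  obtain ⟨hth', hw0, hv0⟩ := lay_rd_base hA he1 hX hB hY hth h1
  obtain ⟨a1, a2, a3, m0, m1, m2, m3, m4⟩ := lay_rd_mono hA he he1
  have hX' : |X| ≤ A := hX.trans (by linarith)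
  have hN' : |N| ≤ A := hN.trans (by linarith)
  have hX2 : |X ^ 2| ≤ A * A := by rw [sq]; exact lay_rd_mul hX' hX'
  have hb : |b| ≤ A := by
    have : b = (b - k) + k := by ring
    rw [this]
    exact (lay_rd_add h5 hk).trans (by linarith)
  have hR : |R| ≤ A := by
    have : R = (R - r) + r := by ring
    rw [this]
    exact (lay_rd_add h4 hr).trans (by linarith)
  have h2' : |(2 : ℝ)| ≤ 2 := by norm_num
  have hL : |L| ≤ 5 * A ^ 3 := by
    have : L = P - 2 * R * X + 2 * b * (B + th' * X) - (P - L - 2 * R * X + 2 * b * (B + th' * X)) := by ring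
    rw [this]
    refine (lay_rd_sub (lay_rd_add (lay_rd_sub hP (lay_rd_mul (lay_rd_mul h2' hR) hX'))
      (lay_rd_mul (lay_rd_mul h2' hb) hw0)) h6).trans ?_
    linarith
  refine ⟨?_, ?_, ?_, ?_, ?_⟩
  · have : W - (B + th * X) = (W - (B + th' * X)) + (th' - th) * X := by ring
    rw [this]
    refine (lay_rd_add h2 (lay_rd_mul h1 hX')).trans ?_
    linarith
  · have : V - (Y + th * X ^ 2) = (V - (Y + th' * X ^ 2)) + (th' - th) * X ^ 2 := by ring
    rw [this]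
    refine (lay_rd_add h3 (lay_rd_mul h1 hX2)).trans ?_
    linarith
  · have : (L - 2 * b * W) - (P - 2 * r * X) = (0 - 2 * (R - r) * X) - (P - L - 2 * R * X + 2 * b * (B + th' * X))
        - 2 * b * (W - (B + th' * X)) := by ring
    rw [this]
    refine (lay_rd_sub (lay_rd_sub (lay_rd_sub (le_of_eq abs_zero) (lay_rd_mul (lay_rd_mul h2' h4) hX')) h6)
      (lay_rd_mul (lay_rd_mul h2' hb) h2)).trans ?_
    linarith
  · have : (vel + b * V) - (N - P * X + r * X ^ 2) = (R - r) * X ^ 2 + (P - L - 2 * R * X + 2 * b * (B + th' * X)) * X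
        + (vel - (N - L * X - R * X ^ 2 - b * ((Y + th' * X ^ 2) - 2 * X * (B + th' * X)))) + b * (V - (Y + th' * X ^ 2)) := by ring
    rw [this]
    refine (lay_rd_add (lay_rd_add (lay_rd_add (lay_rd_mul h4 hX2) (lay_rd_mul h6 hX')) h7) (lay_rd_mul hb h3)).trans ?_
    linarith
  · have : (pos + L * W + R * V - b * W ^ 2) - (D + th * N) = (th' - th) * N
        + (pos - (D + th' * N - L * (B + th' * X) - R * (Y + th' * X ^ 2) + b * (B + th' * X) ^ 2))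
        + L * (W - (B + th' * X)) + R * (V - (Y + th' * X ^ 2)) - 2 * b * (B + th' * X) * (W - (B + th' * X))
        - b * ((W - (B + th' * X)) * (W - (B + th' * X))) := by ring
    rw [this]
    refine (lay_rd_sub (lay_rd_sub (lay_rd_add (lay_rd_add (lay_rd_add (lay_rd_mul h1 hN') h8) (lay_rd_mul hL h2))
      (lay_rd_mul hR h3)) (lay_rd_mul (lay_rd_mul (lay_rd_mul h2' hb) hw0) h2)) (lay_rd_mul hb (lay_rd_mul h2 h2))).trans ?_
    linarith

theorem lay_rd_lin {X B Y N D th r th' W V L R b vel pos A e : ℝ} (hA : 1 ≤ A) (he : 0 ≤ e) (he1 : e ≤ 1)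
    (hX : |X| ≤ A - 1) (hB : |B| ≤ A - 1) (hY : |Y| ≤ A - 1) (hN : |N| ≤ A - 1)
    (hth : |th| ≤ A - 1) (hr : |r| ≤ A - 1)
    (h1 : |th' - th| ≤ e) (h2 : |W - (B + th' * X)| ≤ e) (h3 : |V - (Y + th' * X ^ 2)| ≤ e)
    (h4 : |r - L| ≤ e) (h5 : |R| ≤ e) (h6 : |b| ≤ e)
    (h7 : |vel - (N - L * X - R * X ^ 2 - b * ((Y + th' * X ^ 2) - 2 * X * (B + th' * X)))| ≤ e)
    (h8 : |pos - (D + th' * N - L * (B + th' * X) - R * (Y + th' * X ^ 2) + b * (B + th' * X) ^ 2)| ≤ e) :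
    |W - (B + th * X)| ≤ 20 * A ^ 4 * e ∧ |V - (Y + th * X ^ 2)| ≤ 20 * A ^ 4 * e ∧
      |vel - (N - r * X)| ≤ 20 * A ^ 4 * e ∧
      |(pos + L * W) - (D + th * N)| ≤ 20 * A ^ 4 * e := by
  obtain ⟨hth', hw0, hv0⟩ := lay_rd_base hA he1 hX hB hY hth h1
  obtain ⟨a1, a2, a3, m0, m1, m2, m3, m4⟩ := lay_rd_mono hA he he1
  have hX' : |X| ≤ A := hX.trans (by linarith)
  have hN' : |N| ≤ A := hN.trans (by linarith)
  have hX2 : |X ^ 2| ≤ A * A := by rw [sq]; exact lay_rd_mul hX' hX'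
  have h2' : |(2 : ℝ)| ≤ 2 := by norm_num
  have hL : |L| ≤ A := by
    have : L = r - (r - L) := by ring
    rw [this]
    exact (lay_rd_sub hr h4).trans (by linarith)
  refine ⟨?_, ?_, ?_, ?_⟩
  · have : W - (B + th * X) = (W - (B + th' * X)) + (th' - th) * X := by ring
    rw [this]
    refine (lay_rd_add h2 (lay_rd_mul h1 hX')).trans ?_
    linarith
  · have : V - (Y + th * X ^ 2) = (V - (Y + th' * X ^ 2)) + (th' - th) * X ^ 2 := by ring
    rw [this]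
    refine (lay_rd_add h3 (lay_rd_mul h1 hX2)).trans ?_
    linarith
  · have : vel - (N - r * X) = (r - L) * X - R * X ^ 2 - b * ((Y + th' * X ^ 2) - 2 * X * (B + th' * X))
        + (vel - (N - L * X - R * X ^ 2 - b * ((Y + th' * X ^ 2) - 2 * X * (B + th' * X)))) := by ring
    rw [this]
    refine (lay_rd_add (lay_rd_sub (lay_rd_sub (lay_rd_mul h4 hX') (lay_rd_mul h5 hX2))
      (lay_rd_mul h6 (lay_rd_sub hv0 (lay_rd_mul (lay_rd_mul h2' hX') hw0)))) h7).trans ?_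
    linarith
  · have : (pos + L * W) - (D + th * N) = (th' - th) * N
        + (pos - (D + th' * N - L * (B + th' * X) - R * (Y + th' * X ^ 2) + b * (B + th' * X) ^ 2))
        - R * (Y + th' * X ^ 2) + b * ((B + th' * X) * (B + th' * X)) + L * (W - (B + th' * X)) := by ring
    rw [this]
    refine (lay_rd_add (lay_rd_add (lay_rd_sub (lay_rd_add (lay_rd_mul h1 hN') h8) (lay_rd_mul h5 hv0))
      (lay_rd_mul h6 (lay_rd_mul hw0 hw0))) (lay_rd_mul hL h2)).trans ?_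
    linarith

theorem lay_rd_nrm (f : ItPh) {B0 : ℝ} (hf : f.nrm ≤ B0) :
    |f.X| ≤ B0 ∧ |f.B| ≤ B0 ∧ |f.P| ≤ B0 ∧ |f.Y| ≤ B0 ∧ |f.N| ≤ B0 ∧ |f.D| ≤ B0 := by
  unfold ItPh.nrm at hf
  simp only [max_le_iff] at hf
  obtain ⟨⟨⟨h1, h2⟩, h3, h4⟩, h5, h6⟩ := hf
  exact ⟨h1, h2, h3, h4, h5, h6⟩

/-- quadratic: a child display `(θ', W', V', 𝓛, 𝓡, 𝔟, vel, pos)` with errors `e` reads the five fibre coordinates with errors `C e`, `C = 20 (1 + B0)^3`. -/
theorem lay_read_quad (f : ItPh) (μ : ItMk) (s : ItDsp) (B0 e : ℝ) (hB : 1 ≤ B0) (he : 0 ≤ e) (he1 : e ≤ 1)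
    (hf : f.nrm ≤ B0) (hμ : |μ.th| ≤ B0 ∧ |μ.r| ≤ B0 ∧ |μ.k| ≤ B0)
    (h1 : |s.th - μ.th| ≤ e) (h2 : |s.W - (f.B + s.th * f.X)| ≤ e) (h3 : |s.V - (f.Y + s.th * f.X ^ 2)| ≤ e)
    (h4 : |s.R - μ.r| ≤ e) (h5 : |s.b - μ.k| ≤ e)
    (h6 : |f.P - s.L - 2 * s.R * f.X + 2 * s.b * (f.B + s.th * f.X)| ≤ e)
    (h7 : |s.vel - (f.N - s.L * f.X - s.R * f.X ^ 2
      - s.b * ((f.Y + s.th * f.X ^ 2) - 2 * f.X * (f.B + s.th * f.X)))| ≤ e)
    (h8 : |s.pos - (f.D + s.th * f.N - s.L * (f.B + s.th * f.X) - s.R * (f.Y + s.th * f.X ^ 2)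
      + s.b * (f.B + s.th * f.X) ^ 2)| ≤ e) :
    |s.W - (f.B + μ.th * f.X)| ≤ 20 * (1 + B0) ^ 3 * e ∧ |s.V - (f.Y + μ.th * f.X ^ 2)| ≤ 20 * (1 + B0) ^ 3 * e ∧
      |(s.L - 2 * s.b * s.W) - (f.P - 2 * μ.r * f.X)| ≤ 20 * (1 + B0) ^ 3 * e ∧
      |(s.vel + s.b * s.V) - (f.N - f.P * f.X + μ.r * f.X ^ 2)| ≤ 20 * (1 + B0) ^ 3 * e ∧
      |(s.pos + s.L * s.W + s.R * s.V - s.b * s.W ^ 2) - (f.D + μ.th * f.N)| ≤ 20 * (1 + B0) ^ 3 * e := by
  obtain ⟨hX, hB', hP, hY, hN, -⟩ := lay_rd_nrm f hf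
  have e0 : (1 + B0) - 1 = B0 := by ring
  exact lay_rd_quad (A := 1 + B0) (by linarith) he he1 (by rwa [e0]) (by rwa [e0]) (by rwa [e0]) (by rwa [e0]) (by rwa [e0])
    (by rw [e0]; exact hμ.1) (by rw [e0]; exact hμ.2.1) (by rw [e0]; exact hμ.2.2) h1 h2 h3 h4 h5 h6 h7 h8

/-- linear: the same with `|r - 𝓛|, |𝓡|, |𝔟| ≤ e`. -/
theorem lay_read_lin (f : ItPh) (μ : ItMk) (s : ItDsp) (B0 e : ℝ) (hB : 1 ≤ B0) (he : 0 ≤ e) (he1 : e ≤ 1)
    (hf : f.nrm ≤ B0) (hμ : |μ.th| ≤ B0 ∧ |μ.r| ≤ B0 ∧ |μ.k| ≤ B0)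
    (h1 : |s.th - μ.th| ≤ e) (h2 : |s.W - (f.B + s.th * f.X)| ≤ e) (h3 : |s.V - (f.Y + s.th * f.X ^ 2)| ≤ e)
    (h4 : |μ.r - s.L| ≤ e) (h5 : |s.R| ≤ e) (h6 : |s.b| ≤ e)
    (h7 : |s.vel - (f.N - s.L * f.X - s.R * f.X ^ 2
      - s.b * ((f.Y + s.th * f.X ^ 2) - 2 * f.X * (f.B + s.th * f.X)))| ≤ e)
    (h8 : |s.pos - (f.D + s.th * f.N - s.L * (f.B + s.th * f.X) - s.R * (f.Y + s.th * f.X ^ 2)
      + s.b * (f.B + s.th * f.X) ^ 2)| ≤ e) :
    |s.W - (f.B + μ.th * f.X)| ≤ 20 * (1 + B0) ^ 4 * e ∧ |s.V - (f.Y + μ.th * f.X ^ 2)| ≤ 20 * (1 + B0) ^ 4 * e ∧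
      |s.vel - (f.N - μ.r * f.X)| ≤ 20 * (1 + B0) ^ 4 * e ∧
      |(s.pos + s.L * s.W) - (f.D + μ.th * f.N)| ≤ 20 * (1 + B0) ^ 4 * e := by
  obtain ⟨hX, hB', -, hY, hN, -⟩ := lay_rd_nrm f hf
  have e0 : (1 + B0) - 1 = B0 := by ring
  exact lay_rd_lin (A := 1 + B0) (by linarith) he he1 (by rwa [e0]) (by rwa [e0]) (by rwa [e0]) (by rwa [e0])
    (by rw [e0]; exact hμ.1) (by rw [e0]; exact hμ.2.1) h1 h2 h3 h4 h5 h6 h7 h8

end Claimed.Agent.R256
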