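import Claimed.Agent.R256.Lay.RaKit

/-!
# Row 256, unit LAY (04B), B8d: PORT `avd` OF `LayOne` (equality quadratic family)      (helper27; prefix `lay_ra_`)

`lay_ra_avoid` : `LaySepA π C0 lb` (= `lay_sepA` of `lay_sep_lt / gt / eq`) ⇒ `Tan.Avoid` of the one-record datum `nmTan (S.D n) π r dsp` for `uf`-most `n`, all `dsp`, all regimes `a` with `a.e0 = e0`.
ORDER OF CONSTANTS:  family, sequence → `Λ, e0, Cs` → root `r` (with `h, Rm, B`), package, `acc` → `n`.      `e0` depends only on `π, C0, κ`.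
CONDITIONS ON THE ROOT:  `r.Ok π Λ`, `3 ≤ r.B`, display `nmDsEq π`, quadratic branch, `pk.K ≤ r.Rm`, `r.a + Cs K h < 1`;
 `lb = true` (`c = 1`): coarse side with the left label slack on `[a, a + Cs K h]` (`nm_sd_prL`);      exact sides: `PcAll` for `uf`-most `n` (`nm_pclist`).
PROOF.  `u ∈ pk.G` with `e0 u ≤ acc`: the bound is `≥ 1`.   Otherwise `ε = acc / (2 e0)`, `u' = u - ε ≥ ε`: stored marks → exact marks costs `2 δ^Rm`, `δ^u + 2 δ^Rm ≤ δ^u'` (`lay_ra_absorb`), `lay_avoid_fine` at `u'` with the frame of `nm_mk_main`,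
 the lists of `nm_sd_pr`, `nm_sd_prL` at the finitely many gates `a + c u' h`;   `δ^(e0 u') = δ^(e0 u - acc/2) ≤ δ^(e0 u - acc)`.
-/

set_option autoImplicit false

namespace Claimed.Agent.R256

open Claimed.Agent.R255 Claimed.Agent.R255.FLaw
open Filter Topology
open Classical

/-- one exponent, one configuration: stored marks → exact marks -/
theorem lay_ra_av_one (π : SfPar) (hq : π.q = π.c2) (D : SfDoc) (hs : 0 < D.s ∧ D.s < 1) (r : NmRt) (hds : r.q.ds = nmDsEq π)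
    (hlin : r.σ.lin = false) (hh : 0 < r.h) (hfr : LayRaFr D π r) (u ε p : ℝ) (hRm : u ≤ r.Rm) (h3 : (D.s ^ r.h) ^ ε ≤ 1 / 3)
    (hA : ∀ ta Ra ka : NmZv D.Idx → ℝ, (∀ x, |ka x| ≤ if 1 < π.c2 then D.s ^ (-(π.c2 + 2)) else 3 * D.s ^ (π.b2 r.a - r.a)) →
      (∀ ρ, (D.P 1).p ρ ≠ 0 → |((D.lab 1 ρ).be - (Ra (D.side π r.q r.σ r.a ρ)
        + ka (D.side π r.q r.σ r.a ρ) * (D.T 1 ρ - ta (D.side π r.q r.σ r.a ρ)))) / D.s ^ (π.b2 r.a)| ≤ 3) →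
      ∀ al be ga : NmZv D.Idx → ℝ, (∀ x, al x ^ 2 + be x ^ 2 = 1) →
        (D.P 1).pr (fun ρ => (D.P 1).p ρ ≠ 0 ∧ |al (D.side π r.q r.σ r.a ρ) * ((D.T 1 ρ - ta (D.side π r.q r.σ r.a ρ)) / D.s ^ r.a)
          + be (D.side π r.q r.σ r.a ρ) * (((D.lab 1 ρ).be - (Ra (D.side π r.q r.σ r.a ρ)
            + ka (D.side π r.q r.σ r.a ρ) * (D.T 1 ρ - ta (D.side π r.q r.σ r.a ρ)))) / D.s ^ (π.b2 r.a))
          - ga (D.side π r.q r.σ r.a ρ)| ≤ (D.s ^ r.h) ^ (u - ε)) ≤ p)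
    (al be ga : NmZv D.Idx → ℝ) (hn : ∀ x, al x ^ 2 + be x ^ 2 = 1) :
    (D.P 1).pr (fun ω => |al (D.side π r.q r.σ r.a ω) * (D.smk π r ω).th + be (D.side π r.q r.σ r.a ω) * (D.smk π r ω).r
      - ga (D.side π r.q r.σ r.a ω)| ≤ (D.s ^ r.h) ^ u) ≤ p := by
  obtain ⟨ta, Ra, ka, hka, hk0, hfr⟩ := hfr
  have hδ0 : 0 < D.s ^ r.h := Real.rpow_pos_of_pos hs.1 _
  have hδ1 : D.s ^ r.h < 1 := Real.rpow_lt_one hs.1.le hs.2 hh
  have hb : r.q.ds.b r.a = π.b2 r.a := by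
    rw [hds]
    simp only [NmDs.b, nmDsEq, SfPar.b2, hq]
    ring
  have hka' : ∀ x, |ka x| ≤ if 1 < π.c2 then D.s ^ (-(π.c2 + 2)) else 3 * D.s ^ (π.b2 r.a - r.a) := by
    intro x
    split_ifs with hc
    · exact hka x
    · have hcut : r.q.ds.cut ≠ NmCut.slope := by
        rw [hds]
        simp [nmDsEq, hc]
      rw [hk0 hcut x, abs_zero]
      have := Real.rpow_pos_of_pos hs.1 (π.b2 r.a - r.a)
      linarith
  have hTe : ∀ ω, (D.raw π r.q.ds ω).Te = D.T 1 ω := fun ω => by rw [hds]; exact (lay_ra_raw_eq D π ω).1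
  have hbe : ∀ ω, (D.raw π r.q.ds ω).be = (D.lab 1 ω).be := fun ω => by rw [hds]; exact (lay_ra_raw_eq D π ω).2
  refine le_trans (ent_pr_mono _ fun ω hω h => ?_) (hA ta Ra ka hka' (fun ρ hρ => ?_) al be ga hn)
  · refine ⟨hω, ?_⟩
    obtain ⟨⟨-, f1⟩, f2, -⟩ := hfr ω hω
    obtain ⟨-, f2⟩ := f2 hlin
    rw [hTe, hb] at f2
    rw [hTe] at f1
    rw [hbe] at f2
    set z := D.side π r.q r.σ r.a ω with hz
    have ha1 : |al z| ≤ 1 := by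
      rw [← abs_one, ← sq_le_sq]
      nlinarith [hn z, sq_nonneg (be z)]
    have hb1 : |be z| ≤ 1 := by
      rw [← abs_one, ← sq_le_sq]
      nlinarith [hn z, sq_nonneg (al z)]
    set θ := (D.T 1 ω - ta z) / D.s ^ r.a with hθ
    set ρ := ((D.lab 1 ω).be - (Ra z + ka z * (D.T 1 ω - ta z))) / D.s ^ (π.b2 r.a) with hρ
    have e : al z * θ + be z * ρ - ga z
        = (al z * (D.smk π r ω).th + be z * (D.smk π r ω).r - ga z) - al z * ((D.smk π r ω).th - θ) - be z * ((D.smk π r ω).r - ρ) := by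
      ring
    have g1 : |al z * ((D.smk π r ω).th - θ)| ≤ (D.s ^ r.h) ^ r.Rm := by
      rw [abs_mul]
      calc |al z| * |(D.smk π r ω).th - θ| ≤ 1 * (D.s ^ r.h) ^ r.Rm := mul_le_mul ha1 f1 (abs_nonneg _) zero_le_one
        _ = _ := one_mul _
    have g2 : |be z * ((D.smk π r ω).r - ρ)| ≤ (D.s ^ r.h) ^ r.Rm := by
      rw [abs_mul]
      calc |be z| * |(D.smk π r ω).r - ρ| ≤ 1 * (D.s ^ r.h) ^ r.Rm := mul_le_mul hb1 f2 (abs_nonneg _) zero_le_one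
        _ = _ := one_mul _
    rw [e]
    have g3 := abs_sub (al z * (D.smk π r ω).th + be z * (D.smk π r ω).r - ga z - al z * ((D.smk π r ω).th - θ))
      (be z * ((D.smk π r ω).r - ρ))
    have g4 := abs_sub (al z * (D.smk π r ω).th + be z * (D.smk π r ω).r - ga z) (al z * ((D.smk π r ω).th - θ))
    have g5 := lay_ra_absorb hδ0 hδ1 hRm h3
    linarith
  · obtain ⟨-, f2, -⟩ := hfr ρ hρ
    obtain ⟨f2, -⟩ := f2 hlin
    rw [hTe, hb, hbe] at f2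
    exact f2

/-- `RowPr` of the side at one gate, for `uf`-most configurations -/
theorem lay_ra_row {π : SfPar} {C0 : ℝ} {κ : ℝ → ℝ} (S : NmSeq π C0 κ) (hX : S.HasX) (τ : ℝ) (hτ : 0 < τ) (r : NmRt) (i e : ℝ)
    (he : 0 < e)
    (H : ∀ acc : ℝ, 0 < acc → ∃ e0 : ℝ, 0 < e0 ∧ ∃ t0 : ℝ, 0 < t0 ∧ ∀ D : SfDoc, D.Fine π C0 τ (κ τ) t0 → nmX π D t0 → ∀ G : D.Row 1 → Prop,
      (r.σ.exact = true → r.σ.lin = false → (D.P 1).NVal G (D.Pc π r.q.ds r.σ.xs) (pair D.y0 (D.tc r.a)) (D.s ^ (-e0))) →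
      D.RowPr (D.gt i) (fun ω => (D.P 1).p ω ≠ 0 ∧ G ω) (D.side π r.q r.σ r.a) (D.s ^ (-acc)))
    (hPc : ∀ e : ℝ, 0 < e → ∀ᶠ n in uf, (S.D n).PcAll π r e) :
    ∀ᶠ n in uf, (S.D n).RowPr ((S.D n).gt i) (fun ω => ((S.D n).P 1).p ω ≠ 0) ((S.D n).side π r.q r.σ r.a) ((S.D n).s ^ (-e)) := by
  obtain ⟨e0, he0, t0, ht0, H⟩ := H e he
  have hA : NmA π C0 τ (κ τ) fun _ D => ∀ G : D.Row 1 → Prop,
      (r.σ.exact = true → r.σ.lin = false → (D.P 1).NVal G (D.Pc π r.q.ds r.σ.xs) (pair D.y0 (D.tc r.a)) (D.s ^ (-e0))) →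
      D.RowPr (D.gt i) (fun ω => (D.P 1).p ω ≠ 0 ∧ G ω) (D.side π r.q r.σ r.a) (D.s ^ (-e)) :=
    fun _ _ => ⟨t0, ht0, H⟩
  filter_upwards [nm_A_uf S hX τ hτ _ hA 1 one_pos, hPc e0 he0] with n h1 h2
  intro ρ
  obtain ⟨T, hT, hmem⟩ := h1 (fun _ => True) h2 ρ
  exact ⟨T, hT, fun ω hc hω => hmem ω hc ⟨hω, trivial⟩⟩

/-- **PORT `avd`** -/
theorem lay_ra_avoid {π : SfPar} {C0 : ℝ} {κ : ℝ → ℝ} (hπ : π.Valid) (hq : π.q = π.c2) (S : NmSeq π C0 κ) (hX : S.HasX)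
    (hκ : ∀ τ : ℝ, 0 < τ → 0 < κ τ) (lb : Bool) (hS : LaySepA π C0 lb) :
    ∃ Λ e0 Cs : ℝ, 0 < e0 ∧ 0 ≤ Cs ∧ ∀ r : NmRt, r.Ok π Λ → 3 ≤ r.B → r.q.ds = nmDsEq π → r.σ.lin = false → 0 < r.h →
      ∀ (pk : ItPk) (acc : ℝ), pk.Ok → 0 < acc → pk.K ≤ r.Rm → r.a + Cs * (pk.K * r.h) < 1 →
      (lb = true → r.σ.exact = false ∧ ∀ i : ℝ, r.a ≤ i → i ≤ r.a + Cs * (pk.K * r.h) →
        r.σ.V < π.u i ∧ r.q.l π r.σ.A r.σ.V < min (π.b1 i) 0) →
      (∀ e : ℝ, 0 < e → ∀ᶠ n in uf, (S.D n).PcAll π r e) →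
      ∀ᶠ n in uf, ∀ (dsp : ℝ → NmNm → NmNm → ItDsp) (a : ItPar), a.e0 = e0 → (nmTan (S.D n) π r dsp).Avoid a pk acc := by
  obtain ⟨τ, cs, hτ, hcs, H⟩ := lay_avoid_fine π hπ C0 lb hS
  obtain ⟨e0, he0, H⟩ := H (κ τ) (hκ τ hτ)
  obtain ⟨Λ1, H1⟩ := nm_sd_pr π hπ C0 τ (κ τ)
  obtain ⟨Λ2, H2⟩ := nm_sd_prL π hπ C0 τ (κ τ)
  have hCs : ∀ c ∈ cs, c ≤ ∑ c ∈ cs, c := fun c hc => Finset.single_le_sum (fun x hx => hcs x hx) hc
  refine ⟨max Λ1 Λ2, e0, ∑ c ∈ cs, c, he0, Finset.sum_nonneg hcs, ?_⟩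
  intro r hr hB hds hlin hh pk acc hpk hacc hRm hfit hlab hPc
  set Cs : ℝ := ∑ c ∈ cs, c with hCsdef
  have hCs0 : 0 ≤ Cs := Finset.sum_nonneg hcs
  have hDe : r.q.ds.De = 1 := by rw [hds]; rfl
  have hglob : r.q.ds.glob = false := by rw [hds]; rfl
  set ε : ℝ := acc / (2 * e0) with hε
  have hε0 : 0 < ε := by positivity
  have hεe : e0 * ε = acc / 2 := by
    rw [hε]
    field_simp
  have hK0 : 0 < pk.K := hpk.2.1
  have hm0 : 0 < 1 - (r.a + Cs * (pk.K * r.h)) := by linarith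
  obtain ⟨t0, ht0, H⟩ := H 3 ε (max pk.K ε) r.h (1 - (r.a + Cs * (pk.K * r.h))) (by norm_num) hε0 (le_max_right _ _) hh hm0
  -- the exponents which matter
  have hu : ∀ u ∈ pk.G, acc < e0 * u → ε ≤ u - ε ∧ u - ε ≤ pk.K ∧ 0 ≤ u - ε := by
    intro u hu hau
    have h1 : 2 * ε < u := by
      have : e0 * (2 * ε) < e0 * u := by rw [show e0 * (2 * ε) = 2 * (e0 * ε) by ring, hεe]; linarith
      exact lt_of_mul_lt_mul_left this he0.le
    have h2 := (hpk.2.2.2.2.2.2 u hu).2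
    exact ⟨by linarith, by linarith, by linarith⟩
  have hgate : ∀ c ∈ cs, ∀ u ∈ pk.G, acc < e0 * u →
      r.a ≤ r.a + c * ((u - ε) * r.h) ∧ r.a + c * ((u - ε) * r.h) ≤ r.a + Cs * (pk.K * r.h) := by
    intro c hc u hu' hau
    obtain ⟨-, h2, h3⟩ := hu u hu' hau
    have h4 : 0 ≤ (u - ε) * r.h := mul_nonneg h3 hh.le
    have h5 : (u - ε) * r.h ≤ pk.K * r.h := mul_le_mul_of_nonneg_right h2 hh.le
    have h6 : c * ((u - ε) * r.h) ≤ Cs * (pk.K * r.h) := mul_le_mul (hCs c hc) h5 h4 hCs0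
    have h7 : 0 ≤ c * ((u - ε) * r.h) := mul_nonneg (hcs c hc) h4
    exact ⟨by linarith, by linarith⟩
  have E1 : ∀ᶠ n in uf, (S.D n).Fine π C0 τ (κ τ) t0 := nm_me_fine_ev S τ hτ t0 ht0
  have E2 : ∀ᶠ n in uf, LayRaFr (S.D n) π r := lay_ra_frame hπ S hX _ r hr hB hh
  have E3 : ∀ᶠ n in uf, ∀ c ∈ cs, ∀ u ∈ pk.G, acc < e0 * u →
      (S.D n).RowPr ((S.D n).gt (r.a + c * ((u - ε) * r.h))) (fun ω => ((S.D n).P 1).p ω ≠ 0) ((S.D n).side π r.q r.σ r.a)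
        ((S.D n).s ^ (-t0)) := by
    rw [Filter.eventually_all_finset]
    intro c hc
    rw [Filter.eventually_all_finset]
    intro u hu'
    by_cases hau : acc < e0 * u
    · obtain ⟨g1, g2⟩ := hgate c hc u hu' hau
      exact (lay_ra_row S hX τ hτ r _ t0 ht0 (H1 r (hr.mono hπ (le_max_left _ _)) _ g1 (by rw [hDe]; linarith)) hPc).mono
        fun n hn _ => hn
    · exact Eventually.of_forall fun n h => absurd h hau
  have E4 : ∀ᶠ n in uf, lb = true → ∀ c ∈ cs, ∀ u ∈ pk.G, acc < e0 * u →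
      (S.D n).LabPr ((S.D n).gt (r.a + c * ((u - ε) * r.h))) (fun ω => ((S.D n).P 1).p ω ≠ 0) ((S.D n).side π r.q r.σ r.a)
        (fun _ => ()) ((S.D n).s ^ (-t0)) := by
    by_cases hlb : lb = true
    · obtain ⟨hex, hl⟩ := hlab hlb
      have : ∀ᶠ n in uf, ∀ c ∈ cs, ∀ u ∈ pk.G, acc < e0 * u →
          (S.D n).LabPr ((S.D n).gt (r.a + c * ((u - ε) * r.h))) (fun ω => ((S.D n).P 1).p ω ≠ 0) ((S.D n).side π r.q r.σ r.a)
            (fun _ => ()) ((S.D n).s ^ (-t0)) := by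
        rw [Filter.eventually_all_finset]
        intro c hc
        rw [Filter.eventually_all_finset]
        intro u hu'
        by_cases hau : acc < e0 * u
        · obtain ⟨g1, g2⟩ := hgate c hc u hu' hau
          obtain ⟨l1, l2⟩ := hl _ g1 g2
          exact (nm_A_uf S hX τ hτ _ (H2 r (hr.mono hπ (le_max_right _ _)) hex hglob hlin _ g1 (by linarith) l1 l2) t0 ht0).mono
            fun n hn _ => hn
        · exact Eventually.of_forall fun n h => absurd h hau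
      exact this.mono fun n hn _ => hn
    · exact Eventually.of_forall fun n h => absurd h hlb
  have E5 : ∀ᶠ n in uf, (S.D n).s ^ (r.h * ε) ≤ 1 / 3 := nm_me_pow_small S (mul_pos hh hε0) (by norm_num)
  filter_upwards [E1, E2, E3, E4, E5] with n e1 e2 e3 e4 e5
  intro dsp a ha u hu' al be ga hn
  have hs := nm_me_s S n
  have hδ0 : 0 < (S.D n).s ^ r.h := Real.rpow_pos_of_pos hs.1 _
  have hδ1 : (S.D n).s ^ r.h < 1 := Real.rpow_lt_one hs.1.le hs.2 hh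
  show ((S.D n).P 1).pr (fun ω => |al ((S.D n).side π r.q r.σ r.a ω) * ((S.D n).smk π r ω).th
      + be ((S.D n).side π r.q r.σ r.a ω) * ((S.D n).smk π r ω).r - ga ((S.D n).side π r.q r.σ r.a ω)| ≤ ((S.D n).s ^ r.h) ^ u)
    ≤ ((S.D n).s ^ r.h) ^ (a.e0 * u - acc)
  rw [ha]
  by_cases hau : acc < e0 * u
  · obtain ⟨u1, u2, u3⟩ := hu u hu' hau
    have h3 : ((S.D n).s ^ r.h) ^ ε ≤ 1 / 3 := by rw [← Real.rpow_mul hs.1.le]; exact e5
    have key := lay_ra_av_one π hq (S.D n) hs r hds hlin hh e2 u ε (((S.D n).s ^ r.h) ^ (e0 * (u - ε)))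
      (((hpk.2.2.2.2.2.2 u hu').2).trans hRm) h3
      (fun ta Ra ka hka hbd al be ga hn => H (S.D n) e1 r.a (u - ε) u1 (u2.trans (le_max_left _ _)) hr.ha.1.le
        (fun c hc => by
          have := (hgate c hc u hu' hau).2
          linarith)
        _ ((S.D n).side π r.q r.σ r.a) (fun ω => ((S.D n).P 1).p ω ≠ 0) (fun c hc => e3 c hc u hu' hau)
        (fun hlb c hc => e4 hlb c hc u hu' hau) ta Ra ka hka hbd al be ga hn) al be ga hn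
    refine key.trans (Real.rpow_le_rpow_of_exponent_ge hδ0 hδ1.le ?_)
    rw [mul_sub, hεe]
    linarith
  · exact (ent_pr_le_one _ _).trans (Real.one_le_rpow_of_pos_of_le_one_of_nonpos hδ0 hδ1.le (by linarith [not_lt.1 hau]))

end Claimed.Agent.R256
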