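import Claimed.Agent.R256.Lay.SepKit
import Claimed.Agent.R255.Ent.Basic

/-!
# Row 256, unit LAY (04B): separation, case `c > 1`      (04 l.828-845, 872-875; plan helper189, CONTRACT + assembly helper117)

`c = π.c2 = π.q > 1`, `b = π.b2`, `b x = c (x - 1)`, `s = D.s`.   `γ = layGtGa c = (1 + 1/c)/2`, `τ' = layGtTp c = (1 + γ)/2`, `ω = layGtW c = (τ' - γ)/2 = (1 - γ)/4`, `τ = ω/(2γ)`, `χ = 1/2` (only used for (sz)).
RELATIONS (`lay_gt_num`): `1/2 < γ < 1`, `c γ = (c+1)/2 > 1`, `τ' = γ + 2ω`, `τ' + 2ω = 1`, `ω > 0`.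
Gates `cs = {0, γ, τ'}`:  `i = a`, `j = a + γ z`, `j2 = a + τ' z = j + (1 - τ') z`.   `b j = b a + c γ z`;  `b j - j = b a - a + (c-1) γ z`, `(c-1) γ = c γ - γ > 1 - γ > 2ω`.
`cmpA (j,1)`:  `|beAt_j T_1 - be_1| ≤ s^(b j - t)`,  `|K_j - K_1| ≤ s^(b j - j - t)`   (`min (b j) (b 1) = b j`;  `min (b j - j) (b 1 - 1) = b j - j` because `c > 1`, `j < 1`).
SPLIT `layEv = layEv1 ∪ layEv2`,  `layEv1`: `s^j |K_1 - sl| > s^(b a + τ' z)`.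
 PART 1 (`lay_conf` on `(j, j2)`, `RowPr j`), leaf `lay_gt_int`.  For a `j`-row `ρ'` and a completion `ρ ∈ layEv1`, `x = Z ρ`, `k = K_j - sl x`:  `|k| ≥ s^(b a + τ' z - j) - s^(b j - j - t) ≥ s^(b a + τ' z - j)/2`  (`(cγ - τ') z ≥ 2t`, `s^t ≤ 1/10`);
   `φ(T) = beAt_j T - v x - sl x T = k (T - T*)`, `T* = (v x - be_j + T_j K_j)/k`, `|φ(T_1)| ≤ s^(b j - t) + s^(b a + z) ≤ 2 s^(b a + z)`  (`(cγ - 1) z ≥ t`);
   so `|T_1 - T*| ≤ 4 s^(j + (1 - τ') z) = 4 s^j2`:   `layGtI ρ' x := T* - 4 s^j2`.   Result `≤ s^(d (j2 - j)/2) = s^(d ω z)`.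
 PART 2 (`lay_extract` on `(a, j)`, `RowPr a`).  `D.layTa a j ρ'` := the time of a chosen `a`-predecessor of `ρ'`, and `T_j ρ'` IF THERE IS NONE (NOT `0`: (c), (sz) are asked for all marked `j`-rows).  Meshes `g = layGtG = s^(b a + ω z)`, `g' = layGtH = s^(b a - a + ω z)`.
   `layGtBin ρ' ρ = (Ta ρ', ⌊(v + sl Ta)/g⌋, ⌊sl/g'⌋) : ℝ × ℤ × ℤ`,  `layGtSg (T, m, m') = layShear T (m g) (m' g') 0`.
   TA   `Ta ρ' = T_a ρ0` for every predecessor (`lay_start`);  `|T_j - Ta|, |T_1 - Ta| ≤ s^(a-t)` (`lay_near` on `(a,j)`, `(a,1)` after `trans`, resp. `(j,1)`);  among the rows of one time `T_j = T` at most two values `T0`, `T`.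
   ROW  `|K_j - sl| ≤ 2 s^(b a - a + 2ω z - t)`   (`|K_1 - sl| ≤ s^(b a + τ' z - j)`, `τ' z - j = -a + 2ω z`);   for EVERY `Ta` with `|T_1 - Ta| ≤ s^(a-t)`: `|beAt_j Ta - (v + sl Ta)| ≤ 4 s^(b a + 2ω z - 2t)`
        (at `T_1`: `s^(b j - t) + s^(b a + z) ≤ 2 s^(b a + z - t)`; `beAt_j Ta - (v + sl Ta) = [beAt_j T_1 - (v + sl T_1)] + (Ta - T_1)(K_j - sl)`).
   (a) `Ta = T_a ρ0`, one bin per side value of the list of `RowPr a` (`trans`): `≤ s^-t`.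
   (b) `Ta`: `≤ 2` values; value: within `4 s^(b a + 2ω z - 2t) ≤ 4 g` of `lam.beAt Ta`: `≤ 10` cells; slope: within `2 g'` of `lam.K`: `≤ 6` cells (`lay_floor_count`): `≤ 120 ≤ s^(-3t)`   (`2 t ≤ ω z`).
   (c) `|K_j - m' g'| ≤ 3 s^(b a - a + ω z - t)`, `len_j ≤ s^(a + γ z - t)`;  `be_j - (m g + (T_j - Ta) m' g') = [beAt_j Ta - (v + sl Ta)] + [(v + sl Ta) - m g] + (T_j - Ta)(K_j - m' g')`, `≤ 8 s^(b a + ω z - 2t)`;
       `r²/f ≤ s^(-b a - cγ z - 3t)` (`lay_pref2`, `own`);  product `≤ 11 s^((ω - cγ) z - 5t) ≤ s^((ω - cγ) z - 7t) ≤ s^(-(c-τ) γ z)` if `14 t ≤ ω z`  (`τ γ = ω/2`).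
   (sz) `|m' g'| ≤ |sl| + g' ≤ 2 s^(-c-2)`;  `|m g| ≤ |be_j| + |Ta - T_j| |K_j| + 4 s^(..) + g ≤ 7 s^(-|C0| - c - 2t)`;  `bdd`, `b a ≥ -c`, `0 ≤ a ≤ 1`, `z ≤ 2`:  needs `1/t ≥ |C0| + c + 5`.
 `e1 = min (κ0 γ) (2 d ω) / 4`  (two parts: `2 s^(2 e1 z) ≤ s^(e1 z)` for `t ≤ e1 z0`).
LEAVES GT1-GT5 (`lay_gt_int`, `lay_gt_ta`, `lay_gt_row`, `lay_gt_a`, `lay_gt_sz`, `lay_gt_b`, `lay_gt_c`): ALL PROVED (helper117); the file rests only on `lay_conf` (SepKit, SK3).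
-/

set_option autoImplicit false

namespace Claimed.Agent.R256

open Claimed.Agent.R255
open Classical

/-- `γ` of the case `c > 1` -/
noncomputable def layGtGa (c : ℝ) : ℝ := (1 + 1 / c) / 2

/-- `τ'` -/
noncomputable def layGtTp (c : ℝ) : ℝ := (1 + layGtGa c) / 2

/-- `ω` -/
noncomputable def layGtW (c : ℝ) : ℝ := (layGtTp c - layGtGa c) / 2

/-- the mesh of the value -/
noncomputable def layGtG (D : SfDoc) (π : SfPar) (a z : ℝ) : ℝ := D.s ^ (π.b2 a + layGtW π.c2 * z)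

/-- the mesh of the slope -/
noncomputable def layGtH (D : SfDoc) (π : SfPar) (a z : ℝ) : ℝ := D.s ^ (π.b2 a - a + layGtW π.c2 * z)

/-- the starting time seen from a `j`-row: the time of a chosen `a`-predecessor; the own time if there is none -/
noncomputable def SfDoc.layTa (D : SfDoc) (a j : ℝ) (ρ' : D.Row j) : ℝ :=
  if h : ∃ ρ0, D.Conn a j ρ0 ρ' then D.T a h.choose else D.T j ρ'

/-- steep part of the event -/
def SfDoc.layEv1 (D : SfDoc) (π : SfPar) (a z j : ℝ) {ζ : Type} (Z : D.Row 1 → ζ) (E : D.Row 1 → Prop) (v sl : ζ → ℝ)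
    (ρ : D.Row 1) : Prop :=
  D.layEv π a z Z E v sl ρ ∧ D.s ^ (π.b2 a + layGtTp π.c2 * z) < D.s ^ j * |(D.lab 1 ρ).K - sl (Z ρ)|

/-- flat part of the event -/
def SfDoc.layEv2 (D : SfDoc) (π : SfPar) (a z j : ℝ) {ζ : Type} (Z : D.Row 1 → ζ) (E : D.Row 1 → Prop) (v sl : ζ → ℝ)
    (ρ : D.Row 1) : Prop :=
  D.layEv π a z Z E v sl ρ ∧ D.s ^ j * |(D.lab 1 ρ).K - sl (Z ρ)| ≤ D.s ^ (π.b2 a + layGtTp π.c2 * z)

/-- left end of the confinement interval of PART 1 -/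
noncomputable def layGtI (D : SfDoc) (j j2 : ℝ) {ζ : Type} (v sl : ζ → ℝ) (ρ' : D.Row j) (x : ζ) : ℝ :=
  (v x - (D.lab j ρ').be + D.T j ρ' * (D.lab j ρ').K) / ((D.lab j ρ').K - sl x) - 4 * D.s ^ j2

/-- the bin of PART 2 -/
noncomputable def layGtBin (D : SfDoc) (π : SfPar) (a z j : ℝ) {ζ : Type} (Z : D.Row 1 → ζ) (v sl : ζ → ℝ)
    (ρ' : D.Row j) (ρ : D.Row 1) : ℝ × ℤ × ℤ :=
  (D.layTa a j ρ', ⌊(v (Z ρ) + sl (Z ρ) * D.layTa a j ρ') / layGtG D π a z⌋, ⌊sl (Z ρ) / layGtH D π a z⌋)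

/-- the shear of a bin -/
noncomputable def layGtSg (D : SfDoc) (π : SfPar) (a z : ℝ) (b : ℝ × ℤ × ℤ) : SfTest :=
  layShear b.1 ((b.2.1 : ℝ) * layGtG D π a z) ((b.2.2 : ℝ) * layGtH D π a z) 0

theorem lay_sepgt_eqns_cite : True := by
  have := @layGtGa.eq_1
  have := @layGtTp.eq_1
  have := @layGtW.eq_1
  have := @layGtG.eq_1
  have := @layGtH.eq_1
  have := @SfDoc.layTa.eq_1
  have := @SfDoc.layEv1.eq_1
  have := @SfDoc.layEv2.eq_1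
  have := @layGtI.eq_1
  have := @layGtBin.eq_1
  have := @layGtSg.eq_1
  trivial

/-- the relations between the exponents -/
theorem lay_gt_num (c : ℝ) (h1 : 1 < c) :
    1 / 2 < layGtGa c ∧ layGtGa c < 1 ∧ c * layGtGa c = (c + 1) / 2 ∧ layGtTp c = layGtGa c + 2 * layGtW c ∧
      layGtTp c + 2 * layGtW c = 1 ∧ 0 < layGtW c := by
  have hc : 0 < c := by linarith
  have h2 : 0 < 1 / c := by positivity
  have h3 : 1 / c < 1 := by rw [div_lt_one hc]; exact h1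
  unfold layGtW layGtTp layGtGa
  refine ⟨by linarith, by linarith, ?_, by ring, by ring, by linarith⟩
  field_simp

/-- aux: the relations of `lay_gt_num` multiplied by `z` -/
theorem lay_gt_aux_z (c z : ℝ) (h1 : 1 < c) (hz : 0 < z) :
    layGtTp c * z = layGtGa c * z + 2 * (layGtW c * z) ∧ layGtTp c * z + 2 * (layGtW c * z) = z ∧ 0 < layGtW c * z ∧
      z / 2 < layGtGa c * z ∧ layGtGa c * z < z := by
  obtain ⟨g1, g2, -, g4, g5, g6⟩ := lay_gt_num c h1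
  refine ⟨by rw [g4]; ring, ?_, mul_pos g6 hz, ?_, ?_⟩
  · have : (layGtTp c + 2 * layGtW c) * z = z := by rw [g5, one_mul]
    linarith
  · have := mul_lt_mul_of_pos_right g1 hz
    linarith
  · have := mul_lt_mul_of_pos_right g2 hz
    linarith

/-- aux: `b j = b a + (c + 1)/2 z` -/
theorem lay_gt_aux_bj {π : SfPar} {a z j : ℝ} (hq : π.q = π.c2) (h1 : 1 < π.c2) (hj : j = a + layGtGa π.c2 * z) :
    π.b2 j = π.b2 a + (π.c2 + 1) / 2 * z := by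
  obtain ⟨-, -, g3, -, -, -⟩ := lay_gt_num π.c2 h1
  unfold SfPar.b2
  rw [hq, hj]
  linear_combination z * g3

section

variable {π : SfPar} {C0 τ κ0 t : ℝ} {D : SfDoc} {a z j j2 : ℝ} {ζ : Type} {Z : D.Row 1 → ζ} {E : D.Row 1 → Prop}
  {v sl : ζ → ℝ}

/-- aux: `cmpA` on `(j, 1)` for `c > 1` -/
theorem lay_gt_aux_cmp (hD : D.Ok π C0 τ κ0 t) (hq : π.q = π.c2) (h1 : 1 < π.c2) (hjG : j ∈ D.G) (hj1 : j < 1)
    (ρ' : D.Row j) (ρ : D.Row 1) (hc : D.Conn j 1 ρ' ρ) :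
    |(D.lab j ρ').beAt (D.T 1 ρ) - (D.lab 1 ρ).be| ≤ D.s ^ (π.b2 j - t) ∧
      |(D.lab j ρ').K - (D.lab 1 ρ).K| ≤ D.s ^ (π.b2 j - j - t) := by
  obtain ⟨c1, c2, -⟩ := hD.aff.cmpA j hjG 1 hD.core.gate.1 hj1 ρ' ρ hc
  have m1 : min (π.b2 j) (π.b2 1) = π.b2 j := min_eq_left (by
    unfold SfPar.b2
    rw [hq]
    nlinarith)
  have m2 : min (π.b2 j - j) (π.b2 1 - 1) = π.b2 j - j := min_eq_left (by
    unfold SfPar.b2
    rw [hq]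
    nlinarith)
  rw [m1] at c1
  rw [m2] at c2
  exact ⟨c1, c2⟩

/-- LEAF GT1. PART 1: confinement of the terminal time -/
theorem lay_gt_int (H : LaySit π C0 τ κ0 t (1 / 2) D a z sl) (hq : π.q = π.c2) (h1 : 1 < π.c2)
    (hj : j = a + layGtGa π.c2 * z) (hjG : j ∈ D.G) (hj1 : j < 1) (hj2 : j2 = a + layGtTp π.c2 * z)
    (ht : 2 * t ≤ (π.c2 - 1) / 2 * z)
    (ρ' : D.Row j) (ρ : D.Row 1) (hc : D.Conn j 1 ρ' ρ) (hE : D.layEv1 π a z j Z E v sl ρ) :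
    E ρ ∧ layGtI D j j2 v sl ρ' (Z ρ) ≤ D.T 1 ρ ∧ D.T 1 ρ ≤ layGtI D j j2 v sl ρ' (Z ρ) + 8 * D.s ^ j2 := by
  obtain ⟨⟨hEρ, hval⟩, hsteep⟩ := hE
  have hs0 := H.ok.core.hs.1
  have hs1 := H.ok.core.hs.2
  have htp := H.tpos
  obtain ⟨z1, z2, z3, z4, z5⟩ := lay_gt_aux_z π.c2 z h1 H.hz
  obtain ⟨c1, c2⟩ := lay_gt_aux_cmp H.ok hq h1 hjG hj1 ρ' ρ hc
  have hbj := lay_gt_aux_bj hq h1 hj
  obtain ⟨x, hx⟩ : ∃ x, x = Z ρ := ⟨_, rfl⟩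
  rw [← hx] at hval hsteep ⊢
  obtain ⟨k, hk⟩ : ∃ k, k = (D.lab j ρ').K - sl x := ⟨_, rfl⟩
  obtain ⟨e, he⟩ : ∃ e, e = π.b2 a + layGtTp π.c2 * z - j := ⟨_, rfl⟩
  obtain ⟨num, hnum⟩ : ∃ num, num = v x - (D.lab j ρ').be + D.T j ρ' * (D.lab j ρ').K := ⟨_, rfl⟩
  have hse : 0 < D.s ^ e := Real.rpow_pos_of_pos hs0 _
  have hsj2 : 0 < D.s ^ j2 := Real.rpow_pos_of_pos hs0 _
  have hst : D.s ^ e < |(D.lab 1 ρ).K - sl x| := by
    have hsj : 0 < D.s ^ j := Real.rpow_pos_of_pos hs0 _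
    have e1 : D.s ^ j * D.s ^ e = D.s ^ (π.b2 a + layGtTp π.c2 * z) := by
      rw [← Real.rpow_add hs0]
      congr 1
      rw [he]
      ring
    have h' : D.s ^ j * D.s ^ e < D.s ^ j * |(D.lab 1 ρ).K - sl x| := by
      rw [e1]
      exact hsteep
    exact lt_of_mul_lt_mul_left h' hsj.le
  have hsm : 10 * D.s ^ (π.b2 j - j - t) ≤ D.s ^ e :=
    (lay_rpow_abs hs0 H.h10 (π.b2 j - j - t)).trans (lay_rpow_anti hs0 hs1 (by rw [he, hbj]; linarith))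
  have hkabs : D.s ^ e / 2 ≤ |k| := by
    have tri : |(D.lab 1 ρ).K - sl x| ≤ |(D.lab j ρ').K - (D.lab 1 ρ).K| + |k| := by
      have e2 : (D.lab 1 ρ).K - sl x = -((D.lab j ρ').K - (D.lab 1 ρ).K) + k := by
        rw [hk]
        ring
      rw [e2]
      refine (abs_add_le _ _).trans ?_
      rw [abs_neg]
    have hpos : 0 < D.s ^ (π.b2 j - j - t) := Real.rpow_pos_of_pos hs0 _
    linarith
  have hkpos : 0 < |k| := by linarith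
  have hk0 : k ≠ 0 := abs_pos.1 hkpos
  have hφ : |k * D.T 1 ρ - num| ≤ 2 * D.s ^ (π.b2 a + z) := by
    have e1 : k * D.T 1 ρ - num
        = ((D.lab j ρ').beAt (D.T 1 ρ) - (D.lab 1 ρ).be) + ((D.lab 1 ρ).be - (v x + sl x * D.T 1 ρ)) := by
      rw [hk, hnum]
      unfold SfTest.beAt SfDoc.T
      ring
    rw [e1]
    have h3 : D.s ^ (π.b2 j - t) ≤ D.s ^ (π.b2 a + z) := lay_rpow_anti hs0 hs1 (by rw [hbj]; linarith)
    exact (abs_add_le _ _).trans (by linarith)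
  have hsplit : D.s ^ (π.b2 a + z) = D.s ^ e * D.s ^ j2 := by
    rw [← Real.rpow_add hs0]
    congr 1
    rw [he, hj2, hj]
    linarith
  have hdist : |D.T 1 ρ - num / k| ≤ 4 * D.s ^ j2 := by
    have e1 : D.T 1 ρ - num / k = (k * D.T 1 ρ - num) / k := by
      field_simp
    rw [e1, abs_div, div_le_iff₀ hkpos]
    calc |k * D.T 1 ρ - num| ≤ 2 * (D.s ^ e * D.s ^ j2) := by
          rw [← hsplit]
          exact hφ
      _ = 4 * D.s ^ j2 * (D.s ^ e / 2) := by ring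
      _ ≤ 4 * D.s ^ j2 * |k| := mul_le_mul_of_nonneg_left hkabs (by positivity)
  have hI : layGtI D j j2 v sl ρ' x = num / k - 4 * D.s ^ j2 := by
    unfold layGtI
    rw [hk, hnum]
  obtain ⟨h5, h6⟩ := abs_le.1 hdist
  rw [hI]
  exact ⟨hEρ, by linarith, by linarith⟩

/-- LEAF GT2. TA -/
theorem lay_gt_ta (hD : D.Core π C0 t) (ha : a ∈ D.G) (hjG : j ∈ D.G) (haj : a < j) (hj1 : j < 1) :
    (∀ ρ0 ρ', D.Conn a j ρ0 ρ' → D.layTa a j ρ' = D.T a ρ0) ∧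
    (∀ ρ', |D.T j ρ' - D.layTa a j ρ'| ≤ D.s ^ (a - t)) ∧
    (∀ ρ' ρ, D.Conn j 1 ρ' ρ → |D.T 1 ρ - D.layTa a j ρ'| ≤ D.s ^ (a - t)) ∧
    (∀ T : ℝ, ∃ T0 : ℝ, ∀ ρ', D.T j ρ' = T → D.layTa a j ρ' = T0 ∨ D.layTa a j ρ' = T) := by
  have hs0 := hD.hs.1
  have hs1 := hD.hs.2
  have h1G := hD.gate.1
  have A : ∀ ρ0 ρ', D.Conn a j ρ0 ρ' → D.layTa a j ρ' = D.T a ρ0 := by
    intro ρ0 ρ' hc
    have h : ∃ ρ0, D.Conn a j ρ0 ρ' := ⟨ρ0, hc⟩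
    unfold SfDoc.layTa
    rw [dif_pos h]
    exact lay_start D π C0 t a j hD ha hjG haj h.choose ρ0 ρ' ρ' h.choose_spec hc rfl
  have N : ∀ ρ', (¬ ∃ ρ0, D.Conn a j ρ0 ρ') → D.layTa a j ρ' = D.T j ρ' := by
    intro ρ' h
    unfold SfDoc.layTa
    rw [dif_neg h]
  refine ⟨A, fun ρ' => ?_, fun ρ' ρ hc => ?_, fun T => ?_⟩
  · by_cases h : ∃ ρ0, D.Conn a j ρ0 ρ'
    · obtain ⟨ρ0, h0⟩ := h
      rw [A ρ0 ρ' h0]
      obtain ⟨n1, n2, n3⟩ := lay_near D π C0 t a j hD ha hjG haj ρ0 ρ' h0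
      rw [abs_of_nonneg n1]
      linarith
    · rw [N ρ' h, sub_self, abs_zero]
      exact Real.rpow_nonneg hs0.le _
  · by_cases h : ∃ ρ0, D.Conn a j ρ0 ρ'
    · obtain ⟨ρ0, h0⟩ := h
      rw [A ρ0 ρ' h0]
      have h01 := hD.trans a ha j hjG 1 h1G haj hj1 ρ0 ρ' ρ h0 hc
      obtain ⟨n1, n2, n3⟩ := lay_near D π C0 t a 1 hD ha h1G (haj.trans hj1) ρ0 ρ h01
      rw [abs_of_nonneg n1]
      linarith
    · rw [N ρ' h]
      obtain ⟨n1, n2, n3⟩ := lay_near D π C0 t j 1 hD hjG h1G hj1 ρ' ρ hc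
      rw [abs_of_nonneg n1]
      have := lay_rpow_anti (x := j - t) (y := a - t) hs0 hs1 (by linarith)
      linarith
  · by_cases h : ∃ ρ' ρ0, D.T j ρ' = T ∧ D.Conn a j ρ0 ρ'
    · obtain ⟨ρ1, ρ0, hT, h0⟩ := h
      refine ⟨D.T a ρ0, fun ρ' hT' => ?_⟩
      by_cases h' : ∃ ρ0, D.Conn a j ρ0 ρ'
      · obtain ⟨ρ2, h2⟩ := h'
        left
        rw [A ρ2 ρ' h2]
        exact lay_start D π C0 t a j hD ha hjG haj ρ2 ρ0 ρ' ρ1 h2 h0 (hT'.trans hT.symm)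
      · right
        rw [N ρ' h', hT']
    · refine ⟨0, fun ρ' hT' => Or.inr ?_⟩
      have h' : ¬ ∃ ρ0, D.Conn a j ρ0 ρ' := fun ⟨ρ0, h0⟩ => h ⟨ρ', ρ0, hT', h0⟩
      rw [N ρ' h', hT']

/-- LEAF GT2. ROW -/
theorem lay_gt_row (H : LaySit π C0 τ κ0 t (1 / 2) D a z sl) (hq : π.q = π.c2) (h1 : 1 < π.c2)
    (hj : j = a + layGtGa π.c2 * z) (hjG : j ∈ D.G) (hj1 : j < 1)
    (ρ' : D.Row j) (ρ : D.Row 1) (hc : D.Conn j 1 ρ' ρ) (hE : D.layEv2 π a z j Z E v sl ρ) :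
    |(D.lab j ρ').K - sl (Z ρ)| ≤ 2 * D.s ^ (π.b2 a - a + 2 * layGtW π.c2 * z - t) ∧
    ∀ Ta : ℝ, |D.T 1 ρ - Ta| ≤ D.s ^ (a - t) →
      |(D.lab j ρ').beAt Ta - (v (Z ρ) + sl (Z ρ) * Ta)| ≤ 4 * D.s ^ (π.b2 a + 2 * layGtW π.c2 * z - 2 * t) := by
  obtain ⟨⟨hEρ, hval⟩, hflat⟩ := hE
  have hs0 := H.ok.core.hs.1
  have hs1 := H.ok.core.hs.2
  have htp := H.tpos
  have hz := H.hz
  obtain ⟨z1, z2, z3, z4, z5⟩ := lay_gt_aux_z π.c2 z h1 H.hz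
  obtain ⟨c1, c2⟩ := lay_gt_aux_cmp H.ok hq h1 hjG hj1 ρ' ρ hc
  have hbj := lay_gt_aux_bj hq h1 hj
  have hcz : 0 < (π.c2 - 1) * z := mul_pos (by linarith) hz
  obtain ⟨x, hx⟩ : ∃ x, x = Z ρ := ⟨_, rfl⟩
  rw [← hx] at hval hflat ⊢
  have hK1 : |(D.lab 1 ρ).K - sl x| ≤ D.s ^ (π.b2 a + layGtTp π.c2 * z - j) := by
    have hsj : 0 < D.s ^ j := Real.rpow_pos_of_pos hs0 _
    have e1 : D.s ^ j * D.s ^ (π.b2 a + layGtTp π.c2 * z - j) = D.s ^ (π.b2 a + layGtTp π.c2 * z) := by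
      rw [← Real.rpow_add hs0]
      congr 1
      ring
    rw [← e1] at hflat
    exact le_of_mul_le_mul_left hflat hsj
  have hK : |(D.lab j ρ').K - sl x| ≤ 2 * D.s ^ (π.b2 a - a + 2 * layGtW π.c2 * z - t) := by
    have e2 : (D.lab j ρ').K - sl x = ((D.lab j ρ').K - (D.lab 1 ρ).K) + ((D.lab 1 ρ).K - sl x) := by ring
    rw [e2]
    have a1 : D.s ^ (π.b2 j - j - t) ≤ D.s ^ (π.b2 a - a + 2 * layGtW π.c2 * z - t) :=
      lay_rpow_anti hs0 hs1 (by rw [hbj, hj]; linarith)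
    have a2 : D.s ^ (π.b2 a + layGtTp π.c2 * z - j) ≤ D.s ^ (π.b2 a - a + 2 * layGtW π.c2 * z - t) :=
      lay_rpow_anti hs0 hs1 (by rw [hj]; linarith)
    exact (abs_add_le _ _).trans (by linarith)
  refine ⟨hK, fun Ta hTa => ?_⟩
  have e3 : (D.lab j ρ').beAt Ta - (v x + sl x * Ta)
      = ((D.lab j ρ').beAt (D.T 1 ρ) - (D.lab 1 ρ).be) + ((D.lab 1 ρ).be - (v x + sl x * D.T 1 ρ))
        + -((D.T 1 ρ - Ta) * ((D.lab j ρ').K - sl x)) := by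
    unfold SfTest.beAt
    ring
  rw [e3]
  have b1 : D.s ^ (π.b2 j - t) ≤ D.s ^ (π.b2 a + 2 * layGtW π.c2 * z - 2 * t) :=
    lay_rpow_anti hs0 hs1 (by rw [hbj]; linarith)
  have b2 : D.s ^ (π.b2 a + z) ≤ D.s ^ (π.b2 a + 2 * layGtW π.c2 * z - 2 * t) :=
    lay_rpow_anti hs0 hs1 (by linarith)
  have b3 : |(D.T 1 ρ - Ta) * ((D.lab j ρ').K - sl x)| ≤ 2 * D.s ^ (π.b2 a + 2 * layGtW π.c2 * z - 2 * t) := by
    rw [abs_mul]
    calc |D.T 1 ρ - Ta| * |(D.lab j ρ').K - sl x|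
        ≤ D.s ^ (a - t) * (2 * D.s ^ (π.b2 a - a + 2 * layGtW π.c2 * z - t)) :=
          mul_le_mul hTa hK (abs_nonneg _) (Real.rpow_nonneg hs0.le _)
      _ = 2 * D.s ^ (π.b2 a + 2 * layGtW π.c2 * z - 2 * t) := by
          rw [mul_left_comm, ← Real.rpow_add hs0]
          congr 2
          ring
  refine (abs_add_le _ _).trans ?_
  rw [abs_neg]
  have := abs_add_le ((D.lab j ρ').beAt (D.T 1 ρ) - (D.lab 1 ρ).be) ((D.lab 1 ρ).be - (v x + sl x * D.T 1 ρ))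
  linarith

/-- LEAF GT3. (a) -/
theorem lay_gt_a (H : LaySit π C0 τ κ0 t (1 / 2) D a z sl) (h1 : 1 < π.c2)
    (hj : j = a + layGtGa π.c2 * z) (hjG : j ∈ D.G) (hj1 : j < 1)
    (hZ : D.RowPr a E Z (D.s ^ (-t))) (ρ0 : D.Row a) :
    (({b | ∃ ρ' ρ, D.Conn a j ρ0 ρ' ∧ D.Conn j 1 ρ' ρ ∧ D.layEv2 π a z j Z E v sl ρ ∧
        layGtBin D π a z j Z v sl ρ' ρ = b} : Set (ℝ × ℤ × ℤ)).ncard : ℝ) ≤ D.s ^ (-t) := by
  obtain ⟨-, -, -, z4, -⟩ := lay_gt_aux_z π.c2 z h1 H.hz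
  have haj : a < j := by
    have := H.hz
    rw [hj]
    linarith
  obtain ⟨A, -, -, -⟩ := lay_gt_ta H.ok.core H.ha hjG haj hj1
  obtain ⟨S, hS, hmem⟩ := hZ ρ0
  obtain ⟨F, hF⟩ : ∃ F : ζ → ℝ × ℤ × ℤ, F = fun x =>
      (D.T a ρ0, ⌊(v x + sl x * D.T a ρ0) / layGtG D π a z⌋, ⌊sl x / layGtH D π a z⌋) := ⟨_, rfl⟩
  have hsub : ({b | ∃ ρ' ρ, D.Conn a j ρ0 ρ' ∧ D.Conn j 1 ρ' ρ ∧ D.layEv2 π a z j Z E v sl ρ ∧
      layGtBin D π a z j Z v sl ρ' ρ = b} : Set (ℝ × ℤ × ℤ)) ⊆ ((S.image F : Finset (ℝ × ℤ × ℤ)) : Set (ℝ × ℤ × ℤ)) := by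
    rintro b ⟨ρ', ρ, h0, hc, hE, rfl⟩
    have h01 := H.ok.core.trans a H.ha j hjG 1 H.ok.core.gate.1 haj hj1 ρ0 ρ' ρ h0 hc
    have hin := hmem ρ h01 hE.1.1
    rw [Finset.coe_image]
    refine ⟨Z ρ, hin, ?_⟩
    rw [hF]
    unfold layGtBin
    rw [A ρ0 ρ' h0]
  have h2 := Set.ncard_le_ncard hsub (Finset.finite_toSet _)
  rw [Set.ncard_coe_finset] at h2
  have h3 : ((S.image F).card : ℝ) ≤ (S.card : ℝ) := by exact_mod_cast Finset.card_image_le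
  exact ((Nat.cast_le.2 h2).trans h3).trans hS

/-- LEAF GT4. (b) -/
theorem lay_gt_b (H : LaySit π C0 τ κ0 t (1 / 2) D a z sl) (hq : π.q = π.c2) (h1 : 1 < π.c2)
    (hj : j = a + layGtGa π.c2 * z) (hjG : j ∈ D.G) (hj1 : j < 1) (ht : 2 * t ≤ layGtW π.c2 * z) (lam : SfTest) :
    (({b | ∃ ρ' ρ, D.lab j ρ' = lam ∧ D.Conn j 1 ρ' ρ ∧ D.layEv2 π a z j Z E v sl ρ ∧
        layGtBin D π a z j Z v sl ρ' ρ = b} : Set (ℝ × ℤ × ℤ)).ncard : ℝ) ≤ D.s ^ (-(3 * t)) := by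
  have hs0 := H.ok.core.hs.1
  have hs1 := H.ok.core.hs.2
  have htp := H.tpos
  obtain ⟨-, -, -, z4, -⟩ := lay_gt_aux_z π.c2 z h1 H.hz
  have haj : a < j := by
    have := H.hz
    rw [hj]
    linarith
  obtain ⟨-, -, A3, A4⟩ := lay_gt_ta H.ok.core H.ha hjG haj hj1
  obtain ⟨T0, hT0⟩ := A4 lam.T
  obtain ⟨g, hg⟩ : ∃ g, g = layGtG D π a z := ⟨_, rfl⟩
  obtain ⟨g', hg'⟩ : ∃ g', g' = layGtH D π a z := ⟨_, rfl⟩
  have hg0 : 0 < g := by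
    rw [hg]
    exact Real.rpow_pos_of_pos hs0 _
  have hg'0 : 0 < g' := by
    rw [hg']
    exact Real.rpow_pos_of_pos hs0 _
  obtain ⟨Av, hAv⟩ : ∃ Av : ℝ → Set ℤ, Av = fun Ta => (fun y : ℝ => ⌊y / g⌋) '' {y | |y - lam.beAt Ta| ≤ 4 * g} := ⟨_, rfl⟩
  obtain ⟨Bs, hBs⟩ : ∃ Bs : Set ℤ, Bs = (fun y : ℝ => ⌊y / g'⌋) '' {y | |y - lam.K| ≤ 2 * g'} := ⟨_, rfl⟩
  have cA : ∀ Ta, (Av Ta).Finite ∧ ((Av Ta).ncard : ℝ) ≤ 10 := by
    intro Ta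
    have := lay_floor_count {y | |y - lam.beAt Ta| ≤ 4 * g} (lam.beAt Ta) (4 * g) g hg0 (by positivity) (fun y hy => hy)
    rw [hAv]
    refine ⟨this.1, this.2.trans (le_of_eq ?_)⟩
    field_simp
    norm_num
  have cB : Bs.Finite ∧ (Bs.ncard : ℝ) ≤ 6 := by
    have := lay_floor_count {y | |y - lam.K| ≤ 2 * g'} lam.K (2 * g') g' hg'0 (by positivity) (fun y hy => hy)
    rw [hBs]
    refine ⟨this.1, this.2.trans (le_of_eq ?_)⟩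
    field_simp
    norm_num
  have cP : ∀ Ta : ℝ, (({Ta} : Set ℝ) ×ˢ (Av Ta ×ˢ Bs)).Finite ∧ ((({Ta} : Set ℝ) ×ˢ (Av Ta ×ˢ Bs)).ncard : ℝ) ≤ 60 := by
    intro Ta
    refine ⟨(Set.finite_singleton Ta).prod ((cA Ta).1.prod cB.1), ?_⟩
    rw [Set.ncard_prod, Set.ncard_prod, Set.ncard_singleton]
    push_cast
    have h2 := mul_le_mul (cA Ta).2 cB.2 (Nat.cast_nonneg _) (by norm_num)
    linarith
  have hsub : ({b | ∃ ρ' ρ, D.lab j ρ' = lam ∧ D.Conn j 1 ρ' ρ ∧ D.layEv2 π a z j Z E v sl ρ ∧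
      layGtBin D π a z j Z v sl ρ' ρ = b} : Set (ℝ × ℤ × ℤ))
      ⊆ (({T0} : Set ℝ) ×ˢ (Av T0 ×ˢ Bs)) ∪ (({lam.T} : Set ℝ) ×ˢ (Av lam.T ×ˢ Bs)) := by
    rintro b ⟨ρ', ρ, hl, hc, hE, rfl⟩
    obtain ⟨r1, r2⟩ := lay_gt_row H hq h1 hj hjG hj1 ρ' ρ hc hE
    have r3 := r2 (D.layTa a j ρ') (A3 ρ' ρ hc)
    rw [hl] at r1 r3
    have m1 : D.s ^ (π.b2 a + 2 * layGtW π.c2 * z - 2 * t) ≤ g := by
      rw [hg]
      exact lay_rpow_anti hs0 hs1 (by linarith)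
    have m2 : D.s ^ (π.b2 a - a + 2 * layGtW π.c2 * z - t) ≤ g' := by
      rw [hg']
      exact lay_rpow_anti hs0 hs1 (by linarith)
    have hB : ⌊sl (Z ρ) / layGtH D π a z⌋ ∈ Bs := by
      rw [hBs, ← hg']
      refine ⟨sl (Z ρ), ?_, rfl⟩
      show |sl (Z ρ) - lam.K| ≤ 2 * g'
      rw [abs_sub_comm]
      linarith
    have hA : ⌊(v (Z ρ) + sl (Z ρ) * D.layTa a j ρ') / layGtG D π a z⌋ ∈ Av (D.layTa a j ρ') := by
      rw [hAv, ← hg]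
      refine ⟨v (Z ρ) + sl (Z ρ) * D.layTa a j ρ', ?_, rfl⟩
      show |v (Z ρ) + sl (Z ρ) * D.layTa a j ρ' - lam.beAt (D.layTa a j ρ')| ≤ 4 * g
      rw [abs_sub_comm]
      linarith
    have hTj : D.T j ρ' = lam.T := by
      unfold SfDoc.T
      rw [hl]
    unfold layGtBin
    rcases hT0 ρ' hTj with h | h
    · left
      rw [h] at hA ⊢
      exact ⟨rfl, hA, hB⟩
    · right
      rw [h] at hA ⊢
      exact ⟨rfl, hA, hB⟩
  have h2 := Set.ncard_le_ncard hsub ((cP T0).1.union (cP lam.T).1)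
  have h3 := Set.ncard_union_le (({T0} : Set ℝ) ×ˢ (Av T0 ×ˢ Bs)) (({lam.T} : Set ℝ) ×ˢ (Av lam.T ×ˢ Bs))
  have h4 : (({b | ∃ ρ' ρ, D.lab j ρ' = lam ∧ D.Conn j 1 ρ' ρ ∧ D.layEv2 π a z j Z E v sl ρ ∧
      layGtBin D π a z j Z v sl ρ' ρ = b} : Set (ℝ × ℤ × ℤ)).ncard : ℝ) ≤ 120 := by
    have h5 : (({b | ∃ ρ' ρ, D.lab j ρ' = lam ∧ D.Conn j 1 ρ' ρ ∧ D.layEv2 π a z j Z E v sl ρ ∧
        layGtBin D π a z j Z v sl ρ' ρ = b} : Set (ℝ × ℤ × ℤ)).ncard : ℝ)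
        ≤ ((({T0} : Set ℝ) ×ˢ (Av T0 ×ˢ Bs)).ncard : ℝ) + ((({lam.T} : Set ℝ) ×ˢ (Av lam.T ×ˢ Bs)).ncard : ℝ) := by
      exact_mod_cast h2.trans h3
    have := (cP T0).2
    have := (cP lam.T).2
    linarith
  refine h4.trans ?_
  have e : D.s ^ (-(3 * t)) = D.s ^ (-t) * D.s ^ (-t) * D.s ^ (-t) := by
    rw [← Real.rpow_add hs0, ← Real.rpow_add hs0]
    congr 1
    ring
  rw [e]
  have h10 := H.h10
  have : (10 : ℝ) * 10 * 10 ≤ D.s ^ (-t) * D.s ^ (-t) * D.s ^ (-t) :=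
    mul_le_mul (mul_le_mul h10 h10 (by norm_num) (by linarith)) h10 (by norm_num) (by positivity)
  linarith

/-- LEAF GT5. (c) -/
theorem lay_gt_c (H : LaySit π C0 τ κ0 t (1 / 2) D a z sl) (hq : π.q = π.c2) (h1 : 1 < π.c2)
    (hτ : τ = layGtW π.c2 / (2 * layGtGa π.c2)) (hj : j = a + layGtGa π.c2 * z) (hjG : j ∈ D.G) (hj1 : j < 1)
    (ht : 14 * t ≤ layGtW π.c2 * z)
    (ρ' : D.Row j) (ρ : D.Row 1) (hc : D.Conn j 1 ρ' ρ) (hE : D.layEv2 π a z j Z E v sl ρ) :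
    sfR2 (D.lab j ρ') (layGtSg D π a z (layGtBin D π a z j Z v sl ρ' ρ)) (D.len j)
      ≤ D.s ^ (-((π.c2 - τ) * (j - a))) := by
  have hs0 := H.ok.core.hs.1
  have hs1 := H.ok.core.hs.2
  have htp := H.tpos
  have hz := H.hz
  obtain ⟨g1, g2, g3, -, -, g6⟩ := lay_gt_num π.c2 h1
  obtain ⟨z1, z2, z3, z4, z5⟩ := lay_gt_aux_z π.c2 z h1 H.hz
  have haj : a < j := by
    rw [hj]
    linarith
  have hbj := lay_gt_aux_bj hq h1 hj
  obtain ⟨-, A2, A3, -⟩ := lay_gt_ta H.ok.core H.ha hjG haj hj1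
  obtain ⟨r1, r2⟩ := lay_gt_row H hq h1 hj hjG hj1 ρ' ρ hc hE
  have r3 := r2 (D.layTa a j ρ') (A3 ρ' ρ hc)
  have r4 := A2 ρ'
  obtain ⟨Ta, hTa⟩ : ∃ Ta, Ta = D.layTa a j ρ' := ⟨_, rfl⟩
  obtain ⟨x, hx⟩ : ∃ x, x = Z ρ := ⟨_, rfl⟩
  obtain ⟨g, hg⟩ : ∃ g, g = layGtG D π a z := ⟨_, rfl⟩
  obtain ⟨g', hg'⟩ : ∃ g', g' = layGtH D π a z := ⟨_, rfl⟩
  have hg0 : 0 < g := by
    rw [hg]
    exact Real.rpow_pos_of_pos hs0 _
  have hg'0 : 0 < g' := by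
    rw [hg']
    exact Real.rpow_pos_of_pos hs0 _
  obtain ⟨m, hm⟩ : ∃ m : ℝ, m = (⌊(v x + sl x * Ta) / g⌋ : ℝ) * g := ⟨_, rfl⟩
  obtain ⟨m', hm'⟩ : ∃ m' : ℝ, m' = (⌊sl x / g'⌋ : ℝ) * g' := ⟨_, rfl⟩
  have rm : |m - (v x + sl x * Ta)| ≤ g := by
    rw [hm]
    exact lay_round _ g hg0
  have rm' : |m' - sl x| ≤ g' := by
    rw [hm']
    exact lay_round _ g' hg'0
  have hR : sfR2 (D.lab j ρ') (layGtSg D π a z (layGtBin D π a z j Z v sl ρ' ρ)) (D.len j)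
      = (D.lab j ρ').r ^ 2 / (D.lab j ρ').f
        * (|(D.lab j ρ').be - (m + ((D.lab j ρ').T - Ta) * m')| + D.len j * |(D.lab j ρ').K - m'|) := by
    unfold layGtSg layGtBin
    rw [lay_shear_R2, hm, hm', hTa, hx, hg, hg']
  rw [hR]
  rw [← hTa, ← hx] at r3
  rw [← hx] at r1
  rw [← hTa] at r4
  obtain ⟨o1, o2, -, -, -⟩ := H.ok.core.own j hjG ρ'
  rw [o1, o2]
  obtain ⟨p0, p1⟩ := lay_pref2 D π C0 τ κ0 t j H.ok hjG
  obtain ⟨W, hW⟩ : ∃ W, W = D.s ^ (π.b2 a + layGtW π.c2 * z - 2 * t) := ⟨_, rfl⟩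
  have hW0 : 0 < W := by
    rw [hW]
    exact Real.rpow_pos_of_pos hs0 _
  obtain ⟨U, hU⟩ : ∃ U, U = D.s ^ (π.b2 a - a + layGtW π.c2 * z - t) := ⟨_, rfl⟩
  have hU0 : 0 < U := by
    rw [hU]
    exact Real.rpow_pos_of_pos hs0 _
  -- the slope
  have k1 : |(D.lab j ρ').K - m'| ≤ 3 * U := by
    have e1 : (D.lab j ρ').K - m' = ((D.lab j ρ').K - sl x) + -(m' - sl x) := by ring
    rw [e1]
    refine (abs_add_le _ _).trans ?_
    rw [abs_neg]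
    have a1 : D.s ^ (π.b2 a - a + 2 * layGtW π.c2 * z - t) ≤ U := by
      rw [hU]
      exact lay_rpow_anti hs0 hs1 (by linarith)
    have a2 : g' ≤ U := by
      rw [hU, hg']
      exact lay_rpow_anti hs0 hs1 (by linarith)
    linarith
  have k2 : D.len j * |(D.lab j ρ').K - m'| ≤ 3 * W := by
    have hl := (H.ok.core.hlen.2 j hjG).2
    have hl0 : 0 ≤ D.len j := le_trans (Real.rpow_nonneg hs0.le _) (H.ok.core.hlen.2 j hjG).1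
    calc D.len j * |(D.lab j ρ').K - m'| ≤ D.s ^ (j - t) * (3 * U) :=
          mul_le_mul hl k1 (abs_nonneg _) (Real.rpow_nonneg hs0.le _)
      _ = 3 * D.s ^ (j - t + (π.b2 a - a + layGtW π.c2 * z - t)) := by
          rw [hU, mul_left_comm, ← Real.rpow_add hs0]
      _ ≤ 3 * W := by
          rw [hW]
          exact mul_le_mul_of_nonneg_left (lay_rpow_anti hs0 hs1 (by rw [hj]; linarith)) (by norm_num)
  have k3 : |(D.lab j ρ').be - (m + ((D.lab j ρ').T - Ta) * m')| ≤ 8 * W := by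
    have e1 : (D.lab j ρ').be - (m + ((D.lab j ρ').T - Ta) * m')
        = ((D.lab j ρ').beAt Ta - (v x + sl x * Ta)) + -(m - (v x + sl x * Ta))
          + ((D.lab j ρ').T - Ta) * ((D.lab j ρ').K - m') := by
      unfold SfTest.beAt
      ring
    rw [e1]
    have a1 : D.s ^ (π.b2 a + 2 * layGtW π.c2 * z - 2 * t) ≤ W := by
      rw [hW]
      exact lay_rpow_anti hs0 hs1 (by linarith)
    have a2 : g ≤ W := by
      rw [hW, hg]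
      exact lay_rpow_anti hs0 hs1 (by linarith)
    have a3 : |((D.lab j ρ').T - Ta) * ((D.lab j ρ').K - m')| ≤ 3 * W := by
      rw [abs_mul]
      calc |(D.lab j ρ').T - Ta| * |(D.lab j ρ').K - m'| ≤ D.s ^ (a - t) * (3 * U) :=
            mul_le_mul r4 k1 (abs_nonneg _) (Real.rpow_nonneg hs0.le _)
        _ = 3 * W := by
            rw [hU, hW, mul_left_comm, ← Real.rpow_add hs0]
            congr 2
            ring
    have t1 := abs_add_le (((D.lab j ρ').beAt Ta - (v x + sl x * Ta)) + -(m - (v x + sl x * Ta)))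
      (((D.lab j ρ').T - Ta) * ((D.lab j ρ').K - m'))
    have t2 := abs_add_le ((D.lab j ρ').beAt Ta - (v x + sl x * Ta)) (-(m - (v x + sl x * Ta)))
    rw [abs_neg] at t2
    linarith
  have hτγ : τ * (layGtGa π.c2 * z) = layGtW π.c2 * z / 2 := by
    rw [hτ]
    have : layGtGa π.c2 ≠ 0 := by linarith
    field_simp
  calc D.r j ^ 2 / D.f j * (|(D.lab j ρ').be - (m + ((D.lab j ρ').T - Ta) * m')| + D.len j * |(D.lab j ρ').K - m'|)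
      ≤ D.s ^ (-π.b2 j - 3 * t) * (11 * W) :=
        mul_le_mul p1 (by linarith) (add_nonneg (abs_nonneg _) (by
          have hl0 : 0 ≤ D.len j := le_trans (Real.rpow_nonneg hs0.le _) (H.ok.core.hlen.2 j hjG).1
          exact mul_nonneg hl0 (abs_nonneg _))) (Real.rpow_nonneg hs0.le _)
    _ = 11 * D.s ^ (-π.b2 j - 3 * t + (π.b2 a + layGtW π.c2 * z - 2 * t)) := by
        rw [hW, mul_left_comm, ← Real.rpow_add hs0]
    _ ≤ D.s ^ (-π.b2 j - 3 * t + (π.b2 a + layGtW π.c2 * z - 2 * t) - t - t) := by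
        have q1 := lay_rpow_abs hs0 H.h10 (-π.b2 j - 3 * t + (π.b2 a + layGtW π.c2 * z - 2 * t))
        have q2 := lay_rpow_abs hs0 H.h10 (-π.b2 j - 3 * t + (π.b2 a + layGtW π.c2 * z - 2 * t) - t)
        have q0 : 0 < D.s ^ (-π.b2 j - 3 * t + (π.b2 a + layGtW π.c2 * z - 2 * t)) := Real.rpow_pos_of_pos hs0 _
        have q3 : 0 < D.s ^ (-π.b2 j - 3 * t + (π.b2 a + layGtW π.c2 * z - 2 * t) - t) := Real.rpow_pos_of_pos hs0 _
        linarith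
    _ ≤ D.s ^ (-((π.c2 - τ) * (j - a))) := by
        refine lay_rpow_anti hs0 hs1 ?_
        have e1 : (π.c2 - τ) * (j - a) = (π.c2 + 1) / 2 * z - layGtW π.c2 * z / 2 := by
          rw [hj, ← hτγ]
          linear_combination z * g3
        rw [e1, hbj]
        linarith

/-- LEAF GT3. (sz) -/
theorem lay_gt_sz (H : LaySit π C0 τ κ0 t (1 / 2) D a z sl) (hq : π.q = π.c2) (h1 : 1 < π.c2)
    (hj : j = a + layGtGa π.c2 * z) (hjG : j ∈ D.G) (hj1 : j < 1) (hz2 : z ≤ 2) (ht : t ≤ 1 / (|C0| + π.c2 + 9))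
    (ρ' : D.Row j) (ρ : D.Row 1) (hc : D.Conn j 1 ρ' ρ) (hE : D.layEv2 π a z j Z E v sl ρ) :
    (layGtSg D π a z (layGtBin D π a z j Z v sl ρ' ρ)).size ≤ D.s ^ (-(1 / t)) := by
  have hs0 := H.ok.core.hs.1
  have hs1 := H.ok.core.hs.2
  have htp := H.tpos
  have hz := H.hz
  obtain ⟨z1, z2, z3, z4, z5⟩ := lay_gt_aux_z π.c2 z h1 H.hz
  have haj : a < j := by
    rw [hj]
    linarith
  obtain ⟨ha0, ha1⟩ := H.ok.core.gate.2 a H.ha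
  obtain ⟨-, A2, A3, -⟩ := lay_gt_ta H.ok.core H.ha hjG haj hj1
  obtain ⟨r1, r2⟩ := lay_gt_row H hq h1 hj hjG hj1 ρ' ρ hc hE
  have r3 := r2 (D.layTa a j ρ') (A3 ρ' ρ hc)
  have r4 := A2 ρ'
  obtain ⟨Ta, hTa⟩ : ∃ Ta, Ta = D.layTa a j ρ' := ⟨_, rfl⟩
  obtain ⟨x, hx⟩ : ∃ x, x = Z ρ := ⟨_, rfl⟩
  obtain ⟨g, hg⟩ : ∃ g, g = layGtG D π a z := ⟨_, rfl⟩
  obtain ⟨g', hg'⟩ : ∃ g', g' = layGtH D π a z := ⟨_, rfl⟩
  have hg0 : 0 < g := by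
    rw [hg]
    exact Real.rpow_pos_of_pos hs0 _
  have hg'0 : 0 < g' := by
    rw [hg']
    exact Real.rpow_pos_of_pos hs0 _
  rw [← hTa, ← hx] at r3
  rw [← hTa] at r4
  have hba : -π.c2 ≤ π.b2 a := by
    unfold SfPar.b2
    rw [hq]
    nlinarith
  have hC : 0 ≤ |C0| := abs_nonneg _
  -- `1/t`
  have hinv : |C0| + π.c2 + 9 ≤ 1 / t := by
    rw [le_div_iff₀ htp]
    have h5 : 0 < |C0| + π.c2 + 9 := by linarith
    rw [le_div_iff₀ h5] at ht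
    linarith
  have ht1 : t ≤ 1 := by
    have h5 : (1 : ℝ) ≤ |C0| + π.c2 + 9 := by linarith
    exact ht.trans (by rw [div_le_one (by linarith)]; exact h5)
  obtain ⟨M, hM⟩ : ∃ M, M = D.s ^ (-|C0| - π.c2 - 5 - 2 * t) := ⟨_, rfl⟩
  have hM0 : 0 < M := by
    rw [hM]
    exact Real.rpow_pos_of_pos hs0 _
  have hfin : 10 * M ≤ D.s ^ (-(1 / t)) := by
    rw [hM]
    exact (lay_rpow_abs hs0 H.h10 _).trans (lay_rpow_anti hs0 hs1 (by linarith))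
  have up : ∀ y : ℝ, -|C0| - π.c2 - 5 - 2 * t ≤ y → D.s ^ y ≤ M := by
    intro y hy
    rw [hM]
    exact lay_rpow_anti hs0 hs1 hy
  have hsz := (H.ok.core.bdd j hjG ρ').2
  have hbe : |(D.lab j ρ').be| ≤ D.s ^ (-C0) := by
    refine le_trans ?_ hsz
    unfold SfTest.size
    simp only [le_max_iff, le_refl, true_or, or_true]
  have hKK : |(D.lab j ρ').K| ≤ D.s ^ (-C0) := by
    refine le_trans ?_ hsz
    unfold SfTest.size
    simp only [le_max_iff, le_refl, true_or, or_true]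
  have hC0 : D.s ^ (-C0) ≤ D.s ^ (-|C0|) := lay_rpow_anti hs0 hs1 (by linarith [le_abs_self C0])
  -- the slope
  have s1 : |(⌊sl x / g'⌋ : ℝ) * g'| ≤ 2 * M := by
    have q1 := lay_round (sl x) g' hg'0
    have q2 := H.hslG h1 x
    have q3 : D.s ^ (-(π.c2 + 5)) ≤ M := up _ (by linarith)
    have q4 : g' ≤ M := by
      rw [hg']
      exact up _ (by linarith)
    have e1 : (⌊sl x / g'⌋ : ℝ) * g' = ((⌊sl x / g'⌋ : ℝ) * g' - sl x) + sl x := by ring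
    rw [e1]
    exact (abs_add_le _ _).trans (by linarith)
  -- the value
  have s2 : |(⌊(v x + sl x * Ta) / g⌋ : ℝ) * g| ≤ 7 * M := by
    have q1 := lay_round (v x + sl x * Ta) g hg0
    have q4 : g ≤ M := by
      rw [hg]
      exact up _ (by linarith)
    have q5 : D.s ^ (π.b2 a + 2 * layGtW π.c2 * z - 2 * t) ≤ M := up _ (by linarith)
    have q6 : |(D.lab j ρ').beAt Ta| ≤ 2 * M := by
      unfold SfTest.beAt
      refine (abs_add_le _ _).trans ?_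
      rw [abs_mul, abs_sub_comm]
      have q7 : |(D.lab j ρ').T - Ta| * |(D.lab j ρ').K| ≤ D.s ^ (a - t) * D.s ^ (-|C0|) :=
        mul_le_mul r4 (hKK.trans hC0) (abs_nonneg _) (Real.rpow_nonneg hs0.le _)
      rw [← Real.rpow_add hs0] at q7
      have q8 : D.s ^ (a - t + -|C0|) ≤ M := up _ (by linarith)
      have q9 : D.s ^ (-|C0|) ≤ M := up _ (by linarith)
      linarith
    have e1 : (⌊(v x + sl x * Ta) / g⌋ : ℝ) * g
        = ((⌊(v x + sl x * Ta) / g⌋ : ℝ) * g - (v x + sl x * Ta)) + -((D.lab j ρ').beAt Ta - (v x + sl x * Ta))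
          + (D.lab j ρ').beAt Ta := by ring
    rw [e1]
    have t1 := abs_add_le (((⌊(v x + sl x * Ta) / g⌋ : ℝ) * g - (v x + sl x * Ta)) + -((D.lab j ρ').beAt Ta - (v x + sl x * Ta)))
      ((D.lab j ρ').beAt Ta)
    have t2 := abs_add_le ((⌊(v x + sl x * Ta) / g⌋ : ℝ) * g - (v x + sl x * Ta)) (-((D.lab j ρ').beAt Ta - (v x + sl x * Ta)))
    rw [abs_neg] at t2
    linarith
  unfold layGtSg layGtBin
  rw [← hTa, ← hx, ← hg, ← hg']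
  refine lay_shear_size _ _ _ _ _ (by linarith) (by linarith) ?_
  rw [abs_zero]
  exact Real.rpow_nonneg hs0.le _

/-- PART 1 (assembly: `lay_conf`, `lay_gt_int`, `lay_close`) -/
theorem lay_gt_p1 (H : LaySit π C0 τ κ0 t (1 / 2) D a z sl) (hq : π.q = π.c2) (h1 : 1 < π.c2)
    (hjG : a + layGtGa π.c2 * z ∈ D.G) (hj1 : a + layGtGa π.c2 * z < 1)
    (hkG : a + layGtTp π.c2 * z ∈ D.G) (hk1 : a + layGtTp π.c2 * z < 1) (hz2 : z ≤ 2)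
    (hZ : D.RowPr (a + layGtGa π.c2 * z) E Z (D.s ^ (-t)))
    (e1 : 2 * t ≤ (π.c2 - 1) / 2 * z) (e5 : 36 * t ≤ π.d * (2 * layGtW π.c2 * z)) (e8 : t ≤ 1 / 6) :
    (D.P 1).pr (D.layEv1 π a z (a + layGtGa π.c2 * z) Z E v sl) ≤ D.s ^ (π.d * (2 * layGtW π.c2 * z) / 2) := by
  obtain ⟨hγ0, hγ1, hcγ, hτp, hτ1, hω⟩ := lay_gt_num π.c2 h1
  have hs01 := H.ok.core.hs
  have hd := H.val.d1
  have hz' := H.hz
  have ht := H.tpos
  have hωz : 0 < layGtW π.c2 * z := mul_pos hω hz'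
  have hkj : (a + layGtTp π.c2 * z) - (a + layGtGa π.c2 * z) = 2 * layGtW π.c2 * z := by rw [hτp]; ring
  have key := lay_conf D π C0 t (a + layGtGa π.c2 * z) (a + layGtTp π.c2 * z) H.ok.core ht H.h10 hjG hkG (by linarith) hk1
    (D.layEv1 π a z (a + layGtGa π.c2 * z) Z E v sl) ζ Z E hZ
    (layGtI D (a + layGtGa π.c2 * z) (a + layGtTp π.c2 * z) v sl)
    (fun ρ0 ρ hc hE => lay_gt_int H hq h1 rfl hjG hj1 rfl e1 ρ0 ρ hc hE)
  rw [hkj] at key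
  have hx1 : π.d * (2 * layGtW π.c2 * z) ≤ 1 / t := by
    have h6 : (6 : ℝ) ≤ 1 / t := by
      rw [le_div_iff₀ ht]
      have := mul_le_mul_of_nonneg_left e8 (by norm_num : (0 : ℝ) ≤ 6)
      linarith
    have hw0 : 2 * layGtW π.c2 ≤ 1 := by linarith
    have hw1 : 2 * layGtW π.c2 * z ≤ 1 * 2 := mul_le_mul hw0 hz2 hz'.le (by norm_num)
    have : π.d * (2 * layGtW π.c2 * z) ≤ 1 * (1 * 2) := mul_le_mul hd.2 hw1 (by linarith) (by norm_num)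
    linarith
  exact key.trans (lay_close hs01.1 hs01.2 ht H.h10 e5 hx1)

/-- PART 2 (assembly: `lay_extract`, `lay_gt_a/b/c/sz`, `lay_close`) -/
theorem lay_gt_p2 (H : LaySit π C0 τ κ0 t (1 / 2) D a z sl) (hq : π.q = π.c2) (h1 : 1 < π.c2)
    (hτ : τ = layGtW π.c2 / (2 * layGtGa π.c2)) (hκ : 0 < κ0)
    (hjG : a + layGtGa π.c2 * z ∈ D.G) (hj1 : a + layGtGa π.c2 * z < 1) (hz2 : z ≤ 2)
    (hZ : D.RowPr a E Z (D.s ^ (-t)))
    (e2 : 14 * t ≤ layGtW π.c2 * z) (e3 : t ≤ 1 / (|C0| + π.c2 + 9)) (e4 : 36 * t ≤ κ0 * (layGtGa π.c2 * z))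
    (e6 : t ≤ 1 / (2 * κ0)) :
    (D.P 1).pr (D.layEv2 π a z (a + layGtGa π.c2 * z) Z E v sl) ≤ D.s ^ (κ0 * (layGtGa π.c2 * z) / 2) := by
  obtain ⟨hγ0, hγ1, hcγ, hτp, hτ1, hω⟩ := lay_gt_num π.c2 h1
  have hs01 := H.ok.core.hs
  have hz' := H.hz
  have ht := H.tpos
  have hc0 : 0 < π.c2 := by linarith
  have hγz : 0 < layGtGa π.c2 * z := mul_pos (by linarith) hz'
  have hja : (a + layGtGa π.c2 * z) - a = layGtGa π.c2 * z := by ring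
  have key := lay_extract D π C0 τ κ0 t a (a + layGtGa π.c2 * z) H.ok hc0 H.ha hjG
    (by linarith) hj1 (by rw [hja]; linarith) (D.layEv2 π a z (a + layGtGa π.c2 * z) Z E v sl) (ℝ × ℤ × ℤ)
    (layGtBin D π a z (a + layGtGa π.c2 * z) Z v sl) (layGtSg D π a z)
    (fun ρ0 => (lay_gt_a H h1 rfl hjG hj1 hZ ρ0).trans (lay_rpow_anti hs01.1 hs01.2 (by rw [hja]; linarith)))
    (fun lam => (lay_gt_b H hq h1 rfl hjG hj1 (by linarith) lam).trans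
      (lay_rpow_anti hs01.1 hs01.2 (by rw [hja]; linarith)))
    (fun ρ' ρ hc hE => lay_gt_sz H hq h1 rfl hjG hj1 hz2 e3 ρ' ρ hc hE)
    (fun ρ' ρ hc hE => lay_gt_c H hq h1 hτ rfl hjG hj1 e2 ρ' ρ hc hE)
  rw [hja] at key
  have hx1 : κ0 * (layGtGa π.c2 * z) ≤ 1 / t := by
    rw [le_div_iff₀ ht]
    have h2 : t * (2 * κ0) ≤ 1 := by rwa [le_div_iff₀ (by positivity)] at e6
    have h3 : layGtGa π.c2 * z ≤ 1 * 2 := mul_le_mul hγ1.le hz2 hz'.le (by norm_num)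
    have h4 : κ0 * (layGtGa π.c2 * z) * t ≤ κ0 * (1 * 2) * t :=
      mul_le_mul_of_nonneg_right (mul_le_mul_of_nonneg_left h3 hκ.le) ht.le
    linarith
  have cl := lay_close (x := κ0 * (layGtGa π.c2 * z)) hs01.1 hs01.2 ht H.h10 e4 hx1
  have hmono : (D.s ^ (κ0 * (layGtGa π.c2 * z))) ^ ((2 : ℝ) / 3)
      ≤ (D.s ^ (κ0 * (layGtGa π.c2 * z) - 5 * t) + D.s ^ (1 / t)) ^ ((2 : ℝ) / 3) := by
    refine Real.rpow_le_rpow (Real.rpow_nonneg hs01.1.le _) ?_ (by norm_num)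
    have := lay_rpow_anti (x := κ0 * (layGtGa π.c2 * z)) (y := κ0 * (layGtGa π.c2 * z) - 5 * t) hs01.1 hs01.2
      (by linarith)
    have h2 := Real.rpow_nonneg hs01.1.le (1 / t)
    linarith
  refine le_trans key (le_trans ?_ cl)
  have := mul_le_mul_of_nonneg_left hmono (Real.rpow_nonneg hs01.1.le (-t))
  linarith

/-- the two parts together -/
theorem lay_gt_sum (hs : 0 < D.s ∧ D.s < 1) (h10 : (10 : ℝ) ≤ D.s ^ (-t)) (x1 x2 m : ℝ) (h1 : m ≤ x1) (h2 : m ≤ x2)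
    (hm : 4 * t ≤ m)
    (p1 : (D.P 1).pr (D.layEv1 π a z j Z E v sl) ≤ D.s ^ (x1 / 2))
    (p2 : (D.P 1).pr (D.layEv2 π a z j Z E v sl) ≤ D.s ^ (x2 / 2)) :
    (D.P 1).pr (D.layEv π a z Z E v sl) ≤ D.s ^ (m / 4) := by
  have hun : (D.P 1).pr (D.layEv π a z Z E v sl) ≤ (D.P 1).pr (D.layEv1 π a z j Z E v sl)
      + (D.P 1).pr (D.layEv2 π a z j Z E v sl) := by
    refine le_trans (ent_pr_mono _ ?_) (ent_pr_or_le _ _ _)
    intro ρ _ hρ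
    rcases lt_or_ge (D.s ^ (π.b2 a + layGtTp π.c2 * z)) (D.s ^ j * |(D.lab 1 ρ).K - sl (Z ρ)|) with h | h
    · exact Or.inl ⟨hρ, h⟩
    · exact Or.inr ⟨hρ, h⟩
  have q1 := lay_rpow_anti (x := x1 / 2) (y := m / 2) hs.1 hs.2 (by linarith)
  have q2 := lay_rpow_anti (x := x2 / 2) (y := m / 2) hs.1 hs.2 (by linarith)
  have q3 := lay_rpow_abs hs.1 h10 (m / 2)
  have q4 := lay_rpow_anti (x := m / 2 - t) (y := m / 4) hs.1 hs.2 (by linarith)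
  have q5 := Real.rpow_nonneg hs.1.le (m / 2)
  linarith

end

/-- **S2, `c > 1`.** -/
theorem lay_sep_gt (π : SfPar) (hπ : π.Valid) (hq : π.q = π.c2) (h1 : 1 < π.c2) (C0 : ℝ) :
    LaySep π C0 false := by
  obtain ⟨hγ0, hγ1, hcγ, hτp, hτ1, hω⟩ := lay_gt_num π.c2 h1
  have hd := hπ.d1
  refine ⟨layGtW π.c2 / (2 * layGtGa π.c2), 1 / 2, {0, layGtGa π.c2, layGtTp π.c2}, by positivity, by norm_num,
    by norm_num, ?_, ?_⟩
  · intro c hc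
    simp only [Finset.mem_insert, Finset.mem_singleton] at hc
    rcases hc with rfl | rfl | rfl <;> linarith
  intro κ0 hκ
  have hm1 : 0 < κ0 * layGtGa π.c2 := mul_pos hκ (by linarith)
  have hm2 : 0 < 2 * π.d * layGtW π.c2 := mul_pos (by linarith) hω
  have hm : 0 < min (κ0 * layGtGa π.c2) (2 * π.d * layGtW π.c2) := lt_min hm1 hm2
  refine ⟨min (κ0 * layGtGa π.c2) (2 * π.d * layGtW π.c2) / 4, by linarith, ?_⟩
  intro z0 hz0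
  have hC : 0 < |C0| + π.c2 + 9 := by positivity
  refine ⟨min (min ((π.c2 - 1) / 4 * z0) (layGtW π.c2 * z0 / 14))
    (min (min (1 / (|C0| + π.c2 + 9)) (κ0 * layGtGa π.c2 * z0 / 36)) (min (2 * π.d * layGtW π.c2 * z0 / 36) (1 / (2 * κ0)))),
    ?_, ?_⟩
  · have : 0 < (π.c2 - 1) / 4 * z0 := mul_pos (by linarith) hz0
    refine lt_min (lt_min this ?_) (lt_min (lt_min ?_ ?_) (lt_min ?_ ?_)) <;> positivity
  intro t ht htt0
  have e1 : t ≤ (π.c2 - 1) / 4 * z0 := htt0.trans ((min_le_left _ _).trans (min_le_left _ _))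
  have e2 : t ≤ layGtW π.c2 * z0 / 14 := htt0.trans ((min_le_left _ _).trans (min_le_right _ _))
  have e3 : t ≤ 1 / (|C0| + π.c2 + 9) := htt0.trans ((min_le_right _ _).trans ((min_le_left _ _).trans (min_le_left _ _)))
  have e4 : t ≤ κ0 * layGtGa π.c2 * z0 / 36 :=
    htt0.trans ((min_le_right _ _).trans ((min_le_left _ _).trans (min_le_right _ _)))
  have e5 : t ≤ 2 * π.d * layGtW π.c2 * z0 / 36 :=
    htt0.trans ((min_le_right _ _).trans ((min_le_right _ _).trans (min_le_left _ _)))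
  have e6 : t ≤ 1 / (2 * κ0) := htt0.trans ((min_le_right _ _).trans ((min_le_right _ _).trans (min_le_right _ _)))
  have e7 : t ≤ 1 / (|C0| + 4) := e3.trans (one_div_le_one_div_of_le (by positivity) (by linarith))
  have e8 : t ≤ 1 / 6 := e3.trans (one_div_le_one_div_of_le (by norm_num) (by linarith [abs_nonneg C0]))
  obtain ⟨s0, hs0, hs⟩ := lay_s0 t ht
  refine ⟨s0, hs0, ?_⟩
  intro D hDs hD a z hz haG hcs ζ Z E hRow _ v sl hsl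
  have hs01 := hD.core.hs
  have h10 := hs D.s hs01.1 hDs
  have hz' : 0 < z := lt_of_lt_of_le hz0 hz
  obtain ⟨hjG, hj1⟩ := hcs (layGtGa π.c2) (by simp)
  obtain ⟨hkG, hk1⟩ := hcs (layGtTp π.c2) (by simp)
  have hRa : D.RowPr a E Z (D.s ^ (-t)) := by
    have := hRow 0 (by simp)
    rwa [zero_mul, add_zero] at this
  have hRj := hRow (layGtGa π.c2) (by simp)
  have ha0 : 0 ≤ a := (hD.core.gate.2 a haG).1
  have hz2 : z ≤ 2 := by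
    have : 1 / 2 * z ≤ layGtTp π.c2 * z := mul_le_mul_of_nonneg_right (by linarith) hz'.le
    linarith
  have H : LaySit π C0 (layGtW π.c2 / (2 * layGtGa π.c2)) κ0 t (1 / 2) D a z sl := ⟨hπ, hD, ht, e7, h10, haG, hz', hsl⟩
  have f1 : (π.c2 - 1) / 4 * z0 ≤ (π.c2 - 1) / 4 * z := mul_le_mul_of_nonneg_left hz (by linarith)
  have f2 : layGtW π.c2 * z0 ≤ layGtW π.c2 * z := mul_le_mul_of_nonneg_left hz hω.le
  have f4 : κ0 * layGtGa π.c2 * z0 ≤ κ0 * layGtGa π.c2 * z := mul_le_mul_of_nonneg_left hz hm1.le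
  have f5 : 2 * π.d * layGtW π.c2 * z0 ≤ 2 * π.d * layGtW π.c2 * z := mul_le_mul_of_nonneg_left hz hm2.le
  have p1 := lay_gt_p1 (Z := Z) (E := E) (v := v) H hq h1 hjG hj1 hkG hk1 hz2 hRj (by linarith) (by linarith) e8
  have p2 := lay_gt_p2 (Z := Z) (E := E) (v := v) H hq h1 rfl hκ hjG hj1 hz2 hRa (by linarith) e3 (by linarith) e6
  have g1 : min (κ0 * layGtGa π.c2) (2 * π.d * layGtW π.c2) * z ≤ κ0 * layGtGa π.c2 * z :=
    mul_le_mul_of_nonneg_right (min_le_left _ _) hz'.le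
  have g2 : min (κ0 * layGtGa π.c2) (2 * π.d * layGtW π.c2) * z ≤ 2 * π.d * layGtW π.c2 * z :=
    mul_le_mul_of_nonneg_right (min_le_right _ _) hz'.le
  have g3 : 36 * t ≤ min (κ0 * layGtGa π.c2) (2 * π.d * layGtW π.c2) * z := by
    rcases min_choice (κ0 * layGtGa π.c2) (2 * π.d * layGtW π.c2) with h | h <;> rw [h] <;> linarith
  have hfin := lay_gt_sum hs01 h10 _ _ (min (κ0 * layGtGa π.c2) (2 * π.d * layGtW π.c2) * z) (by linarith) (by linarith)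
    (by linarith) p1 p2
  have he : min (κ0 * layGtGa π.c2) (2 * π.d * layGtW π.c2) * z / 4
      = min (κ0 * layGtGa π.c2) (2 * π.d * layGtW π.c2) / 4 * z := by ring
  rw [he] at hfin
  exact hfin

end Claimed.Agent.R256
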