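import Claimed.Agent.R256.Lay.SepKit

/-!
# Row 256, unit LAY (04B): separation, case `0 < c < 1`      (04 l.813-826, 866-871; architect helper189)

`c = π.c2 = π.q`, `b = π.b2`, `b x = c (x - 1)`, `s = D.s`.   Gates `i = a + z/2`, `j = a + 3z/4`.   `ω = layLtW c = min ((1-c)/4) (c/8)`, `χ = (1-c)/8`, `τ = 2 ω`, `e1 = κ0/8`, mesh `g = s^(b a + (c/2 + ω) z)`.
Bin of the `j`-row `ρ'` witnessed by the completion `ρ`:  `⌊(v (Z ρ) + sl (Z ρ) T_j ρ') / g⌋`;  subtracted shear `layShear 0 (b g) 0 0`.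
 ROW  `|be_j - (v + sl T_j)| ≤ 4 s^(b a + 3cz/4 - t)`:  four terms  `|T_1 - T_j| |K_j| ≤ len_j |K_j| ≤ s^(b j - t)` (`lay_near`, `eqK`);  `|beAt_j T_1 - be_1| ≤ s^(b j - t)` (`cmpA (j,1)`, `min (b j) (b 1) = b j`);
      `s^(b a + z)` (event);  `|sl| len_j ≤ s^(b a + (3/4 - χ) z - t)`;   `b j = b a + 3cz/4`.
 (a)  per side value `x` of the list of `RowPr i`: the numbers `v x + sl x T_j`, `T_j - T_i ∈ [0, len_i)`, lie within `|sl x| len_i ≤ s^(b a + (1/2 - χ) z - t) ≤ g` of `v x + sl x T_i`: `≤ 4` cells (`lay_floor_count`);  total `4 s^-t ≤ s^(-2t)`.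
 (b)  ROW: all numbers lie within `4 s^(b a + 3cz/4 - t) ≤ 4 g` of `lam.be`: `≤ 10 ≤ s^-t` cells.
 (c)  `r²/f ≤ s^(-b j - 3t)` (`lay_pref2`);  `|be_j - b g| ≤ 4 s^(..) + g ≤ 5 s^(b a + (c/2+ω) z - t)`;  `len_j |K_j| ≤ s^(b j - t)`;  product `≤ 6 s^((ω - c/4) z - 4t) ≤ s^(-(c - τ) z/4)` if `5 t ≤ ω z / 2`.
 (sz) `|b g| ≤ |be_j| + 4 s^(..) + g ≤ s^(-C0) + 5 s^(-2) ≤ s^(-1/t)`  (`bdd`, `b a ≥ -1`).
LEAVES: L-256-LAY-LT1 (`lay_lt_row`, `lay_lt_a`), LT2 (`lay_lt_b`, `lay_lt_c`, `lay_lt_sz`).   `lay_sep_lt` is PROVED from them.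
-/

set_option autoImplicit false

namespace Claimed.Agent.R256

open Claimed.Agent.R255
open Classical

/-- `ω` of the case `0 < c < 1` -/
noncomputable def layLtW (c : ℝ) : ℝ := min ((1 - c) / 4) (c / 8)

/-- the mesh -/
noncomputable def layLtG (D : SfDoc) (π : SfPar) (a z : ℝ) : ℝ := D.s ^ (π.b2 a + (π.c2 / 2 + layLtW π.c2) * z)

theorem lay_seplt_eqns_cite : True := by
  have := @layLtW.eq_1
  have := @layLtG.eq_1
  trivial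

section

variable {π : SfPar} {C0 τ κ0 t : ℝ} {D : SfDoc} {a z i j : ℝ} {ζ : Type} {Z : D.Row 1 → ζ} {E : D.Row 1 → Prop}
  {v sl : ζ → ℝ}

/-- LEAF LT1. ROW -/
theorem lay_lt_row (H : LaySit π C0 τ κ0 t ((1 - π.c2) / 8) D a z sl) (hq : π.q = π.c2) (h0 : 0 < π.c2) (h1 : π.c2 < 1)
    (hj : j = a + 3 / 4 * z) (hjG : j ∈ D.G) (hj1 : j < 1)
    (ρ' : D.Row j) (ρ : D.Row 1) (hc : D.Conn j 1 ρ' ρ) (hE : D.layEv π a z Z E v sl ρ) :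
    |(D.lab j ρ').be - (v (Z ρ) + sl (Z ρ) * D.T j ρ')| ≤ 4 * D.s ^ (π.b2 a + 3 * π.c2 * z / 4 - t) := by
  have hs := H.ok.core.hs
  have ht := H.tpos
  have hz := H.hz
  have h1G := H.ok.core.gate.1
  have hcz0 : 0 < π.c2 * z := mul_pos h0 hz
  have hcz1 : π.c2 * z < z := by nlinarith
  have hbj : π.b2 j = π.b2 a + 3 * π.c2 * z / 4 := by
    unfold SfPar.b2
    rw [hq, hj]
    ring
  have hbj0 : π.b2 j ≤ 0 := by
    unfold SfPar.b2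
    rw [hq]
    exact mul_nonpos_of_nonneg_of_nonpos h0.le (by linarith)
  have hb1 : π.b2 1 = 0 := by
    unfold SfPar.b2
    ring
  obtain ⟨n1, n2, n3⟩ := lay_near D π C0 t j 1 H.ok.core hjG h1G hj1 ρ' ρ hc
  have cA := (H.ok.aff.cmpA j hjG 1 h1G hj1 ρ' ρ hc).1
  have hmin : min (π.b2 j) (π.b2 1) = π.b2 j := by
    rw [hb1]
    exact min_eq_left hbj0
  rw [hmin, hbj] at cA
  have cK := H.ok.aff.eqK h0 h1.le hq j hjG ρ'
  rw [hbj] at cK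
  have cE := hE.2
  have cS := H.hsl h1.le (Z ρ)
  set X : ℝ := D.s ^ (π.b2 a + 3 * π.c2 * z / 4 - t) with hX
  have b2 : D.s ^ (π.b2 a + z) ≤ X := lay_rpow_anti hs.1 hs.2 (by linarith)
  set dT : ℝ := D.T 1 ρ - D.T j ρ' with hdT
  have t1 : |dT * (D.lab j ρ').K| ≤ X := by
    rw [abs_mul, abs_of_nonneg n1]
    refine le_trans ?_ cK
    exact mul_le_mul_of_nonneg_right n2.le (abs_nonneg _)
  have t2 : |sl (Z ρ) * dT| ≤ X := by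
    rw [abs_mul, abs_of_nonneg n1]
    calc |sl (Z ρ)| * dT ≤ D.s ^ (π.b2 a - a - (1 - π.c2) / 8 * z) * D.s ^ (j - t) :=
          mul_le_mul cS (n2.le.trans n3) n1 (Real.rpow_nonneg hs.1.le _)
      _ = D.s ^ (π.b2 a - a - (1 - π.c2) / 8 * z + (j - t)) := by rw [← Real.rpow_add hs.1]
      _ ≤ X := lay_rpow_anti hs.1 hs.2 (by rw [hj]; linarith)
  have e : (D.lab j ρ').be - (v (Z ρ) + sl (Z ρ) * D.T j ρ')
      = ((D.lab j ρ').beAt (D.T 1 ρ) - (D.lab 1 ρ).be) - dT * (D.lab j ρ').K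
        + ((D.lab 1 ρ).be - (v (Z ρ) + sl (Z ρ) * D.T 1 ρ)) + sl (Z ρ) * dT := by
    unfold SfTest.beAt
    rw [hdT]
    unfold SfDoc.T
    ring
  rw [e]
  have := abs_add_le (((D.lab j ρ').beAt (D.T 1 ρ) - (D.lab 1 ρ).be) - dT * (D.lab j ρ').K
        + ((D.lab 1 ρ).be - (v (Z ρ) + sl (Z ρ) * D.T 1 ρ))) (sl (Z ρ) * dT)
  have h3 := abs_add_le (((D.lab j ρ').beAt (D.T 1 ρ) - (D.lab 1 ρ).be) - dT * (D.lab j ρ').K)
        ((D.lab 1 ρ).be - (v (Z ρ) + sl (Z ρ) * D.T 1 ρ))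
  have h4 := abs_sub ((D.lab j ρ').beAt (D.T 1 ρ) - (D.lab 1 ρ).be) (dT * (D.lab j ρ').K)
  linarith [cE.trans b2]

/-- LEAF LT1. (a) -/
theorem lay_lt_a (H : LaySit π C0 τ κ0 t ((1 - π.c2) / 8) D a z sl) (hq : π.q = π.c2) (h0 : 0 < π.c2) (h1 : π.c2 < 1)
    (hi : i = a + 1 / 2 * z) (hiG : i ∈ D.G) (hj : j = a + 3 / 4 * z) (hjG : j ∈ D.G) (hj1 : j < 1)
    (hZ : D.RowPr i E Z (D.s ^ (-t))) (ht : t ≤ (1 - π.c2) / 8 * z) (ρ0 : D.Row i) :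
    (({b | ∃ ρ' ρ, D.Conn i j ρ0 ρ' ∧ D.Conn j 1 ρ' ρ ∧ D.layEv π a z Z E v sl ρ ∧
        ⌊(v (Z ρ) + sl (Z ρ) * D.T j ρ') / layLtG D π a z⌋ = b} : Set ℤ).ncard : ℝ) ≤ D.s ^ (-(2 * t)) := by
  have hs := H.ok.core.hs
  have hz := H.hz
  have hij : i < j := by rw [hi, hj]; linarith
  have hg : 0 < layLtG D π a z := Real.rpow_pos_of_pos hs.1 _
  have hω1 : layLtW π.c2 ≤ (1 - π.c2) / 4 := min_le_left _ _
  have hωz : layLtW π.c2 * z ≤ (1 - π.c2) / 4 * z := mul_le_mul_of_nonneg_right hω1 hz.le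
  obtain ⟨L, hL, hmem⟩ := hZ ρ0
  set S : ζ → Set ℝ := fun x => {y | ∃ ρ' : D.Row j, D.Conn i j ρ0 ρ' ∧ v x + sl x * D.T j ρ' = y} with hS
  set F : ζ → Set ℤ := fun x => (fun y : ℝ => ⌊y / layLtG D π a z⌋) '' S x with hF
  have hFx : ∀ x ∈ L, (F x).Finite ∧ ((F x).ncard : ℝ) ≤ 4 := by
    intro x _
    have hcl : ∀ y ∈ S x, |y - (v x + sl x * D.T i ρ0)| ≤ layLtG D π a z := by
      rintro y ⟨ρ', c1, rfl⟩
      obtain ⟨n1, n2, n3⟩ := lay_near D π C0 t i j H.ok.core hiG hjG hij ρ0 ρ' c1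
      have e : v x + sl x * D.T j ρ' - (v x + sl x * D.T i ρ0) = sl x * (D.T j ρ' - D.T i ρ0) := by ring
      rw [e, abs_mul, abs_of_nonneg n1]
      calc |sl x| * (D.T j ρ' - D.T i ρ0) ≤ D.s ^ (π.b2 a - a - (1 - π.c2) / 8 * z) * D.s ^ (i - t) :=
            mul_le_mul (H.hsl h1.le x) (n2.le.trans n3) n1 (Real.rpow_nonneg hs.1.le _)
        _ = D.s ^ (π.b2 a - a - (1 - π.c2) / 8 * z + (i - t)) := by rw [← Real.rpow_add hs.1]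
        _ ≤ _ := lay_rpow_anti hs.1 hs.2 (by rw [hi]; linarith)
    obtain ⟨f1, c1⟩ := lay_floor_count (S x) _ (layLtG D π a z) (layLtG D π a z) hg hg.le hcl
    refine ⟨f1, c1.trans (le_of_eq ?_)⟩
    field_simp
    norm_num
  obtain ⟨f2, c2⟩ := lay_ncard_image_le L F 4 (D.s ^ (-t)) (by norm_num) hL hFx
  have hsub : ({b | ∃ ρ' ρ, D.Conn i j ρ0 ρ' ∧ D.Conn j 1 ρ' ρ ∧ D.layEv π a z Z E v sl ρ ∧
        ⌊(v (Z ρ) + sl (Z ρ) * D.T j ρ') / layLtG D π a z⌋ = b} : Set ℤ) ⊆ ⋃ x ∈ L, F x := by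
    rintro _ ⟨ρ', ρ, c0, c1, hE, rfl⟩
    have hc := H.ok.core.trans i hiG j hjG 1 H.ok.core.gate.1 hij hj1 ρ0 ρ' ρ c0 c1
    exact Set.mem_iUnion₂.2 ⟨Z ρ, hmem ρ hc hE.1, _, ⟨ρ', c0, rfl⟩, rfl⟩
  have h3 := Set.ncard_le_ncard hsub f2
  have h4 := lay_rpow_abs hs.1 H.h10 (-t)
  have h5 : (0 : ℝ) ≤ D.s ^ (-t) := Real.rpow_nonneg hs.1.le _
  have e : -t - t = -(2 * t) := by ring
  rw [e] at h4
  have h6 : ((({b | ∃ ρ' ρ, D.Conn i j ρ0 ρ' ∧ D.Conn j 1 ρ' ρ ∧ D.layEv π a z Z E v sl ρ ∧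
        ⌊(v (Z ρ) + sl (Z ρ) * D.T j ρ') / layLtG D π a z⌋ = b} : Set ℤ).ncard : ℕ) : ℝ) ≤ ((⋃ x ∈ L, F x).ncard : ℝ) :=
    Nat.cast_le.2 h3
  linarith

/-- LEAF LT2. (b) -/
theorem lay_lt_b (H : LaySit π C0 τ κ0 t ((1 - π.c2) / 8) D a z sl) (hq : π.q = π.c2) (h0 : 0 < π.c2) (h1 : π.c2 < 1)
    (hj : j = a + 3 / 4 * z) (hjG : j ∈ D.G) (hj1 : j < 1) (ht : t ≤ π.c2 / 8 * z) (lam : SfTest) :
    (({b | ∃ ρ' ρ, D.lab j ρ' = lam ∧ D.Conn j 1 ρ' ρ ∧ D.layEv π a z Z E v sl ρ ∧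
        ⌊(v (Z ρ) + sl (Z ρ) * D.T j ρ') / layLtG D π a z⌋ = b} : Set ℤ).ncard : ℝ) ≤ D.s ^ (-t) := by
  have hs := H.ok.core.hs
  have hz := H.hz
  have hg : 0 < layLtG D π a z := Real.rpow_pos_of_pos hs.1 _
  have hω1 : layLtW π.c2 ≤ π.c2 / 8 := min_le_right _ _
  have hωz : layLtW π.c2 * z ≤ π.c2 / 8 * z := mul_le_mul_of_nonneg_right hω1 hz.le
  set S : Set ℝ := {y | ∃ ρ' ρ, D.lab j ρ' = lam ∧ D.Conn j 1 ρ' ρ ∧ D.layEv π a z Z E v sl ρ ∧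
    v (Z ρ) + sl (Z ρ) * D.T j ρ' = y} with hS
  have hb : D.s ^ (π.b2 a + 3 * π.c2 * z / 4 - t) ≤ layLtG D π a z := lay_rpow_anti hs.1 hs.2 (by linarith)
  have hcl : ∀ y ∈ S, |y - lam.be| ≤ 4 * layLtG D π a z := by
    rintro y ⟨ρ', ρ, c1, c2, hE, rfl⟩
    have := lay_lt_row H hq h0 h1 hj hjG hj1 ρ' ρ c2 hE
    rw [c1, abs_sub_comm] at this
    linarith
  obtain ⟨-, hcount⟩ := lay_floor_count S lam.be (4 * layLtG D π a z) (layLtG D π a z) hg (by positivity) hcl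
  have e : ({b | ∃ ρ' ρ, D.lab j ρ' = lam ∧ D.Conn j 1 ρ' ρ ∧ D.layEv π a z Z E v sl ρ ∧
        ⌊(v (Z ρ) + sl (Z ρ) * D.T j ρ') / layLtG D π a z⌋ = b} : Set ℤ)
      = (fun x : ℝ => ⌊x / layLtG D π a z⌋) '' S := by
    ext b
    constructor
    · rintro ⟨ρ', ρ, c1, c2, hE, rfl⟩
      exact ⟨_, ⟨ρ', ρ, c1, c2, hE, rfl⟩, rfl⟩
    · rintro ⟨y, ⟨ρ', ρ, c1, c2, hE, rfl⟩, rfl⟩
      exact ⟨ρ', ρ, c1, c2, hE, rfl⟩
  rw [e]
  have e2 : 2 * (4 * layLtG D π a z) / layLtG D π a z + 2 = 10 := by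
    field_simp
    norm_num
  rw [e2] at hcount
  linarith [H.h10]

/-- LEAF LT2. (c) -/
theorem lay_lt_c (H : LaySit π C0 τ κ0 t ((1 - π.c2) / 8) D a z sl) (hq : π.q = π.c2) (h0 : 0 < π.c2) (h1 : π.c2 < 1)
    (hτ : τ = 2 * layLtW π.c2) (hi : i = a + 1 / 2 * z) (hj : j = a + 3 / 4 * z) (hjG : j ∈ D.G) (hj1 : j < 1)
    (ht : 10 * t ≤ layLtW π.c2 * z)
    (ρ' : D.Row j) (ρ : D.Row 1) (hc : D.Conn j 1 ρ' ρ) (hE : D.layEv π a z Z E v sl ρ) :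
    sfR2 (D.lab j ρ') (layShear 0 ((⌊(v (Z ρ) + sl (Z ρ) * D.T j ρ') / layLtG D π a z⌋ : ℝ) * layLtG D π a z) 0 0) (D.len j)
      ≤ D.s ^ (-((π.c2 - τ) * (j - i))) := by
  have hs := H.ok.core.hs
  have htp := H.tpos
  have hz := H.hz
  have hω1 : layLtW π.c2 ≤ π.c2 / 8 := min_le_right _ _
  have hωz : layLtW π.c2 * z ≤ π.c2 / 8 * z := mul_le_mul_of_nonneg_right hω1 hz.le
  have hcz0 : 0 < π.c2 * z := mul_pos h0 hz
  have hbj : π.b2 j = π.b2 a + 3 * π.c2 * z / 4 := by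
    unfold SfPar.b2
    rw [hq, hj]
    ring
  obtain ⟨p0, p1⟩ := lay_pref2 D π C0 τ κ0 t j H.ok hjG
  obtain ⟨o1, o2, -⟩ := H.ok.core.own j hjG ρ'
  have row := lay_lt_row H hq h0 h1 hj hjG hj1 ρ' ρ hc hE
  have cK := H.ok.aff.eqK h0 h1.le hq j hjG ρ'
  rw [hbj] at cK
  have hl0 : 0 ≤ D.len j := le_trans (Real.rpow_nonneg hs.1.le _) (H.ok.core.hlen.2 j hjG).1
  have hg : 0 < layLtG D π a z := Real.rpow_pos_of_pos hs.1 _
  have r1 := lay_round (v (Z ρ) + sl (Z ρ) * D.T j ρ') _ hg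
  set y : ℝ := v (Z ρ) + sl (Z ρ) * D.T j ρ' with hy
  set mg : ℝ := (⌊y / layLtG D π a z⌋ : ℝ) * layLtG D π a z with hmg
  set Y : ℝ := D.s ^ (π.b2 a + (π.c2 / 2 + layLtW π.c2) * z - t) with hY
  have hY0 : 0 ≤ Y := Real.rpow_nonneg hs.1.le _
  have y1 : D.s ^ (π.b2 a + 3 * π.c2 * z / 4 - t) ≤ Y := lay_rpow_anti hs.1 hs.2 (by linarith)
  have y2 : layLtG D π a z ≤ Y := lay_rpow_anti hs.1 hs.2 (by linarith)
  rw [lay_shear_R2, o1, o2]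
  have e : (D.lab j ρ').be - (mg + ((D.lab j ρ').T - 0) * 0) = ((D.lab j ρ').be - y) - (mg - y) := by ring
  rw [e, sub_zero]
  have a1 := abs_sub ((D.lab j ρ').be - y) (mg - y)
  have h10 := lay_rpow_abs hs.1 H.h10 (π.b2 a + (π.c2 / 2 + layLtW π.c2) * z - t)
  calc D.r j ^ 2 / D.f j * (|(D.lab j ρ').be - y - (mg - y)| + D.len j * |(D.lab j ρ').K|)
      ≤ D.s ^ (-π.b2 j - 3 * t) * D.s ^ (π.b2 a + (π.c2 / 2 + layLtW π.c2) * z - t - t) :=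
        mul_le_mul p1 (by linarith) (add_nonneg (abs_nonneg _) (mul_nonneg hl0 (abs_nonneg _)))
          (Real.rpow_nonneg hs.1.le _)
    _ = D.s ^ (-π.b2 j - 3 * t + (π.b2 a + (π.c2 / 2 + layLtW π.c2) * z - t - t)) := by rw [← Real.rpow_add hs.1]
    _ ≤ _ := lay_rpow_anti hs.1 hs.2 (by rw [hbj, hτ, hi, hj]; linarith)

/-- LEAF LT2. (sz) -/
theorem lay_lt_sz (H : LaySit π C0 τ κ0 t ((1 - π.c2) / 8) D a z sl) (hq : π.q = π.c2) (h0 : 0 < π.c2) (h1 : π.c2 < 1)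
    (hj : j = a + 3 / 4 * z) (hjG : j ∈ D.G) (hj1 : j < 1)
    (ρ' : D.Row j) (ρ : D.Row 1) (hc : D.Conn j 1 ρ' ρ) (hE : D.layEv π a z Z E v sl ρ) :
    (layShear 0 ((⌊(v (Z ρ) + sl (Z ρ) * D.T j ρ') / layLtG D π a z⌋ : ℝ) * layLtG D π a z) 0 0).size
      ≤ D.s ^ (-(1 / t)) := by
  have hs := H.ok.core.hs
  have htp := H.tpos
  have hz := H.hz
  have ha0 : 0 ≤ a := (H.ok.core.gate.2 a H.ha).1
  have hC0 : 0 ≤ |C0| := abs_nonneg _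
  have hC : 0 < |C0| + 4 := by positivity
  have hω : 0 < layLtW π.c2 := lt_min (by linarith) (by linarith)
  have hωz : 0 < layLtW π.c2 * z := mul_pos hω hz
  have hcz0 : 0 < π.c2 * z := mul_pos h0 hz
  have ht4 : t ≤ 1 / 4 := H.t1.trans (by
    rw [div_le_div_iff₀ hC (by norm_num)]
    linarith)
  have ht1 : |C0| + 4 ≤ 1 / t := by
    rw [le_div_iff₀ htp]
    have := H.t1
    rw [le_div_iff₀ hC] at this
    linarith
  have hba : -1 ≤ π.b2 a := by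
    unfold SfPar.b2
    rw [hq]
    nlinarith
  have row := lay_lt_row H hq h0 h1 hj hjG hj1 ρ' ρ hc hE
  have hg : 0 < layLtG D π a z := Real.rpow_pos_of_pos hs.1 _
  have hbe : |(D.lab j ρ').be| ≤ D.s ^ (-C0) := by
    refine le_trans ?_ (H.ok.core.bdd j hjG ρ').2
    unfold SfTest.size
    simp
  have r1 := lay_round (v (Z ρ) + sl (Z ρ) * D.T j ρ') _ hg
  set y : ℝ := v (Z ρ) + sl (Z ρ) * D.T j ρ' with hy
  set mg : ℝ := (⌊y / layLtG D π a z⌋ : ℝ) * layLtG D π a z with hmg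
  have hM0 : (0 : ℝ) ≤ D.s ^ (-(1 / t)) := Real.rpow_nonneg hs.1.le _
  set W : ℝ := D.s ^ (-(|C0| + 2)) with hW
  have hW0 : 0 ≤ W := Real.rpow_nonneg hs.1.le _
  have w10 : 10 * W ≤ D.s ^ (-(1 / t)) :=
    (lay_rpow_abs hs.1 H.h10 _).trans (lay_rpow_anti hs.1 hs.2 (by linarith))
  have w1 : D.s ^ (-C0) ≤ W := lay_rpow_anti hs.1 hs.2 (by linarith [le_abs_self C0])
  have w2 : D.s ^ (π.b2 a + 3 * π.c2 * z / 4 - t) ≤ W := lay_rpow_anti hs.1 hs.2 (by linarith)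
  have w4 : layLtG D π a z ≤ W := lay_rpow_anti hs.1 hs.2 (by linarith)
  refine lay_shear_size _ _ _ _ _ ?_ (by rw [abs_zero]; exact hM0) (by rw [abs_zero]; exact hM0)
  have e : mg = (mg - y) - ((D.lab j ρ').be - y) + (D.lab j ρ').be := by ring
  rw [e]
  have b1 := abs_add_le ((mg - y) - ((D.lab j ρ').be - y)) (D.lab j ρ').be
  have b2 := abs_sub (mg - y) ((D.lab j ρ').be - y)
  linarith

end

/-- **S2, `0 < c < 1`.** -/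
theorem lay_sep_lt (π : SfPar) (hπ : π.Valid) (hq : π.q = π.c2) (h0 : 0 < π.c2) (h1 : π.c2 < 1) (C0 : ℝ) :
    LaySep π C0 false := by
  have hω : 0 < layLtW π.c2 := lt_min (by linarith) (by linarith)
  have hω1 : layLtW π.c2 ≤ (1 - π.c2) / 4 := min_le_left _ _
  refine ⟨2 * layLtW π.c2, (1 - π.c2) / 8, {1 / 2, 3 / 4}, by linarith, by linarith, by linarith, ?_, ?_⟩
  · intro c hc
    simp only [Finset.mem_insert, Finset.mem_singleton] at hc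
    rcases hc with rfl | rfl <;> norm_num
  intro κ0 hκ
  refine ⟨κ0 / 8, by linarith, ?_⟩
  intro z0 hz0
  have hC : 0 < |C0| + 4 := by positivity
  refine ⟨min (min ((1 - π.c2) / 8 * z0) (π.c2 / 8 * z0))
    (min (min (layLtW π.c2 * z0 / 10) (κ0 * z0 / 144)) (min (3 / κ0) (1 / (|C0| + 4)))), ?_, ?_⟩
  · have : 0 < (1 - π.c2) / 8 * z0 := mul_pos (by linarith) hz0
    refine lt_min (lt_min this ?_) (lt_min (lt_min ?_ ?_) (lt_min ?_ ?_)) <;> positivity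
  intro t ht htt0
  have e1 : t ≤ (1 - π.c2) / 8 * z0 := htt0.trans ((min_le_left _ _).trans (min_le_left _ _))
  have e2 : t ≤ π.c2 / 8 * z0 := htt0.trans ((min_le_left _ _).trans (min_le_right _ _))
  have e3 : t ≤ layLtW π.c2 * z0 / 10 := htt0.trans ((min_le_right _ _).trans ((min_le_left _ _).trans (min_le_left _ _)))
  have e4 : t ≤ κ0 * z0 / 144 := htt0.trans ((min_le_right _ _).trans ((min_le_left _ _).trans (min_le_right _ _)))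
  have e5 : t ≤ 3 / κ0 := htt0.trans ((min_le_right _ _).trans ((min_le_right _ _).trans (min_le_left _ _)))
  have e6 : t ≤ 1 / (|C0| + 4) := htt0.trans ((min_le_right _ _).trans ((min_le_right _ _).trans (min_le_right _ _)))
  obtain ⟨s0, hs0, hs⟩ := lay_s0 t ht
  refine ⟨s0, hs0, ?_⟩
  intro D hDs hD a z hz haG hcs ζ Z E hRow _ v sl hsl
  have hs01 := hD.core.hs
  have h10 := hs D.s hs01.1 hDs
  have hz' : 0 < z := lt_of_lt_of_le hz0 hz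
  obtain ⟨hiG, hi1⟩ := hcs (1 / 2) (by simp)
  obtain ⟨hjG, hj1⟩ := hcs (3 / 4) (by simp)
  have hRi := hRow (1 / 2) (by simp)
  have ha0 : 0 ≤ a := (hD.core.gate.2 a haG).1
  have H : LaySit π C0 (2 * layLtW π.c2) κ0 t ((1 - π.c2) / 8) D a z sl := ⟨hπ, hD, ht, e6, h10, haG, hz', hsl⟩
  have hji : (a + 3 / 4 * z) - (a + 1 / 2 * z) = z / 4 := by ring
  have f1 : (1 - π.c2) / 8 * z0 ≤ (1 - π.c2) / 8 * z := mul_le_mul_of_nonneg_left hz (by linarith)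
  have f2 : π.c2 / 8 * z0 ≤ π.c2 / 8 * z := mul_le_mul_of_nonneg_left hz (by linarith)
  have f3 : layLtW π.c2 * z0 ≤ layLtW π.c2 * z := mul_le_mul_of_nonneg_left hz hω.le
  have f4 : κ0 * z0 ≤ κ0 * z := mul_le_mul_of_nonneg_left hz hκ.le
  have key := lay_extract D π C0 (2 * layLtW π.c2) κ0 t (a + 1 / 2 * z) (a + 3 / 4 * z) hD h0 hiG hjG (by linarith) hj1
    (by rw [hji]; linarith) (D.layEv π a z Z E v sl) ℤ
    (fun ρ' ρ => ⌊(v (Z ρ) + sl (Z ρ) * D.T (a + 3 / 4 * z) ρ') / layLtG D π a z⌋)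
    (fun b => layShear 0 ((b : ℝ) * layLtG D π a z) 0 0)
    (fun ρ0 => (lay_lt_a H hq h0 h1 rfl hiG rfl hjG hj1 hRi (by linarith) ρ0).trans
      (lay_rpow_anti hs01.1 hs01.2 (by rw [hji]; linarith)))
    (fun lam => (lay_lt_b H hq h0 h1 rfl hjG hj1 (by linarith) lam).trans
      (lay_rpow_anti hs01.1 hs01.2 (by rw [hji]; linarith)))
    (fun ρ' ρ hc hE => lay_lt_sz H hq h0 h1 rfl hjG hj1 ρ' ρ hc hE)
    (fun ρ' ρ hc hE => lay_lt_c H hq h0 h1 rfl rfl rfl hjG hj1 (by linarith) ρ' ρ hc hE)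
  rw [hji] at key
  have hx1 : κ0 * (z / 4) ≤ 1 / t := by
    rw [le_div_iff₀ ht]
    have : t * κ0 ≤ 3 := by rwa [le_div_iff₀ hκ] at e5
    have hz43 : z ≤ 4 / 3 := by linarith
    nlinarith [mul_nonneg ht.le hκ.le]
  have cl := lay_close (x := κ0 * (z / 4)) hs01.1 hs01.2 ht h10 (by linarith) hx1
  have hmono : (D.s ^ (κ0 * (z / 4))) ^ ((2 : ℝ) / 3)
      ≤ (D.s ^ (κ0 * (z / 4) - 5 * t) + D.s ^ (1 / t)) ^ ((2 : ℝ) / 3) := by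
    refine Real.rpow_le_rpow (Real.rpow_nonneg hs01.1.le _) ?_ (by norm_num)
    have := lay_rpow_anti (x := κ0 * (z / 4)) (y := κ0 * (z / 4) - 5 * t) hs01.1 hs01.2 (by linarith)
    have h2 := Real.rpow_nonneg hs01.1.le (1 / t)
    linarith
  have hfin : (D.P 1).pr (D.layEv π a z Z E v sl) ≤ D.s ^ (κ0 * (z / 4) / 2) := by
    refine le_trans key (le_trans ?_ cl)
    have := mul_le_mul_of_nonneg_left hmono (Real.rpow_nonneg hs01.1.le (-t))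
    linarith
  have he : κ0 * (z / 4) / 2 = κ0 / 8 * z := by ring
  rw [he] at hfin
  exact hfin

end Claimed.Agent.R256
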