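import Claimed.Agent.R256.Lay.RiPatch
import Claimed.Agent.R256.Lay.RaAvoid
import Claimed.Agent.R256.Lay.SepLt
import Claimed.Agent.R256.Lay.SepGt
import Claimed.Agent.R256.Act.SupDefs
import Claimed.Agent.R256.Act.E1.Av

/-!
# Row 256, unit LAY, block RS = instance `ac_eq_root_strong` of `Act/Sup.lean`  (EQ-ROOT-S, exact quadratic side, Def. names:side (ii))      CONTRACT      (architect helper54; chief Lay helper189; prefix `lay_rs_`)

EXIT: `lay_rs_main` = `ac_eq_root_strong` VERBATIM (`Act/Sup.lean` imports this file and cites).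
FORWARD coordinates `x = (a, v)`, `a = 1 - t`.   `q = c_2 = c`, `b a = c (a - 1)`, `b_1 a = (c - J)(a - 1) = - C_1 t`, `l(a,v) = b a + v = b_1 a + (v - J t)`.
## Plan
 (0) `wd = σ / 2`:   on the strip `l(a,v) < b_1 a + σ/2`, on a strong interval `b_1 a + σ ≤ p_*(a)`: room `σ/2` for a static depth `x_*`.
 (1) SWITCH `lay_rs_switch`.   `Tan.Avoid` asks a power of `δ`, so NO exceptional event is allowed: the lists of `[P]_{x_*}` given `(y_0, t_a)` must be total.   `nm_pclist` (Nm/Grid) conditions the final laws once more (mass `→ 1`):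
     a new sequence `S'`, same conditional entropies of all admissible queries, `PcAll` at the COUNTABLY many roots `(a, x_*) ∈ ℚ²`, `x_* < p_*(a)`;   nested time cells: `PcAll` at `a` passes to all `a' ≥ a` (`lay_rs_pc_mono`).
     Same profiles: `S'.H = S.H`, `S'.m = S.m` on `0 ≤ a ≤ 1`, `0 ≤ v`, `S'.pst = S.pst` (`lay_rs_H_eq`, `lay_rs_m_eq`, `lay_rs_pst_eq`).   `AcRoot` is LOCAL in the profile (`lay_rs_congr`).
 (2) COVER `lay_rs_rect`: around every point of the strip a rectangle with `a0, x_* ∈ ℚ`, `b a1 + v1 < x_* < b_1 a0 + σ`, `[a0,a1] ⊆ (1 - t1, 1 - t0)`, `0 < v0`;   `lay_rs_patch_ok`: it is a PATCH of the exact quadratic side;   `lay_ri_lindelof` (186).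
 (3) AVOIDANCE on the patch, weak form `LayRsAv` (a.e. time root, exponent `e0(a)`, moved roots):
     `c ≠ 1`: `lay_rs_av_ne` (PROVED) = Prop. names:separation = `lay_ra_avoid` (helper27) on `lay_sepA` of `lay_sep_lt`, `lay_sep_gt`, exact side with total lists;
     `c = 1`, `J = 0`: `lay_rs_av_one` = Lemma act:stationary-boundary = E1 (`ae1_av`, helper279; PROVED).
 (4) `lay_rs_patch` (PROVED) = `lay_ri_patchR` (186: a.e. ports, exponent a function of the time root) through `lay_rs_at_ri`.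
-/

set_option autoImplicit false

namespace Claimed.Agent.R256

open Claimed.Agent.R255 Claimed.Agent.R255.FLaw
open Filter Topology MeasureTheory
open Classical

noncomputable section

variable {π : SfPar} {C0 : ℝ} {κ : ℝ → ℝ}

/-! ## definitions -/

/-- the unclipped quadratic template of the equality display -/
def layRsQ (π : SfPar) : NmQ := ⟨nmDsEq π, NmTp.quad, 0⟩

/-- the exact quadratic side of static depth `xs` -/
def layRsSd (xs : ℝ) : NmSd := ⟨true, false, 0, 0, xs⟩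

/-- the patch datum -/
def layRsRt (π : SfPar) (xs B : ℝ) : NmRt := ⟨layRsQ π, layRsSd xs, 0, 0, 0, 0, B⟩

/-- power avoidance of affine lines with the exponent `e0` at the moved roots `(a', v)`, `|a' - a| ≤ η h`, of the time root `a` -/
def LayRsAvAt (S : NmSeq π C0 κ) (r0 : NmRt) (a0 a1 v0 v1 a e0 : ℝ) : Prop :=
  ∀ (G : Finset ℝ) (K acc : ℝ), (∀ u ∈ G, 0 ≤ u ∧ u ≤ K) → 0 < acc → ∃ η h0 : ℝ, 0 < η ∧ 0 < h0 ∧ ∀ h : ℝ, 0 < h → h < h0 → ∀ Rm : ℝ, K + 1 ≤ Rm →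
    ∀ a' v : ℝ, |a' - a| ≤ η * h → a0 ≤ a' → a' ≤ a1 → v0 ≤ v → v ≤ v1 → ∀ᶠ n in uf, ∀ u ∈ G, ∀ al be ga : NmZv (S.D n).Idx → ℝ, (∀ z, al z ^ 2 + be z ^ 2 = 1) →
      ((S.D n).P 1).pr (fun ω => |al ((S.D n).side π r0.q r0.σ a' ω) * ((S.D n).smk π { r0 with a := a', v := v, h := h, Rm := Rm } ω).th
        + be ((S.D n).side π r0.q r0.σ a' ω) * ((S.D n).smk π { r0 with a := a', v := v, h := h, Rm := Rm } ω).r
        - ga ((S.D n).side π r0.q r0.σ a' ω)| ≤ ((S.D n).s ^ h) ^ u) ≤ ((S.D n).s ^ h) ^ (e0 * u - acc)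

/-- PORT, WEAK FORM (= what `hOne` of `lay_root_rect` consumes): power avoidance of affine lines at ALMOST EVERY time root `a`, with an exponent `e0 = e0(a)`, at the moved roots -/
def LayRsAv (S : NmSeq π C0 κ) (r0 : NmRt) (a0 a1 v0 v1 : ℝ) : Prop :=
  ∀ᵐ a : ℝ, a0 < a → a < a1 → ∃ e0 : ℝ, 0 < e0 ∧ LayRsAvAt S r0 a0 a1 v0 v1 a e0

/-- total lists of `[P]_{x_*}` given `(y_0, t_a)` at every time root of `[a0, a1]`, arbitrarily small cost -/
def LayRsPc (S : NmSeq π C0 κ) (r0 : NmRt) (a0 a1 : ℝ) : Prop :=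
  ∀ e : ℝ, 0 < e → ∀ a : ℝ, a0 ≤ a → a ≤ a1 → ∀ᶠ n in uf, (S.D n).PcAll π { r0 with a := a } e

theorem lay_rs_eqns_cite : True := by
  have := @layRsQ.eq_1
  have := @layRsSd.eq_1
  have := @layRsRt.eq_1
  have := @LayRsAvAt.eq_1
  have := @LayRsAv.eq_1
  have := @LayRsPc.eq_1
  trivial

/-- the strong form of 186 implies the weak form -/
theorem lay_rs_av_of_all (S : NmSeq π C0 κ) (r0 : NmRt) (e0 a0 a1 v0 v1 : ℝ) (he : 0 < e0) (h : LayRiAv S r0 e0 a0 a1 v0 v1) :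
    LayRsAv S r0 a0 a1 v0 v1 := by
  refine Eventually.of_forall fun a _ _ => ⟨e0, he, fun G K acc hG hacc => ?_⟩
  obtain ⟨h0, hh0, H⟩ := h G K acc hG hacc
  exact ⟨1, h0, one_pos, hh0, fun h hh hh' Rm hRm a' v _ e1 e2 e3 e4 => H h hh hh' Rm hRm a' v e1 e2 e3 e4⟩

/-- the exponent may be decreased -/
theorem lay_rs_at_mono (S : NmSeq π C0 κ) (r0 : NmRt) (a0 a1 v0 v1 a e0 e0' : ℝ) (he : e0' ≤ e0) (h : LayRsAvAt S r0 a0 a1 v0 v1 a e0) :
    LayRsAvAt S r0 a0 a1 v0 v1 a e0' := by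
  intro G K acc hG hacc
  obtain ⟨η, h0, hη, hh0, H⟩ := h G K acc hG hacc
  refine ⟨η, h0, hη, hh0, fun h hh hh' Rm hRm a' v e1 e2 e3 e4 e5 => ?_⟩
  refine (H h hh hh' Rm hRm a' v e1 e2 e3 e4 e5).mono fun n hn u hu al be ga hab => ?_
  refine (hn u hu al be ga hab).trans ?_
  obtain ⟨s0, s1⟩ := (S.fine n 1 one_pos).ok.core.hs
  refine Real.rpow_le_rpow_of_exponent_ge (Real.rpow_pos_of_pos s0 _) (Real.rpow_le_one s0.le s1.le hh.le) ?_
  have := mul_le_mul_of_nonneg_right he (hG u hu).1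
  linarith

/-! ## (4) the patch theorem with the weak port -/

/-- the weak port in the form of 186 (`Tan.Avoid`, lattice roots, natural cut-off depths) -/
theorem lay_rs_at_ri (S : NmSeq π C0 κ) (r0 : NmRt) (a0 a1 v0 v1 a e0 : ℝ) (h : LayRsAvAt S r0 a0 a1 v0 v1 a e0) :
    LayRiAvAt S r0 e0 a0 a1 v0 v1 a := by
  intro pk acc hpk hacc
  refine ⟨⌈pk.K + 1⌉₊, fun Rm hRm => ?_⟩
  obtain ⟨η, h0, hη, hh0, H⟩ := h pk.G pk.K acc hpk.2.2.2.2.2.2 hacc
  refine ⟨η, h0, hη, hh0, fun j hj x' _ hx hxa => ?_⟩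
  have hR : pk.K + 1 ≤ (Rm : ℝ) := (Nat.le_ceil _).trans (by exact_mod_cast hRm)
  refine (H ((1 / 2) ^ j) (by positivity) hj Rm hR x'.1 x'.2 hxa hx.1.1 hx.1.2 hx.2.1 hx.2.2).mono fun n hn dsp p hp u hu al be ga hab => ?_
  rw [hp]
  exact hn u hu al be ga hab

/-- **the patch theorem** = `lay_ri_patchR` (186) -/
theorem lay_rs_patch (S : NmSeq π C0 κ) (hπ : π.Valid) (hX : S.HasX) (Ds : Set ℝ) (hF : S.Flat Ds) :
    ∃ Λ B0 : ℝ, 3 ≤ B0 ∧ ∀ (r0 : NmRt) (a0 a1 v0 v1 : ℝ), r0.Patch π Λ a0 a1 v0 v1 → r0.B = B0 → r0.q.ds.De ∈ Ds →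
      (r0.σ.exact = true → r0.σ.lin = false → ∀ a, a0 ≤ a → a ≤ a1 → r0.σ.xs < S.pst r0.q.ds a) →
      LayRsAv S r0 a0 a1 v0 v1 →
      ∀ᵐ p : ℝ × ℝ, (1 - p.1, p.2) ∈ Set.Ioo a0 a1 ×ˢ Set.Ioo v0 v1 →
        AcRoot (fun t v => S.H r0.q (1 - t) v) (!r0.σ.lin) true false (r0.c π) π.d (S.m r0.q (1 - p.1) p.2)
          (fun x => x = nmNu (S.HM r0.Vq r0.Sd) (r0.Bg π) (1 - p.1)) p := by
  obtain ⟨Λ, B0, hB0, H⟩ := lay_ri_patchR S hπ hX Ds hF
  refine ⟨Λ, B0, hB0, fun r0 a0 a1 v0 v1 hp hB hD hx hav => ?_⟩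
  refine H r0 a0 a1 v0 v1 hp hB.ge hD hx true false (fun _ => hav.mono fun a ha g1 g2 => ?_) (fun h => by cases h)
  obtain ⟨e0, he0, hA⟩ := ha g1 g2
  exact ⟨e0, he0, lay_rs_at_ri S r0 a0 a1 v0 v1 a e0 hA⟩

/-! ## (3) avoidance -/

/-- **`c ≠ 1`** (Prop. names:separation on the exact quadratic side with total lists) = `lay_ra_avoid` (helper27) on `lay_sepA` of `lay_sep_lt`, `lay_sep_gt` -/
theorem lay_rs_av_ne (S : NmSeq π C0 κ) (hπ : π.Valid) (hX : S.HasX) (hκ : ∀ τ : ℝ, 0 < τ → 0 < κ τ) (h1 : 0 < π.c2) (h2 : π.q = π.c2) (hc : π.c2 ≠ 1)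
    (Λ xs B a0 a1 v0 v1 : ℝ) (hB : 3 ≤ B) (hP : (layRsRt π xs B).Patch π Λ a0 a1 v0 v1) (hL : LayRsPc S (layRsRt π xs B) a0 a1) :
    ∃ e0 : ℝ, 0 < e0 ∧ LayRiAv S (layRsRt π xs B) e0 a0 a1 v0 v1 := by
  have hSep : LaySepA π C0 false := by
    rcases lt_or_gt_of_ne hc with h | h
    · exact lay_sepA π hπ C0 false (lay_sep_lt π hπ h2 h1 h C0)
    · exact lay_sepA π hπ C0 false (lay_sep_gt π hπ h2 h C0)
  obtain ⟨Λ', e0, Cs, he0, hCs, H⟩ := lay_ra_avoid hπ h2 S hX hκ false hSep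
  refine ⟨e0, he0, fun G K acc hG hacc => ?_⟩
  have ha1 : a1 < 1 := (hP.2.2 a1 v0 hP.1.le le_rfl le_rfl hP.2.1.le).ha.2
  rcases G.eq_empty_or_nonempty with rfl | ⟨u0, hu0⟩
  · exact ⟨1, one_pos, fun h _ _ Rm _ a v _ _ _ _ => Eventually.of_forall fun n u hu => absurd hu (Finset.notMem_empty u)⟩
  have hK0 : 0 ≤ K := (hG u0 hu0).1.trans (hG u0 hu0).2
  have hM : 0 < Cs * (K + 1) + 1 := by positivity
  refine ⟨(1 - a1) / (Cs * (K + 1) + 1), div_pos (by linarith) hM, ?_⟩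
  intro h hh hh' Rm hRm a v e1 e2 e3 e4
  rw [lt_div_iff₀ hM] at hh'
  have hok := hP.2.2 a v e1 e2 e3 e4
  have hok' : NmRt.Ok { layRsRt π xs B with a := a, v := v, h := h, Rm := Rm } π Λ' :=
    { q := hok.q, g0 := hok.g0, ha := hok.ha, hv := hok.hv, rate := hok.rate, hyb := hok.hyb, brq := hok.brq, brl := hok.brl,
      anc := fun he => by cases he
      cq := hok.cq, eq := hok.eq }
  have hpk : ItPk.Ok ⟨2, K + 1, K + 2, 1, G, {1}⟩ :=
    ⟨le_rfl, by show 0 < K + 1; linarith, by show K + 1 < K + 2; linarith, one_pos, Finset.singleton_nonempty _,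
      fun l hl => by rw [Finset.mem_singleton.1 hl]; exact one_pos, fun q hq => ⟨(hG q hq).1, by show q ≤ K + 1; linarith [(hG q hq).2]⟩⟩
  have hfit : a + Cs * ((K + 1) * h) < 1 := by nlinarith
  have key := H { layRsRt π xs B with a := a, v := v, h := h, Rm := Rm } hok' hB rfl rfl hh ⟨2, K + 1, K + 2, 1, G, {1}⟩ acc hpk hacc hRm hfit
    (fun hb => by cases hb) (fun e he => hL e he a e1 e2)
  refine key.mono fun n hn u hu al be ga hab => ?_
  exact hn (fun _ _ _ => ⟨0, 0, 0, 0, 0, 0, 0, 0⟩) ⟨0, 0, 0, 0, e0, 0⟩ rfl u hu al be ga hab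

/-- **PORT 3** (Lemma act:stationary-boundary = E1, `c = 1`, `J = 0`).      OWNER helper279 (`ae1_main`) -/
theorem lay_rs_av_one (S : NmSeq π C0 κ) (hπ : π.Valid) (hX : S.HasX) (hF : S.Flat {1}) (c0 : ℝ) (hc0 : 0 < c0) (hFP : S.FlatP c0 {1})
    (hκ : ∀ τ : ℝ, 0 < τ → 0 < κ τ) (hy : π.hyb = false)
    (h1 : π.c2 = 1) (h2 : π.q = 1) (hJ : π.J = 0)
    (Λ xs B a0 a1 v0 v1 : ℝ) (hB : 3 ≤ B) (hP : (layRsRt π xs B).Patch π Λ a0 a1 v0 v1) (hv0 : 0 < v0)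
    (hxs : ∀ a, a0 ≤ a → a ≤ a1 → xs < S.pst (nmDsEq π) a) (hL : LayRsPc S (layRsRt π xs B) a0 a1) :
    LayRsAv S (layRsRt π xs B) a0 a1 v0 v1 := by
  obtain ⟨ha, hv, hOk⟩ := hP
  have k0 := (hOk a0 v1 le_rfl ha.le hv.le le_rfl).ha.1
  have k1 := (hOk a1 v1 ha.le le_rfl hv.le le_rfl).ha.2
  have k2 : (0 + π.c2 * (a1 - 1)) + v1 < xs := ((hOk a1 v1 ha.le le_rfl hv.le le_rfl).eq rfl rfl).1
  rw [h1] at k2
  have key := ae1_av S ⟨hπ, h1, h2, hJ, hy⟩ hκ hX c0 hc0 {1} rfl hF hFP xs B a0 a1 v1 (by linarith) (le_of_lt k0) (le_of_lt k1) (by linarith)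
    (by linarith) hxs
  filter_upwards [key] with a Ha e1 e2
  obtain ⟨e0, he0, H⟩ := Ha e1 e2
  refine ⟨e0, he0, fun G K acc hG hacc => ?_⟩
  obtain ⟨η, h0, hη, hh0, H⟩ := H G K acc hG hacc
  exact ⟨η, h0, hη, hh0, fun h hh hh' Rm hRm a' v q1 q2 q3 _ _ => H h hh hh' Rm hRm a' v q1 q2 q3⟩

/-! ## (1) the switch -/

section prof

variable (S : NmSeq π C0 κ)

/-- the profile as a conditional entropy of lists of queries -/
theorem lay_rs_H_ats (q : NmQ) (a v : ℝ) : S.HC (S.ats [NmAt.nm q a v]) (S.ats []) = S.H q a v := by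
  unfold NmSeq.H NmSeq.HC NmSeq.Hn
  congr 1
  funext n
  congr 1
  have e1 : S.ats [] n = fun _ => ([] : List (NmVl (S.D n).Idx)) := rfl
  rw [e1, ent_entC_const]
  refine ent_congr_ker _ _ _ fun ω ω' _ _ => ?_
  show [(Sum.inl ((S.D n).nm π q a v ω) : NmVl (S.D n).Idx)] = [Sum.inl ((S.D n).nm π q a v ω')] ↔ (S.D n).nm π q a v ω = (S.D n).nm π q a v ω'
  simp

/-- the angular score as a conditional entropy of lists of queries -/
theorem lay_rs_U_ats (q : NmQ) (x a v : ℝ) : S.HC (S.ats [NmAt.Xc x]) (S.ats [NmAt.nm q a v]) = S.U q x a v := by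
  unfold NmSeq.U NmSeq.HC
  congr 1
  funext n
  congr 1
  refine ent_entC_congr _ _ _ _ _ (fun ω ω' _ _ => ?_) (fun ω ω' _ _ _ => ?_)
  · simp [NmSeq.ats, NmSeq.nm, SfDoc.ats, SfDoc.atq]
  · simp [NmSeq.ats, NmSeq.Xc, SfDoc.ats, SfDoc.atq]

end prof

/-- the template belongs to the family -/
theorem lay_rs_fam (h1 : 0 < π.c2) (h2 : π.q = π.c2) : (layRsQ π).Fam π :=
  ⟨le_rfl, (fun h => by cases h), Or.inl ⟨h1, h2, rfl, (fun h => by cases h)⟩⟩

/-- nested time cells: total lists pass to the later time roots -/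
theorem lay_rs_pc_mono (D : SfDoc) (hs : 0 < D.s ∧ D.s < 1) (r r' : NmRt) (hq : r'.q = r.q) (hσ : r'.σ = r.σ) (ha : r.a ≤ r'.a) (e : ℝ)
    (h : D.PcAll π r e) : D.PcAll π r' e := by
  intro h1 h2
  rw [hσ] at h1 h2
  have H := h h1 h2
  rw [hq, hσ]
  intro ω₀
  obtain ⟨T, hT, hmem⟩ := H ω₀
  refine ⟨T, hT, fun ω hω _ hA => hmem ω hω trivial ?_⟩
  have e1 : D.y0 ω = D.y0 ω₀ := congrArg Prod.fst hA
  have e2 : D.tc r'.a ω = D.tc r'.a ω₀ := congrArg Prod.snd hA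
  exact Prod.ext e1 (nm_cell_nest hs.1 hs.2 ha e2)

/-- **THE SWITCH** -/
theorem lay_rs_switch (S : NmSeq π C0 κ) (hπ : π.Valid) (h1 : 0 < π.c2) (h2 : π.q = π.c2) (hS : S.AcGood) :
    ∃ S' : NmSeq π C0 (fun τ => κ τ / 2), S'.AcGood ∧
      (∀ a v : ℝ, 0 ≤ a → a ≤ 1 → 0 ≤ v → S'.H (layRsQ π) a v = S.H (layRsQ π) a v) ∧
      (∀ a v : ℝ, 0 ≤ a → a ≤ 1 → 0 ≤ v → S'.m (layRsQ π) a v = S.m (layRsQ π) a v) ∧
      (∀ a : ℝ, S'.pst (nmDsEq π) a = S.pst (nmDsEq π) a) ∧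
      ∀ (aq xq : ℚ) (B a1 : ℝ), (xq : ℝ) < S.pst (nmDsEq π) aq → LayRsPc S' (layRsRt π xq B) aq a1 := by
  have hfam := lay_rs_fam h1 h2
  obtain ⟨S', hX', hF', hFP', hHC, hPc⟩ := nm_pclist hπ S hS.hasX {1} (Set.countable_singleton 1) hS.flat
    {r | ∃ aq xq : ℚ, r = { layRsRt π xq 0 with a := aq } ∧ (xq : ℝ) < S.pst (nmDsEq π) aq}
    (by
      refine Set.Countable.mono (s₂ := Set.range fun z : ℚ × ℚ => ({ layRsRt π z.2 0 with a := z.1 } : NmRt)) ?_ (Set.countable_range _)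
      rintro r ⟨aq, xq, rfl, -⟩
      exact ⟨(aq, xq), rfl⟩)
    (by
      rintro r ⟨aq, xq, rfl, h⟩
      exact ⟨hfam, rfl, h⟩)
  have okn : ∀ a v : ℝ, 0 ≤ a → a ≤ 1 → 0 ≤ v → (NmAt.nm (layRsQ π) a v).Ok π {1} := fun a v e1 e2 e3 => ⟨hfam, rfl, e1, e2, e3⟩
  refine ⟨S', ⟨hX', hF', fun τ hτ => half_pos (hS.kpos τ hτ), hFP'⟩, ?_, ?_, ?_, ?_⟩
  · intro a v e1 e2 e3
    rw [← lay_rs_H_ats S', ← lay_rs_H_ats S]
    refine hHC _ _ ?_ ?_
    · intro x hx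
      rw [List.mem_singleton] at hx
      subst hx
      exact ⟨(fun h => by cases h), okn a v e1 e2 e3⟩
    · intro x hx
      cases hx
  · intro a v e1 e2 e3
    unfold NmSeq.m
    congr 1
    funext h
    rw [← lay_rs_U_ats S', ← lay_rs_U_ats S]
    congr 1
    refine hHC _ _ ?_ ?_
    · intro x hx
      rw [List.mem_singleton] at hx
      subst hx
      exact ⟨(fun h => by cases h), trivial⟩
    · intro x hx
      rw [List.mem_singleton] at hx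
      subst hx
      exact okn a v e1 e2 e3
  · intro a
    unfold NmSeq.pst
    congr 1
    ext x
    simp only [Set.mem_ofPred_eq]
    rw [nm_HP_HM S', nm_HP_HM S]
    unfold NmSeq.HM
    rw [hHC]
    · intro y hy
      rw [List.mem_singleton] at hy
      subst hy
      exact ⟨(fun h => by cases h), rfl, Or.inr rfl⟩
    · intro y hy
      simp only [List.mem_cons, List.not_mem_nil, or_false] at hy
      rcases hy with rfl | rfl
      · trivial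
      · trivial
  · intro aq xq B a1 hx e he a ha _
    refine (hPc e he _ ⟨aq, xq, rfl, hx⟩).mono fun n hn => ?_
    exact lay_rs_pc_mono (S'.D n) (S'.fine n 1 one_pos).ok.core.hs { layRsRt π xq 0 with a := aq } { layRsRt π xq B with a := a } rfl rfl ha e hn

/-- `AcRoot` is LOCAL in the profile; the trace may be rewritten, the condition on `ν` weakened -/
theorem lay_rs_congr (H H' : ℝ → ℝ → ℝ) (quad av cr : Bool) (c d m m' : ℝ) (N N' : ℝ → Prop) (p : ℝ × ℝ) (U : Set (ℝ × ℝ)) (hU : U ∈ 𝓝 p)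
    (hH : ∀ q ∈ U, H q.1 q.2 = H' q.1 q.2) (hm : m = m') (hN : ∀ x, N x → N' x) (h : AcRoot H quad av cr c d m N p) :
    AcRoot H' quad av cr c d m' N' p := by
  obtain ⟨hd, a, a1, a2, a3, a4, a5, hP⟩ := h
  refine ⟨hd.congr_of_eventuallyEq (eventually_of_mem hU fun q hq => (hH q hq).symm), a, a1, a2, a3, a4.trans hm, hN _ a5, ?_⟩
  intro τ hτ
  obtain ⟨κ0, hκ0, H1⟩ := hP τ hτ
  refine ⟨κ0, hκ0, fun pk acc hpk hacc σ hσ => ?_⟩
  obtain ⟨C, H2⟩ := H1 pk acc hpk hacc σ hσ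
  refine ⟨C, ?_⟩
  obtain ⟨ε, hε, hball⟩ := Metric.mem_nhds_iff.1 hU
  obtain ⟨L, hL⟩ := Finset.exists_le (pk.Lam.image fun l => |l|)
  have hL' : ∀ l ∈ pk.Lam, |l| ≤ L := fun l hl => hL _ (Finset.mem_image_of_mem _ hl)
  have hL0 : 0 ≤ L := by
    obtain ⟨l, hl⟩ := hpk.2.2.2.2.1
    exact (abs_nonneg l).trans (hL' l hl)
  have hM : 0 < |C| + L + 1 := by positivity
  have hev : ∀ᶠ h in 𝓝[>] (0 : ℝ), h ∈ Set.Ioo (0 : ℝ) (ε / (|C| + L + 1)) := Ioo_mem_nhdsGT (div_pos hε hM)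
  refine (H2.and_eventually hev).mono ?_
  rintro h ⟨⟨r, T, b1, b2, b3, b4, b5, b6, b7⟩, hh0, hh1⟩
  rw [lt_div_iff₀ hM] at hh1
  have hCh : C * h ≤ |C| * h := mul_le_mul_of_nonneg_right (le_abs_self C) hh0.le
  have hin : ∀ x y : ℝ, |x| ≤ L * h → |y| ≤ L * h → (r.1 + x, r.2 + y) ∈ U := by
    intro x y hx hy
    apply hball
    rw [Metric.mem_ball, Prod.dist_eq, max_lt_iff, Real.dist_eq, Real.dist_eq]
    constructor
    · have := abs_add_le (r.1 - p.1) x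
      have e : r.1 + x - p.1 = r.1 - p.1 + x := by ring
      show |r.1 + x - p.1| < ε
      rw [e]
      nlinarith
    · have := abs_add_le (r.2 - p.2) y
      have e : r.2 + y - p.2 = r.2 - p.2 + y := by ring
      show |r.2 + y - p.2| < ε
      rw [e]
      nlinarith
  have hLh : 0 ≤ L * h := mul_nonneg hL0 hh0.le
  have e0 : H r.1 r.2 = H' r.1 r.2 := by
    have := hH _ (hin 0 0 (by simpa using hLh) (by simpa using hLh))
    simpa using this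
  refine ⟨r, T, b1, b2, b3, b4, b5, b6, fun l hl => ?_⟩
  have hl1 : |l * h| ≤ L * h := by
    rw [abs_mul, abs_of_pos hh0]
    exact mul_le_mul_of_nonneg_right (hL' l hl) hh0.le
  have e1 : H (r.1 - l * h) r.2 = H' (r.1 - l * h) r.2 := by
    have := hH _ (hin (-(l * h)) 0 (by rwa [abs_neg]) (by simpa using hLh))
    simpa [sub_eq_add_neg] using this
  have e2 : H r.1 (r.2 + l * h) = H' r.1 (r.2 + l * h) := by
    have := hH _ (hin 0 (l * h) (by simpa using hLh) hl1)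
    simpa using this
  rw [← e0, ← e1, ← e2]
  exact b7 l hl

/-! ## (2) the cover -/

/-- the exact quadratic side on a rectangle below the static depth is a PATCH -/
theorem lay_rs_patch_ok (h1 : 0 < π.c2) (h2 : π.q = π.c2) (hy : π.hyb = false) (Λ xs B a0 a1 v0 v1 : ℝ) (ha0 : 0 < a0) (ha : a0 < a1)
    (ha1 : a1 < 1) (hv0 : 0 ≤ v0) (hv : v0 < v1) (hx : π.c2 * (a1 - 1) + v1 < xs) : (layRsRt π xs B).Patch π Λ a0 a1 v0 v1 := by
  refine ⟨ha, hv, fun a v e1 e2 e3 e4 => ?_⟩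
  exact
    { q := lay_rs_fam h1 h2
      g0 := rfl
      ha := ⟨lt_of_lt_of_le ha0 e1, lt_of_le_of_lt e2 ha1⟩
      hv := hv0.trans e3
      rate := h1
      hyb := fun h => by rw [hy] at h; cases h
      brq := fun _ => ⟨(fun h => by cases h), rfl⟩
      brl := fun h => by cases h
      anc := fun h => by cases h
      cq := fun h => by cases h
      eq := fun _ _ => ⟨by
        show (0 + π.c2 * (a - 1)) + v < xs
        have : π.c2 * (a - 1) ≤ π.c2 * (a1 - 1) := mul_le_mul_of_nonneg_left (by linarith) h1.le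
        linarith, fun h => by cases h⟩ }

/-- around every point of the strip: a rectangle with room for a rational static depth -/
theorem lay_rs_rect (c J σ t0 t1 : ℝ) (hc : 0 < c) (hC1 : 0 < c - J) (hσ : 0 < σ) (p : ℝ × ℝ) (hp1 : t0 < p.1) (hp2 : p.1 < t1)
    (hp3 : |p.2 - J * p.1| < σ / 2) (hp4 : 0 < p.2) :
    ∃ (aq xq : ℚ) (a1 v0 v1 : ℝ), (1 - p.1, p.2) ∈ Set.Ioo (aq : ℝ) a1 ×ˢ Set.Ioo v0 v1 ∧ 1 - t1 < aq ∧ a1 < 1 - t0 ∧ 0 < v0 ∧
      c * (a1 - 1) + v1 < xq ∧ (xq : ℝ) < (c - J) * (aq - 1) + σ := by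
  obtain ⟨ε, hε⟩ : ∃ ε : ℝ, ε = min (min (t1 - p.1) (p.1 - t0)) (σ / (2 * (2 * c + 1 + |J|))) / 2 := ⟨_, rfl⟩
  have hM : 0 < 2 * (2 * c + 1 + |J|) := by positivity
  have hmin : 0 < min (min (t1 - p.1) (p.1 - t0)) (σ / (2 * (2 * c + 1 + |J|))) :=
    lt_min (lt_min (by linarith) (by linarith)) (div_pos hσ hM)
  have hε0 : 0 < ε := by rw [hε]; positivity
  have hε1 : ε < t1 - p.1 := by
    have := (min_le_left _ _).trans (min_le_left (t1 - p.1) (p.1 - t0)) (a := min (min (t1 - p.1) (p.1 - t0)) (σ / (2 * (2 * c + 1 + |J|))))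
    rw [hε]; linarith
  have hε2 : ε < p.1 - t0 := by
    have := (min_le_left _ _).trans (min_le_right (t1 - p.1) (p.1 - t0)) (a := min (min (t1 - p.1) (p.1 - t0)) (σ / (2 * (2 * c + 1 + |J|))))
    rw [hε]; linarith
  have hε3 : (2 * c + 1 + |J|) * ε < σ / 2 := by
    have h3 : ε < σ / (2 * (2 * c + 1 + |J|)) := by
      have := min_le_right (min (t1 - p.1) (p.1 - t0)) (σ / (2 * (2 * c + 1 + |J|)))
      rw [hε]; linarith
    rw [lt_div_iff₀ hM] at h3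
    linarith
  obtain ⟨aq, haq1, haq2⟩ := exists_rat_btwn (show 1 - p.1 - ε < 1 - p.1 by linarith)
  have hJ : -(J * ε) ≤ |J| * ε := by
    have := mul_le_mul_of_nonneg_right (neg_abs_le J) hε0.le
    linarith
  have hq : (c - J) * (1 - p.1 - ε) < (c - J) * aq := mul_lt_mul_of_pos_left haq1 hC1
  have hv := (abs_lt.1 hp3).2
  obtain ⟨xq, hxq1, hxq2⟩ := exists_rat_btwn (show c * ((1 - p.1 + ε) - 1) + (p.2 + ε) < (c - J) * (aq - 1) + σ by nlinarith)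
  exact ⟨aq, xq, 1 - p.1 + ε, p.2 / 2, p.2 + ε, ⟨⟨haq2, by show 1 - p.1 < 1 - p.1 + ε; linarith⟩, ⟨by show p.2 / 2 < p.2; linarith, by show p.2 < p.2 + ε; linarith⟩⟩,
    by linarith, by linarith, by linarith, hxq1, hxq2⟩

/-! ## EXIT -/

/-- **EQ-ROOT-S** = `ac_eq_root_strong` of `Act/Sup.lean`, VERBATIM -/
theorem lay_rs_main (S : NmSeq π C0 κ) (hπ : π.Valid) (h1 : 0 < π.c2) (h2 : π.q = π.c2) (hS : S.AcGood) (Lip : ℝ) :
    ¬ (acEqK S Lip).hyb → 0 < (acEqK S Lip).C1 → ((acEqK S Lip).c = 1 → (acEqK S Lip).J = 0) →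
    ∀ t0 t1 σ, (acEqK S Lip).IsStrong t0 t1 σ → ∃ wd : ℝ, 0 < wd ∧
      ∀ᵐ p : ℝ × ℝ, (acEqK S Lip).Strip t0 t1 wd p → 0 < (acEqK S Lip).mQ p.1 p.2 →
        AcRoot (acHQ S) true true false π.c2 π.d ((acEqK S Lip).mQ p.1 p.2) (fun _ => True) p := by
  intro hy hC1 hc1 t0 t1 σ hst
  have hy' : π.hyb = false := by
    have : ¬ (π.hyb = true) := hy
    simpa using this
  have hC1' : 0 < π.c2 - π.J := hC1
  obtain ⟨ht0, ht01, ht1, hσ, hstr⟩ := hst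
  have hstr' : ∀ a : ℝ, 1 - t1 < a → a < 1 - t0 → (π.c2 - π.J) * (a - 1) + σ ≤ S.pst (nmDsEq π) a := by
    intro a e1 e2
    have := hstr (1 - a) (by linarith) (by linarith)
    have e3 : -((acEqK S Lip).C1 * (1 - a)) + σ = (π.c2 - π.J) * (a - 1) + σ := by
      show -((π.c2 - π.J) * (1 - a)) + σ = _
      ring
    have e4 : (acEqK S Lip).pst (1 - a) = S.pst (nmDsEq π) a := by
      show S.pst (nmDsEq π) (1 - (1 - a)) = _
      rw [sub_sub_cancel]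
    rwa [e3, e4] at this
  obtain ⟨S', hS', hH, hm, hpst, hPc⟩ := lay_rs_switch S hπ h1 h2 hS
  obtain ⟨Λ, B0, hB0, hpatch⟩ := lay_rs_patch S' hπ hS'.hasX {1} hS'.flat
  refine ⟨σ / 2, by positivity, ?_⟩
  have key : ∀ᵐ p : ℝ × ℝ, p ∈ {p : ℝ × ℝ | (acEqK S Lip).Strip t0 t1 (σ / 2) p} →
      AcRoot (acHQ S) true true false π.c2 π.d ((acEqK S Lip).mQ p.1 p.2) (fun _ => True) p := by
    refine lay_ri_lindelof _ _ fun p hp => ?_
    obtain ⟨p1, p2, p3, p4⟩ := hp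
    obtain ⟨aq, xq, a1, v0, v1, hmem, r1, r2, r3, r4, r5⟩ := lay_rs_rect π.c2 π.J σ t0 t1 h1 hC1' hσ p p1 p2 p3 p4
    have haq : (aq : ℝ) < a1 := hmem.1.1.trans hmem.1.2
    have hv01 : v0 < v1 := hmem.2.1.trans hmem.2.2
    have hP : (layRsRt π xq B0).Patch π Λ aq a1 v0 v1 :=
      lay_rs_patch_ok h1 h2 hy' Λ xq B0 aq a1 v0 v1 (by linarith) haq (by linarith) r3.le hv01 r4
    have hxs : ∀ a : ℝ, (aq : ℝ) ≤ a → a ≤ a1 → (xq : ℝ) < S.pst (nmDsEq π) a := by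
      intro a e1 e2
      have := hstr' a (by linarith) (by linarith)
      have e3 : (π.c2 - π.J) * ((aq : ℝ) - 1) ≤ (π.c2 - π.J) * (a - 1) := mul_le_mul_of_nonneg_left (by linarith) hC1'.le
      linarith
    have hL : LayRsPc S' (layRsRt π xq B0) aq a1 := hPc aq xq B0 a1 (hxs aq le_rfl haq.le)
    have hav : LayRsAv S' (layRsRt π xq B0) aq a1 v0 v1 := by
      by_cases hc : π.c2 = 1
      · exact lay_rs_av_one S' hπ hS'.hasX hS'.flat (1 / 8) (by norm_num) hS'.flatP hS'.kpos hy' hc (h2.trans hc) (hc1 hc) Λ xq B0 aq a1 v0 v1 hB0 hP r3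
          (fun a e1 e2 => by rw [hpst]; exact hxs a e1 e2) hL
      · obtain ⟨e0, he0, h⟩ := lay_rs_av_ne S' hπ hS'.hasX hS'.kpos h1 h2 hc Λ xq B0 aq a1 v0 v1 hB0 hP hL
        exact lay_rs_av_of_all S' _ e0 _ _ _ _ he0 h
    have hae := hpatch (layRsRt π xq B0) aq a1 v0 v1 hP rfl rfl (fun _ _ a e1 e2 => by
      show (xq : ℝ) < S'.pst (nmDsEq π) a
      rw [hpst]; exact hxs a e1 e2) hav
    refine ⟨_, lay_ri_nhds aq a1 v0 v1 p hmem, hae.mono fun q hq hqU => ?_⟩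
    have hq' := hq hqU
    refine lay_rs_congr _ _ _ _ _ _ _ _ _ _ _ q _ (lay_ri_nhds aq a1 v0 v1 q hqU) ?_ ?_ (fun _ _ => trivial) hq'
    · intro z hz
      exact hH (1 - z.1) z.2 (by have := hz.1.1; linarith) (by have := hz.1.2; linarith) (by have := hz.2.1; linarith)
    · exact hm (1 - q.1) q.2 (by have := hqU.1.1; linarith) (by have := hqU.1.2; linarith) (by have := hqU.2.1; linarith)
  filter_upwards [key] with p hp h3 _
  exact hp h3

end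

end Claimed.Agent.R256
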