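import Claimed.Agent.R256.Lay.Walk

/-!
# Row 256: STAR KIT = one record of the replica law `P.star Z M` has the law of the single experiment      (helper265; prefix `lsk_`)

PAPER FREE.   Consumers: `Act/LtTan.lean` (`ltt_star_*`), `Lay/Root.lean` (`lay_lift_*`).
* `lsk_supp`   support of the star law;
* `lsk_pr`     events of (side, record `i`);     `lsk_fib`  fibres;     `lsk_sur`, `lsk_sur'`  conditional surprises;     `lsk_nval`  lists;     `lsk_cnd_nval` restriction keeps lists.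
From `iso_star_supp`, `lay_star_exch`, `lay_star_eq_ext` (Lay/Walk).
-/

set_option autoImplicit false

namespace Claimed.Agent.R256

open Claimed.Agent.R255
open Claimed.Agent.R255.FLaw
open Classical

variable {Ω : Type} [Fintype Ω] {υ α β : Type}

/-- support of the star law -/
theorem lsk_supp (P : FLaw Ω) (Z : Ω → υ) (M : ℕ) (x : Ω × (Fin M → Ω)) (hx : (P.star Z M).p x ≠ 0) :
    P.p x.1 ≠ 0 ∧ ∀ i, P.p (x.2 i) ≠ 0 ∧ Z (x.2 i) = Z x.1 := by
  obtain ⟨h1, h2⟩ := iso_star_supp P Z M x (lt_of_le_of_ne ((P.star Z M).nonneg x) (Ne.symm hx))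
  exact ⟨h1.ne', fun i => ⟨(h2 i).1.ne', (h2 i).2⟩⟩

/-- one record of the star law has the law of the single experiment: events -/
theorem lsk_pr (P : FLaw Ω) (Z : Ω → υ) (M : ℕ) (i : Fin M) (E : υ → Ω → Prop) :
    (P.star Z M).pr (fun x => E (Z x.1) (x.2 i)) = P.pr (fun ω => E (Z ω) ω) := by
  have e1 : (P.star Z M).pr (fun x => E (Z x.1) (x.2 i)) = (P.star Z M).pr (fun x => E (Z (x.2 i)) (x.2 i)) :=
    ent_pr_congr _ fun x hx => by rw [((lsk_supp P Z M x hx).2 i).2]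
  have e2 := ent_map_pr (P.star Z M) (fun x => (x.2 i, x.1)) (fun y : Ω × Ω => E (Z y.1) y.1)
  have e3 := ent_map_pr (P.star Z M) (fun x => (x.1, x.2 i)) (fun y : Ω × Ω => E (Z y.1) y.1)
  rw [lay_star_exch P Z M i] at e2
  have e4 : (P.star Z M).pr (fun x => E (Z x.1) x.1) = P.pr (fun ω => E (Z ω) ω) := by
    rw [lay_star_eq_ext]
    exact ent_ext_pr_fst P _ (fun ω => E (Z ω) ω)
  rw [e1, ← e4]
  exact e2.symm.trans e3

/-- fibres of functions of (side, record `i`), on the support -/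
theorem lsk_fib (P : FLaw Ω) (Z : Ω → υ) (M : ℕ) (i : Fin M) (g : υ → Ω → α) (x : Ω × (Fin M → Ω)) (hx : (P.star Z M).p x ≠ 0) :
    (P.star Z M).fib (fun x => g (Z x.1) (x.2 i)) x = P.fib (fun ω => g (Z ω) ω) (x.2 i) := by
  show (P.star Z M).pr (fun x' => g (Z x'.1) (x'.2 i) = g (Z x.1) (x.2 i)) = P.pr (fun ω => g (Z ω) ω = g (Z (x.2 i)) (x.2 i))
  rw [((lsk_supp P Z M x hx).2 i).2]
  exact lsk_pr P Z M i (fun u ω => g u ω = g (Z x.1) (x.2 i))

/-- fibres of functions of the record `i` alone, everywhere -/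
theorem lsk_fib' (P : FLaw Ω) (Z : Ω → υ) (M : ℕ) (i : Fin M) (X : Ω → α) (x : Ω × (Fin M → Ω)) :
    (P.star Z M).fib (fun x => X (x.2 i)) x = P.fib X (x.2 i) :=
  lsk_pr P Z M i (fun _ ω => X ω = X (x.2 i))

/-- conditional surprises of functions of (side, record `i`), on the support -/
theorem lsk_sur (P : FLaw Ω) (Z : Ω → υ) (M : ℕ) (i : Fin M) (g : υ → Ω → α) (g' : υ → Ω → β)
    (x : Ω × (Fin M → Ω)) (hx : (P.star Z M).p x ≠ 0) :
    (P.star Z M).surC (fun x => g (Z x.1) (x.2 i)) (fun x => g' (Z x.1) (x.2 i)) x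
      = P.surC (fun ω => g (Z ω) ω) (fun ω => g' (Z ω) ω) (x.2 i) := by
  have h1 := lsk_fib P Z M i (fun u ω => (g u ω, g' u ω)) x hx
  have h2 := lsk_fib P Z M i g' x hx
  show -Real.log ((P.star Z M).fib (fun x => (g (Z x.1) (x.2 i), g' (Z x.1) (x.2 i))) x / (P.star Z M).fib (fun x => g' (Z x.1) (x.2 i)) x) =
    -Real.log (P.fib (fun ω => (g (Z ω) ω, g' (Z ω) ω)) (x.2 i) / P.fib (fun ω => g' (Z ω) ω) (x.2 i))
  rw [h1, h2]

/-- conditional surprises of functions of the record `i` alone, everywhere -/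
theorem lsk_sur' (P : FLaw Ω) (Z : Ω → υ) (M : ℕ) (i : Fin M) (X : Ω → α) (Y : Ω → β) (x : Ω × (Fin M → Ω)) :
    (P.star Z M).surC (fun x => X (x.2 i)) (fun x => Y (x.2 i)) x = P.surC X Y (x.2 i) := by
  have h1 := lsk_fib' P Z M i (fun ω => (X ω, Y ω)) x
  have h2 := lsk_fib' P Z M i Y x
  show -Real.log ((P.star Z M).fib (fun x => (X (x.2 i), Y (x.2 i))) x / (P.star Z M).fib (fun x => Y (x.2 i)) x) =
    -Real.log (P.fib (fun ω => (X ω, Y ω)) (x.2 i) / P.fib Y (x.2 i))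
  rw [h1, h2]

/-- list relations of functions of (side, record `i`) -/
theorem lsk_nval (P : FLaw Ω) (Z : Ω → υ) (M : ℕ) (i : Fin M) (g : υ → Ω → α) (g' : υ → Ω → β) (N : ℝ)
    (h : P.NVal (fun _ => True) (fun ω => g (Z ω) ω) (fun ω => g' (Z ω) ω) N) :
    (P.star Z M).NVal (fun _ => True) (fun x => g (Z x.1) (x.2 i)) (fun x => g' (Z x.1) (x.2 i)) N := by
  intro x₀
  by_cases hex : ∃ x₁, (P.star Z M).p x₁ ≠ 0 ∧ g' (Z x₁.1) (x₁.2 i) = g' (Z x₀.1) (x₀.2 i)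
  · obtain ⟨x₁, hx₁, he⟩ := hex
    obtain ⟨S, hS, hm⟩ := h (x₁.2 i)
    refine ⟨S, hS, fun x hx _ hxe => ?_⟩
    have a := ((lsk_supp P Z M x hx).2 i)
    have a₁ := ((lsk_supp P Z M x₁ hx₁).2 i)
    have := hm (x.2 i) a.1 trivial (by
      show g' (Z (x.2 i)) (x.2 i) = g' (Z (x₁.2 i)) (x₁.2 i)
      rw [a.2, a₁.2, he]
      exact hxe)
    show g (Z x.1) (x.2 i) ∈ S
    rw [← a.2]
    exact this
  · obtain ⟨S, hS, -⟩ := h x₀.1
    refine ⟨∅, ?_, fun x hx _ hxe => absurd ⟨x, hx, hxe⟩ hex⟩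
    rw [Finset.card_empty, Nat.cast_zero]
    exact (Nat.cast_nonneg _).trans hS

/-- restriction keeps list relations -/
theorem lsk_cnd_nval (P : FLaw Ω) (A : Ω → Prop) (hA : 0 < P.pr A) (X : Ω → α) (Y : Ω → β) (N : ℝ)
    (h : P.NVal (fun _ => True) X Y N) : (P.cnd A).NVal (fun _ => True) X Y N := by
  intro ω₀
  obtain ⟨S, hS, hm⟩ := h ω₀
  exact ⟨S, hS, fun ω hω _ he => hm ω ((ent_cnd_supp P A hA).1 hω).2 trivial he⟩

end Claimed.Agent.R256
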