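import Claimed.Agent.R256.Lay.Defs

/-!
# Row 256, unit LAY (04B): KIT OF THE SEPARATION      (chief helper189)

Everything on the operator-free `SfDoc` (Soft/Doc).   `s = D.s`, tolerance `t`, MARGIN CONVENTION of all cases: `10 ≤ s^-t` (from `lay_s0`), so a constant `≤ 10` costs one `t` in the exponent (`lay_rpow_abs`).
* `lay_extract`, `lay_extract_lin` = the segment extraction of the proof of names:separation (04 l.783-812):  `mincost` on `(i, j)` after disjointization of the witness bins, then `sp` on `(j, 1)`.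
  DATA.  `Ev` final event;  `bin ρ' ρ` the bin of the `j`-row `ρ'` witnessed by the completion `ρ ∈ Ev`;  `sg b` the shear that is subtracted for the bin `b`.
  (a) an `i`-row sees few bins;  (b) a `j`-label sees few bins;  (sz) polynomial shears;  (c) after subtraction the cost of the `j`-label is improved by `τ`.
  PROOF.  `ι := {b // ∃ ρ' ρ, Conn j 1 ρ' ρ ∧ Ev ρ ∧ bin ρ' ρ = b}` (finite: image of `Row j × Row 1`);  `ch ρ'` := bin of a chosen completion;  `Ub b ρ' := (∃ ρ, Conn j 1 ρ' ρ ∧ Ev ρ) ∧ ch ρ' = b` (disjoint);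
  `Sb b ρ0 := ∃ ρ', Ub b ρ' ∧ Conn i j ρ0 ρ'` (`Pred`);  the two `ncard` over `Set ι` are `ncard` of subsets of the sets in (a), (b) after `Subtype.val` (`Set.ncard_image_of_injective`, `Set.ncard_le_ncard` with finiteness from `Set.toFinite`/`Set.Finite.subset` of a range);
  `mincost` gives `P_j(∃ b, Ub b) ≤ s^(κ0 (j-i))`;  `{∃ b, Ub b}` contains all `Conn`-predecessors of `Ev`;  `sp` on `(j, 1)` + `Real.rpow_le_rpow`.
* `lay_conf` = causal time count (04 l.835-838, names:mark-dimension): the terminal time is confined, per `i`-row and side value, to an interval of length `8 s^j`.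
* `lay_close`, `lay_s0`, `lay_rpow_*`, counting of cells and of separated times;  `lay_pref2/1`, `lay_near`, `lay_start` = elementary geometry of rows.
LEAVES: L-256-LAY-SK1 (`lay_extract`, `lay_extract_lin`), SK2 (`lay_floor_count`, `lay_sep_count`, `lay_rpow_anti`, `lay_rpow_abs`, `lay_ncard_image_le`, `lay_s0`, `lay_close`), SK3 (`lay_conf`, `lay_sep_time`), SK4 (`lay_pref2`, `lay_pref1`, `lay_near`, `lay_start`, `lay_shear_*`, `lay_round`).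
-/

set_option autoImplicit false

namespace Claimed.Agent.R256

open Claimed.Agent.R255
open Classical

/-- aux of `lay_extract`: the common part (disjointization of the witness bins, `mincost`, `sp`) -/
theorem lay_extract_aux (D : SfDoc) (π : SfPar) (C0 τ κ0 t i j : ℝ) (hD : D.Ok π C0 τ κ0 t)
    (hi : i ∈ D.G) (hj : j ∈ D.G) (hij : i < j) (hj1 : j < 1) (ht : t ≤ κ0 * (j - i))
    (Ev : D.Row 1 → Prop) (β : Type) (bin : D.Row j → D.Row 1 → β) (sg : β → SfTest)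
    (ha : ∀ ρ0 : D.Row i, (({b | ∃ ρ' ρ, D.Conn i j ρ0 ρ' ∧ D.Conn j 1 ρ' ρ ∧ Ev ρ ∧ bin ρ' ρ = b} : Set β).ncard : ℝ)
      ≤ D.s ^ (-(κ0 * (j - i))))
    (hb : ∀ lam : SfTest, (({b | ∃ ρ' ρ, D.lab j ρ' = lam ∧ D.Conn j 1 ρ' ρ ∧ Ev ρ ∧ bin ρ' ρ = b} : Set β).ncard : ℝ)
      ≤ D.s ^ (-(κ0 * (j - i))))
    (hsz : ∀ ρ' ρ, D.Conn j 1 ρ' ρ → Ev ρ → (sg (bin ρ' ρ)).size ≤ D.s ^ (-(1 / t)))
    (hc2 : 0 < π.c2 → ∀ ρ' ρ, D.Conn j 1 ρ' ρ → Ev ρ →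
      sfR2 (D.lab j ρ') (sg (bin ρ' ρ)) (D.len j) ≤ D.s ^ (-((π.c2 - τ) * (j - i))))
    (hc0 : π.c2 = 0 → ∀ ρ' ρ, D.Conn j 1 ρ' ρ → Ev ρ →
      sfR2 (D.lab j ρ') (sg (bin ρ' ρ)) (D.len j) ≤ D.s ^ (-(κ0 * (j - i))) ∧
        sfR1 (D.lab j ρ') (sg (bin ρ' ρ)) ≤ D.s ^ (-((π.c1 - τ) * (j - i)))) :
    (D.P 1).pr Ev ≤ D.s ^ (-t) * (D.s ^ (κ0 * (j - i))) ^ ((2 : ℝ) / 3) + D.s ^ (1 / t) := by
  have hs := hD.core.hs
  -- all bins
  set B : Set β := {b | ∃ ρ' ρ, D.Conn j 1 ρ' ρ ∧ Ev ρ ∧ bin ρ' ρ = b} with hB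
  have hBfin : B.Finite := by
    refine (Set.finite_range fun x : D.Row j × D.Row 1 => bin x.1 x.2).subset ?_
    rintro b ⟨ρ', ρ, -, -, rfl⟩
    exact ⟨(ρ', ρ), rfl⟩
  have : Finite B := hBfin.to_subtype
  set Ub : B → D.Row j → Prop := fun b ρ' => ∃ h : (∃ ρ, D.Conn j 1 ρ' ρ ∧ Ev ρ), bin ρ' h.choose = b.1 with hUb
  set Sb : B → D.Row i → Prop := fun b ρ0 => ∃ ρ', Ub b ρ' ∧ D.Conn i j ρ0 ρ' with hSb
  have hcount : ∀ (A : Set B) (A' : Set β), (∀ b ∈ A, b.1 ∈ A') → A' ⊆ B → (A.ncard : ℝ) ≤ (A'.ncard : ℝ) := by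
    intro A A' h1 h2
    rw [← Set.ncard_image_of_injective A Subtype.val_injective]
    refine Nat.cast_le.2 (Set.ncard_le_ncard ?_ (hBfin.subset h2))
    rintro _ ⟨b, hb, rfl⟩
    exact h1 b hb
  have key := hD.aff.mincost i hi j hj hij ht B Sb Ub (fun b => sg b.1)
    (by
      rintro b b' ρ' ⟨h1, e1⟩ ⟨h2, e2⟩
      exact Subtype.ext (e1.symm.trans e2))
    (fun b ρ' hU ρ hc => ⟨ρ', hU, hc⟩)
    (fun ρ0 => (hcount _ _ (by
        rintro b ⟨ρ', ⟨h1, e1⟩, hc⟩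
        exact ⟨ρ', h1.choose, hc, h1.choose_spec.1, h1.choose_spec.2, e1⟩) (by
        rintro b ⟨ρ', ρ, -, h2, h3, h4⟩
        exact ⟨ρ', ρ, h2, h3, h4⟩)).trans (ha ρ0))
    (fun lam => (hcount _ _ (by
        rintro b ⟨ρ', ⟨h1, e1⟩, hl⟩
        exact ⟨ρ', h1.choose, hl, h1.choose_spec.1, h1.choose_spec.2, e1⟩) (by
        rintro b ⟨ρ', ρ, -, h2, h3, h4⟩
        exact ⟨ρ', ρ, h2, h3, h4⟩)).trans (hb lam))
    (by
      rintro ⟨b, ρ', ρ, h1, h2, rfl⟩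
      exact hsz ρ' ρ h1 h2)
    (by
      rintro h0 b ρ' ⟨h1, e1⟩
      rw [← e1]
      exact hc2 h0 ρ' _ h1.choose_spec.1 h1.choose_spec.2)
    (by
      rintro h0 b ρ' ⟨h1, e1⟩
      rw [← e1]
      exact hc0 h0 ρ' _ h1.choose_spec.1 h1.choose_spec.2)
  have hpred : D.Pred j 1 Ev (fun ρ' => ∃ b, Ub b ρ') := by
    intro ρ hE ρ' hc
    have hW : ∃ ρ, D.Conn j 1 ρ' ρ ∧ Ev ρ := ⟨ρ, hc, hE⟩
    exact ⟨⟨bin ρ' hW.choose, ρ', hW.choose, hW.choose_spec.1, hW.choose_spec.2, rfl⟩, hW, rfl⟩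
  have hsp := hD.core.sp j hj 1 hD.core.gate.1 hj1 Ev _ hpred
  refine hsp.trans ?_
  have h0 : 0 ≤ (D.P j).pr (fun ρ' => ∃ b, Ub b ρ') := ent_pr_nonneg _ _
  have := Real.rpow_le_rpow h0 key (show (0 : ℝ) ≤ 2 / 3 by norm_num)
  have h2 := mul_le_mul_of_nonneg_left this (Real.rpow_nonneg hs.1.le (-t))
  linarith

/-- LEAF SK1. **segment extraction, curvature cost** -/
theorem lay_extract (D : SfDoc) (π : SfPar) (C0 τ κ0 t i j : ℝ) (hD : D.Ok π C0 τ κ0 t) (hc : 0 < π.c2)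
    (hi : i ∈ D.G) (hj : j ∈ D.G) (hij : i < j) (hj1 : j < 1) (ht : t ≤ κ0 * (j - i))
    (Ev : D.Row 1 → Prop) (β : Type) (bin : D.Row j → D.Row 1 → β) (sg : β → SfTest)
    (ha : ∀ ρ0 : D.Row i, (({b | ∃ ρ' ρ, D.Conn i j ρ0 ρ' ∧ D.Conn j 1 ρ' ρ ∧ Ev ρ ∧ bin ρ' ρ = b} : Set β).ncard : ℝ)
      ≤ D.s ^ (-(κ0 * (j - i))))
    (hb : ∀ lam : SfTest, (({b | ∃ ρ' ρ, D.lab j ρ' = lam ∧ D.Conn j 1 ρ' ρ ∧ Ev ρ ∧ bin ρ' ρ = b} : Set β).ncard : ℝ)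
      ≤ D.s ^ (-(κ0 * (j - i))))
    (hsz : ∀ ρ' ρ, D.Conn j 1 ρ' ρ → Ev ρ → (sg (bin ρ' ρ)).size ≤ D.s ^ (-(1 / t)))
    (hcost : ∀ ρ' ρ, D.Conn j 1 ρ' ρ → Ev ρ →
      sfR2 (D.lab j ρ') (sg (bin ρ' ρ)) (D.len j) ≤ D.s ^ (-((π.c2 - τ) * (j - i)))) :
    (D.P 1).pr Ev ≤ D.s ^ (-t) * (D.s ^ (κ0 * (j - i))) ^ ((2 : ℝ) / 3) + D.s ^ (1 / t) :=
  lay_extract_aux D π C0 τ κ0 t i j hD hi hj hij hj1 ht Ev β bin sg ha hb hsz (fun _ => hcost)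
    (fun h0 => absurd h0 hc.ne')

/-- LEAF SK1. **segment extraction, linear cost** (`c2 = 0`) -/
theorem lay_extract_lin (D : SfDoc) (π : SfPar) (C0 τ κ0 t i j : ℝ) (hD : D.Ok π C0 τ κ0 t) (hc : π.c2 = 0)
    (hi : i ∈ D.G) (hj : j ∈ D.G) (hij : i < j) (hj1 : j < 1) (ht : t ≤ κ0 * (j - i))
    (Ev : D.Row 1 → Prop) (β : Type) (bin : D.Row j → D.Row 1 → β) (sg : β → SfTest)
    (ha : ∀ ρ0 : D.Row i, (({b | ∃ ρ' ρ, D.Conn i j ρ0 ρ' ∧ D.Conn j 1 ρ' ρ ∧ Ev ρ ∧ bin ρ' ρ = b} : Set β).ncard : ℝ)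
      ≤ D.s ^ (-(κ0 * (j - i))))
    (hb : ∀ lam : SfTest, (({b | ∃ ρ' ρ, D.lab j ρ' = lam ∧ D.Conn j 1 ρ' ρ ∧ Ev ρ ∧ bin ρ' ρ = b} : Set β).ncard : ℝ)
      ≤ D.s ^ (-(κ0 * (j - i))))
    (hsz : ∀ ρ' ρ, D.Conn j 1 ρ' ρ → Ev ρ → (sg (bin ρ' ρ)).size ≤ D.s ^ (-(1 / t)))
    (hcost : ∀ ρ' ρ, D.Conn j 1 ρ' ρ → Ev ρ →
      sfR2 (D.lab j ρ') (sg (bin ρ' ρ)) (D.len j) ≤ D.s ^ (-(κ0 * (j - i))) ∧
        sfR1 (D.lab j ρ') (sg (bin ρ' ρ)) ≤ D.s ^ (-((π.c1 - τ) * (j - i)))) :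
    (D.P 1).pr Ev ≤ D.s ^ (-t) * (D.s ^ (κ0 * (j - i))) ^ ((2 : ℝ) / 3) + D.s ^ (1 / t) :=
  lay_extract_aux D π C0 τ κ0 t i j hD hi hj hij hj1 ht Ev β bin sg ha hb hsz
    (fun h0 => absurd hc h0.ne') (fun _ => hcost)

/-- LEAF SK2. numbers within `r` of `c` meet at most `2 r / g + 2` cells of mesh `g` -/
theorem lay_floor_count (S : Set ℝ) (c r g : ℝ) (hg : 0 < g) (hr : 0 ≤ r) (h : ∀ x ∈ S, |x - c| ≤ r) :
    ((fun x : ℝ => ⌊x / g⌋) '' S).Finite ∧ (((fun x : ℝ => ⌊x / g⌋) '' S).ncard : ℝ) ≤ 2 * r / g + 2 := by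
  have hsub : (fun x : ℝ => ⌊x / g⌋) '' S ⊆ (Finset.Icc ⌊(c - r) / g⌋ ⌊(c + r) / g⌋ : Set ℤ) := by
    rintro _ ⟨x, hx, rfl⟩
    have hx' := abs_le.1 (h x hx)
    simp only [Finset.coe_Icc, Set.mem_Icc]
    constructor
    · exact Int.floor_le_floor (div_le_div_of_nonneg_right (by linarith) hg.le)
    · exact Int.floor_le_floor (div_le_div_of_nonneg_right (by linarith) hg.le)
  refine ⟨(Finset.finite_toSet _).subset hsub, ?_⟩
  have h1 : ((fun x : ℝ => ⌊x / g⌋) '' S).ncard ≤ (Finset.Icc ⌊(c - r) / g⌋ ⌊(c + r) / g⌋).card := by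
    rw [← Set.ncard_coe_finset]
    exact Set.ncard_le_ncard hsub (Finset.finite_toSet _)
  have h2 : ((Finset.Icc ⌊(c - r) / g⌋ ⌊(c + r) / g⌋).card : ℝ) ≤ 2 * r / g + 2 := by
    rw [Int.card_Icc]
    have hle : ⌊(c - r) / g⌋ ≤ ⌊(c + r) / g⌋ :=
      Int.floor_le_floor (div_le_div_of_nonneg_right (by linarith) hg.le)
    have h3 : (((⌊(c + r) / g⌋ + 1 - ⌊(c - r) / g⌋).toNat : ℤ) : ℝ) = ((⌊(c + r) / g⌋ + 1 - ⌊(c - r) / g⌋ : ℤ) : ℝ) := by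
      rw [Int.toNat_of_nonneg (by linarith)]
    have h4 : (((⌊(c + r) / g⌋ + 1 - ⌊(c - r) / g⌋).toNat : ℕ) : ℝ) = (((⌊(c + r) / g⌋ + 1 - ⌊(c - r) / g⌋).toNat : ℤ) : ℝ) := by
      push_cast
      rfl
    rw [h4, h3]
    push_cast
    have h5 := Int.floor_le ((c + r) / g)
    have h6 := Int.lt_floor_add_one ((c - r) / g)
    have h7 : (c + r) / g - (c - r) / g = 2 * r / g := by
      field_simp
      ring
    linarith
  exact (Nat.cast_le.2 h1).trans h2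

/-- LEAF SK2. an `l`-separated set inside an interval of length `Λ` has at most `Λ / l + 1` points -/
theorem lay_sep_count (S : Set ℝ) (x0 Λ l : ℝ) (hl : 0 < l) (hΛ : 0 ≤ Λ) (h : ∀ x ∈ S, x0 ≤ x ∧ x ≤ x0 + Λ)
    (hs : ∀ x ∈ S, ∀ y ∈ S, x ≠ y → l ≤ |x - y|) : S.Finite ∧ (S.ncard : ℝ) ≤ Λ / l + 1 := by
  set F : ℝ → ℤ := fun x => ⌊(x - x0) / l⌋ with hF
  have hinj : Set.InjOn F S := by
    intro x hx y hy hxy
    by_contra hne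
    have h1 := hs x hx y hy hne
    have a1 := Int.floor_le ((x - x0) / l)
    have a2 := Int.lt_floor_add_one ((x - x0) / l)
    have b1 := Int.floor_le ((y - x0) / l)
    have b2 := Int.lt_floor_add_one ((y - x0) / l)
    have e : (⌊(x - x0) / l⌋ : ℝ) = (⌊(y - x0) / l⌋ : ℝ) := by exact_mod_cast hxy
    have h2 : |(x - x0) / l - (y - x0) / l| < 1 := by
      rw [abs_lt]
      constructor <;> linarith
    have h3 : (x - x0) / l - (y - x0) / l = (x - y) / l := by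
      field_simp
      ring
    rw [h3, abs_div, abs_of_pos hl, div_lt_one hl] at h2
    linarith
  have hsub : F '' S ⊆ (Finset.Icc 0 ⌊Λ / l⌋ : Set ℤ) := by
    rintro _ ⟨x, hx, rfl⟩
    obtain ⟨h1, h2⟩ := h x hx
    simp only [Finset.coe_Icc, Set.mem_Icc]
    constructor
    · exact Int.floor_nonneg.2 (div_nonneg (by linarith) hl.le)
    · exact Int.floor_le_floor (div_le_div_of_nonneg_right (by linarith) hl.le)
  have hfin : (F '' S).Finite := (Finset.finite_toSet _).subset hsub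
  refine ⟨hfin.of_finite_image hinj, ?_⟩
  rw [← hinj.ncard_image]
  have h1 : (F '' S).ncard ≤ (Finset.Icc 0 ⌊Λ / l⌋).card := by
    rw [← Set.ncard_coe_finset]
    exact Set.ncard_le_ncard hsub (Finset.finite_toSet _)
  refine (Nat.cast_le.2 h1).trans ?_
  rw [Int.card_Icc]
  have hnn : 0 ≤ ⌊Λ / l⌋ := Int.floor_nonneg.2 (div_nonneg hΛ hl.le)
  have h4 : (((⌊Λ / l⌋ + 1 - 0).toNat : ℕ) : ℝ) = ((⌊Λ / l⌋ + 1 - 0 : ℤ) : ℝ) := by
    have : (((⌊Λ / l⌋ + 1 - 0).toNat : ℤ) : ℝ) = ((⌊Λ / l⌋ + 1 - 0 : ℤ) : ℝ) := by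
      rw [Int.toNat_of_nonneg (by linarith)]
    rw [← this]
    push_cast
    rfl
  rw [h4]
  push_cast
  have := Int.floor_le (Λ / l)
  linarith

/-- LEAF SK2. -/
theorem lay_rpow_anti {s x y : ℝ} (h0 : 0 < s) (h1 : s < 1) (h : y ≤ x) : s ^ x ≤ s ^ y :=
  Real.rpow_le_rpow_of_exponent_ge h0 h1.le h

/-- LEAF SK2. a constant `≤ 10` costs one `t` -/
theorem lay_rpow_abs {s t : ℝ} (h0 : 0 < s) (h10 : (10 : ℝ) ≤ s ^ (-t)) (x : ℝ) : 10 * s ^ x ≤ s ^ (x - t) := by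
  rw [sub_eq_add_neg, Real.rpow_add h0, mul_comm]
  exact mul_le_mul_of_nonneg_left h10 (Real.rpow_nonneg h0.le x)

/-- LEAF SK2. union over a list: if `F z` has at most `m` elements for each of at most `N` values `z` -/
theorem lay_ncard_image_le {α β : Type} (L : Finset α) (F : α → Set β) (m N : ℝ) (hm : 0 ≤ m)
    (hL : (L.card : ℝ) ≤ N) (hF : ∀ z ∈ L, (F z).Finite ∧ ((F z).ncard : ℝ) ≤ m) :
    (⋃ z ∈ L, F z).Finite ∧ ((⋃ z ∈ L, F z).ncard : ℝ) ≤ N * m := by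
  have key : (⋃ z ∈ L, F z).Finite ∧ ((⋃ z ∈ L, F z).ncard : ℝ) ≤ L.card * m := by
    clear hL
    induction L using Finset.induction_on with
    | empty => simp
    | insert a L ha ih =>
      obtain ⟨f1, c1⟩ := ih fun z hz => hF z (Finset.mem_insert_of_mem hz)
      obtain ⟨f2, c2⟩ := hF a (Finset.mem_insert_self a L)
      have e : (⋃ z ∈ insert a L, F z) = F a ∪ ⋃ z ∈ L, F z := by
        ext x
        simp
      rw [e, Finset.card_insert_of_notMem ha]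
      refine ⟨f2.union f1, ?_⟩
      have := Set.ncard_union_le (F a) (⋃ z ∈ L, F z)
      have h2 : ((F a ∪ ⋃ z ∈ L, F z).ncard : ℝ) ≤ ((F a).ncard : ℝ) + ((⋃ z ∈ L, F z).ncard : ℝ) := by
        exact_mod_cast this
      push_cast
      linarith
  exact ⟨key.1, key.2.trans (mul_le_mul_of_nonneg_right hL hm)⟩

/-- LEAF SK2. the scale threshold of the margin convention (`s0 = 10^(-1/t)`) -/
theorem lay_s0 (t : ℝ) (ht : 0 < t) : ∃ s0 : ℝ, 0 < s0 ∧ ∀ s : ℝ, 0 < s → s < s0 → (10 : ℝ) ≤ s ^ (-t) := by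
  refine ⟨(10 : ℝ) ^ (-(1 / t)), by positivity, fun s hs hlt => ?_⟩
  have h1 := Real.rpow_lt_rpow_of_neg hs hlt (show -t < 0 by linarith)
  rw [← Real.rpow_mul (by norm_num)] at h1
  have e : -(1 / t) * -t = 1 := by
    field_simp
  rw [e, Real.rpow_one] at h1
  exact h1.le

/-- LEAF SK2. the closing numerics of `lay_conf` and (by `s^x ≤ s^(x-5t) + s^(1/t)`) of `lay_extract`:
`s^(1/t) ≤ s^(x-5t)`; `(2 y)^(2/3) ≤ 2 y^(2/3)`; total `≤ 3 s^(2x/3 - 5t) ≤ s^(2x/3 - 6t) ≤ s^(x/2)`. -/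
theorem lay_close {s t x : ℝ} (h0 : 0 < s) (h1 : s < 1) (ht : 0 < t) (h10 : (10 : ℝ) ≤ s ^ (-t)) (hx : 36 * t ≤ x)
    (hx1 : x ≤ 1 / t) :
    s ^ (-t) * (s ^ (x - 5 * t) + s ^ (1 / t)) ^ ((2 : ℝ) / 3) + s ^ (1 / t) ≤ s ^ (x / 2) := by
  have a1 : s ^ (1 / t) ≤ s ^ (x - 5 * t) := lay_rpow_anti h0 h1 (by linarith)
  have hy0 : 0 ≤ s ^ (x - 5 * t) := Real.rpow_nonneg h0.le _
  have a2 : (s ^ (x - 5 * t) + s ^ (1 / t)) ^ ((2 : ℝ) / 3) ≤ (2 * s ^ (x - 5 * t)) ^ ((2 : ℝ) / 3) :=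
    Real.rpow_le_rpow (add_nonneg hy0 (Real.rpow_nonneg h0.le _)) (by linarith) (by norm_num)
  have a3 : (2 * s ^ (x - 5 * t)) ^ ((2 : ℝ) / 3) ≤ 2 * s ^ ((x - 5 * t) * (2 / 3)) := by
    rw [Real.mul_rpow (by norm_num) hy0, ← Real.rpow_mul h0.le]
    refine mul_le_mul_of_nonneg_right ?_ (Real.rpow_nonneg h0.le _)
    calc (2 : ℝ) ^ ((2 : ℝ) / 3) ≤ (2 : ℝ) ^ (1 : ℝ) := Real.rpow_le_rpow_of_exponent_le (by norm_num) (by norm_num)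
      _ = 2 := Real.rpow_one 2
  set w : ℝ := (x - 5 * t) * (2 / 3) - t with hw
  have a4 : s ^ (-t) * (2 * s ^ ((x - 5 * t) * (2 / 3))) = 2 * s ^ w := by
    have e : w = (x - 5 * t) * (2 / 3) + -t := by rw [hw]; ring
    rw [e, Real.rpow_add h0]
    ring
  have a5 : s ^ (1 / t) ≤ s ^ w := lay_rpow_anti h0 h1 (by rw [hw]; linarith)
  have a6 : 10 * s ^ w ≤ s ^ (w - t) := lay_rpow_abs h0 h10 w
  have a7 : s ^ (w - t) ≤ s ^ (x / 2) := lay_rpow_anti h0 h1 (by rw [hw]; linarith)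
  have hw0 : 0 ≤ s ^ w := Real.rpow_nonneg h0.le _
  have a8 : s ^ (-t) * (s ^ (x - 5 * t) + s ^ (1 / t)) ^ ((2 : ℝ) / 3) ≤ 2 * s ^ w := by
    rw [← a4]
    exact mul_le_mul_of_nonneg_left (a2.trans a3) (Real.rpow_nonneg h0.le _)
  linarith

/-- LEAF SK3. **time confinement**: if, per `i`-row and side value, the terminal time of the completions in `Ev` lies in an interval of length `8 s^j`, then `Ev` is small.
`U` = `j`-rows with a completion in `Ev`, `S` = their `i`-predecessors.  Times of the `U`-rows below `ρ0`: by `trans` the completion is connected to `ρ0`, its side lies in the list of `RowPr` (`≤ s^-t` values `x`);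
`base (j,1)`: `T_j ∈ [I ρ0 x - len j, I ρ0 x + 8 s^j]`, length `≤ 9 s^(j-t)`, `grid`: separation `len j ≥ s^(j+t)`; `lay_sep_count`: `≤ 9 s^(-2t) + 1 ≤ s^(-3t)`; `lay_ncard_image_le`: `M = s^(-4t)`.   `tp (i,j)` with `pr S ≤ 1`, then `sp (j,1)`. -/
theorem lay_conf (D : SfDoc) (π : SfPar) (C0 t i j : ℝ) (hD : D.Core π C0 t) (ht : 0 < t) (h10 : (10 : ℝ) ≤ D.s ^ (-t))
    (hi : i ∈ D.G) (hj : j ∈ D.G) (hij : i < j) (hj1 : j < 1)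
    (Ev : D.Row 1 → Prop) (ζ : Type) (Z : D.Row 1 → ζ) (E : D.Row 1 → Prop) (hZ : D.RowPr i E Z (D.s ^ (-t)))
    (I : D.Row i → ζ → ℝ)
    (h : ∀ ρ0 ρ, D.Conn i 1 ρ0 ρ → Ev ρ → E ρ ∧ I ρ0 (Z ρ) ≤ D.T 1 ρ ∧ D.T 1 ρ ≤ I ρ0 (Z ρ) + 8 * D.s ^ j) :
    (D.P 1).pr Ev
      ≤ D.s ^ (-t) * (D.s ^ (π.d * (j - i) - 5 * t) + D.s ^ (1 / t)) ^ ((2 : ℝ) / 3) + D.s ^ (1 / t) := by
  have hs := hD.hs
  have h1G := hD.gate.1
  set U : D.Row j → Prop := fun ρ' => ∃ ρ, D.Conn j 1 ρ' ρ ∧ Ev ρ with hU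
  set S : D.Row i → Prop := fun ρ0 => ∃ ρ', U ρ' ∧ D.Conn i j ρ0 ρ' with hS
  have hpred : D.Pred i j U S := fun ρ' hu ρ0 hc => ⟨ρ', hu, hc⟩
  have hcount : ∀ ρ0, S ρ0 → (({t' | ∃ ρ', U ρ' ∧ D.Conn i j ρ0 ρ' ∧ D.T j ρ' = t'} : Set ℝ).ncard : ℝ)
      ≤ D.s ^ (-(4 * t)) := by
    intro ρ0 _
    obtain ⟨L, hL, hmem⟩ := hZ ρ0
    set F : ζ → Set ℝ := fun x => {t' | (∃ ρ' : D.Row j, D.T j ρ' = t') ∧ I ρ0 x - D.s ^ (j - t) ≤ t' ∧
      t' ≤ I ρ0 x - D.s ^ (j - t) + 9 * D.s ^ (j - t)} with hF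
    have hl : 0 < D.s ^ (j + t) := Real.rpow_pos_of_pos hs.1 _
    have hΛ : 0 ≤ 9 * D.s ^ (j - t) := mul_nonneg (by norm_num) (Real.rpow_nonneg hs.1.le _)
    have hFx : ∀ x ∈ L, (F x).Finite ∧ ((F x).ncard : ℝ) ≤ D.s ^ (-(3 * t)) := by
      intro x _
      obtain ⟨f1, c1⟩ := lay_sep_count (F x) (I ρ0 x - D.s ^ (j - t)) (9 * D.s ^ (j - t)) (D.s ^ (j + t)) hl hΛ
        (fun y hy => hy.2) (by
          rintro y ⟨⟨ρ1, rfl⟩, -⟩ y' ⟨⟨ρ2, rfl⟩, -⟩ hne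
          exact ((hD.hlen.2 j hj).1).trans (hD.grid j hj ρ1 ρ2 hne))
      refine ⟨f1, c1.trans ?_⟩
      have e1 : 9 * D.s ^ (j - t) / D.s ^ (j + t) = 9 * D.s ^ (-(2 * t)) := by
        rw [mul_div_assoc, ← Real.rpow_sub hs.1]
        congr 2
        ring
      rw [e1]
      have e2 : (1 : ℝ) ≤ D.s ^ (-(2 * t)) := by
        rw [← Real.rpow_zero D.s]
        exact lay_rpow_anti hs.1 hs.2 (by linarith)
      have e3 := lay_rpow_abs hs.1 h10 (-(2 * t))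
      have e4 : -(2 * t) - t = -(3 * t) := by ring
      rw [e4] at e3
      linarith
    obtain ⟨f2, c2⟩ := lay_ncard_image_le L F (D.s ^ (-(3 * t))) (D.s ^ (-t)) (Real.rpow_nonneg hs.1.le _) hL hFx
    have hsub : ({t' | ∃ ρ', U ρ' ∧ D.Conn i j ρ0 ρ' ∧ D.T j ρ' = t'} : Set ℝ) ⊆ ⋃ x ∈ L, F x := by
      rintro _ ⟨ρ', ⟨ρ, c1, hE⟩, c0, rfl⟩
      have hc := hD.trans i hi j hj 1 h1G hij hj1 ρ0 ρ' ρ c0 c1
      obtain ⟨g1, g2, g3⟩ := h ρ0 ρ hc hE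
      obtain ⟨m1, m2, -, -⟩ := hD.base j hj 1 h1G hj1 ρ' ρ c1
      have hl1 : 0 < D.len 1 := by rw [hD.hlen.1]; exact hs.1
      have n3 := (hD.hlen.2 j hj).2
      have hsj : D.s ^ j ≤ D.s ^ (j - t) := lay_rpow_anti hs.1 hs.2 (by linarith)
      refine Set.mem_iUnion₂.2 ⟨Z ρ, hmem ρ hc g1, ⟨ρ', rfl⟩, by linarith, by linarith⟩
    have h3 := Set.ncard_le_ncard hsub f2
    have e5 : D.s ^ (-t) * D.s ^ (-(3 * t)) = D.s ^ (-(4 * t)) := by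
      rw [← Real.rpow_add hs.1]
      congr 1
      ring
    rw [e5] at c2
    exact (Nat.cast_le.2 h3).trans c2
  have htp := hD.tp i hi j hj hij U S (D.s ^ (-(4 * t))) hpred hcount
  have hS1 : (D.P i).pr S ≤ 1 := ent_pr_le_one _ _
  have hU' : (D.P j).pr U ≤ D.s ^ (π.d * (j - i) - 5 * t) + D.s ^ (1 / t) := by
    refine htp.trans ?_
    have e6 : D.s ^ (-t) * D.s ^ (-(4 * t)) * D.s ^ (π.d * (j - i)) = D.s ^ (π.d * (j - i) - 5 * t) := by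
      rw [← Real.rpow_add hs.1, ← Real.rpow_add hs.1]
      congr 1
      ring
    rw [e6]
    have := mul_le_mul_of_nonneg_left hS1 (Real.rpow_nonneg hs.1.le (π.d * (j - i) - 5 * t))
    linarith
  have hpred2 : D.Pred j 1 Ev U := fun ρ hE ρ' hc => ⟨ρ, hc, hE⟩
  have hsp := hD.sp j hj 1 h1G hj1 Ev U hpred2
  refine hsp.trans ?_
  have h0 : 0 ≤ (D.P j).pr U := ent_pr_nonneg _ _
  have := Real.rpow_le_rpow h0 hU' (show (0 : ℝ) ≤ 2 / 3 by norm_num)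
  have h2 := mul_le_mul_of_nonneg_left this (Real.rpow_nonneg hs.1.le (-t))
  linarith

/-- LEAF SK4. the prefactor of the curvature cost (`hr`, `hf`, `b2 = n - 2u`) -/
theorem lay_pref2 (D : SfDoc) (π : SfPar) (C0 τ κ0 t i : ℝ) (hD : D.Ok π C0 τ κ0 t) (hi : i ∈ D.G) :
    0 ≤ D.r i ^ 2 / D.f i ∧ D.r i ^ 2 / D.f i ≤ D.s ^ (-π.b2 i - 3 * t) := by
  have hs := hD.core.hs
  obtain ⟨hr0, hf0⟩ := hD.core.hw.2.2 i hi
  have hr := (hD.aff.hr i hi).2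
  have hf := (hD.aff.hf i hi).1
  refine ⟨by positivity, ?_⟩
  rw [div_le_iff₀ hf0]
  have e : -π.b2 i - 3 * t + (π.n i + t) = (π.u i - t) + (π.u i - t) := by
    unfold SfPar.b2 SfPar.n SfPar.u
    ring
  calc D.r i ^ 2 = D.r i * D.r i := sq _
    _ ≤ D.s ^ (π.u i - t) * D.s ^ (π.u i - t) := mul_le_mul hr hr hr0.le (Real.rpow_nonneg hs.1.le _)
    _ = D.s ^ (-π.b2 i - 3 * t) * D.s ^ (π.n i + t) := by
        rw [← Real.rpow_add hs.1, ← Real.rpow_add hs.1, e]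
    _ ≤ D.s ^ (-π.b2 i - 3 * t) * D.f i := mul_le_mul_of_nonneg_left hf (Real.rpow_nonneg hs.1.le _)

/-- LEAF SK4. the prefactor of the linear cost (`b1 = n - u`) -/
theorem lay_pref1 (D : SfDoc) (π : SfPar) (C0 τ κ0 t i : ℝ) (hD : D.Ok π C0 τ κ0 t) (hi : i ∈ D.G) :
    0 ≤ D.r i / D.f i ∧ D.r i / D.f i ≤ D.s ^ (-π.b1 i - 2 * t) := by
  have hs := hD.core.hs
  obtain ⟨hr0, hf0⟩ := hD.core.hw.2.2 i hi
  have hr := (hD.aff.hr i hi).2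
  have hf := (hD.aff.hf i hi).1
  refine ⟨by positivity, ?_⟩
  rw [div_le_iff₀ hf0]
  have e : -π.b1 i - 2 * t + (π.n i + t) = π.u i - t := by
    unfold SfPar.b1 SfPar.n SfPar.u
    ring
  calc D.r i ≤ D.s ^ (π.u i - t) := hr
    _ = D.s ^ (-π.b1 i - 2 * t) * D.s ^ (π.n i + t) := by rw [← Real.rpow_add hs.1, e]
    _ ≤ D.s ^ (-π.b1 i - 2 * t) * D.f i := mul_le_mul_of_nonneg_left hf (Real.rpow_nonneg hs.1.le _)

/-- LEAF SK4. nested times (`base`, `hlen`; `len j > 0`) -/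
theorem lay_near (D : SfDoc) (π : SfPar) (C0 t i j : ℝ) (hD : D.Core π C0 t) (hi : i ∈ D.G) (hj : j ∈ D.G) (hij : i < j)
    (ρ : D.Row i) (ρ' : D.Row j) (h : D.Conn i j ρ ρ') :
    0 ≤ D.T j ρ' - D.T i ρ ∧ D.T j ρ' - D.T i ρ < D.len i ∧ D.len i ≤ D.s ^ (i - t) := by
  obtain ⟨h1, h2, -, -⟩ := hD.base i hi j hj hij ρ ρ' h
  have hl : 0 < D.len j := lt_of_lt_of_le (Real.rpow_pos_of_pos hD.hs.1 _) (hD.hlen.2 j hj).1
  exact ⟨by linarith, by linarith, (hD.hlen.2 i hi).2⟩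

/-- LEAF SK4. the starting time is determined by the time of the end row (`lay_near` twice + `grid`) -/
theorem lay_start (D : SfDoc) (π : SfPar) (C0 t i j : ℝ) (hD : D.Core π C0 t) (hi : i ∈ D.G) (hj : j ∈ D.G) (hij : i < j)
    (ρ0 ρ1 : D.Row i) (ρ' ρ'' : D.Row j) (h0 : D.Conn i j ρ0 ρ') (h1 : D.Conn i j ρ1 ρ'') (hT : D.T j ρ' = D.T j ρ'') :
    D.T i ρ0 = D.T i ρ1 := by
  by_contra hne
  have hg := hD.grid i hi ρ0 ρ1 hne
  obtain ⟨a1, a2, -⟩ := lay_near D π C0 t i j hD hi hj hij ρ0 ρ' h0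
  obtain ⟨b1, b2, -⟩ := lay_near D π C0 t i j hD hi hj hij ρ1 ρ'' h1
  have : |D.T i ρ0 - D.T i ρ1| < D.len i := by
    rw [abs_lt]
    constructor <;> linarith
  linarith

/-! ## the situation of the graph form -/

/-- the shear that is subtracted: time `T`, coefficient `be` at the time `T`, slope `K`, linear coefficient `al` -/
def layShear (T be K al : ℝ) : SfTest := ⟨T, 0, 0, 0, 0, 0, al, be, K, 0, 0⟩

/-- the event of the graph form -/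
def SfDoc.layEv (D : SfDoc) (π : SfPar) (a z : ℝ) {ζ : Type} (Z : D.Row 1 → ζ) (E : D.Row 1 → Prop) (v sl : ζ → ℝ)
    (ρ : D.Row 1) : Prop :=
  E ρ ∧ |(D.lab 1 ρ).be - (v (Z ρ) + sl (Z ρ) * D.T 1 ρ)| ≤ D.s ^ (π.b2 a + z)

/-- the standing hypotheses of the graph form at the depth `a`, width exponent `z`, slope allowance `χ` -/
structure LaySit (π : SfPar) (C0 τ κ0 t χ : ℝ) (D : SfDoc) (a z : ℝ) {ζ : Type} (sl : ζ → ℝ) : Prop where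
  val : π.Valid
  ok : D.Ok π C0 τ κ0 t
  tpos : 0 < t
  t1 : t ≤ 1 / (|C0| + 4)
  h10 : (10 : ℝ) ≤ D.s ^ (-t)
  ha : a ∈ D.G
  hz : 0 < z
  hsl0 : ∀ x, |sl x| ≤ D.s ^ laySlE π a z χ

/-- the slope bound for `c2 ≤ 1` -/
theorem LaySit.hsl {π : SfPar} {C0 τ κ0 t χ : ℝ} {D : SfDoc} {a z : ℝ} {ζ : Type} {sl : ζ → ℝ}
    (H : LaySit π C0 τ κ0 t χ D a z sl) (h1 : π.c2 ≤ 1) (x : ζ) : |sl x| ≤ D.s ^ (π.b2 a - a - χ * z) := by
  have := H.hsl0 x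
  rwa [laySlE, if_neg (not_lt.2 h1)] at this

/-- the slope bound for `c2 > 1` -/
theorem LaySit.hslG {π : SfPar} {C0 τ κ0 t χ : ℝ} {D : SfDoc} {a z : ℝ} {ζ : Type} {sl : ζ → ℝ}
    (H : LaySit π C0 τ κ0 t χ D a z sl) (h1 : 1 < π.c2) (x : ζ) : |sl x| ≤ D.s ^ (-(π.c2 + 5)) := by
  have := H.hsl0 x
  rwa [laySlE, if_pos h1] at this

theorem lay_sepkit_eqns_cite : True := by
  have := @layShear.eq_1
  have := @SfDoc.layEv.eq_1
  trivial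

/-- LEAF SK4. -/
theorem lay_shear_size (T be K al M : ℝ) (h1 : |be| ≤ M) (h2 : |K| ≤ M) (h3 : |al| ≤ M) : (layShear T be K al).size ≤ M := by
  have h0 : 0 ≤ M := (abs_nonneg _).trans h1
  unfold SfTest.size layShear
  simp only [abs_zero, max_le_iff]
  exact ⟨h0, h0, h0, h0, h0, h3, h1, h2⟩

/-- LEAF SK4. -/
theorem lay_shear_R2 (lam : SfTest) (T be K al l : ℝ) :
    sfR2 lam (layShear T be K al) l = lam.r ^ 2 / lam.f * (|lam.be - (be + (lam.T - T) * K)| + l * |lam.K - K|) := by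
  unfold sfR2 SfTest.beAt layShear
  rfl

/-- LEAF SK4. -/
theorem lay_shear_R1 (lam : SfTest) (T al : ℝ) : sfR1 lam (layShear T 0 0 al) = lam.r / lam.f * |lam.Pc - al| := by
  unfold sfR1 SfTest.PdAt SfTest.beAt layShear
  simp

/-- LEAF SK4. rounding: `|⌊y/g⌋ g - y| ≤ g` -/
theorem lay_round (y g : ℝ) (hg : 0 < g) : |(⌊y / g⌋ : ℝ) * g - y| ≤ g := by
  have h1 := Int.floor_le (y / g)
  have h2 := Int.lt_floor_add_one (y / g)
  rw [le_div_iff₀ hg] at h1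
  rw [div_lt_iff₀ hg] at h2
  rw [abs_le]
  constructor <;> linarith

/-- **S1 (nearly vertical lines).**  LEAF SK3.   One time interval of length `s^(a+y)` predicted by the side has probability `≤ s^(d y / 2)`.
`lay_conf` with `i = a`, `j = a + y`, `I ρ0 = I`; `lay_close` with `x = d y` (`y < 1`, `d ≤ 1`); `t0 = min (d y0 / 36) 1`, `s0` from `lay_s0`. -/
theorem lay_sep_time (π : SfPar) (hπ : π.Valid) (C0 y0 : ℝ) (hy0 : 0 < y0) :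
    ∃ t0 : ℝ, 0 < t0 ∧ ∀ t : ℝ, 0 < t → t ≤ t0 → ∃ s0 : ℝ, 0 < s0 ∧ ∀ D : SfDoc, D.s < s0 → D.Core π C0 t →
      ∀ a y : ℝ, y0 ≤ y → a ∈ D.G → a + y ∈ D.G → a + y < 1 →
      ∀ (ζ : Type) (Z : D.Row 1 → ζ) (E : D.Row 1 → Prop), D.RowPr a E Z (D.s ^ (-t)) → ∀ I : ζ → ℝ,
        (D.P 1).pr (fun ρ => E ρ ∧ I (Z ρ) ≤ D.T 1 ρ ∧ D.T 1 ρ ≤ I (Z ρ) + D.s ^ (a + y)) ≤ D.s ^ (π.d * y / 2) := by
  obtain ⟨hd0, hd1⟩ := hπ.d1
  refine ⟨min (π.d * y0 / 36) 1, lt_min (by positivity) one_pos, ?_⟩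
  intro t ht htt0
  have e1 : t ≤ π.d * y0 / 36 := htt0.trans (min_le_left _ _)
  have e2 : t ≤ 1 := htt0.trans (min_le_right _ _)
  obtain ⟨s0, hs0, hs⟩ := lay_s0 t ht
  refine ⟨s0, hs0, ?_⟩
  intro D hDs hD a y hy haG hjG hj1 ζ Z E hZ I
  have hs01 := hD.hs
  have h10 := hs D.s hs01.1 hDs
  have ha0 : 0 ≤ a := (hD.gate.2 a haG).1
  have hy' : 0 < y := lt_of_lt_of_le hy0 hy
  have key := lay_conf D π C0 t a (a + y) hD ht h10 haG hjG (by linarith) hj1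
    (fun ρ => E ρ ∧ I (Z ρ) ≤ D.T 1 ρ ∧ D.T 1 ρ ≤ I (Z ρ) + D.s ^ (a + y)) ζ Z E hZ (fun _ => I)
    (by
      rintro ρ0 ρ - ⟨g1, g2, g3⟩
      have := Real.rpow_nonneg hs01.1.le (a + y)
      exact ⟨g1, g2, by linarith⟩)
  have e3 : a + y - a = y := by ring
  rw [e3] at key
  refine key.trans (lay_close hs01.1 hs01.2 ht h10 ?_ ?_)
  · have := mul_le_mul_of_nonneg_left hy hd0.le
    linarith
  · rw [le_div_iff₀ ht]
    have h1 : π.d * y ≤ 1 := by nlinarith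
    nlinarith [mul_nonneg hd0.le hy'.le]

end Claimed.Agent.R256
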