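import Claimed.Agent.R256.Nm.Defs
import Claimed.Agent.R255.Iso.StarCopies

/-!
# Row 256, unit LAY (04B): DEFINITIONS of the contract      (chief helper189)

Imports READ ONLY: `Soft/Doc` (helper19: `SfDoc`, `SfPar`, `SfDoc.Ok`), `Int/Defs` (helper196: `Tan`, `Tan.Adm`, `Tan.Avoid`, `Tan.Cross`), `Nm/Defs` (helper118: `SfDoc.RowPr`, `SfDoc.LabPr`), `R255` (`FLaw`, `star`).

## A. separation, stated on the operator-free `SfDoc`  (no canonical name is needed)
* `D.RowPr i E Z N` (Nm/Defs)  on the event `E` every row of the gate `i` sees at most `N` values of the observation `Z` of the final rows connected to it  ("starting rows know the side"; `E` = success of the extra predictions of an exact side).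
* `D.LabPr j E Z (fun _ => ()) N` (Nm/Defs)  the same for the LABELS of the gate `j`  (only for `c = 1`: "the left slack makes `λ_j` predict the coarse side").
* `LaySep π C0 lb`  graph form of names:separation, quadratic equality family: an affine trajectory `t ↦ v(Z) + sl(Z) t` of moderate slope is met by `β_1(T_1)` within `s^(b(a)+z)` with probability `≤ s^(e1 z)`.
* `LaySepL π C0`    pure linear family: a value `v(Z)` is met by the terminal linear coefficient within `s^(b_1(a)+z)` with probability `≤ s^(e1 z)`.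
  ORDER OF QUANTIFIERS:  `∃ τ χ cs` (cost improvement asked from `SfExit`, slope allowance, gate coefficients; depend on `π` only)  `∀ κ0` (answer of `SfExit`)  `∃ e1`  `∀ z0 ∃ t0 ∀ t ≤ t0 ∃ s0 ∀ D`.   `e1` does NOT depend on `z`.

## B. the grid datum  `LayGr`  = names of ONE finite law on a grid of roots `(a_i, v_k) = (a_0 + i Ga h, v_0 + k Kv h)`, one gap `h`, `δ = s^h`
  law `P` of a single experiment (final law, after flattening), side `Z i`, stored mark `mks i` (both independent of `k`), representative root name `Cs i k`, common phase `F i k` (functions of the side),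
  actual root name `Ca i k` (`Ca (i+1) k` is the child name that reads the record), actual angular cell `Xa k q` `= X^(v_k + q h)`, child names `O`, displays `dsp`, width names `Wd`.
* `g.tan i k : Tan`  the tangent datum at the root `(i,k)`: the replica law `P.star (Z i) M`.
* `g.In na nv K Kf RQ RX B0 N0`  ENTRY from Nm (04A): the list relations (reports 848 X1, X7; 873 X10, X11), as `NVal` with ONE list size `N0`.
-/

set_option autoImplicit false

namespace Claimed.Agent.R256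

open Claimed.Agent.R255
open Claimed.Agent.R255.FLaw (pair)
open scoped BigOperators
open Classical

/-! ## A. separation on `SfDoc` -/

/-- exponent of the slope bound of the predicted trajectory.   For `c2 > 1` the slope `k_a = [K_1]` of the frame of the names is part of the prediction (04 l.66-69) and it is only polynomially bounded (defect found by helper51); the proof for `c2 > 1` uses the bound only for the size of the subtracted shear. -/
noncomputable def laySlE (π : SfPar) (a z χ : ℝ) : ℝ := if 1 < π.c2 then -(π.c2 + 5) else π.b2 a - a - χ * z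

/-- **graph form of the separation, quadratic equality family** (`lb = true`: label prediction is also granted) -/
def LaySep (π : SfPar) (C0 : ℝ) (lb : Bool) : Prop :=
  ∃ (τ χ : ℝ) (cs : Finset ℝ), 0 < τ ∧ 0 < χ ∧ χ < 1 ∧ (∀ c ∈ cs, 0 ≤ c) ∧
    ∀ κ0 : ℝ, 0 < κ0 → ∃ e1 : ℝ, 0 < e1 ∧ ∀ z0 : ℝ, 0 < z0 → ∃ t0 : ℝ, 0 < t0 ∧ ∀ t : ℝ, 0 < t → t ≤ t0 →
      ∃ s0 : ℝ, 0 < s0 ∧ ∀ D : SfDoc, D.s < s0 → D.Ok π C0 τ κ0 t →
        ∀ a z : ℝ, z0 ≤ z → a ∈ D.G → (∀ c ∈ cs, a + c * z ∈ D.G ∧ a + c * z < 1) →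
        ∀ (ζ : Type) (Z : D.Row 1 → ζ) (E : D.Row 1 → Prop), (∀ c ∈ cs, D.RowPr (a + c * z) E Z (D.s ^ (-t))) →
          (lb = true → ∀ c ∈ cs, D.LabPr (a + c * z) E Z (fun _ => ()) (D.s ^ (-t))) →
        ∀ v sl : ζ → ℝ, (∀ x, |sl x| ≤ D.s ^ laySlE π a z χ) →
          (D.P 1).pr (fun ρ => E ρ ∧ |(D.lab 1 ρ).be - (v (Z ρ) + sl (Z ρ) * D.T 1 ρ)| ≤ D.s ^ (π.b2 a + z))
            ≤ D.s ^ (e1 * z)

/-- **value form of the separation, pure linear family** -/
def LaySepL (π : SfPar) (C0 : ℝ) : Prop :=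
  ∃ (τ : ℝ) (cs : Finset ℝ), 0 < τ ∧ (∀ c ∈ cs, 0 ≤ c) ∧
    ∀ κ0 : ℝ, 0 < κ0 → ∃ e1 : ℝ, 0 < e1 ∧ ∀ z0 : ℝ, 0 < z0 → ∃ t0 : ℝ, 0 < t0 ∧ ∀ t : ℝ, 0 < t → t ≤ t0 →
      ∃ s0 : ℝ, 0 < s0 ∧ ∀ D : SfDoc, D.s < s0 → D.Ok π C0 τ κ0 t →
        ∀ a z : ℝ, z0 ≤ z → a ∈ D.G → (∀ c ∈ cs, a + c * z ∈ D.G ∧ a + c * z < 1) →
        ∀ (ζ : Type) (Z : D.Row 1 → ζ) (E : D.Row 1 → Prop), (∀ c ∈ cs, D.RowPr (a + c * z) E Z (D.s ^ (-t))) →
        ∀ v : ζ → ℝ,
          (D.P 1).pr (fun ρ => E ρ ∧ |(D.lab 1 ρ).Pc - v (Z ρ)| ≤ D.s ^ (π.b1 a + z)) ≤ D.s ^ (e1 * z)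

/-! ## B. the grid datum -/

/-- names of one finite law on a grid of roots -/
structure LayGr where
  Ω : Type
  fin : Fintype Ω
  P : @FLaw Ω fin
  δ : ℝ
  quad : Bool
  M : ℕ
  ζ : Type
  Z : ℕ → Ω → ζ
  γ : Type
  Cs : ℕ → ℕ → ζ → γ
  F : ℕ → ℕ → ζ → ItPh
  mks : ℕ → Ω → ItMk
  Ca : ℕ → ℕ → Ω → γ
  Xa : ℕ → ℝ → Ω → ℤ
  ο : Type
  O : ℕ → ℕ → ℝ → Ω → ο
  /-- DECODER: child name, root name ↦ display  (so that `AdmG.dfun` holds at ALL points of the replica space) -/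
  dsp : ℕ → ℕ → ℝ → ο → γ → ItDsp
  ϖ : Type
  Wd : ℕ → ℕ → ℝ → Ω → ϖ

attribute [instance] LayGr.fin

namespace LayGr

variable (g : LayGr)

/-- the record `j` of a point of the replica space (the base point if `j ≥ M`) -/
def rcd (j : ℕ) (x : g.Ω × (Fin g.M → g.Ω)) : g.Ω := if h : j < g.M then x.2 ⟨j, h⟩ else x.1

/-- the tangent datum at the root `(i, k)` -/
noncomputable def tan (i k : ℕ) : Tan where
  Ω := g.Ω × (Fin g.M → g.Ω)
  fin := inferInstance
  P := g.P.star (g.Z i) g.M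
  δ := g.δ
  quad := g.quad
  ζ := g.ζ
  Zs := fun x => g.Z i x.1
  γ := g.γ
  Cs := fun x => g.Cs i k (g.Z i x.1)
  F := fun x => g.F i k (g.Z i x.1)
  mrk := fun j x => g.mks i (g.rcd j x)
  ο := g.ο
  O := fun l x => g.O i k l (g.rcd 0 x)
  dsp := fun l x => g.dsp i k l (g.O i k l (g.rcd 0 x)) (g.Cs i k (g.Z i x.1))
  ϖ := g.ϖ
  Wd := fun l x => g.Wd i k l (g.rcd 0 x)

/-- `L = log (1/δ)` -/
noncomputable def L : ℝ := lg g.δ

/-- representative root name as an observation of the single experiment -/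
def cs (i k : ℕ) : g.Ω → g.γ := fun ω => g.Cs i k (g.Z i ω)

/-- the phase name of depth `q` as an observation of the single experiment -/
noncomputable def fn (i k : ℕ) (q : ℝ) : g.Ω → (ℤ × ℤ × ℤ) × (ℤ × ℤ × ℤ) := fun ω => itF g.δ q (g.F i k (g.Z i ω))

/-- the representative angular name -/
noncomputable def xn (i k : ℕ) (q : ℝ) : g.Ω → ℤ := fun ω => tcell g.δ q (g.F i k (g.Z i ω)).X

/-- the fibre read of the own record -/
noncomputable def qn (i k : ℕ) (R : ℝ) : g.Ω → (ℤ × ℤ × ℤ) × (ℤ × ℤ) :=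
  fun ω => itQ g.quad g.δ R (g.F i k (g.Z i ω)) (g.mks i ω)

/-- **ENTRY from Nm (04A)**: list relations on the grid `i ≤ na`, `k ≤ nv`.   `K` angular depth, `Kf ≥ RQ` fine phase depth, `RQ` depth of the fibre read, `δ^(-RX)` number of stored marks. -/
structure In (na nv : ℕ) (K Kf RQ RX B0 N0 : ℝ) : Prop where
  δ0 : 0 < g.δ ∧ g.δ < 1
  hN0 : 1 ≤ N0
  hK : 0 ≤ K ∧ K ≤ Kf ∧ RQ ≤ Kf
  /-- common phase, marks: bounded (names:common-phase, (xi)) -/
  bdF : ∀ i ≤ na, ∀ k ≤ nv, ∀ ω, g.P.p ω ≠ 0 → (g.F i k (g.Z i ω)).nrm ≤ B0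
  bdM : ∀ i ≤ na, ∀ ω, g.P.p ω ≠ 0 → |(g.mks i ω).th| ≤ B0 ∧ |(g.mks i ω).r| ≤ B0 ∧ |(g.mks i ω).k| ≤ B0
  lin0 : g.quad = false → ∀ i k x, (g.F i k x).P = 0
  /-- stored marks have a finite cut-off depth -/
  mkfin : ∀ i ≤ na, ∃ S : Finset ItMk, (S.card : ℝ) ≤ g.δ ^ (-RX) ∧ ∀ ω, g.mks i ω ∈ S
  /-- X1 (refinement in the width) for the representative names -/
  wnest : ∀ i ≤ na, ∀ k < nv, g.P.NVal (fun _ => True) (g.cs i k) (g.cs i (k + 1)) N0
  /-- X11: the pair of root names at the widths `v_k`, `v_(k+1)` lists the fine phase in the frame of the root `k`   (04 l.936-947) -/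
  wphase : ∀ i ≤ na, ∀ k < nv, g.P.NVal (fun _ => True) (g.fn i k Kf) (pair (g.cs i k) (g.cs i (k + 1))) N0
  /-- X7: actual and representative root names list each other (names:common-phase) -/
  rep1 : ∀ i ≤ na, ∀ k ≤ nv, g.P.NVal (fun _ => True) (g.Ca i k) (g.cs i k) N0
  rep2 : ∀ i ≤ na, ∀ k ≤ nv, g.P.NVal (fun _ => True) (g.cs i k) (g.Ca i k) N0
  /-- X7 for the angles -/
  ang1 : ∀ i ≤ na, ∀ k ≤ nv, ∀ q, 0 ≤ q → q ≤ K → g.P.NVal (fun _ => True) (g.xn i k q) (pair (g.Xa k q) (g.Ca i k)) N0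
  ang2 : ∀ i ≤ na, ∀ k ≤ nv, ∀ q, 0 ≤ q → q ≤ K → g.P.NVal (fun _ => True) (g.Xa k q) (pair (g.xn i k q) (g.cs i k)) N0
  /-- X1 (refinement in time) for the actual names -/
  tnest : ∀ i < na, ∀ k ≤ nv, g.P.NVal (fun _ => True) (g.Ca i k) (g.Ca (i + 1) k) N0
  /-- X10: the child name `Ca (i+1) k` of a record (with the root) reads its mark and its fibre read   (04 l.963-1000) -/
  read : ∀ i < na, ∀ k ≤ nv, g.P.NVal (fun _ => True) (pair (g.qn i k RQ) (g.mks i)) (pair (g.Ca (i + 1) k) (g.cs i k)) N0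
  /-- the fine phase and the mark list the fibre read (paper free, unit B5) -/
  qlist : ∀ i ≤ na, ∀ k ≤ nv, g.P.NVal (fun _ => True) (g.qn i k RQ) (pair (g.fn i k Kf) (g.mks i)) N0
  /-- capacity of the angular cell over the root name -/
  acap : ∀ k ≤ nv, g.P.NVal (fun _ => True) (g.Xa k K) (g.Ca 0 k) (N0 * g.δ ^ (-K))

end LayGr

theorem lay_defs_eqns_cite : True := by
  have := @LaySep.eq_1
  have := @LaySepL.eq_1
  have := @LayGr.rcd.eq_1
  have := @LayGr.tan.eq_1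
  have := @LayGr.L.eq_1
  have := @LayGr.cs.eq_1
  have := @LayGr.fn.eq_1
  have := @LayGr.xn.eq_1
  have := @LayGr.qn.eq_1
  trivial

end Claimed.Agent.R256
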