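import Claimed.Agent.R256.Lay.RiPatch

/-!
# Row 256, unit LAY (04B), B8e: THE ROOT THEOREM ON A PATCH      (chief helper189; owner since 23:20Z helper186)

Definitions (`layPar`, `Tan.layCr`, `LayAvP`, `LayCrP`), ports `lay_port_*`, tools (`lay_patch_mono`, `lay_ok_irrel`, `lay_patch_rm`, `lay_ae_cover`, `lay_prod_weaken`) and the RECIPE of an instance: `Lay/PatchBase.lean` (imported).
`lay_root_patch` = `lay_ri_patchG` (`Lay/RiPatch.lean`) with a constant exponent and the ports `LayAvP`, `LayCrP`.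
-/

set_option autoImplicit false

namespace Claimed.Agent.R256

open Claimed.Agent.R255 Claimed.Agent.R255.FLaw
open Filter Topology MeasureTheory
open Classical

noncomputable section

/-- **THE ROOT THEOREM ON A PATCH.**   PROVED from `lay_root_rect` (sorry-free), the four ports above and `nm_tan_ang`, `nm_gr_mean`, `nm_tr_ang`, `nm_U_*`, `nm_m_basic`, `nm_HM_basic`, `nm_tr_meas`, `nm_H_lip`, `nm_A_uf`. -/
theorem lay_root_patch {π : SfPar} {C0 : ℝ} {κ : ℝ → ℝ} (hπ : π.Valid) (S : NmSeq π C0 κ) (hX : S.HasX) (Ds : Set ℝ) (hF : S.Flat Ds) :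
    ∃ Λ B1 : ℝ, 1 ≤ B1 ∧ ∀ (r0 : NmRt) (a0 a1 v0 v1 : ℝ), r0.Patch π Λ a0 a1 v0 v1 → B1 ≤ r0.B → r0.q.ds.De ∈ Ds →
      (r0.σ.exact = true → r0.σ.lin = false → ∀ a : ℝ, a0 ≤ a → a ≤ a1 → r0.σ.xs < S.pst r0.q.ds a) →
      ∀ (av cr : Bool) (e0 : ℝ), 0 < e0 → (av = true → LayAvP S r0 a0 a1 v0 v1 e0) → (cr = true → LayCrP S r0 a0 a1 v0 v1) →
      ∀ᵐ p : ℝ × ℝ, (1 - p.1, p.2) ∈ Set.Ioo a0 a1 ×ˢ Set.Ioo v0 v1 →
        DifferentiableAt ℝ (fun q : ℝ × ℝ => S.H r0.q (1 - q.1) q.2) p ∧ (layPar S r0 e0 (1 - p.1, p.2)).Ok ∧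
          AcProd (fun t v => S.H r0.q (1 - t) v) (!r0.σ.lin) av cr (layPar S r0 e0 (1 - p.1, p.2)) p := by
  obtain ⟨Λ, B1, hB1, H⟩ := lay_ri_patchG S hπ hX Ds hF
  refine ⟨Λ, B1, by linarith, fun r0 a0 a1 v0 v1 hp hB hD hx av cr e0 he0 hav hcr => ?_⟩
  exact H r0 a0 a1 v0 v1 hp hB hD hx av cr (fun _ => e0) (fun _ => he0) (fun h => lay_ri_of_avP (hav h)) (fun h => lay_ri_of_crP (hcr h))

end

end Claimed.Agent.R256
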