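import Claimed.Agent.R256.Lay.Root
import Claimed.Agent.R256.Nm.Mrk.Marks
import Claimed.Agent.R256.Nm.Pha.Exit

/-!
# Row 256, unit LAY (04B), B8e: THE ROOT THEOREM ON A PATCH = interface of the six root contracts of `Act/Sup.lean`: DEFINITIONS, PORTS, TOOLS      (chief helper189; owner since 23:20Z helper186)

THE THEOREM `lay_root_patch` IS IN `Lay/Patch.lean` (import THAT file); it is a corollary of `lay_ri_patchG` (`Lay/RiPatch.lean`).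

`lay_root_patch` :  `r0.Patch π Λ a0 a1 v0 v1` (ONE query `r0.q`, ONE side `r0.σ`, closed rectangle of admissible roots, FORWARD coordinates `x = (a, v)`)
  ⟹ at almost every backward point `p = (1 - a, v)` of the open rectangle:  differentiability of `S.H r0.q`,  `(layPar S r0 e0 x).Ok`,  `AcProd .. (layPar S r0 e0 x) p`.
`layPar S r0 e0 x = (c, d, m, ν, e0, B0) = (r0.c π, π.d, S.m r0.q a v, nmNu (S.HM r0.Vq r0.Sd) (r0.Bg π) a, e0, r0.B + 1)`.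
## How an INSTANCE (`ac_eq_root_left/strong/weak`, `ac_lin_root`, `ac_str_root_half/one`) is proved      (files `Lay/R?*.lean`, import this file + `Act/SupDefs.lean`; statement VERBATIM; `Act/Sup.lean` then imports and cites)
 1. `obtain ⟨Λ, B1, ..⟩ := lay_root_patch ..` (+ the `Λ`, `B1`, `e0` of the separation ports; unify by `max`, `lay_patch_mono`).
 2. `lay_ae_cover` : it is enough to find, around every point of the region, ONE open rectangle on which the claim holds a.e.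
 3. around a point choose `r0 = ⟨q, σ, 0, 0, 0, 0, B1⟩` (coarse sides: the anchor `(A, V)`; exact quadratic sides: `xs`) and a small closed rectangle; check `NmRt.Ok` on it (elementary inequalities, all strict at the point).
 4. separation: `av = true` asks `LayAvP`, `cr = true` asks `LayCrP` (ports; suppliers in `Lay/Ra*.lean`, helper27; E1 helper279).   `lay_prod_weaken`: `cr = true ⟹ cr = false`.
 5. `AcRoot` = differentiability + `⟨layPar .., Ok, rfl, rfl, rfl, N ν, AcProd⟩`;   `ν`: `nm_HP_HM` (exact linear side: `Sd = [y0]`, `Vq = Pc ds`, `Bg = b1`).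
## PORTS asked from Nm (statements below, OWNERS in the docstrings): the exits of `Nm/Contract.lean`, `Nm/Grid.lean` in the form UNIFORM ON THE PATCH (defects D1-D3 of msg 32557, also helper279 msg 33219)
 `lay_port_rep` (`e` uniform), `lay_port_geo` (`h0` uniform), `lay_port_marks` (`κ1` before `Rm`), `lay_port_grid` (`B1 ≤ r0.B`).
-/

set_option autoImplicit false

namespace Claimed.Agent.R256

open Claimed.Agent.R255 Claimed.Agent.R255.FLaw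
open Filter Topology MeasureTheory
open Classical

noncomputable section

/-- the regime served at the forward root `x = (a, v)` -/
def layPar {π : SfPar} {C0 : ℝ} {κ : ℝ → ℝ} (S : NmSeq π C0 κ) (r0 : NmRt) (e0 : ℝ) (x : ℝ × ℝ) : ItPar :=
  ⟨r0.c π, π.d, S.m r0.q x.1 x.2, nmNu (S.HM r0.Vq r0.Sd) (r0.Bg π) x.1, e0, r0.B + 1⟩

/-- value avoidance for the second mark of a one-record datum (gives `Tan.Cross` for the replicas: `lay_lift`) -/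
def Tan.layCr (T : Tan) (pk : ItPk) (acc : ℝ) : Prop :=
  ∀ v : T.ζ → ℝ, T.P.pr (fun ω => |(T.mrk 0 ω).r - v (T.Zs ω)| < T.δ ^ pk.χ) ≤ acc

/-- **PORT (avoidance of lines)** at the lattice roots of the closed rectangle, exponent `e0` chosen before the package -/
def LayAvP {π : SfPar} {C0 : ℝ} {κ : ℝ → ℝ} (S : NmSeq π C0 κ) (r0 : NmRt) (a0 a1 v0 v1 e0 : ℝ) : Prop :=
  ∀ (pk : ItPk) (acc : ℝ), pk.Ok → 0 < acc → ∃ Rm1 : ℕ, ∀ Rm : ℕ, Rm1 ≤ Rm → ∃ h0 : ℝ, 0 < h0 ∧ ∀ j : ℕ, (1 / 2 : ℝ) ^ j < h0 →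
    ∀ x' : ℝ × ℝ, layLat a0 v0 ((1 / 2) ^ j) x' → x' ∈ Set.Icc a0 a1 ×ˢ Set.Icc v0 v1 → ∀ᶠ n in uf,
      ∀ (dsp : ℝ → NmNm → NmNm → ItDsp) (a : ItPar), a.e0 = e0 →
        (nmTan (S.D n) π { r0 with a := x'.1, v := x'.2, h := (1 / 2) ^ j, Rm := Rm } dsp).Avoid a pk acc

/-- **PORT (avoidance of values)** at the lattice roots of the closed rectangle -/
def LayCrP {π : SfPar} {C0 : ℝ} {κ : ℝ → ℝ} (S : NmSeq π C0 κ) (r0 : NmRt) (a0 a1 v0 v1 : ℝ) : Prop :=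
  ∀ (pk : ItPk) (acc : ℝ), pk.Ok → 0 < acc → ∃ Rm1 : ℕ, ∀ Rm : ℕ, Rm1 ≤ Rm → ∃ h0 : ℝ, 0 < h0 ∧ ∀ j : ℕ, (1 / 2 : ℝ) ^ j < h0 →
    ∀ x' : ℝ × ℝ, layLat a0 v0 ((1 / 2) ^ j) x' → x' ∈ Set.Icc a0 a1 ×ˢ Set.Icc v0 v1 → ∀ᶠ n in uf,
      ∀ dsp : ℝ → NmNm → NmNm → ItDsp,
        (nmTan (S.D n) π { r0 with a := x'.1, v := x'.2, h := (1 / 2) ^ j, Rm := Rm } dsp).layCr pk acc

theorem lay_patch_eqns_cite : True := by
  have := @layPar.eq_1
  have := @Tan.layCr.eq_1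
  have := @LayAvP.eq_1
  have := @LayCrP.eq_1
  trivial

/-! ## PORTS asked from Nm -/

/-- **PORT P1** = `nm_rep` with the slack `e` UNIFORM on the patch (slack `= a - A | xs - l | 1`, positive on the closed rectangle).      OWNER helper143 (PHA: `nm_pha_rep_sl` + patch form) -/
theorem lay_port_rep (π : SfPar) (hπ : π.Valid) (C0 τ κ0 : ℝ) : ∃ Λ K0 : ℝ, ∀ (r0 : NmRt) (a0 a1 v0 v1 : ℝ), r0.Patch π Λ a0 a1 v0 v1 →
    ∃ e : ℝ, 0 < e ∧ ∀ a v : ℝ, a0 ≤ a → a ≤ a1 → v0 ≤ v → v ≤ v1 → NmA π C0 τ κ0 fun _ D => NmRep D π { r0 with a := a, v := v } K0 e := by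
  obtain ⟨Λ, K0, h⟩ := nm_pha_rep_patch π hπ C0 τ κ0
  exact ⟨Λ, K0, fun r0 a0 a1 v0 v1 hp => h r0 a0 a1 v0 v1 hp.2.2⟩

/-- **PORT P2** = `nm_tan_geo` with `h0` UNIFORM on the patch.   PROVED from `nm_pha_geo_patch_str` (Nm/Pha/Exit.lean, helper79).
`hstr` (DEFECT 2 of helper143): an EXACT quadratic side on a CLIPPED template must stay strictly below the change of branch on the closed rectangle (`NmRt.Ok.brq` only gives `≤`).   `lay_root_patch`, `lay_ri_patch*` do NOT ask it: they exhaust the open rectangle by `[v0, v1 - ε]`. -/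
theorem lay_port_geo (π : SfPar) (hπ : π.Valid) (C0 τ κ0 : ℝ) : ∃ Λ B1 : ℝ, 1 ≤ B1 ∧ ∀ (r0 : NmRt) (a0 a1 v0 v1 : ℝ), r0.Patch π Λ a0 a1 v0 v1 →
    (r0.σ.exact = true → r0.σ.lin = false → r0.q.tp = NmTp.clip → ∀ a : ℝ, a0 ≤ a → a ≤ a1 → r0.q.ds.b a + v1 < π.b1 a) →
    B1 ≤ r0.B → ∀ pk : ItPk, pk.Ok → ∃ h0 : ℝ, 0 < h0 ∧ ∀ h : ℝ, h ≤ h0 → ∀ a v : ℝ, a0 ≤ a → a ≤ a1 → v0 ≤ v → v ≤ v1 →
    NmRt.Fits { r0 with a := a, v := v, h := h } π pk →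
    NmA π C0 τ κ0 fun acc D => ∃ dsp : ℝ → NmNm → NmNm → ItDsp,
      ∀ p : ItPar, r0.Reg π (r0.B + 1) p → NmGeo (nmTan D π { r0 with a := a, v := v, h := h } dsp) p pk acc :=
  ⟨2, 3, by norm_num, fun r0 a0 a1 v0 v1 hp hstr hB pk hpk =>
    nm_pha_geo_patch_str π hπ C0 τ κ0 r0 a0 a1 v0 v1 hp.1.le hp.2.1.le hp.2.2
      (fun a v g1 g2 g3 g4 hl htp => by
        cases he : r0.σ.exact with
        | true =>
          have := hstr he hl htp a g1 g2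
          show r0.q.ds.b a + v < π.b1 a
          linarith
        | false => exact nm_px_str_coarse (hp.2.2 a v g1 g2 g3 g4) he hl htp) hB pk hpk⟩

/-- **PORT P3** = `nm_tan_marks` with the layer ratio `κ1` (and the null set) chosen BEFORE the package and the cut-off depth `Rm` of the stored marks (`Rm` must grow with the package: `Fits`).   `κ1` may depend on `tl`.      OWNER helper219 (MRK) -/
theorem lay_port_marks {π : SfPar} {C0 : ℝ} {κ : ℝ → ℝ} (S : NmSeq π C0 κ) (hπ : π.Valid) (hX : S.HasX) (Ds : Set ℝ) (hF : S.Flat Ds) :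
    ∃ Λ B1 : ℝ, ∀ r0 : NmRt, r0.q.ds.De ∈ Ds → B1 ≤ r0.B → ∀ᵐ a : ℝ,
    0 < r0.c π → ∀ tl : ℝ, 0 < tl → ∃ κ1 : ℝ, 0 < κ1 ∧ ∀ pk : ItPk, pk.Ok → ∀ acc : ℝ, 0 < acc → ∀ Rm : ℝ, ∃ η h0 : ℝ, 0 < η ∧ 0 < h0 ∧
      ∀ h : ℝ, 0 < h → h ≤ h0 →
      ∀ a' v' : ℝ, |a' - a| ≤ η * h → NmRt.Ok { r0 with a := a', v := v' } π Λ → (r0.σ.exact = true → r0.σ.lin = false → r0.σ.xs < S.pst r0.q.ds a') →
      NmRt.Fits { r0 with a := a', v := v', h := h, Rm := Rm } π pk → ∀ᶠ n in uf,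
      ∀ (dsp : ℝ → NmNm → NmNm → ItDsp) (p : ItPar),
        NmRt.Reg r0 π (r0.B + 1) p → p.ν = nmNu (S.HM r0.Vq r0.Sd) (r0.Bg π) a →
        (nmTan (S.D n) π { r0 with a := a', v := v', h := h, Rm := Rm } dsp).AdmM p pk tl κ1 acc :=
  nm_mq_port_marks S hπ hX Ds hF (nm_HM_basic S hπ)

/-- **PORT P4** = `nm_gr_in` for ANY bound `r0.B ≥ B1` of the stored marks (so that the exits unify).      OWNER = owner of `nm_gr_in` (GRD) -/
theorem lay_port_grid (π : SfPar) (hπ : π.Valid) (C0 τ κ0 : ℝ) : ∃ Λ B1 : ℝ, 1 ≤ B1 ∧ ∀ (r0 : NmRt) (a0 a1 v0 v1 : ℝ), r0.Patch π Λ a0 a1 v0 v1 → B1 ≤ r0.B →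
    ∀ (A B M : ℕ) (K Kf RQ RX : ℝ), 0 ≤ K → K ≤ Kf → RQ ≤ Kf → Kf + 2 ≤ B → 2 * Kf + 2 ≤ r0.Rm → r0.Rm + 2 ≤ min 1 (r0.c π) * A →
    (r0.q.ds.cut = NmCut.slope → r0.Rm + 2 ≤ (r0.q.ds.bs - 1) * A) → 3 * r0.Rm < RX →
    ∃ h0 : ℝ, 0 < h0 ∧ ∀ h : ℝ, 0 < h → h < h0 → ∀ (x0 y0 : ℝ) (na nv : ℕ), a0 ≤ x0 → v0 ≤ y0 → x0 + na * (A * h) ≤ a1 → y0 + nv * (B * h) ≤ v1 →
    NmA π C0 τ κ0 fun e D => ∀ dsp : ℝ → ℝ → ℝ → NmNm → NmNm → ItDsp,
      (nmGr D π { r0 with a := x0, v := y0, h := h } dsp A B M).In na nv K Kf RQ RX (r0.B + 1) ((D.s ^ h) ^ (-e)) := by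
  obtain ⟨Λ, h⟩ := nm_grd_in π hπ C0 τ κ0
  exact ⟨Λ, 3, by norm_num, fun r0 a0 a1 v0 v1 hp hB => h r0.B hB r0 a0 a1 v0 v1 hp rfl⟩

/-! ## small tools for the instances -/

/-- the constant of `≫` of a patch may be decreased -/
theorem lay_patch_mono {r0 : NmRt} {π : SfPar} {Λ Λ' a0 a1 v0 v1 : ℝ} (hπ : π.Valid) (h : r0.Patch π Λ' a0 a1 v0 v1) (hΛ : Λ ≤ Λ') :
    r0.Patch π Λ a0 a1 v0 v1 :=
  ⟨h.1, h.2.1, fun a v h1 h2 h3 h4 => (h.2.2 a v h1 h2 h3 h4).mono hπ hΛ⟩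

/-- the fields `h, Rm, B` of a root are irrelevant for `NmRt.Ok` -/
theorem lay_ok_irrel {r : NmRt} {π : SfPar} {Λ : ℝ} (H : r.Ok π Λ) (g Rm B : ℝ) : NmRt.Ok { r with h := g, Rm := Rm, B := B } π Λ :=
  { q := H.q, g0 := H.g0, ha := H.ha, hv := H.hv, rate := H.rate, hyb := H.hyb, brq := H.brq, brl := H.brl, anc := H.anc, cq := H.cq,
    eq := H.eq }

/-- the fields `a, v, h, Rm` of `r0` are irrelevant for a patch -/
theorem lay_patch_rm {r0 : NmRt} {π : SfPar} {Λ a0 a1 v0 v1 : ℝ} (h : r0.Patch π Λ a0 a1 v0 v1) (a v g Rm : ℝ) :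
    NmRt.Patch { r0 with a := a, v := v, h := g, Rm := Rm } π Λ a0 a1 v0 v1 :=
  ⟨h.1, h.2.1, fun a' v' h1 h2 h3 h4 => lay_ok_irrel (h.2.2 a' v' h1 h2 h3 h4) g Rm r0.B⟩

/-- **covering**: an a.e. statement on a region follows from a.e. statements on neighbourhoods of its points -/
theorem lay_ae_cover (R : Set (ℝ × ℝ)) (Φ : ℝ × ℝ → Prop)
    (h : ∀ p ∈ R, ∃ U : Set (ℝ × ℝ), U ∈ 𝓝 p ∧ ∀ᵐ y : ℝ × ℝ, y ∈ U → Φ y) : ∀ᵐ y : ℝ × ℝ, y ∈ R → Φ y := by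
  have key : (volume : Measure (ℝ × ℝ)) {y | y ∈ R ∧ ¬ Φ y} = 0 := by
    refine measure_null_of_locally_null _ ?_
    rintro p ⟨hp, -⟩
    obtain ⟨U, hU, hae⟩ := h p hp
    refine ⟨U ∩ {y | y ∈ R ∧ ¬ Φ y}, ?_, ?_⟩
    · exact inter_mem (mem_nhdsWithin_of_mem_nhds hU) self_mem_nhdsWithin
    · rw [ae_iff] at hae
      refine measure_mono_null ?_ hae
      rintro y ⟨hy, -, hn⟩
      simp only [Set.mem_ofPred_eq, Classical.not_imp]
      exact ⟨hy, hn⟩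
  rw [ae_iff]
  refine measure_mono_null ?_ key
  intro y hy
  simp only [Set.mem_ofPred_eq, Classical.not_imp] at hy
  exact hy

/-- the granted separation may be forgotten -/
theorem lay_prod_weaken (H : ℝ → ℝ → ℝ) (quad av cr av' cr' : Bool) (a : ItPar) (p : ℝ × ℝ) (h1 : av' = true → av = true)
    (h2 : cr' = true → cr = true) (h : AcProd H quad av cr a p) : AcProd H quad av' cr' a p := by
  intro τ hτ
  obtain ⟨κ0, hκ, H1⟩ := h τ hτ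
  refine ⟨κ0, hκ, fun pk acc hpk hacc σ hσ => ?_⟩
  obtain ⟨C, hC⟩ := H1 pk acc hpk hacc σ hσ
  refine ⟨C, hC.mono ?_⟩
  rintro g ⟨r, T, e1, e2, e3, e4, e5, e6, e7⟩
  exact ⟨r, T, e1, e2, e3, e4, fun x => e5 (h1 x), fun x => e6 (h2 x), e7⟩

end

end Claimed.Agent.R256
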