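import Claimed.Agent.R256.Lay.Contract
import Claimed.Agent.R256.Nm.Pred.Doc
import Claimed.Agent.R256.Nm.Pro.Mono

/-!
# Row 256, unit LAY (04B): APPROXIMATED GATES      (chief helper189)

PROBLEM.  `LaySep`, `LaySepL` (Lay/Defs) ask the gates `a + c z` EXACTLY in `D.G`.   The configurations of ONE sequence `S : NmSeq` only have `t`-dense gates (`D.Fine`), the roots `a`, the gaps and the exponents of the packages are arbitrary reals.
SOLUTION (no change of the separation files).   `SfDoc.Ok` is stable under a RELABELLING of the gates within the tolerance:  `D.rlb φ F` = the configuration with the gates `F` whose gate `i` is the gate `φ i` of `D`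
(all exponents of `Core`, `Aff` are Lipschitz in the gate; `mincost` loses `τ → τ'`, `κ0 → κ0/2` because `C t ≤ (κ0/2)(j - i)` bounds `j - i` from below).
With `φ = D.gt` (nearest gate): `LaySep ⇒ LaySepA`, `LaySepL ⇒ LaySepLA` = the same statements with the gates `D.gt (a + c z)` of a `Fine` configuration (the convention of Nm: `nm_side_pr`, `nm_side_prL`).
TRANSPORT.  `(D.rlb D.gt F).Row i = D.Row (D.gt i)` by definition; only the final gate needs `D.gt 1 = 1` (`nm_gt_self`): write the conclusion as `Q (D.gt 1)` for an explicit `Q : ℝ → Prop` (all of `Row y`, `P y`, `lab y`, `T y`, `Conn _ y`) and rewrite once.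
LEAVES: L-256-LAY-RL1 (`lay_rlb_core`), RL2 (`lay_rlb_affp`, `lay_rlb_minc`), RL3 (`lay_sepA`, `lay_sepLA`), RL4 (`lay_time_free`), A4f (`lay_avoid_fine`), A4c (`lay_value_fine`).
-/

set_option autoImplicit false

namespace Claimed.Agent.R256

open Claimed.Agent.R255
open Classical

/-- relabelling of the gates: the gate `i ∈ F` of the new configuration is the gate `φ i` of `D` -/
def SfDoc.rlb (D : SfDoc) (φ : ℝ → ℝ) (F : Finset ℝ) : SfDoc where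
  s := D.s
  G := F
  Row := fun i => D.Row (φ i)
  fin := fun i => D.fin (φ i)
  P := fun i => D.P (φ i)
  mass := fun i => D.mass (φ i)
  len := fun i => D.len (φ i)
  r := fun i => D.r (φ i)
  f := fun i => D.f (φ i)
  ek := D.ek
  ray := fun i => D.ray (φ i)
  lab := fun i => D.lab (φ i)
  Idx := D.Idx
  idx := fun i => D.idx (φ i)
  Conn := fun i j => D.Conn (φ i) (φ j)

/-- an admissible relabelling within `t` -/
structure SfDoc.Rlb (D : SfDoc) (φ : ℝ → ℝ) (F : Finset ℝ) (t : ℝ) : Prop where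
  one : (1 : ℝ) ∈ F
  fix : φ 1 = 1
  mem : ∀ i ∈ F, 0 ≤ i ∧ i ≤ 1 ∧ φ i ∈ D.G ∧ |φ i - i| ≤ t
  mono : ∀ i ∈ F, ∀ j ∈ F, i < j → φ i < φ j

/-- **graph form of the separation with approximated gates** -/
def LaySepA (π : SfPar) (C0 : ℝ) (lb : Bool) : Prop :=
  ∃ (τ χ : ℝ) (cs : Finset ℝ), 0 < τ ∧ 0 < χ ∧ χ < 1 ∧ (∀ c ∈ cs, 0 ≤ c) ∧
    ∀ κ0 : ℝ, 0 < κ0 → ∃ e1 : ℝ, 0 < e1 ∧ ∀ z0 : ℝ, 0 < z0 → ∃ t0 : ℝ, 0 < t0 ∧ ∀ D : SfDoc, D.Fine π C0 τ κ0 t0 →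
        ∀ a z : ℝ, z0 ≤ z → 0 ≤ a → (∀ c ∈ cs, a + c * z ≤ 1 - z0) →
        ∀ (ζ : Type) (Z : D.Row 1 → ζ) (E : D.Row 1 → Prop), (∀ c ∈ cs, D.RowPr (D.gt (a + c * z)) E Z (D.s ^ (-t0))) →
          (lb = true → ∀ c ∈ cs, D.LabPr (D.gt (a + c * z)) E Z (fun _ => ()) (D.s ^ (-t0))) →
        ∀ v sl : ζ → ℝ, (∀ x, |sl x| ≤ D.s ^ laySlE π a z χ) →
          (D.P 1).pr (fun ρ => E ρ ∧ |(D.lab 1 ρ).be - (v (Z ρ) + sl (Z ρ) * D.T 1 ρ)| ≤ D.s ^ (π.b2 a + z))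
            ≤ D.s ^ (e1 * z)

/-- **value form of the separation (pure linear) with approximated gates** -/
def LaySepLA (π : SfPar) (C0 : ℝ) : Prop :=
  ∃ (τ : ℝ) (cs : Finset ℝ), 0 < τ ∧ (∀ c ∈ cs, 0 ≤ c) ∧
    ∀ κ0 : ℝ, 0 < κ0 → ∃ e1 : ℝ, 0 < e1 ∧ ∀ z0 : ℝ, 0 < z0 → ∃ t0 : ℝ, 0 < t0 ∧ ∀ D : SfDoc, D.Fine π C0 τ κ0 t0 →
        ∀ a z : ℝ, z0 ≤ z → 0 ≤ a → (∀ c ∈ cs, a + c * z ≤ 1 - z0) →
        ∀ (ζ : Type) (Z : D.Row 1 → ζ) (E : D.Row 1 → Prop), (∀ c ∈ cs, D.RowPr (D.gt (a + c * z)) E Z (D.s ^ (-t0))) →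
        ∀ v : ζ → ℝ,
          (D.P 1).pr (fun ρ => E ρ ∧ |(D.lab 1 ρ).Pc - v (Z ρ)| ≤ D.s ^ (π.b1 a + z)) ≤ D.s ^ (e1 * z)

theorem lay_rlb_eqns_cite : True := by
  have := @SfDoc.rlb.eq_1
  have := @LaySepA.eq_1
  have := @LaySepLA.eq_1
  trivial

/-- LEAF RL1. **`Core` is stable under relabelling**, tolerance `6 t`.   Field by field (`show` the unfolded statement for `D` at the gates `φ i`): `hlen` `2t`; `reg`, `cnt` `(1 + p + d) t ≤ 5 t` (`p < 3`, `d ≤ 1`); `tp` `(1 + 2d) t`;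
`Adm`, `s^(1/t)`, `s^(-t)`: as in `sf_mono_aux_core` (Soft/Mono); `len 1`, `r 1`, `f 1`: `φ 1 = 1`; `i < 1 ⇒ φ i < 1` (`mono`, `fix`); all other fields verbatim. -/
theorem lay_rlb_core (π : SfPar) (hπ : π.Valid) (C0 t : ℝ) (ht : 0 < t) (D : SfDoc) (φ : ℝ → ℝ) (F : Finset ℝ)
    (hD : D.Core π C0 t) (hφ : D.Rlb φ F t) : (D.rlb φ F).Core π C0 (6 * t) := by
  have hs := hD.hs
  have h6 : t ≤ 6 * t := by linarith
  have h1 : 1 / (6 * t) ≤ 1 / t := one_div_le_one_div_of_le ht h6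
  have hneg : D.s ^ (-t) ≤ D.s ^ (-(6 * t)) := sf_mono_aux_le hs (by linarith)
  have hinv : D.s ^ (1 / t) ≤ D.s ^ (1 / (6 * t)) := sf_mono_aux_le hs h1
  have hek : 0 < D.ek := lt_of_lt_of_le (Real.rpow_pos_of_pos hs.1 _) hD.hek.1
  have hpos : ∀ x : ℝ, 0 < D.s ^ x := fun x => Real.rpow_pos_of_pos hs.1 x
  have hG : ∀ i ∈ F, φ i ∈ D.G := fun i hi => (hφ.mem i hi).2.2.1
  have hnear : ∀ i ∈ F, |φ i - i| ≤ t := fun i hi => (hφ.mem i hi).2.2.2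
  have hp := hπ.p1
  have hd := hπ.d1
  refine ⟨hs, ⟨hφ.one, fun i hi => ⟨(hφ.mem i hi).1, (hφ.mem i hi).2.1⟩⟩, ⟨?_, fun i hi => ?_⟩, ⟨?_, ?_, fun i hi => ?_⟩,
    hD.hek, fun i hi => ?_, fun i hi => hD.bdd (φ i) (hG i hi), fun i hi => hD.own (φ i) (hG i hi),
    fun i hi => hD.grid (φ i) (hG i hi), ?_, ?_, ?_, ?_, ?_, ?_, ?_, ?_, ?_, ?_, ?_, ?_⟩
  · show D.len (φ 1) = D.s
    rw [hφ.fix]
    exact hD.hlen.1
  · have hn := abs_le.1 (hnear i hi)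
    exact ⟨(sf_mono_aux_le hs (by linarith)).trans (hD.hlen.2 (φ i) (hG i hi)).1,
      (hD.hlen.2 (φ i) (hG i hi)).2.trans (sf_mono_aux_le hs (by linarith))⟩
  · show D.r (φ 1) = 1
    rw [hφ.fix]
    exact hD.hw.1
  · show D.f (φ 1) = 1
    rw [hφ.fix]
    exact hD.hw.2.1
  · exact hD.hw.2.2 (φ i) (hG i hi)
  · exact ⟨(sf_mono_aux_le hs h6).trans (hD.hmass (φ i) (hG i hi)).1, (hD.hmass (φ i) (hG i hi)).2.trans hneg⟩
  · intro i hi j hj hij ρ ρ' hc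
    obtain ⟨b1, b2, b3, b4⟩ := hD.base (φ i) (hG i hi) (φ j) (hG j hj) (hφ.mono i hi j hj hij) ρ ρ' hc
    exact ⟨b1, b2, b3, b4.trans hinv⟩
  · intro hh i hi j hj hij ρ ρ' hc
    exact hD.normC hh (φ i) (hG i hi) (φ j) (hG j hj) (hφ.mono i hi j hj hij) ρ ρ' hc
  · intro hh i hi j hj hij ρ ρ' hc
    obtain ⟨b1, b2⟩ := hD.normH hh (φ i) (hG i hi) (φ j) (hG j hj) (hφ.mono i hi j hj hij) ρ ρ' hc
    have hfj := (hD.hw.2.2 (φ j) (hG j hj)).2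
    have hfi := (hD.hw.2.2 (φ i) (hG i hi)).2
    have hli : 0 < D.len (φ i) := lt_of_lt_of_le (hpos _) (hD.hlen.2 (φ i) (hG i hi)).1
    exact ⟨b1.trans (mul_le_mul_of_nonneg_right hneg hfj.le),
      b2.trans (mul_le_mul_of_nonneg_right hneg (mul_pos hli hfi).le)⟩
  · intro i hi j hj k hk hij hjk ρ ρ' ρ'' h1 h2
    exact hD.trans (φ i) (hG i hi) (φ j) (hG j hj) (φ k) (hG k hk) (hφ.mono i hi j hj hij) (hφ.mono j hj k hk hjk) ρ ρ' ρ'' h1 h2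
  · intro i hi j hj k hk hij hjk ρ ρ'' h1
    exact hD.split (φ i) (hG i hi) (φ j) (hG j hj) (φ k) (hG k hk) (hφ.mono i hi j hj hij) (hφ.mono j hj k hk hjk) ρ ρ'' h1
  · intro i hi Q hQ
    have hQ' : D.Adm π (6 * t) (φ i) Q := hQ
    have b1 := hD.reg (φ i) (hG i hi) Q (sf_mono_aux_adm D π t (6 * t) (φ i) hs ht h6 Q hQ')
    have hr : 0 ≤ Q.r := (hpos _).le.trans hQ'.1
    have hf : 0 ≤ Q.f := (hpos _).le.trans hQ'.2.2.1
    have hw : 0 ≤ Q.w π.η := mul_nonneg (Real.rpow_nonneg hr _) (Real.rpow_nonneg hf _)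
    refine le_trans b1 (mul_le_mul_of_nonneg_right ?_ hw)
    refine div_le_div_of_nonneg_right ?_ hek.le
    show D.s ^ (-t) * D.s ^ ((π.p + π.d) * φ i) ≤ D.s ^ (-(6 * t)) * D.s ^ ((π.p + π.d) * i)
    rw [← Real.rpow_add hs.1, ← Real.rpow_add hs.1]
    refine sf_mono_aux_le hs ?_
    have hn := abs_le.1 (hnear i hi)
    nlinarith [hn.1, hn.2, hp.1, hp.2, hd.1, hd.2]
  · intro i hi
    refine le_trans (hD.cnt (φ i) (hG i hi)) ?_
    show D.s ^ (-t) * D.ek * D.s ^ (-((π.p + π.d) * φ i)) ≤ D.s ^ (-(6 * t)) * D.ek * D.s ^ (-((π.p + π.d) * i))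
    have e : ∀ a b : ℝ, a * D.ek * b = D.ek * (a * b) := by
      intro a b
      ring
    rw [e, e, ← Real.rpow_add hs.1, ← Real.rpow_add hs.1]
    refine mul_le_mul_of_nonneg_left (sf_mono_aux_le hs ?_) hek.le
    have hn := abs_le.1 (hnear i hi)
    nlinarith [hn.1, hn.2, hp.1, hp.2, hd.1, hd.2]
  · intro i hi j hj hij U S hP
    refine le_trans (hD.sp (φ i) (hG i hi) (φ j) (hG j hj) (hφ.mono i hi j hj hij) U S hP) ?_
    exact add_le_add (mul_le_mul_of_nonneg_right hneg (Real.rpow_nonneg (ent_pr_nonneg _ _) _)) hinv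
  · intro i hi j hj hij U S M hP hM
    refine le_trans (hD.tp (φ i) (hG i hi) (φ j) (hG j hj) (hφ.mono i hi j hj hij) U S M hP hM) ?_
    have hMS : 0 ≤ M * (D.P (φ i)).pr S := by
      by_cases h0 : (D.P (φ i)).pr S = 0
      · rw [h0, mul_zero]
      · have hp : 0 < (D.P (φ i)).pr S := lt_of_le_of_ne (ent_pr_nonneg _ _) (Ne.symm h0)
        obtain ⟨ρ, hρ, _⟩ := (ent_pr_pos_iff _ _).1 hp
        exact mul_nonneg ((Nat.cast_nonneg _).trans (hM ρ hρ)) hp.le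
    show D.s ^ (-t) * M * D.s ^ (π.d * (φ j - φ i)) * (D.P (φ i)).pr S + D.s ^ (1 / t)
      ≤ D.s ^ (-(6 * t)) * M * D.s ^ (π.d * (j - i)) * (D.P (φ i)).pr S + D.s ^ (1 / (6 * t))
    have e : ∀ a b : ℝ, a * M * b * (D.P (φ i)).pr S = (a * b) * (M * (D.P (φ i)).pr S) := by
      intro a b
      ring
    rw [e, e, ← Real.rpow_add hs.1, ← Real.rpow_add hs.1]
    refine add_le_add (mul_le_mul_of_nonneg_right (sf_mono_aux_le hs ?_) hMS) hinv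
    have hn := abs_le.1 (hnear i hi)
    have hn' := abs_le.1 (hnear j hj)
    nlinarith [hn.1, hn.2, hn'.1, hn'.2, hd.1, hd.2]
  · intro hh i hi j hj hij ρ' h0
    exact hD.clPath hh (φ i) (hG i hi) (φ j) (hG j hj) (hφ.mono i hi j hj hij) ρ' h0
  · intro hh i hi hi1 ρ ρ' e1 e2
    have : φ i < 1 := by
      have := hφ.mono i hi 1 hφ.one hi1
      rwa [hφ.fix] at this
    exact hD.clUniq hh (φ i) (hG i hi) this ρ ρ' e1 e2
  · intro hh i hi j hj hij ρ ρ' e1 e2 e3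
    exact hD.clConn hh (φ i) (hG i hi) (φ j) (hG j hj) (hφ.mono i hi j hj hij) ρ ρ' e1 e2 e3

/-- LEAF RL2. **the affine profiles and comparisons are stable under relabelling**, tolerance `(3 + |q| + 2 J) t`:  the exponents `u, n, b2, b2 - i, b1` are Lipschitz in the gate with constants `≤ 2 + |q| + 2 J`
(`min` of Lipschitz functions);  `stK` has no gate;  last clause of `linP`: rewrite `φ 1 = 1`. -/
theorem lay_rlb_affp (π : SfPar) (hπ : π.Valid) (t : ℝ) (ht : 0 < t) (D : SfDoc) (φ : ℝ → ℝ) (F : Finset ℝ)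
    (hs : 0 < D.s ∧ D.s < 1) (hD : D.AffP π t) (hφ : D.Rlb φ F t) : (D.rlb φ F).AffP π ((3 + |π.q| + 2 * π.J) * t) := by
  have hJ := hπ.J0
  have hq := abs_nonneg π.q
  have hG : ∀ i ∈ F, φ i ∈ D.G := fun i hi => (hφ.mem i hi).2.2.1
  have hnear : ∀ i ∈ F, |φ i - i| ≤ t := fun i hi => (hφ.mem i hi).2.2.2
  -- Lipschitz bounds
  have hqq : ∀ i ∈ F, |π.q * (φ i - i)| ≤ |π.q| * t := fun i hi => by
    rw [abs_mul]
    exact mul_le_mul_of_nonneg_left (hnear i hi) hq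
  have hJJ : ∀ i ∈ F, |π.J * (φ i - i)| ≤ π.J * t := fun i hi => by
    rw [abs_mul, abs_of_nonneg hJ]
    exact mul_le_mul_of_nonneg_left (hnear i hi) hJ
  have hJt : 0 ≤ π.J * t := mul_nonneg hJ ht.le
  have hqt : 0 ≤ |π.q| * t := mul_nonneg hq ht.le
  have hT : (3 + |π.q| + 2 * π.J) * t = 3 * t + |π.q| * t + 2 * (π.J * t) := by ring
  have hb2 : ∀ i ∈ F, π.b2 i - |π.q| * t ≤ π.b2 (φ i) := fun i hi => by
    have := abs_le.1 (hqq i hi)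
    unfold SfPar.b2
    nlinarith [this.1, this.2]
  have hb1 : ∀ i ∈ F, π.b1 i - |π.q| * t - π.J * t ≤ π.b1 (φ i) := fun i hi => by
    have h1 := abs_le.1 (hqq i hi)
    have h2 := abs_le.1 (hJJ i hi)
    unfold SfPar.b1
    nlinarith [h1.1, h1.2, h2.1, h2.2]
  refine ⟨?_, ?_, ?_, ?_, ?_, ?_, ?_⟩
  · intro i hi
    have h2 := abs_le.1 (hJJ i hi)
    refine ⟨(sf_mono_aux_le hs ?_).trans (hD.hr (φ i) (hG i hi)).1, (hD.hr (φ i) (hG i hi)).2.trans (sf_mono_aux_le hs ?_)⟩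
    · unfold SfPar.u
      nlinarith [h2.1, h2.2]
    · unfold SfPar.u
      nlinarith [h2.1, h2.2]
  · intro i hi
    have h1 := abs_le.1 (hqq i hi)
    have h2 := abs_le.1 (hJJ i hi)
    refine ⟨(sf_mono_aux_le hs ?_).trans (hD.hf (φ i) (hG i hi)).1, (hD.hf (φ i) (hG i hi)).2.trans (sf_mono_aux_le hs ?_)⟩
    · unfold SfPar.n
      nlinarith [h1.1, h1.2, h2.1, h2.2]
    · unfold SfPar.n
      nlinarith [h1.1, h1.2, h2.1, h2.2]
  · intro i hi j hj hij ρ ρ' hc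
    obtain ⟨b1, b2, b3⟩ := hD.cmpA (φ i) (hG i hi) (φ j) (hG j hj) (hφ.mono i hi j hj hij) ρ ρ' hc
    have ni := abs_le.1 (hnear i hi)
    have nj := abs_le.1 (hnear j hj)
    refine ⟨b1.trans (sf_mono_aux_le hs ?_), b2.trans (sf_mono_aux_le hs ?_), b3.trans (sf_mono_aux_le hs ?_)⟩
    · have : min (π.b2 i) (π.b2 j) - |π.q| * t ≤ min (π.b2 (φ i)) (π.b2 (φ j)) :=
        le_min (by linarith [min_le_left (π.b2 i) (π.b2 j), hb2 i hi]) (by linarith [min_le_right (π.b2 i) (π.b2 j), hb2 j hj])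
      linarith
    · have : min (π.b2 i - i) (π.b2 j - j) - |π.q| * t - t ≤ min (π.b2 (φ i) - φ i) (π.b2 (φ j) - φ j) :=
        le_min (by linarith [min_le_left (π.b2 i - i) (π.b2 j - j), hb2 i hi])
          (by linarith [min_le_right (π.b2 i - i) (π.b2 j - j), hb2 j hj])
      linarith
    · have : min (π.b1 i) (π.b1 j) - |π.q| * t - π.J * t ≤ min (π.b1 (φ i)) (π.b1 (φ j)) :=
        le_min (by linarith [min_le_left (π.b1 i) (π.b1 j), hb1 i hi]) (by linarith [min_le_right (π.b1 i) (π.b1 j), hb1 j hj])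
      linarith
  · intro i hi ρ
    refine (hD.cmpB (φ i) (hG i hi) ρ).trans (sf_mono_aux_le hs ?_)
    have : min (-π.c2) (min (π.b2 i) 0) - |π.q| * t ≤ min (-π.c2) (min (π.b2 (φ i)) 0) := by
      refine le_min ?_ (le_min ?_ ?_)
      · linarith [min_le_left (-π.c2) (min (π.b2 i) 0)]
      · linarith [min_le_right (-π.c2) (min (π.b2 i) 0), min_le_left (π.b2 i) 0, hb2 i hi]
      · linarith [min_le_right (-π.c2) (min (π.b2 i) 0), min_le_right (π.b2 i) 0]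
    linarith
  · intro a1 a2 a3 i hi ρ
    refine (hD.eqK a1 a2 a3 (φ i) (hG i hi) ρ).trans (sf_mono_aux_le hs ?_)
    linarith [hb2 i hi]
  · intro a1 a2 i hi ρ
    refine (hD.stK a1 a2 (φ i) (hG i hi) ρ).trans (sf_mono_aux_le hs ?_)
    linarith
  · intro a1
    obtain ⟨b1, b2⟩ := hD.linP a1
    refine ⟨fun i hi j hj hij ρ ρ' hc => ?_, ?_⟩
    · refine (b1 (φ i) (hG i hi) (φ j) (hG j hj) (hφ.mono i hi j hj hij) ρ ρ' hc).trans (sf_mono_aux_le hs ?_)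
      linarith [hb1 i hi]
    · have key : ∀ x : ℝ, x = 1 → ∀ ρ : D.Row x, |(D.lab x ρ).Pc| ≤ D.s ^ (-π.c1 - (3 + |π.q| + 2 * π.J) * t) := by
        rintro x rfl ρ
        exact (b2 ρ).trans (sf_mono_aux_le hs (by linarith))
      exact key (φ 1) hφ.fix

/-- LEAF RL2'. **cost rigidity is stable under relabelling**: `τ < τ'`, `κ0 → κ0/2`, every tolerance `t' ≥ C t`, `C = 1 + 2 κ0 + κ0 (|c2| + |c1| + τ) / (τ' - τ)`.
`MinC` at `(i, j)` from `MinC` of `D` at `(φ i, φ j)` with the SAME `ι, Sb, Ub, sg` (the types agree by definition), `Δ = j - i`, `Δφ = φ j - φ i`, `|Δφ - Δ| ≤ 2t`, `Δ ≥ 2 t'/κ0 ≥ 2 C t / κ0`: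
 `t ≤ κ0 Δφ`;  `(κ0/2) Δ ≤ κ0 Δφ` (counts, conclusion, `sfR2` in the linear case);  `(c - τ') Δ ≤ (c - τ) Δφ` for `c = c2, c1` (from `(τ' - τ) Δ ≥ 2 (|c| + τ) t`);  sizes `s^(-1/t') ≤ s^(-1/t)`. -/
theorem lay_rlb_minc (π : SfPar) (τ τ' κ0 t t' : ℝ) (hτ : 0 < τ) (hττ : τ < τ') (hκ : 0 < κ0) (ht : 0 < t)
    (htt : (1 + 2 * κ0 + κ0 * (|π.c2| + |π.c1| + τ) / (τ' - τ)) * t ≤ t') (D : SfDoc) (φ : ℝ → ℝ) (F : Finset ℝ)
    (hs : 0 < D.s ∧ D.s < 1) (hD : D.MinC π τ κ0 t) (hφ : D.Rlb φ F t) : (D.rlb φ F).MinC π τ' (κ0 / 2) t' := by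
  have hG : ∀ i ∈ F, φ i ∈ D.G := fun i hi => (hφ.mem i hi).2.2.1
  have hnear : ∀ i ∈ F, |φ i - i| ≤ t := fun i hi => (hφ.mem i hi).2.2.2
  have hc2 := abs_nonneg π.c2
  have hc1 := abs_nonneg π.c1
  have hdd : 0 < τ' - τ := by linarith
  set A : ℝ := (|π.c2| + |π.c1| + τ) / (τ' - τ) with hA
  have hA0 : 0 ≤ A := div_nonneg (by linarith) hdd.le
  have hAe : A * (τ' - τ) = |π.c2| + |π.c1| + τ := div_mul_cancel₀ _ hdd.ne'
  have htt' : (1 + 2 * κ0 + κ0 * A) * t ≤ t' := by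
    have : κ0 * (|π.c2| + |π.c1| + τ) / (τ' - τ) = κ0 * A := by rw [hA, mul_div_assoc]
    rwa [this] at htt
  have htle : t ≤ t' := by
    refine le_trans ?_ htt'
    have : 0 ≤ (2 * κ0 + κ0 * A) * t := mul_nonneg (by positivity) ht.le
    nlinarith
  intro i hi j hj hij hgap ι _ Sb Ub sg h1 h2 h3 h4 h5 h6 h7
  have ni := abs_le.1 (hnear i hi)
  have nj := abs_le.1 (hnear j hj)
  -- `κ0 Δ ≥ 2 t'`
  have hΔ : 2 * t' ≤ κ0 * (j - i) := by linarith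
  have hΔ1 : 2 * ((1 + 2 * κ0 + κ0 * A) * t) ≤ κ0 * (j - i) := by linarith
  -- `Δ ≥ 4 t + 2 A t`
  have hΔ2 : 4 * t + 2 * (A * t) ≤ j - i := by
    have : κ0 * (4 * t + 2 * (A * t)) ≤ κ0 * (j - i) := by nlinarith
    exact le_of_mul_le_mul_left this hκ
  have hAt : 0 ≤ A * t := mul_nonneg hA0 ht.le
  have hhalf : κ0 / 2 * (j - i) ≤ κ0 * (φ j - φ i) := by
    have : (j - i) / 2 ≤ φ j - φ i := by linarith
    nlinarith
  have hcost : ∀ c : ℝ, |c| ≤ |π.c2| + |π.c1| → (c - τ') * (j - i) ≤ (c - τ) * (φ j - φ i) := by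
    intro c hc
    have e : (c - τ) * (φ j - φ i) - (c - τ') * (j - i) = (c - τ) * ((φ j - φ i) - (j - i)) + (τ' - τ) * (j - i) := by ring
    have h8 : |(c - τ) * ((φ j - φ i) - (j - i))| ≤ (|π.c2| + |π.c1| + τ) * (2 * t) := by
      rw [abs_mul]
      refine mul_le_mul ?_ ?_ (abs_nonneg _) (by linarith)
      · calc |c - τ| ≤ |c| + |τ| := abs_sub _ _
          _ ≤ |π.c2| + |π.c1| + τ := by rw [abs_of_pos hτ]; linarith
      · rw [abs_le]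
        constructor <;> linarith
    have h9 : (|π.c2| + |π.c1| + τ) * (2 * t) ≤ (τ' - τ) * (j - i) := by
      rw [← hAe]
      have : (τ' - τ) * (2 * (A * t)) ≤ (τ' - τ) * (j - i) := mul_le_mul_of_nonneg_left (by linarith) hdd.le
      nlinarith
    have := (abs_le.1 h8).1
    linarith
  have hres := hD (φ i) (hG i hi) (φ j) (hG j hj) (hφ.mono i hi j hj hij) (by nlinarith) ι Sb Ub sg h1 h2
    (fun ρ => (h3 ρ).trans (sf_mono_aux_le hs (by linarith)))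
    (fun lam => (h4 lam).trans (sf_mono_aux_le hs (by linarith)))
    (fun b => (h5 b).trans (sf_mono_aux_le hs (by
      have := one_div_le_one_div_of_le ht htle
      linarith)))
    (fun hc b ρ' hU => (h6 hc b ρ' hU).trans (sf_mono_aux_le hs (by
      have := hcost π.c2 (by linarith)
      linarith)))
    (fun hc b ρ' hU => ⟨(h7 hc b ρ' hU).1.trans (sf_mono_aux_le hs (by linarith)),
      (h7 hc b ρ' hU).2.trans (sf_mono_aux_le hs (by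
        have := hcost π.c1 (by linarith)
        linarith))⟩)
  exact hres.trans (sf_mono_aux_le hs hhalf)

/-- **(SPG) is stable under relabelling** (clone of `lay_rlb_minc`; helper118) -/
theorem lay_rlb_spg (π : SfPar) (τ τ' κ0 t t' : ℝ) (hτ : 0 < τ) (hττ : τ < τ') (hκ : 0 < κ0) (ht : 0 < t)
    (htt : (1 + 2 * κ0 + κ0 * (|π.c2| + |π.c1| + τ) / (τ' - τ)) * t ≤ t') (D : SfDoc) (φ : ℝ → ℝ) (F : Finset ℝ)
    (hs : 0 < D.s ∧ D.s < 1) (hD : D.Spg π τ κ0 t) (hφ : D.Rlb φ F t) : (D.rlb φ F).Spg π τ' (κ0 / 2) t' := by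
  have hG : ∀ i ∈ F, φ i ∈ D.G := fun i hi => (hφ.mem i hi).2.2.1
  have hnear : ∀ i ∈ F, |φ i - i| ≤ t := fun i hi => (hφ.mem i hi).2.2.2
  have hc2 := abs_nonneg π.c2
  have hc1 := abs_nonneg π.c1
  have hdd : 0 < τ' - τ := by linarith
  set A : ℝ := (|π.c2| + |π.c1| + τ) / (τ' - τ) with hA
  have hA0 : 0 ≤ A := div_nonneg (by linarith) hdd.le
  have hAe : A * (τ' - τ) = |π.c2| + |π.c1| + τ := div_mul_cancel₀ _ hdd.ne'
  have htt' : (1 + 2 * κ0 + κ0 * A) * t ≤ t' := by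
    have : κ0 * (|π.c2| + |π.c1| + τ) / (τ' - τ) = κ0 * A := by rw [hA, mul_div_assoc]
    rwa [this] at htt
  have htle : t ≤ t' := by
    refine le_trans ?_ htt'
    have : 0 ≤ (2 * κ0 + κ0 * A) * t := mul_nonneg (by positivity) ht.le
    nlinarith
  intro i hi j hj hij hgap ι _ Sb sg U S h1 h2 h3 h4 h5 h6
  have ni := abs_le.1 (hnear i hi)
  have nj := abs_le.1 (hnear j hj)
  -- `κ0 Δ ≥ 2 t'`
  have hΔ : 2 * t' ≤ κ0 * (j - i) := by linarith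
  have hΔ1 : 2 * ((1 + 2 * κ0 + κ0 * A) * t) ≤ κ0 * (j - i) := by linarith
  -- `Δ ≥ 4 t + 2 A t`
  have hΔ2 : 4 * t + 2 * (A * t) ≤ j - i := by
    have : κ0 * (4 * t + 2 * (A * t)) ≤ κ0 * (j - i) := by nlinarith
    exact le_of_mul_le_mul_left this hκ
  have hAt : 0 ≤ A * t := mul_nonneg hA0 ht.le
  have hhalf : κ0 / 2 * (j - i) ≤ κ0 * (φ j - φ i) := by
    have : (j - i) / 2 ≤ φ j - φ i := by linarith
    nlinarith
  have hcost : ∀ c : ℝ, |c| ≤ |π.c2| + |π.c1| → (c - τ') * (j - i) ≤ (c - τ) * (φ j - φ i) := by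
    intro c hc
    have e : (c - τ) * (φ j - φ i) - (c - τ') * (j - i) = (c - τ) * ((φ j - φ i) - (j - i)) + (τ' - τ) * (j - i) := by ring
    have h8 : |(c - τ) * ((φ j - φ i) - (j - i))| ≤ (|π.c2| + |π.c1| + τ) * (2 * t) := by
      rw [abs_mul]
      refine mul_le_mul ?_ ?_ (abs_nonneg _) (by linarith)
      · calc |c - τ| ≤ |c| + |τ| := abs_sub _ _
          _ ≤ |π.c2| + |π.c1| + τ := by rw [abs_of_pos hτ]; linarith
      · rw [abs_le]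
        constructor <;> linarith
    have h9 : (|π.c2| + |π.c1| + τ) * (2 * t) ≤ (τ' - τ) * (j - i) := by
      rw [← hAe]
      have : (τ' - τ) * (2 * (A * t)) ≤ (τ' - τ) * (j - i) := mul_le_mul_of_nonneg_left (by linarith) hdd.le
      nlinarith
    have := (abs_le.1 h8).1
    linarith
  have hres := hD (φ i) (hG i hi) (φ j) (hG j hj) (hφ.mono i hi j hj hij) (by nlinarith) ι Sb sg U S h1 h2
    (fun lam => (h3 lam).trans (sf_mono_aux_le hs (by linarith)))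
    (fun b => (h4 b).trans (sf_mono_aux_le hs (by
      have := one_div_le_one_div_of_le ht htle
      linarith)))
    (fun hc b ρ ρ' a1 a2 a3 => (h5 hc b ρ ρ' a1 a2 a3).trans (sf_mono_aux_le hs (by
      have := hcost π.c2 (by linarith)
      linarith)))
    (fun hc b ρ ρ' a1 a2 a3 => ⟨(h6 hc b ρ ρ' a1 a2 a3).1.trans (sf_mono_aux_le hs (by linarith)),
      (h6 hc b ρ ρ' a1 a2 a3).2.trans (sf_mono_aux_le hs (by
        have := hcost π.c1 (by linarith)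
        linarith))⟩)
  exact hres.trans (add_le_add (mul_le_mul_of_nonneg_right (sf_mono_aux_le hs (by linarith))
    (Real.rpow_nonneg (sf_cond_pr_nonneg _ _) _)) (sf_mono_aux_le hs hhalf))

/-- `Aff` is stable under relabelling -/
theorem lay_rlb_aff (π : SfPar) (hπ : π.Valid) (τ τ' κ0 : ℝ) (hτ : 0 < τ) (hττ : τ < τ') (hκ : 0 < κ0) :
    ∃ C : ℝ, 6 ≤ C ∧ ∀ (C0 t t' : ℝ) (D : SfDoc) (φ : ℝ → ℝ) (F : Finset ℝ), 0 < t → C * t ≤ t' → D.Ok π C0 τ κ0 t →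
      D.Rlb φ F t → (D.rlb φ F).Aff π τ' (κ0 / 2) t' := by
  have hJ := hπ.J0
  have hx : 0 ≤ κ0 * (|π.c2| + |π.c1| + τ) / (τ' - τ) :=
    div_nonneg (mul_nonneg hκ.le (by positivity)) (by linarith)
  refine ⟨6 + |π.q| + 2 * π.J + 2 * κ0 + κ0 * (|π.c2| + |π.c1| + τ) / (τ' - τ), by
    have := abs_nonneg π.q
    linarith, fun C0 t t' D φ F ht htt hD hφ => ?_⟩
  have hs := hD.core.hs
  have ha := hD.aff
  have hq := abs_nonneg π.q
  refine SfDoc.sf_aff_of _ π τ' (κ0 / 2) t' ?_ ?_ (fun hh => ?_)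
  · refine sf_affp_mono _ π ((3 + |π.q| + 2 * π.J) * t) t' hs ?_
      (lay_rlb_affp π hπ t ht D φ F hs ⟨ha.hr, ha.hf, ha.cmpA, ha.cmpB, ha.eqK, ha.stK, ha.linP⟩ hφ)
    refine le_trans (mul_le_mul_of_nonneg_right ?_ ht.le) htt
    linarith
  · refine lay_rlb_minc π τ τ' κ0 t t' hτ hττ hκ ht ?_ D φ F hs ha.mincost hφ
    refine le_trans (mul_le_mul_of_nonneg_right ?_ ht.le) htt
    linarith
  · refine lay_rlb_spg π τ τ' κ0 t t' hτ hττ hκ ht ?_ D φ F hs (ha.spg hh) hφ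
    refine le_trans (mul_le_mul_of_nonneg_right ?_ ht.le) htt
    linarith

/-- `Ok` is stable under relabelling -/
theorem lay_rlb_ok (π : SfPar) (hπ : π.Valid) (τ τ' κ0 : ℝ) (hτ : 0 < τ) (hττ : τ < τ') (hκ : 0 < κ0) :
    ∃ C : ℝ, 6 ≤ C ∧ ∀ (C0 t t' : ℝ) (D : SfDoc) (φ : ℝ → ℝ) (F : Finset ℝ), 0 < t → C * t ≤ t' → D.Ok π C0 τ κ0 t →
      D.Rlb φ F t → (D.rlb φ F).Ok π C0 τ' (κ0 / 2) t' := by
  obtain ⟨C, hC, H⟩ := lay_rlb_aff π hπ τ τ' κ0 hτ hττ hκ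
  refine ⟨C, hC, fun C0 t t' D φ F ht htt hD hφ => ⟨?_, H C0 t t' D φ F ht htt hD hφ⟩⟩
  refine sf_mono_aux_core _ π C0 (6 * t) t' (by positivity) ?_ (lay_rlb_core π hπ C0 t ht D φ F hD.core hφ)
  exact (mul_le_mul_of_nonneg_right hC ht.le).trans htt

/-- the nearest gates of the labels `1`, `a + c z` form an admissible relabelling -/
theorem lay_rlb_gt {π : SfPar} {C0 τ κ0 t0 : ℝ} {D : SfDoc} (hD : D.Fine π C0 τ κ0 t0) (cs : Finset ℝ) (hcs : ∀ c ∈ cs, 0 ≤ c)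
    (g0 z0 a z : ℝ) (hg : ∀ i ∈ cs, ∀ j ∈ cs, i < j → g0 ≤ j - i) (hg0 : 0 < g0) (hz0 : 0 < z0) (hz : z0 ≤ z) (ha : 0 ≤ a)
    (hG : ∀ c ∈ cs, a + c * z ≤ 1 - z0) (h1 : t0 ≤ g0 * z0 / 4) (h2 : t0 ≤ z0 / 4) :
    D.Rlb D.gt (insert 1 (cs.image (fun c => a + c * z))) t0 := by
  have h1G := hD.ok.core.gate.1
  have hfix : D.gt 1 = 1 := nm_gt_self D h1G
  have ht0 := hD.pos
  have hzp : 0 < z := lt_of_lt_of_le hz0 hz
  have hF : ∀ i ∈ insert 1 (cs.image (fun c => a + c * z)), i = 1 ∨ ∃ c ∈ cs, i = a + c * z := by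
    intro i hi
    rw [Finset.mem_insert, Finset.mem_image] at hi
    rcases hi with h | ⟨c, hc, h⟩
    · exact Or.inl h
    · exact Or.inr ⟨c, hc, h.symm⟩
  have hrange : ∀ i ∈ insert 1 (cs.image (fun c => a + c * z)), 0 ≤ i ∧ i ≤ 1 := by
    intro i hi
    rcases hF i hi with rfl | ⟨c, hc, rfl⟩
    · exact ⟨zero_le_one, le_rfl⟩
    · have e1 := mul_nonneg (hcs c hc) hzp.le
      have e2 := hG c hc
      exact ⟨by linarith, by linarith⟩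
  have hnear : ∀ i ∈ insert 1 (cs.image (fun c => a + c * z)), |D.gt i - i| ≤ t0 :=
    fun i hi => nm_gt_near hD (hrange i hi).1 (hrange i hi).2
  refine ⟨Finset.mem_insert_self _ _, hfix,
    fun i hi => ⟨(hrange i hi).1, (hrange i hi).2, nm_gt_mem D ⟨1, h1G⟩ i, hnear i hi⟩, ?_⟩
  intro i hi j hj hij
  have hgap : 4 * t0 ≤ j - i := by
    rcases hF i hi with rfl | ⟨c, hc, rfl⟩
    · have := (hrange j hj).2
      linarith
    · rcases hF j hj with rfl | ⟨c', hc', rfl⟩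
      · have := hG c hc
        linarith
      · have hcc : c < c' := by
          by_contra hcon
          have := mul_le_mul_of_nonneg_right (not_lt.1 hcon) hzp.le
          linarith
        have h3 := hg c hc c' hc' hcc
        have h4 : g0 * z0 ≤ (c' - c) * z := mul_le_mul h3 hz hz0.le (by linarith)
        nlinarith
  have a1 := abs_le.1 (hnear i hi)
  have a2 := abs_le.1 (hnear j hj)
  linarith [a1.1, a1.2, a2.1, a2.2]

/-- the constants of RL3 -/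
theorem lay_rlb_setup (π : SfPar) (hπ : π.Valid) (τS κ0 : ℝ) (hτ : 0 < τS) (hκ : 0 < κ0) (cs : Finset ℝ) (hcs : ∀ c ∈ cs, 0 ≤ c)
    (z0 t s0 : ℝ) (hz0 : 0 < z0) (ht : 0 < t) (hs0 : 0 < s0) :
    ∃ t0 : ℝ, 0 < t0 ∧ t0 ≤ t ∧ ∀ (C0 : ℝ) (D : SfDoc), D.Fine π C0 (τS / 2) κ0 t0 → ∀ a z : ℝ, z0 ≤ z → 0 ≤ a →
      (∀ c ∈ insert 0 cs, a + c * z ≤ 1 - z0) →
      D.s < s0 ∧ D.gt 1 = 1 ∧ (D.rlb D.gt (insert 1 ((insert 0 cs).image (fun c => a + c * z)))).Ok π C0 τS (κ0 / 2) t ∧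
        ∀ c ∈ insert 0 cs, D.gt (a + c * z) < 1 := by
  obtain ⟨C, hC, H⟩ := lay_rlb_ok π hπ (τS / 2) τS κ0 (by positivity) (by linarith) hκ
  obtain ⟨g0, hg0, hg⟩ := sf_gap_exists (insert 0 cs)
  have hCp : 0 < C := by linarith
  obtain ⟨t0, ht0⟩ : ∃ t0 : ℝ, t0 = min (t / C) (min (s0 / 2) (min (g0 * z0 / 4) (z0 / 4))) := ⟨_, rfl⟩
  have b1 : t0 ≤ t / C := by rw [ht0]; exact min_le_left _ _
  have b2 : t0 ≤ s0 / 2 := by rw [ht0]; exact (min_le_right _ _).trans (min_le_left _ _)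
  have b3 : t0 ≤ g0 * z0 / 4 := by rw [ht0]; exact (min_le_right _ _).trans ((min_le_right _ _).trans (min_le_left _ _))
  have b4 : t0 ≤ z0 / 4 := by rw [ht0]; exact (min_le_right _ _).trans ((min_le_right _ _).trans (min_le_right _ _))
  have b0 : 0 < t0 := by
    rw [ht0]
    exact lt_min (by positivity) (lt_min (by positivity) (lt_min (by positivity) (by positivity)))
  have b5 : C * t0 ≤ t := (le_div_iff₀' hCp).1 b1
  refine ⟨t0, b0, by nlinarith, ?_⟩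
  intro C0 D hD a z hz ha hG
  have hcs' : ∀ c ∈ insert 0 cs, 0 ≤ c := by
    intro c hc
    rcases Finset.mem_insert.1 hc with rfl | hc
    · exact le_rfl
    · exact hcs c hc
  have hR := lay_rlb_gt hD (insert 0 cs) hcs' g0 z0 a z hg hg0 hz0 hz ha hG b3 b4
  refine ⟨lt_of_le_of_lt (hD.sm.trans b2) (by linarith), hR.fix, H C0 t0 t D D.gt _ b0 b5 hD.ok hR, fun c hc => ?_⟩
  have h1 := hR.mono (a + c * z) (Finset.mem_insert_of_mem (Finset.mem_image_of_mem _ hc)) 1 hR.one (by linarith [hG c hc])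
  rw [hR.fix] at h1
  exact h1

/-- transport of the final gate, graph form -/
theorem lay_rlb_tr_graph (D : SfDoc) (lb : Bool) (cs : Finset ℝ) (γ : ℝ → ℝ) (N M W V : ℝ) (y : ℝ) (hy : y = 1)
    (H : ∀ (ζ : Type) (Z : D.Row y → ζ) (E : D.Row y → Prop),
      (∀ c ∈ cs, ∀ ρ : D.Row (γ c), ∃ S : Finset ζ, (S.card : ℝ) ≤ N ∧ ∀ ω : D.Row y, D.Conn (γ c) y ρ ω → E ω → Z ω ∈ S) →
      (lb = true → ∀ c ∈ cs, ∀ lam : SfTest, ∃ S : Finset ζ, (S.card : ℝ) ≤ N ∧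
        ∀ ω : D.Row y, (∃ ρ : D.Row (γ c), D.lab (γ c) ρ = lam ∧ D.Conn (γ c) y ρ ω) → E ω → Z ω ∈ S) →
      ∀ v sl : ζ → ℝ, (∀ x, |sl x| ≤ M) →
        (D.P y).pr (fun ρ => E ρ ∧ |(D.lab y ρ).be - (v (Z ρ) + sl (Z ρ) * (D.lab y ρ).T)| ≤ W) ≤ V) :
    ∀ (ζ : Type) (Z : D.Row 1 → ζ) (E : D.Row 1 → Prop),
      (∀ c ∈ cs, ∀ ρ : D.Row (γ c), ∃ S : Finset ζ, (S.card : ℝ) ≤ N ∧ ∀ ω : D.Row 1, D.Conn (γ c) 1 ρ ω → E ω → Z ω ∈ S) →
      (lb = true → ∀ c ∈ cs, ∀ lam : SfTest, ∃ S : Finset ζ, (S.card : ℝ) ≤ N ∧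
        ∀ ω : D.Row 1, (∃ ρ : D.Row (γ c), D.lab (γ c) ρ = lam ∧ D.Conn (γ c) 1 ρ ω) → E ω → Z ω ∈ S) →
      ∀ v sl : ζ → ℝ, (∀ x, |sl x| ≤ M) →
        (D.P 1).pr (fun ρ => E ρ ∧ |(D.lab 1 ρ).be - (v (Z ρ) + sl (Z ρ) * (D.lab 1 ρ).T)| ≤ W) ≤ V := by
  subst hy
  exact H

/-- transport of the final gate, value form -/
theorem lay_rlb_tr_value (D : SfDoc) (cs : Finset ℝ) (γ : ℝ → ℝ) (N W V : ℝ) (y : ℝ) (hy : y = 1)
    (H : ∀ (ζ : Type) (Z : D.Row y → ζ) (E : D.Row y → Prop),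
      (∀ c ∈ cs, ∀ ρ : D.Row (γ c), ∃ S : Finset ζ, (S.card : ℝ) ≤ N ∧ ∀ ω : D.Row y, D.Conn (γ c) y ρ ω → E ω → Z ω ∈ S) →
      ∀ v : ζ → ℝ, (D.P y).pr (fun ρ => E ρ ∧ |(D.lab y ρ).Pc - v (Z ρ)| ≤ W) ≤ V) :
    ∀ (ζ : Type) (Z : D.Row 1 → ζ) (E : D.Row 1 → Prop),
      (∀ c ∈ cs, ∀ ρ : D.Row (γ c), ∃ S : Finset ζ, (S.card : ℝ) ≤ N ∧ ∀ ω : D.Row 1, D.Conn (γ c) 1 ρ ω → E ω → Z ω ∈ S) →
      ∀ v : ζ → ℝ, (D.P 1).pr (fun ρ => E ρ ∧ |(D.lab 1 ρ).Pc - v (Z ρ)| ≤ W) ≤ V := by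
  subst hy
  exact H

/-- LEAF RL3. **exact gates ⇒ approximated gates.**   `τ = τ_S/2`, the same `χ`, `cs`;  `e1` of `LaySep` at `κ0/2`;  `t := t0_S(z0)`, `s0 := s0_S(t)`, `C` of `lay_rlb_ok (τ_S/2) τ_S κ0`, `g0` = least gap of `insert 0 cs` (`sf_gap_exists`);
`t0 = min (t/C) (min (s0/2) (min (g0 z0/4) (z0/4)))`.   `F = insert 1 (insert a (cs.image (a + · z)))`, `φ = D.gt` (`nm_gt_self`, `nm_gt_mem`, `nm_gt_near`; `mono`: labels are `> 2 t0` apart).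
Apply `LaySep` to `D.rlb D.gt F`;  `RowPr`, `LabPr` (`Met`: both `if` are negative) pass by definition up to the final gate;  `s^(-t0) ≤ s^(-t)`;  transport of the final gate: see the header. -/
theorem lay_sepA (π : SfPar) (hπ : π.Valid) (C0 : ℝ) (lb : Bool) (h : LaySep π C0 lb) : LaySepA π C0 lb := by
  obtain ⟨τS, χ, cs, hτ, hχ0, hχ1, hcs, hS⟩ := h
  have hcs' : ∀ c ∈ insert 0 cs, 0 ≤ c := by
    intro c hc
    rcases Finset.mem_insert.1 hc with rfl | hc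
    · exact le_rfl
    · exact hcs c hc
  refine ⟨τS / 2, χ, insert 0 cs, by positivity, hχ0, hχ1, hcs', ?_⟩
  intro κ0 hκ0
  obtain ⟨e1, he1, hS⟩ := hS (κ0 / 2) (by positivity)
  refine ⟨e1, he1, ?_⟩
  intro z0 hz0
  obtain ⟨t, ht, hS⟩ := hS z0 hz0
  obtain ⟨s0, hs0, hS⟩ := hS t ht le_rfl
  obtain ⟨t0, ht0, htt, H⟩ := lay_rlb_setup π hπ τS κ0 hτ hκ0 cs hcs z0 t s0 hz0 ht hs0
  refine ⟨t0, ht0, ?_⟩
  intro D hD a z hz ha hG ζ Z E hRow hLab v sl hsl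
  obtain ⟨hDs, hfix, hOk, hlt⟩ := H C0 D hD a z hz ha hG
  obtain ⟨hs, hs1⟩ := hD.ok.core.hs
  have hN : D.s ^ (-t0) ≤ D.s ^ (-t) := Real.rpow_le_rpow_of_exponent_ge hs hs1.le (by linarith)
  have hmemF : ∀ c ∈ insert 0 cs, a + c * z ∈ insert 1 ((insert 0 cs).image (fun c => a + c * z)) :=
    fun c hc => Finset.mem_insert_of_mem (Finset.mem_image_of_mem _ hc)
  have haF : a ∈ insert 1 ((insert 0 cs).image (fun c => a + c * z)) := by
    have := hmemF 0 (Finset.mem_insert_self _ _)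
    rwa [zero_mul, add_zero] at this
  have key := hS (D.rlb D.gt (insert 1 ((insert 0 cs).image (fun c => a + c * z)))) hDs hOk a z hz haF
    (fun c hc => ⟨hmemF c (Finset.mem_insert_of_mem hc), by linarith [hG c (Finset.mem_insert_of_mem hc)]⟩)
  refine lay_rlb_tr_graph D lb cs (fun c => D.gt (a + c * z)) (D.s ^ (-t)) (D.s ^ laySlE π a z χ) (D.s ^ (π.b2 a + z))
    (D.s ^ (e1 * z)) (D.gt 1) hfix ?_ ζ Z E ?_ ?_ v sl hsl
  · intro ζ' Z' E' hRow' hLab' v' sl' hsl'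
    refine key ζ' Z' E' hRow' (fun hl c hc lam x => ?_) v' sl' hsl'
    obtain ⟨S, hS1, hS2⟩ := hLab' hl c hc lam
    refine ⟨S, hS1, fun ω hω hE _ => hS2 ω ?_ hE⟩
    have hne : a + c * z ≠ 1 := by
      have := hG c (Finset.mem_insert_of_mem hc)
      intro h1
      linarith
    unfold SfDoc.Met at hω
    rw [if_neg hne] at hω
    exact hω
  · intro c hc ρ
    obtain ⟨S, hS1, hS2⟩ := hRow c (Finset.mem_insert_of_mem hc) ρ
    exact ⟨S, hS1.trans hN, hS2⟩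
  · intro hl c hc lam
    obtain ⟨S, hS1, hS2⟩ := hLab hl c (Finset.mem_insert_of_mem hc) lam ()
    refine ⟨S, hS1.trans hN, fun ω hω hE => hS2 ω ?_ hE rfl⟩
    unfold SfDoc.Met
    rw [if_neg (hlt c (Finset.mem_insert_of_mem hc)).ne]
    exact hω

/-- LEAF RL3. the same for the value form -/
theorem lay_sepLA (π : SfPar) (hπ : π.Valid) (C0 : ℝ) (h : LaySepL π C0) : LaySepLA π C0 := by
  obtain ⟨τS, cs, hτ, hcs, hS⟩ := h
  have hcs' : ∀ c ∈ insert 0 cs, 0 ≤ c := by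
    intro c hc
    rcases Finset.mem_insert.1 hc with rfl | hc
    · exact le_rfl
    · exact hcs c hc
  refine ⟨τS / 2, insert 0 cs, by positivity, hcs', ?_⟩
  intro κ0 hκ0
  obtain ⟨e1, he1, hS⟩ := hS (κ0 / 2) (by positivity)
  refine ⟨e1, he1, ?_⟩
  intro z0 hz0
  obtain ⟨t, ht, hS⟩ := hS z0 hz0
  obtain ⟨s0, hs0, hS⟩ := hS t ht le_rfl
  obtain ⟨t0, ht0, htt, H⟩ := lay_rlb_setup π hπ τS κ0 hτ hκ0 cs hcs z0 t s0 hz0 ht hs0
  refine ⟨t0, ht0, ?_⟩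
  intro D hD a z hz ha hG ζ Z E hRow v
  obtain ⟨hDs, hfix, hOk, hlt⟩ := H C0 D hD a z hz ha hG
  obtain ⟨hs, hs1⟩ := hD.ok.core.hs
  have hN : D.s ^ (-t0) ≤ D.s ^ (-t) := Real.rpow_le_rpow_of_exponent_ge hs hs1.le (by linarith)
  have hmemF : ∀ c ∈ insert 0 cs, a + c * z ∈ insert 1 ((insert 0 cs).image (fun c => a + c * z)) :=
    fun c hc => Finset.mem_insert_of_mem (Finset.mem_image_of_mem _ hc)
  have haF : a ∈ insert 1 ((insert 0 cs).image (fun c => a + c * z)) := by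
    have := hmemF 0 (Finset.mem_insert_self _ _)
    rwa [zero_mul, add_zero] at this
  have key := hS (D.rlb D.gt (insert 1 ((insert 0 cs).image (fun c => a + c * z)))) hDs hOk a z hz haF
    (fun c hc => ⟨hmemF c (Finset.mem_insert_of_mem hc), by linarith [hG c (Finset.mem_insert_of_mem hc)]⟩)
  refine lay_rlb_tr_value D cs (fun c => D.gt (a + c * z)) (D.s ^ (-t)) (D.s ^ (π.b1 a + z))
    (D.s ^ (e1 * z)) (D.gt 1) hfix ?_ ζ Z E ?_ v
  · intro ζ' Z' E' hRow' v'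
    exact key ζ' Z' E' hRow' v'
  · intro c hc ρ
    obtain ⟨S, hS1, hS2⟩ := hRow c (Finset.mem_insert_of_mem hc) ρ
    exact ⟨S, hS1.trans hN, hS2⟩

/-- LEAF RL4. **S1 with free gates** (`lay_conf`, `lay_close` with `x = d (j - i)`, `lay_s0`; copy of the proof of `lay_sep_time`). -/
theorem lay_time_free (π : SfPar) (hπ : π.Valid) (C0 y0 : ℝ) (hy0 : 0 < y0) :
    ∃ t0 : ℝ, 0 < t0 ∧ ∀ t : ℝ, 0 < t → t ≤ t0 → ∃ s0 : ℝ, 0 < s0 ∧ ∀ D : SfDoc, D.s < s0 → D.Core π C0 t →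
      ∀ i j : ℝ, y0 ≤ j - i → i ∈ D.G → j ∈ D.G → j < 1 →
      ∀ (ζ : Type) (Z : D.Row 1 → ζ) (E : D.Row 1 → Prop), D.RowPr i E Z (D.s ^ (-t)) → ∀ I : ζ → ℝ,
        (D.P 1).pr (fun ρ => E ρ ∧ I (Z ρ) ≤ D.T 1 ρ ∧ D.T 1 ρ ≤ I (Z ρ) + 8 * D.s ^ j) ≤ D.s ^ (π.d * (j - i) / 2) := by
  obtain ⟨hd0, hd1⟩ := hπ.d1
  refine ⟨min (π.d * y0 / 36) 1, lt_min (by positivity) one_pos, ?_⟩
  intro t ht htt0
  have e1 : t ≤ π.d * y0 / 36 := htt0.trans (min_le_left _ _)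
  have e2 : t ≤ 1 := htt0.trans (min_le_right _ _)
  obtain ⟨s0, hs0, hs⟩ := lay_s0 t ht
  refine ⟨s0, hs0, ?_⟩
  intro D hDs hD i j hy hiG hjG hj1 ζ Z E hZ I
  have hs01 := hD.hs
  have h10 := hs D.s hs01.1 hDs
  have hi0 : 0 ≤ i := (hD.gate.2 i hiG).1
  have hy' : 0 < j - i := lt_of_lt_of_le hy0 hy
  have key := lay_conf D π C0 t i j hD ht h10 hiG hjG (by linarith) hj1
    (fun ρ => E ρ ∧ I (Z ρ) ≤ D.T 1 ρ ∧ D.T 1 ρ ≤ I (Z ρ) + 8 * D.s ^ j) ζ Z E hZ (fun _ => I)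
    (by
      rintro ρ0 ρ - ⟨g1, g2, g3⟩
      exact ⟨g1, g2, g3⟩)
  refine key.trans (lay_close hs01.1 hs01.2 ht h10 ?_ ?_)
  · have := mul_le_mul_of_nonneg_left hy hd0.le
    linarith
  · rw [le_div_iff₀ ht]
    have h1 : π.d * (j - i) ≤ 1 := by nlinarith
    nlinarith [mul_nonneg hd0.le hy'.le]

set_option maxHeartbeats 1000000 in
/-- LEAF A4f. **A4 = names:separation for the normalised marks of the final label, approximated gates.**   COPY the proof of `lay_avoid_doc` (Lay/Contract, proved; `lay_a4b_w`, `lay_a4b_small`, `lay_a4b_slope`).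
From `lay_avoid_core` (`w = δ^u = s^(u h)`), `LaySepA` (`z = (1-χ) u h`), `lay_time_free` (`i = D.gt a`, `j = D.gt (a + χ u h / 2)`, `j - i ≥ χ u0 h / 4`, `B0 w^χ s^a ≤ s^j`), `χ = χ_S / 4`, `e0 = min (d χ / 16) (e1 (1-χ) / 2)`;
`cs = {0, χ/2} ∪ (1-χ) cs_S`;  small `s` (`D.s ≤ t0`) absorbs `B0`, `2`:  `B0 + w^(-χ) ≤ s^(-χ_S z)`,  `pV + pG ≤ 2 s^(2 e0 u h) ≤ s^(e0 u h)`;  smaller tolerances: `nm_pro_fine_mono`, `sf_mono_aux_core`.   `e0` is chosen BEFORE `B0`, the range `[u0, u1]`, `h` and the margin `m0`. -/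
theorem lay_avoid_fine (π : SfPar) (hπ : π.Valid) (C0 : ℝ) (lb : Bool) (hS : LaySepA π C0 lb) :
    ∃ (τ : ℝ) (cs : Finset ℝ), 0 < τ ∧ (∀ c ∈ cs, 0 ≤ c) ∧ ∀ κ0 : ℝ, 0 < κ0 → ∃ e0 : ℝ, 0 < e0 ∧
      ∀ B0 u0 u1 h m0 : ℝ, 1 ≤ B0 → 0 < u0 → u0 ≤ u1 → 0 < h → 0 < m0 → ∃ t0 : ℝ, 0 < t0 ∧
      ∀ D : SfDoc, D.Fine π C0 τ κ0 t0 →
        ∀ a u : ℝ, u0 ≤ u → u ≤ u1 → 0 ≤ a → (∀ c ∈ cs, a + c * (u * h) ≤ 1 - m0) →
        ∀ (ζ : Type) (Z : D.Row 1 → ζ) (E : D.Row 1 → Prop), (∀ c ∈ cs, D.RowPr (D.gt (a + c * (u * h))) E Z (D.s ^ (-t0))) →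
          (lb = true → ∀ c ∈ cs, D.LabPr (D.gt (a + c * (u * h))) E Z (fun _ => ()) (D.s ^ (-t0))) →
        ∀ ta Ra ka : ζ → ℝ, (∀ x, |ka x| ≤ if 1 < π.c2 then D.s ^ (-(π.c2 + 2)) else B0 * D.s ^ (π.b2 a - a)) →
          (∀ ρ, (D.P 1).p ρ ≠ 0 →
            |((D.lab 1 ρ).be - (Ra (Z ρ) + ka (Z ρ) * (D.T 1 ρ - ta (Z ρ)))) / D.s ^ (π.b2 a)| ≤ B0) →
        ∀ al be ga : ζ → ℝ, (∀ x, al x ^ 2 + be x ^ 2 = 1) →
          (D.P 1).pr (fun ρ => E ρ ∧ |al (Z ρ) * ((D.T 1 ρ - ta (Z ρ)) / D.s ^ a)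
              + be (Z ρ) * (((D.lab 1 ρ).be - (Ra (Z ρ) + ka (Z ρ) * (D.T 1 ρ - ta (Z ρ)))) / D.s ^ (π.b2 a))
              - ga (Z ρ)| ≤ (D.s ^ h) ^ u) ≤ (D.s ^ h) ^ (e0 * u) := by
  obtain ⟨τ, χS, csS, hτ, hχS0, hχS1, hcsS, hS⟩ := hS
  obtain ⟨hd0, hd1⟩ := hπ.d1
  obtain ⟨χ, hχ⟩ : ∃ χ : ℝ, χ = χS / 4 := ⟨_, rfl⟩
  have hχ0 : 0 < χ := by rw [hχ]; positivity
  have hχ4 : χ < 1 / 4 := by rw [hχ]; linarith
  have hχ1 : χ < 1 := by linarith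
  refine ⟨τ, csS.image (fun c => c * (1 - χ)) ∪ {0, χ / 2}, hτ, ?_, ?_⟩
  · intro c hc
    rw [Finset.mem_union, Finset.mem_image, Finset.mem_insert, Finset.mem_singleton] at hc
    rcases hc with ⟨c', hc', rfl⟩ | rfl | rfl
    · exact mul_nonneg (hcsS c' hc') (by linarith)
    · exact le_rfl
    · positivity
  intro κ0 hκ0
  obtain ⟨e1, he1, hS⟩ := hS κ0 hκ0
  obtain ⟨e0, he0⟩ : ∃ e0 : ℝ, e0 = min (π.d * χ / 8) (e1 * (1 - χ)) / 2 := ⟨_, rfl⟩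
  have hm0' : 0 < min (π.d * χ / 8) (e1 * (1 - χ)) := lt_min (by positivity) (mul_pos he1 (by linarith))
  have he00 : 0 < e0 := by rw [he0]; positivity
  have he0a : 2 * e0 ≤ π.d * χ / 8 := by
    rw [he0]
    linarith [min_le_left (π.d * χ / 8) (e1 * (1 - χ))]
  have he0b : 2 * e0 ≤ e1 * (1 - χ) := by
    rw [he0]
    linarith [min_le_right (π.d * χ / 8) (e1 * (1 - χ))]
  refine ⟨e0, he00, ?_⟩
  intro B0 u0 u1 h m0 hB hu0 hu01 hh hm0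
  obtain ⟨tS, htS, hS⟩ := hS (min ((1 - χ) * (u0 * h)) m0) (lt_min (mul_pos (by linarith) (by positivity)) hm0)
  obtain ⟨tT, htT, hT⟩ := lay_time_free π hπ C0 (χ / 4 * (u0 * h)) (by positivity)
  obtain ⟨sT, hsT, hT⟩ := hT tT htT le_rfl
  obtain ⟨θm, hθm⟩ : ∃ θm : ℝ, θm = min (χ / 4) e0 := ⟨_, rfl⟩
  have hθm0 : 0 < θm := by rw [hθm]; exact lt_min (by positivity) he00
  have hθa : θm ≤ χ / 4 := by rw [hθm]; exact min_le_left _ _
  have hθb : θm ≤ e0 := by rw [hθm]; exact min_le_right _ _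
  obtain ⟨t0, ht0⟩ : ∃ t0 : ℝ, t0 = min (min (min tS tT) (min (sT / 2) (χ / 8 * (u0 * h)))) (min (min (m0 / 2) (1 / 4)) ((1 / (8 * B0)) ^ (1 / (h * u0 * θm)) / 2)) := ⟨_, rfl⟩
  have hN0 : 0 < (1 / (8 * B0)) ^ (1 / (h * u0 * θm)) := by positivity
  have ht00 : 0 < t0 := by
    rw [ht0]
    exact lt_min (lt_min (lt_min htS htT) (lt_min (by positivity) (by positivity))) (lt_min (lt_min (by positivity) (by norm_num)) (by positivity))
  have b1 : t0 ≤ tS := by rw [ht0]; exact (min_le_left _ _).trans ((min_le_left _ _).trans (min_le_left _ _))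
  have b2 : t0 ≤ tT := by rw [ht0]; exact (min_le_left _ _).trans ((min_le_left _ _).trans (min_le_right _ _))
  have b3 : t0 ≤ sT / 2 := by rw [ht0]; exact (min_le_left _ _).trans ((min_le_right _ _).trans (min_le_left _ _))
  have b4 : t0 ≤ χ / 8 * (u0 * h) := by rw [ht0]; exact (min_le_left _ _).trans ((min_le_right _ _).trans (min_le_right _ _))
  have b5 : t0 ≤ m0 / 2 := by rw [ht0]; exact (min_le_right _ _).trans ((min_le_left _ _).trans (min_le_left _ _))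
  have b6 : t0 ≤ 1 / 4 := by rw [ht0]; exact (min_le_right _ _).trans ((min_le_left _ _).trans (min_le_right _ _))
  have b7 : t0 ≤ (1 / (8 * B0)) ^ (1 / (h * u0 * θm)) / 2 := by rw [ht0]; exact (min_le_right _ _).trans (min_le_right _ _)
  refine ⟨t0, ht00, ?_⟩
  clear ht0
  intro D hD a u hu hu1 ha0 hG ζ Z E hRow hLab ta Ra ka hka hr al be ga hn
  have hDs2 : D.s < 1 / 2 := by linarith [hD.sm]
  have hDsT : D.s < sT := by linarith [hD.sm]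
  have hDsN : D.s < (1 / (8 * B0)) ^ (1 / (h * u0 * θm)) := by linarith [hD.sm]
  obtain ⟨hs, hs1⟩ := hD.ok.core.hs
  have hu' : 0 < u := lt_of_lt_of_le hu0 hu
  have huh : u0 * h ≤ u * h := mul_le_mul_of_nonneg_right hu hh.le
  have huh0 : 0 < u * h := by positivity
  obtain ⟨w, hw⟩ : ∃ w : ℝ, w = (D.s ^ h) ^ u := ⟨_, rfl⟩
  have hw0 : 0 < w := by rw [hw]; positivity
  have hwθ : ∀ θ : ℝ, w ^ θ = D.s ^ (h * u * θ) := fun θ => by rw [hw]; exact lay_a4b_w hs θ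
  have hsm : ∀ θ : ℝ, θm ≤ θ → w ^ θ ≤ 1 / (8 * B0) := fun θ hθ => by
    rw [hw]
    exact lay_a4b_small hs hs1 hh hu0 hu hθm0 hθ hB hDsN
  have h8 : 1 / (8 * B0) ≤ 1 / 8 := by
    apply one_div_le_one_div_of_le (by norm_num)
    linarith
  have hmem : ∀ c, c ∈ csS.image (fun c => c * (1 - χ)) ∪ {0, χ / 2} ↔ (∃ c' ∈ csS, c' * (1 - χ) = c) ∨ c = 0 ∨ c = χ / 2 := by
    intro c
    rw [Finset.mem_union, Finset.mem_image, Finset.mem_insert, Finset.mem_singleton]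
  have hNS : D.s ^ (-t0) ≤ D.s ^ (-tS) := Real.rpow_le_rpow_of_exponent_ge hs hs1.le (by linarith)
  have hNT : D.s ^ (-t0) ≤ D.s ^ (-tT) := Real.rpow_le_rpow_of_exponent_ge hs hs1.le (by linarith)
  have ga0 := hG 0 ((hmem _).2 (Or.inr (Or.inl rfl)))
  rw [zero_mul, add_zero] at ga0
  have ga1 := hG (χ / 2) ((hmem _).2 (Or.inr (Or.inr rfl)))
  have hGne : D.G.Nonempty := by
    obtain ⟨i, hi, -⟩ := hD.mesh 0 le_rfl zero_le_one
    exact ⟨i, hi⟩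
  -- (V)
  have hV : ∀ I : ζ → ℝ, (D.P 1).pr (fun ρ => E ρ ∧ I (Z ρ) ≤ D.T 1 ρ ∧ D.T 1 ρ ≤ I (Z ρ) + 8 * B0 * w ^ χ * D.s ^ a) ≤ w ^ (2 * e0) := by
    intro I
    have r0 := hRow 0 ((hmem _).2 (Or.inr (Or.inl rfl)))
    rw [zero_mul, add_zero] at r0
    have n1 := abs_le.1 (nm_gt_near hD ha0 (by linarith : a ≤ 1))
    have n2 := abs_le.1 (nm_gt_near hD (by positivity : 0 ≤ a + χ / 2 * (u * h)) (by linarith))
    have hχu : χ / 8 * (u0 * h) ≤ χ / 8 * (u * h) := mul_le_mul_of_nonneg_left huh (by positivity)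
    have hji : χ / 4 * (u * h) ≤ D.gt (a + χ / 2 * (u * h)) - D.gt a := by linarith [n1.1, n1.2, n2.1, n2.2]
    have key := hT D hDsT (sf_mono_aux_core D π C0 t0 tT ht00 b2 hD.ok.core) (D.gt a) (D.gt (a + χ / 2 * (u * h)))
      (le_trans (mul_le_mul_of_nonneg_left huh (by positivity)) hji) (nm_gt_mem D hGne _) (nm_gt_mem D hGne _) (by linarith [n2.2]) ζ Z E
      (fun ρ => by
        obtain ⟨S, hS1, hS2⟩ := r0 ρ
        exact ⟨S, hS1.trans hNT, hS2⟩) I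
    have hlen : B0 * w ^ χ * D.s ^ a ≤ D.s ^ (D.gt (a + χ / 2 * (u * h))) := by
      have q0 : D.s ^ (a + 3 / 4 * χ * (u * h)) ≤ D.s ^ (D.gt (a + χ / 2 * (u * h))) :=
        Real.rpow_le_rpow_of_exponent_ge hs hs1.le (by linarith [n2.2])
      refine le_trans ?_ q0
      have q1 : D.s ^ (a + 3 / 4 * χ * (u * h)) = w ^ (3 / 4 * χ) * D.s ^ a := by
        rw [hwθ, ← Real.rpow_add hs]
        congr 1
        ring
      have q2 : w ^ χ = w ^ (χ / 4) * w ^ (3 / 4 * χ) := by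
        rw [← Real.rpow_add hw0]
        congr 1
        ring
      rw [q1, q2]
      have h1 := hsm (χ / 4) hθa
      have h2 : B0 * w ^ (χ / 4) ≤ 1 := by
        rw [le_div_iff₀ (by positivity)] at h1
        have : 0 < w ^ (χ / 4) := by positivity
        nlinarith
      have h3 : 0 < w ^ (3 / 4 * χ) := by positivity
      have h4 : 0 < D.s ^ a := by positivity
      calc B0 * (w ^ (χ / 4) * w ^ (3 / 4 * χ)) * D.s ^ a = (B0 * w ^ (χ / 4)) * (w ^ (3 / 4 * χ) * D.s ^ a) := by ring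
        _ ≤ 1 * (w ^ (3 / 4 * χ) * D.s ^ a) := mul_le_mul_of_nonneg_right h2 (by positivity)
        _ = w ^ (3 / 4 * χ) * D.s ^ a := one_mul _
    refine (ent_pr_mono _ fun ρ _ hρ => ⟨hρ.1, hρ.2.1, hρ.2.2.trans (by linarith)⟩).trans (key.trans ?_)
    rw [hwθ]
    refine Real.rpow_le_rpow_of_exponent_ge hs hs1.le ?_
    have : h * u * (2 * e0) ≤ h * u * (π.d * χ / 8) := mul_le_mul_of_nonneg_left he0a (by positivity)
    calc h * u * (2 * e0) ≤ h * u * (π.d * χ / 8) := this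
      _ = π.d * (χ / 4 * (u * h)) / 2 := by ring
      _ ≤ π.d * (D.gt (a + χ / 2 * (u * h)) - D.gt a) / 2 := by
        have := mul_le_mul_of_nonneg_left hji hd0.le
        linarith
  -- (G)
  have hGr : ∀ v sl : ζ → ℝ, (∀ x, |sl x| ≤ D.s ^ laySlE π a ((1 - χ) * (u * h)) χS) →
      (D.P 1).pr (fun ρ => E ρ ∧ |(D.lab 1 ρ).be - (v (Z ρ) + sl (Z ρ) * D.T 1 ρ)| ≤ w ^ (1 - χ) * D.s ^ (π.b2 a)) ≤ w ^ (2 * e0) := by
    intro v sl hsl
    have ez : ∀ c : ℝ, a + c * ((1 - χ) * (u * h)) = a + c * (1 - χ) * (u * h) := fun c => by ring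
    have key := hS D (nm_pro_fine_mono hD b1 le_rfl) a ((1 - χ) * (u * h))
      ((min_le_left _ _).trans (mul_le_mul_of_nonneg_left huh (by linarith))) ha0
      (fun c hc => by
        rw [ez]
        have := hG _ ((hmem _).2 (Or.inl ⟨c, hc, rfl⟩))
        have := min_le_right ((1 - χ) * (u0 * h)) m0
        linarith) ζ Z E
      (fun c hc => by
        rw [ez]
        intro ρ
        obtain ⟨S, hS1, hS2⟩ := hRow _ ((hmem _).2 (Or.inl ⟨c, hc, rfl⟩)) ρ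
        exact ⟨S, hS1.trans hNS, hS2⟩)
      (fun hl c hc => by
        rw [ez]
        intro lam x
        obtain ⟨S, hS1, hS2⟩ := hLab hl _ ((hmem _).2 (Or.inl ⟨c, hc, rfl⟩)) lam x
        exact ⟨S, hS1.trans hNS, hS2⟩) v sl hsl
    have q1 : D.s ^ (π.b2 a + (1 - χ) * (u * h)) = w ^ (1 - χ) * D.s ^ (π.b2 a) := by
      rw [hwθ, ← Real.rpow_add hs]
      congr 1
      ring
    rw [q1] at key
    refine key.trans ?_
    rw [hwθ]
    refine Real.rpow_le_rpow_of_exponent_ge hs hs1.le ?_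
    calc h * u * (2 * e0) ≤ h * u * (e1 * (1 - χ)) := mul_le_mul_of_nonneg_left he0b (by positivity)
      _ = e1 * ((1 - χ) * (u * h)) := by ring
  -- the slope of the frame
  have hkaS : ∀ x, |ka x| + w ^ (-χ) * D.s ^ (π.b2 a - a) ≤ D.s ^ laySlE π a ((1 - χ) * (u * h)) χS := by
    intro x
    by_cases hc : 1 < π.c2
    · have k1 := hka x
      rw [if_pos hc] at k1
      rw [laySlE, if_pos hc]
      have hq : π.q = π.c2 := by
        rcases hπ.fam with h | h | h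
        · exact h.2
        · linarith [h.1]
        · linarith [h.1]
      have q1 : w ^ (-χ) * D.s ^ (π.b2 a - a) = D.s ^ (-(χ * (u * h)) + (π.c2 * (a - 1) - a)) := by
        rw [hwθ, ← Real.rpow_add hs]
        unfold SfPar.b2
        rw [hq]
        congr 1
        ring
      rw [q1]
      exact lay_a4b_slope hs hDs2 hc ha0 (by linarith) (by linarith) k1
    · have k1 := hka x
      rw [if_neg hc] at k1
      rw [laySlE, if_neg hc]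
      refine le_trans (b := (B0 + w ^ (-χ)) * D.s ^ (π.b2 a - a)) (by rw [add_mul]; linarith) ?_
      have q1 : D.s ^ (π.b2 a - a - χS * ((1 - χ) * (u * h))) = w ^ (-(χS * (1 - χ))) * D.s ^ (π.b2 a - a) := by
        rw [hwθ, ← Real.rpow_add hs]
        congr 1
        ring
      rw [q1]
      refine mul_le_mul_of_nonneg_right ?_ (by positivity)
      -- B0 + w^(-χ) ≤ w^(-3χ) ≤ w^(-χS (1-χ))
      have hw1 : w ≤ 1 := by
        have := hsm 1 (by linarith)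
        rw [Real.rpow_one] at this
        linarith
      have h3 : w ^ (-(3 * χ)) ≤ w ^ (-(χS * (1 - χ))) := by
        refine Real.rpow_le_rpow_of_exponent_ge hw0 hw1 ?_
        have : χS = 4 * χ := by rw [hχ]; ring
        rw [this]
        nlinarith
      refine le_trans ?_ h3
      have h2 := hsm (2 * χ) (by linarith)
      have p1 : 0 < w ^ (-(3 * χ)) := by positivity
      have e2 : w ^ (-χ) = w ^ (2 * χ) * w ^ (-(3 * χ)) := by
        rw [← Real.rpow_add hw0]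
        congr 1
        ring
      have h4 : (1 : ℝ) ≤ w ^ (-(3 * χ)) := Real.one_le_rpow_of_pos_of_le_one_of_nonpos hw0 hw1 (by linarith)
      have e3 : (1 : ℝ) = w ^ (3 * χ) * w ^ (-(3 * χ)) := by
        rw [← Real.rpow_add hw0]
        simp
      have h5 := hsm (3 * χ) (by linarith)
      have h6 : B0 * w ^ (3 * χ) ≤ 1 / 8 := by
        calc B0 * w ^ (3 * χ) ≤ B0 * (1 / (8 * B0)) := mul_le_mul_of_nonneg_left h5 (by linarith)
          _ = 1 / 8 := by field_simp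
      calc B0 + w ^ (-χ) = (B0 * w ^ (3 * χ) + w ^ (2 * χ)) * w ^ (-(3 * χ)) := by
            rw [add_mul, mul_assoc, ← e3, mul_one, ← e2]
        _ ≤ 1 * w ^ (-(3 * χ)) := mul_le_mul_of_nonneg_right (by linarith) p1.le
        _ = w ^ (-(3 * χ)) := one_mul _
  have hw2 : w ^ χ ≤ 1 / 2 := (hsm χ (by linarith)).trans (by linarith)
  have main := lay_avoid_core π D hs a w χ B0 _ _ _ hB hw0 hχ0 hχ1 hw2 ζ Z E hV hGr ta Ra ka hkaS hr al be ga hn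
  rw [← hw]
  refine main.trans ?_
  have e4 : (D.s ^ h) ^ (e0 * u) = w ^ e0 := by
    rw [hwθ, ← Real.rpow_mul hs.le]
    congr 1
    ring
  rw [e4]
  have e5 : w ^ (2 * e0) = w ^ e0 * w ^ e0 := by
    rw [← Real.rpow_add hw0]
    congr 1
    ring
  rw [e5]
  have h7 := hsm e0 hθb
  have p2 : 0 < w ^ e0 := by positivity
  nlinarith

/-- LEAF A4c. **value avoidance for the normalised linear mark** `r = (Pc_1 - La)/s^(b_1(a))`, `La` a function of the side:  `LaySepLA` with `z = u h`, `v = La + s^(b_1 a) v'`. -/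
theorem lay_value_fine (π : SfPar) (hπ : π.Valid) (C0 : ℝ) (hS : LaySepLA π C0) :
    ∃ (τ : ℝ) (cs : Finset ℝ), 0 < τ ∧ (∀ c ∈ cs, 0 ≤ c) ∧ ∀ κ0 : ℝ, 0 < κ0 → ∃ e0 : ℝ, 0 < e0 ∧
      ∀ u0 h m0 : ℝ, 0 < u0 → 0 < h → 0 < m0 → ∃ t0 : ℝ, 0 < t0 ∧ ∀ D : SfDoc, D.Fine π C0 τ κ0 t0 →
        ∀ a u : ℝ, u0 ≤ u → 0 ≤ a → (∀ c ∈ cs, a + c * (u * h) ≤ 1 - m0) →
        ∀ (ζ : Type) (Z : D.Row 1 → ζ) (E : D.Row 1 → Prop), (∀ c ∈ cs, D.RowPr (D.gt (a + c * (u * h))) E Z (D.s ^ (-t0))) →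
        ∀ La v : ζ → ℝ,
          (D.P 1).pr (fun ρ => E ρ ∧ |((D.lab 1 ρ).Pc - La (Z ρ)) / D.s ^ (π.b1 a) - v (Z ρ)| ≤ (D.s ^ h) ^ u)
            ≤ (D.s ^ h) ^ (e0 * u) := by
  obtain ⟨τ, cs, hτ, hcs, hS⟩ := hS
  refine ⟨τ, cs, hτ, hcs, ?_⟩
  intro κ0 hκ0
  obtain ⟨e1, he1, hS⟩ := hS κ0 hκ0
  refine ⟨e1, he1, ?_⟩
  intro u0 h m0 hu0 hh hm0
  obtain ⟨t0, ht0, hS⟩ := hS (min (u0 * h) m0) (lt_min (by positivity) hm0)
  refine ⟨t0, ht0, ?_⟩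
  intro D hD a u hu ha hG ζ Z E hRow La v
  obtain ⟨hs, hs1⟩ := hD.ok.core.hs
  have hz : min (u0 * h) m0 ≤ u * h := (min_le_left _ _).trans (mul_le_mul_of_nonneg_right hu hh.le)
  have key := hS D hD a (u * h) hz ha
    (fun c hc => (hG c hc).trans (by linarith [min_le_right (u0 * h) m0])) ζ Z E hRow
    (fun x => La x + D.s ^ (π.b1 a) * v x)
  have hsb : 0 < D.s ^ (π.b1 a) := Real.rpow_pos_of_pos hs _
  have e2 : (D.s ^ h) ^ (e1 * u) = D.s ^ (e1 * (u * h)) := by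
    rw [← Real.rpow_mul hs.le]
    congr 1
    ring
  rw [e2]
  refine le_trans (ent_pr_mono (D.P 1) fun ρ _ hρ => ?_) key
  obtain ⟨hE, hρ⟩ := hρ
  refine ⟨hE, ?_⟩
  show |(D.lab 1 ρ).Pc - (La (Z ρ) + D.s ^ (π.b1 a) * v (Z ρ))| ≤ D.s ^ (π.b1 a + u * h)
  have e3 : (D.lab 1 ρ).Pc - (La (Z ρ) + D.s ^ (π.b1 a) * v (Z ρ))
      = (((D.lab 1 ρ).Pc - La (Z ρ)) / D.s ^ (π.b1 a) - v (Z ρ)) * D.s ^ (π.b1 a) := by
    rw [sub_mul, div_mul_cancel₀ _ hsb.ne']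
    ring
  have e4 : D.s ^ (π.b1 a + u * h) = (D.s ^ h) ^ u * D.s ^ (π.b1 a) := by
    rw [← Real.rpow_mul hs.le, ← Real.rpow_add hs]
    congr 1
    ring
  rw [e3, e4, abs_mul, abs_of_pos hsb]
  exact mul_le_mul_of_nonneg_right hρ hsb.le

end Claimed.Agent.R256
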