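import Claimed.Agent.R256.Lay.Root
import Claimed.Agent.R256.Lay.Rlb
import Claimed.Agent.R256.Nm.Sd.Main
import Claimed.Agent.R256.Nm.Sd.Mark
import Claimed.Agent.R256.Nm.Mem.Main

/-!
# Row 256, unit LAY (04B), B8d: PORTS `avd`, `crs` OF `LayOne`, file 1 = KIT      (helper27; prefix `lay_ra_`, types `LayRa*`)

Consumers: the instances of `lay_root_rect` (`Lay/Root.lean`) = the six contracts `ac_*_root_*` of `Act/Sup.lean` (helper189, helper186, helper274).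
ALL PORTS ARE POINTWISE IN THE ROOT `r : NmRt` (which carries `a, v, h, Rm, B`): conditions on `r` ⇒ the clause for `uf`-most `n` and ALL decodings `dsp`.   No `h0`: the consumer checks the (open) conditions on `r` for small `h`.
* `LayRaFr D π r`      the body of `nm_mk_main` (`Nm/Sd/Mark.lean`, helper51, PROVED): the stored marks are, up to `δ^Rm`, the exact normalised marks in a frame which is a function of the side.
* `LayRaCr T pk acc`   the clause `crs` of `LayOne` (value avoidance).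
* `lay_ra_raw_eq`, `lay_ra_raw_lin`   what `D.raw` reads for the displays `nmDsEq π`, `nmDsLin` (endpoint `1`, no global bin).
* `lay_ra_absorb`      `δ^u + 2 δ^Rm ≤ δ^(u - ε)`.
* `lay_ra_rare`        short lists are rare where the score is high.       * `lay_ra_chain`  chain rule of lists.
* `lay_ra_side_list`   classical, linear sides: `(y_0, t_a)` lists the side ("root additions to `(y_0, t_a)` have zero exponent", 04 l.752).
-/

set_option autoImplicit false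

namespace Claimed.Agent.R256

open Claimed.Agent.R255 Claimed.Agent.R255.FLaw
open Filter Topology
open Classical

/-- the frame of the marks = the body of `nm_mk_main` -/
def LayRaFr (D : SfDoc) (π : SfPar) (r : NmRt) : Prop :=
  ∃ ta Ra ka : NmZv D.Idx → ℝ, (∀ x, |ka x| ≤ D.s ^ (-(π.c2 + 2))) ∧ (r.q.ds.cut ≠ NmCut.slope → ∀ x, ka x = 0) ∧
      ∀ ω, (D.P 1).p ω ≠ 0 →
      (|((D.raw π r.q.ds ω).Te - ta (D.side π r.q r.σ r.a ω)) / D.s ^ r.a| ≤ 2 ∧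
        |(D.smk π r ω).th - ((D.raw π r.q.ds ω).Te - ta (D.side π r.q r.σ r.a ω)) / D.s ^ r.a| ≤ (D.s ^ r.h) ^ r.Rm) ∧
      (r.σ.lin = false →
        |((D.raw π r.q.ds ω).be - (Ra (D.side π r.q r.σ r.a ω)
          + ka (D.side π r.q r.σ r.a ω) * ((D.raw π r.q.ds ω).Te - ta (D.side π r.q r.σ r.a ω)))) / D.s ^ (r.q.ds.b r.a)| ≤ 3 ∧
        |(D.smk π r ω).r - ((D.raw π r.q.ds ω).be - (Ra (D.side π r.q r.σ r.a ω)
          + ka (D.side π r.q r.σ r.a ω) * ((D.raw π r.q.ds ω).Te - ta (D.side π r.q r.σ r.a ω)))) / D.s ^ (r.q.ds.b r.a)| ≤ (D.s ^ r.h) ^ r.Rm) ∧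
      (r.σ.lin = true →
        |((D.raw π r.q.ds ω).Lraw D.s r.q r.a - Ra (D.side π r.q r.σ r.a ω)) / D.s ^ (π.b1 r.a)| ≤ 1 ∧
        |(D.smk π r ω).r - ((D.raw π r.q.ds ω).Lraw D.s r.q r.a - Ra (D.side π r.q r.σ r.a ω)) / D.s ^ (π.b1 r.a)| ≤ (D.s ^ r.h) ^ r.Rm)

/-- the clause `crs` of `LayOne` -/
def LayRaCr (T : Tan) (pk : ItPk) (acc : ℝ) : Prop :=
  ∀ v : T.ζ → ℝ, T.P.pr (fun ω => |(T.mrk 0 ω).r - v (T.Zs ω)| < T.δ ^ pk.χ) ≤ acc

theorem lay_ra_kit_eqns_cite : True := by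
  have := @LayRaFr.eq_1
  have := @LayRaCr.eq_1
  trivial

/-- the frame, for `uf`-most configurations -/
theorem lay_ra_frame {π : SfPar} {C0 : ℝ} {κ : ℝ → ℝ} (hπ : π.Valid) (S : NmSeq π C0 κ) (hX : S.HasX) (Λ : ℝ) (r : NmRt)
    (hr : r.Ok π Λ) (hB : 3 ≤ r.B) (hh : 0 < r.h) : ∀ᶠ n in uf, LayRaFr (S.D n) π r :=
  nm_A_uf S hX 1 one_pos (fun _ D => LayRaFr D π r) (nm_mk_main π hπ C0 1 (κ 1) Λ r hr hB hh) 1 one_pos

/-- equality display: the endpoint label is the final label, no global subtraction -/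
theorem lay_ra_raw_eq (D : SfDoc) (π : SfPar) (ω : D.Row 1) :
    (D.raw π (nmDsEq π) ω).Te = D.T 1 ω ∧ (D.raw π (nmDsEq π) ω).be = (D.lab 1 ω).be := by
  simp [SfDoc.raw, SfDoc.labAt, SfDoc.kbar, nmDsEq, SfDoc.T]

/-- pure linear display: `Lraw` is the terminal linear coefficient -/
theorem lay_ra_raw_lin (D : SfDoc) (π : SfPar) (q : NmQ) (hq : q.ds = nmDsLin) (a : ℝ) (ω : D.Row 1) :
    (D.raw π q.ds ω).Lraw D.s q a = (D.lab 1 ω).Pc := by
  have h1 : (D.raw π q.ds ω).Ra D.s q a = 0 := by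
    unfold NmRaw.Ra NmRaw.Rraw
    rw [hq]
    exact nm_rep_zero _ _
  have h2 : (D.raw π q.ds ω).ka D.s q a = 0 := by
    unfold NmRaw.ka NmRaw.kraw
    rw [hq]
    exact nm_rep_zero _ _
  unfold NmRaw.Lraw
  rw [h1, h2, hq]
  simp [SfDoc.raw, SfDoc.labAt, SfDoc.kbar, nmDsLin]

theorem lay_ra_absorb {δ u ε Rm : ℝ} (h0 : 0 < δ) (h1 : δ < 1) (hR : u ≤ Rm) (h3 : δ ^ ε ≤ 1 / 3) :
    δ ^ u + 2 * δ ^ Rm ≤ δ ^ (u - ε) := by
  have a1 : δ ^ Rm ≤ δ ^ u := Real.rpow_le_rpow_of_exponent_ge h0 h1.le hR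
  have a2 : δ ^ u = δ ^ (u - ε) * δ ^ ε := by
    rw [← Real.rpow_add h0]
    congr 1
    ring
  have a3 : 0 < δ ^ (u - ε) := Real.rpow_pos_of_pos h0 _
  have a4 : δ ^ (u - ε) * δ ^ ε ≤ δ ^ (u - ε) * (1 / 3) := mul_le_mul_of_nonneg_left h3 a3.le
  linarith

theorem lay_ra_k_atom {Ω α β : Type} [Fintype Ω] (P : FLaw Ω) (X : Ω → β) (A : Ω → α) (t : ℝ) (x : β) (y : α) :
    P.pr (fun ω => X ω = x ∧ A ω = y ∧ t ≤ P.surC X A ω) ≤ Real.exp (-t) * P.pr (fun ω => A ω = y) := by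
  by_cases hex : ∃ ω, P.p ω ≠ 0 ∧ X ω = x ∧ A ω = y ∧ t ≤ P.surC X A ω
  · obtain ⟨ω₀, hp, hx, hy, hs⟩ := hex
    have e := ent_exp_neg_surC P X A hp
    have hpos := ent_fib_pos P A hp
    rw [eq_div_iff hpos.ne'] at e
    have e2 : P.fib A ω₀ = P.pr (fun ω => A ω = y) := by rw [← hy]; rfl
    have h2 : P.pr (fun ω => X ω = x ∧ A ω = y ∧ t ≤ P.surC X A ω) ≤ P.fib (pair X A) ω₀ :=
      ent_pr_mono P fun ω _ h => by
        show (X ω, A ω) = (X ω₀, A ω₀)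
        rw [h.1, h.2.1, hx, hy]
    rw [← e, e2] at h2
    exact h2.trans (mul_le_mul_of_nonneg_right (Real.exp_le_exp.2 (by linarith)) (ent_pr_nonneg P _))
  · push Not at hex
    rw [ent_pr_eq_zero P fun ω hp h => absurd h.2.2 (not_le.2 (hex ω hp h.1 h.2.1))]
    exact mul_nonneg (Real.exp_pos _).le (ent_pr_nonneg P _)

/-- LEAF RA1 (paper free). **short lists are rare where the score is high.**   Sum over the values `y` of `A` (`ent_pr_sum_values`, as in `it_r_aux_atomY` of `Int/RadKit.lean`); over `y` the list `S` of `h`: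
`pr ((E ∧ t ≤ surC) ∧ A = y) ≤ ∑_{x ∈ S} pr (X = x ∧ A = y ∧ t ≤ surC) ≤ card S · e^(-t) · pr (A = y)` (`ent_exp_neg_surC` at a support point of the atom). -/
theorem lay_ra_rare {Ω α β : Type} [Fintype Ω] (P : FLaw Ω) (E : Ω → Prop) (X : Ω → β) (A : Ω → α) (N t : ℝ) (hN : 0 ≤ N)
    (h : P.NVal E X A N) : P.pr (fun ω => E ω ∧ t ≤ P.surC X A ω) ≤ N * Real.exp (-t) := by
  rw [ent_pr_sum_values P _ A (Finset.univ.image A) (fun ω _ _ => Finset.mem_image_of_mem A (Finset.mem_univ ω))]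
  have h1 : ∀ y ∈ Finset.univ.image A, P.pr (fun ω => (E ω ∧ t ≤ P.surC X A ω) ∧ A ω = y)
      ≤ (N * Real.exp (-t)) * P.pr (fun ω => A ω = y) := by
    intro y hy
    obtain ⟨ω₀, -, rfl⟩ := Finset.mem_image.1 hy
    obtain ⟨S, hS, hmem⟩ := h ω₀
    have hun := ent_pr_exists_le P S (fun x ω => X ω = x ∧ A ω = A ω₀ ∧ t ≤ P.surC X A ω)
    have hsum := Finset.sum_le_card_nsmul S _ _ (fun x _ => lay_ra_k_atom P X A t x (A ω₀))
    rw [nsmul_eq_mul] at hsum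
    refine le_trans (ent_pr_mono P fun ω hω hE => ?_) (hun.trans (hsum.trans ?_))
    · exact ⟨X ω, hmem ω hω hE.1.1 hE.2, rfl, hE.2, hE.1.2⟩
    · rw [mul_assoc N]
      exact mul_le_mul_of_nonneg_right hS (mul_nonneg (Real.exp_pos _).le (ent_pr_nonneg P _))
  refine (Finset.sum_le_sum h1).trans ?_
  rw [← Finset.mul_sum]
  exact mul_le_of_le_one_right (mul_nonneg hN (Real.exp_pos _).le) (ent_aux_sum_pr_le P A _)

/-- chain rule of lists -/
theorem lay_ra_chain {Ω α β γ : Type} [Fintype Ω] (P : FLaw Ω) (E : Ω → Prop) (X : Ω → γ) (Z : Ω → β) (A : Ω → α) (N1 N2 : ℝ)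
    (hN1 : 0 ≤ N1) (h1 : P.NVal E X Z N1) (h2 : P.NVal (fun _ => True) Z A N2) : P.NVal E X A (N1 * N2) := by
  intro ω₀
  obtain ⟨S2, hS2, hm2⟩ := h2 ω₀
  -- for each value `z` of the list, a list of `X`
  have hz : ∀ z : β, ∃ S : Finset γ, (S.card : ℝ) ≤ N1 ∧ ∀ ω, P.p ω ≠ 0 → E ω → Z ω = z → X ω ∈ S := by
    intro z
    by_cases hex : ∃ ω₁, Z ω₁ = z
    · obtain ⟨ω₁, rfl⟩ := hex
      exact h1 ω₁
    · push Not at hex
      exact ⟨∅, by simpa using hN1, fun ω _ _ hZ => absurd hZ (hex ω)⟩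
  choose F hF hFm using hz
  refine ⟨S2.biUnion F, ?_, fun ω hω hE hA => ?_⟩
  · have c1 : ((S2.biUnion F).card : ℝ) ≤ ∑ z ∈ S2, ((F z).card : ℝ) := by
      exact_mod_cast Finset.card_biUnion_le
    have c2 : ∑ z ∈ S2, ((F z).card : ℝ) ≤ S2.card • N1 := Finset.sum_le_card_nsmul S2 _ _ fun z _ => hF z
    rw [nsmul_eq_mul] at c2
    calc ((S2.biUnion F).card : ℝ) ≤ (S2.card : ℝ) * N1 := c1.trans c2
      _ ≤ N2 * N1 := mul_le_mul_of_nonneg_right hS2 hN1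
      _ = N1 * N2 := mul_comm _ _
  · exact Finset.mem_biUnion.2 ⟨Z ω, hm2 ω hω trivial hA, hFm (Z ω) ω hω hE rfl⟩

end Claimed.Agent.R256
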