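import Claimed.Agent.R256.Lay.RiGen
import Claimed.Agent.R256.Lay.PatchBase

/-!
# Row 256, unit LAY, block RI: the two ports of `lay_root_rect` from the exits of Nm; `lay_ri_patch`      (architect helper186)

## What is asked from Nm (UNIFORM forms = defects D1, D2, D3 of helper189, msg 21:56Z)
 `lay_ri_rep`    = `nm_rep`       with the slack `e` uniform on the PATCH   (PROVED: `nm_pha_rep_patch` of helper143)
 `lay_ri_in`     = `nm_gr_in`     for EVERY bound `r0.B ≥ B1` of the stored marks (so that the exits unify)      OWNER helper190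
 `lay_ri_geo`    = `nm_tan_geo`   with `h0` uniform on the PATCH                                                 OWNER helper143
 `lay_ri_marks`  = `nm_tan_marks` with the cut-off `Rm` quantified AFTER `pk` (null set and `κ1` free of `Rm`)    OWNER helper219
They are stated here VERBATIM as they are consumed.   THEY ARE NOW CITATIONS of `lay_port_grid`, `lay_port_geo`, `lay_port_marks` of `Lay/PatchBase.lean` (helper189): ONE set of ports; Nm closes the `lay_port_*`.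
## Glue (paper free)
 `lay_ri_grid`   `hGrid` of `lay_root_rect` from `lay_ri_in`, `nm_A_uf`:  `Kf = K + RQ`, `B = K + RQ + 2`, `A ≥ (Rm + 2) / min 1 c'` (slope cut: also `/(bs - 1)`), `RX = 3 Rm + 1`.
 `lay_ri_ang`    (ang) a.e. on the rectangle: `nm_tr_ang` for `U = S.U q` (`nm_U_basic`, `nm_U_incr`).
 `lay_ri_mean`   `LayMean` from `nm_gr_mean`.
 `lay_ri_fits`   `NmRt.Fits` for all small gaps, uniformly on the patch.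
 `lay_ri_one`    `hOne`:  `κ0 := κ1` (marks);  `Rm0 := max` of the demands of `Fits`, of the ports and of `lay_root_rect`;  `η := min`, `h0 := min`;  for fixed `(x', h)` intersect finitely many `uf`-large sets.
 `lay_ri_ok`     `ItPar.Ok` of `layRiPar`  (`nm_m_basic`, `nm_HM_basic`, `nm_tr_meas`).
-/

set_option autoImplicit false

namespace Claimed.Agent.R256

open Claimed.Agent.R255 Claimed.Agent.R255.FLaw
open Filter Topology MeasureTheory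
open Classical

noncomputable section

variable {π : SfPar} {C0 : ℝ} {κ : ℝ → ℝ}

/-! ## ports from Nm, uniform forms -/

/-- `nm_rep`, slack uniform on the patch -/
theorem lay_ri_rep (π : SfPar) (hπ : π.Valid) (C0 τ κ0 : ℝ) : ∃ Λ K0 : ℝ, ∀ (r0 : NmRt) (a0 a1 v0 v1 : ℝ), r0.Patch π Λ a0 a1 v0 v1 →
    ∃ e : ℝ, 0 < e ∧ ∀ a v : ℝ, a0 ≤ a → a ≤ a1 → v0 ≤ v → v ≤ v1 →
      NmA π C0 τ κ0 fun _ D => NmRep D π { r0 with a := a, v := v } K0 e := by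
  obtain ⟨Λ, K0, h⟩ := nm_pha_rep_patch π hπ C0 τ κ0
  exact ⟨Λ, K0, fun r0 a0 a1 v0 v1 hp => h r0 a0 a1 v0 v1 hp.2.2⟩

/-- `nm_gr_in` for every bound `r0.B ≥ B1` of the stored marks.      OWNER Nm (GRD-IN, helper190) -/
theorem lay_ri_in (π : SfPar) (hπ : π.Valid) (C0 τ κ0 : ℝ) : ∃ Λ B1 : ℝ, 1 ≤ B1 ∧ ∀ (r0 : NmRt) (a0 a1 v0 v1 : ℝ), r0.Patch π Λ a0 a1 v0 v1 → B1 ≤ r0.B →
    ∀ (A B M : ℕ) (K Kf RQ RX : ℝ), 0 ≤ K → K ≤ Kf → RQ ≤ Kf → Kf + 2 ≤ B → 2 * Kf + 2 ≤ r0.Rm → r0.Rm + 2 ≤ min 1 (r0.c π) * A →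
    (r0.q.ds.cut = NmCut.slope → r0.Rm + 2 ≤ (r0.q.ds.bs - 1) * A) → 3 * r0.Rm < RX →
    ∃ h0 : ℝ, 0 < h0 ∧ ∀ h : ℝ, 0 < h → h < h0 → ∀ (x0 y0 : ℝ) (na nv : ℕ), a0 ≤ x0 → v0 ≤ y0 → x0 + na * (A * h) ≤ a1 → y0 + nv * (B * h) ≤ v1 →
    NmA π C0 τ κ0 fun e D => ∀ dsp : ℝ → ℝ → ℝ → NmNm → NmNm → ItDsp,
      (nmGr D π { r0 with a := x0, v := y0, h := h } dsp A B M).In na nv K Kf RQ RX (r0.B + 1) ((D.s ^ h) ^ (-e)) :=
  lay_port_grid π hπ C0 τ κ0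

/-- `nm_tan_geo`, `h0` uniform on the patch.      OWNER Nm (PHA, helper143) -/
theorem lay_ri_geo (π : SfPar) (hπ : π.Valid) (C0 τ κ0 : ℝ) : ∃ Λ B1 : ℝ, 1 ≤ B1 ∧ ∀ (r0 : NmRt) (a0 a1 v0 v1 : ℝ), r0.Patch π Λ a0 a1 v0 v1 →
    (r0.σ.exact = true → r0.σ.lin = false → r0.q.tp = NmTp.clip → ∀ a : ℝ, a0 ≤ a → a ≤ a1 → r0.q.ds.b a + v1 < π.b1 a) →
    B1 ≤ r0.B → ∀ pk : ItPk, pk.Ok → ∃ h0 : ℝ, 0 < h0 ∧ ∀ h : ℝ, h ≤ h0 → ∀ a v : ℝ, a0 ≤ a → a ≤ a1 → v0 ≤ v → v ≤ v1 →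
    NmRt.Fits { r0 with a := a, v := v, h := h } π pk →
    NmA π C0 τ κ0 fun acc D => ∃ dsp : ℝ → NmNm → NmNm → ItDsp,
      ∀ p : ItPar, r0.Reg π (r0.B + 1) p → NmGeo (nmTan D π { r0 with a := a, v := v, h := h } dsp) p pk acc :=
  lay_port_geo π hπ C0 τ κ0

/-- `nm_tan_marks`, the cut-off depth after the package; `κ1` may depend on `tl` (= `lay_port_marks` of helper189).      OWNER Nm (MRK, helper219) -/
theorem lay_ri_marks (S : NmSeq π C0 κ) (hπ : π.Valid) (hX : S.HasX) (Ds : Set ℝ) (hF : S.Flat Ds) : ∃ Λ B1 : ℝ, ∀ r0 : NmRt, r0.q.ds.De ∈ Ds → B1 ≤ r0.B → ∀ᵐ a : ℝ,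
    0 < r0.c π → ∀ tl : ℝ, 0 < tl → ∃ κ1 : ℝ, 0 < κ1 ∧ ∀ pk : ItPk, pk.Ok → ∀ acc : ℝ, 0 < acc → ∀ Rm : ℝ, ∃ η h0 : ℝ, 0 < η ∧ 0 < h0 ∧ ∀ h : ℝ, 0 < h → h ≤ h0 →
      ∀ a' v' : ℝ, |a' - a| ≤ η * h → NmRt.Ok { r0 with a := a', v := v' } π Λ → (r0.σ.exact = true → r0.σ.lin = false → r0.σ.xs < S.pst r0.q.ds a') →
      NmRt.Fits { r0 with a := a', v := v', h := h, Rm := Rm } π pk → ∀ᶠ n in uf,
      ∀ (dsp : ℝ → NmNm → NmNm → ItDsp) (p : ItPar),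
        NmRt.Reg r0 π (r0.B + 1) p → p.ν = nmNu (S.HM r0.Vq r0.Sd) (r0.Bg π) a →
        (nmTan (S.D n) π { r0 with a := a', v := v', h := h, Rm := Rm } dsp).AdmM p pk tl κ1 acc :=
  lay_port_marks S hπ hX Ds hF

/-! ## small glue -/

/-- `NmRt.Ok` reads only `(q, σ, a, v)` -/
theorem lay_ri_ok_congr {r r' : NmRt} {Λ : ℝ} (hq : r'.q = r.q) (hσ : r'.σ = r.σ) (ha : r'.a = r.a) (hv : r'.v = r.v)
    (h : r.Ok π Λ) : r'.Ok π Λ := by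
  obtain ⟨q, σ, a, v, h1, R1, B1⟩ := r
  obtain ⟨q', σ', a', v', h2, R2, B2⟩ := r'
  simp only at hq hσ ha hv
  subst hq hσ ha hv
  exact ⟨h.q, h.g0, h.ha, h.hv, h.rate, h.hyb, h.brq, h.brl, h.anc, h.cq, h.eq⟩

/-- a patch does not see the cut-off depth -/
theorem lay_ri_patch_rm {r0 : NmRt} {Λ a0 a1 v0 v1 : ℝ} (h : r0.Patch π Λ a0 a1 v0 v1) (Rm : ℝ) :
    NmRt.Patch { r0 with Rm := Rm } π Λ a0 a1 v0 v1 :=
  ⟨h.1, h.2.1, fun a v h1 h2 h3 h4 => lay_ri_ok_congr (r := { r0 with a := a, v := v }) rfl rfl rfl rfl (h.2.2 a v h1 h2 h3 h4)⟩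

/-- the constant of a patch may be decreased -/
theorem lay_ri_patch_mono (hπ : π.Valid) {r0 : NmRt} {Λ Λ' a0 a1 v0 v1 : ℝ} (h : r0.Patch π Λ' a0 a1 v0 v1) (hΛ : Λ ≤ Λ') :
    r0.Patch π Λ a0 a1 v0 v1 :=
  ⟨h.1, h.2.1, fun a v h1 h2 h3 h4 => (h.2.2 a v h1 h2 h3 h4).mono hπ hΛ⟩

/-- LEAF L-256-RI-GRID.   **port `hGrid`** of `lay_root_rect`.   PLAN: `Λ, B1` of `lay_ri_in π hπ C0 1 (κ 1)`.   Given `M K RQ Rm`: apply it to `{ r0 with Rm := Rm }` (`lay_ri_patch_rm`) with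
`Kf = K + RQ`, `B = K + RQ + 2`, `RX = 3 Rm + 1`, `A = ⌈(Rm + 2) / min 1 c'⌉₊ + ⌈(Rm + 2) / (bs - 1)⌉₊ + 1` (`0 < c'`: `NmRt.Ok.rate` at the corner `(a0, v0)`; `cut = slope ⟹ ds = nmDsEq π`, `1 < c2 = bs`: `NmQ.Fam`); `nm_A_uf S hX 1 one_pos`. -/
theorem lay_ri_grid (S : NmSeq π C0 κ) (hπ : π.Valid) (hX : S.HasX) : ∃ Λ B1 : ℝ, 1 ≤ B1 ∧ ∀ (r0 : NmRt) (a0 a1 v0 v1 : ℝ), r0.Patch π Λ a0 a1 v0 v1 → B1 ≤ r0.B →
    ∀ M K RQ Rm : ℕ, 2 * (K + RQ) + 2 ≤ Rm → ∃ (A B : ℕ) (Kf RX h0 : ℝ), 0 < A ∧ 0 < B ∧ 0 < h0 ∧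
      ∀ h : ℝ, 0 < h → h < h0 → ∀ (x0 y0 : ℝ) (na nv : ℕ), a0 ≤ x0 → v0 ≤ y0 → x0 + na * (A * h) ≤ a1 →
        y0 + nv * (B * h) ≤ v1 → ∀ e : ℝ, 0 < e → ∀ᶠ n in uf, ∀ dsp : ℝ → ℝ → ℝ → NmNm → NmNm → ItDsp,
          (nmGr (S.D n) π { r0 with a := x0, v := y0, h := h, Rm := Rm } dsp A B M).In na nv K Kf RQ RX (r0.B + 1)
            (((S.D n).s ^ h) ^ (-e)) := by
  obtain ⟨Λ, B1, hB1, hin⟩ := lay_ri_in π hπ C0 1 (κ 1)
  refine ⟨Λ, B1, hB1, fun r0 a0 a1 v0 v1 hp hB M K RQ Rm hRm => ?_⟩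
  have hok := hp.2.2 a0 v0 le_rfl hp.1.le le_rfl hp.2.1.le
  have hc : 0 < r0.c π := hok.rate
  have hmin : 0 < min 1 (r0.c π) := lt_min one_pos hc
  have hsl : r0.q.ds.cut = NmCut.slope → 0 < r0.q.ds.bs - 1 := by
    intro hcut
    have hfam : r0.q.Fam π := hok.q
    obtain ⟨-, -, h⟩ := hfam
    rcases h with ⟨-, -, h3, -⟩ | ⟨-, -, h3, -⟩ | ⟨-, -, -, De, -, -, -, h3⟩
    · rw [h3] at hcut ⊢
      simp only [nmDsEq] at hcut ⊢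
      by_cases h5 : 1 < π.c2
      · linarith
      · rw [if_neg h5] at hcut
        cases hcut
    · rw [h3] at hcut
      simp [nmDsLin] at hcut
    · rw [h3] at hcut
      simp [nmDsStr] at hcut
  obtain ⟨A, hA⟩ : ∃ A : ℕ, A = ⌈((Rm : ℝ) + 2) / min 1 (r0.c π)⌉₊ + ⌈((Rm : ℝ) + 2) / (r0.q.ds.bs - 1)⌉₊ + 1 := ⟨_, rfl⟩
  have hA1 : ((Rm : ℝ) + 2) / min 1 (r0.c π) ≤ A := by
    refine (Nat.le_ceil _).trans ?_
    rw [hA]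
    push_cast
    have : (0 : ℝ) ≤ ⌈((Rm : ℝ) + 2) / (r0.q.ds.bs - 1)⌉₊ := Nat.cast_nonneg _
    linarith
  have hA2 : ((Rm : ℝ) + 2) / (r0.q.ds.bs - 1) ≤ A := by
    refine (Nat.le_ceil _).trans ?_
    rw [hA]
    push_cast
    have : (0 : ℝ) ≤ ⌈((Rm : ℝ) + 2) / min 1 (r0.c π)⌉₊ := Nat.cast_nonneg _
    linarith
  have hK0 : (0 : ℝ) ≤ K := Nat.cast_nonneg K
  have hRQ0 : (0 : ℝ) ≤ RQ := Nat.cast_nonneg RQ
  obtain ⟨h0, hh0, hgr⟩ := hin { r0 with Rm := (Rm : ℝ) } a0 a1 v0 v1 (lay_ri_patch_rm hp Rm) hB A (K + RQ + 2) M (K : ℝ) ((K : ℝ) + RQ) (RQ : ℝ)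
    (3 * (Rm : ℝ) + 1) hK0 (by linarith) (by linarith) (by push_cast; linarith)
    (by
      show 2 * ((K : ℝ) + RQ) + 2 ≤ (Rm : ℝ)
      exact_mod_cast hRm)
    (by
      show (Rm : ℝ) + 2 ≤ min 1 (r0.c π) * A
      rw [div_le_iff₀ hmin] at hA1
      linarith)
    (fun hcut => by
      show (Rm : ℝ) + 2 ≤ (r0.q.ds.bs - 1) * A
      have := hsl hcut
      rw [div_le_iff₀ this] at hA2
      linarith)
    (by
      show 3 * (Rm : ℝ) < 3 * (Rm : ℝ) + 1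
      linarith)
  refine ⟨A, K + RQ + 2, (K : ℝ) + RQ, 3 * (Rm : ℝ) + 1, h0, by rw [hA]; omega, by omega, hh0, ?_⟩
  intro h hh hlt x0 y0 na nv hx0 hy0 hna hnv e he
  exact nm_A_uf S hX 1 one_pos _ (hgr h hh hlt x0 y0 na nv hx0 hy0 hna hnv) e he

/-- LEAF L-256-RI-ANG.   (ang) for the profile at almost every point.   PLAN: second conclusion of `nm_tr_ang (fun x a v => S.U q x a v) a0 a1 v0 v1 C` with `nm_U_basic`, `nm_U_incr`; `S.m` unfolds to the `limsup`. -/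
theorem lay_ri_ang (S : NmSeq π C0 κ) (hπ : π.Valid) (q : NmQ) (hq : q.Fam π) (a0 a1 v0 v1 : ℝ) :
    ∀ᵐ x : ℝ × ℝ, x ∈ Set.Ioo a0 a1 ×ˢ Set.Ioo v0 v1 → ∀ p : ℝ, 0 ≤ p →
      Tendsto (fun h : ℝ => S.U q (x.2 + p * h) x.1 x.2 / h) (𝓝[>] 0) (𝓝 (S.m q x.1 x.2 * p)) := by
  obtain ⟨hinc, C, hC⟩ := nm_U_incr S hπ q hq
  have h := (nm_tr_ang (fun x a v => S.U q x a v) a0 a1 v0 v1 C
    (fun a _ v _ => (nm_U_basic S hπ q hq a v).1)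
    (fun a _ v _ x x' h1 h2 _ => (nm_U_basic S hπ q hq a v).2 x x' h1 h2)
    (fun a _ a' _ v _ v' _ x x' h1 h2 h3 h4 _ => hinc a a' v v' x x' h1 h2 h3 h4)
    (fun a _ a' _ v _ v' _ x => hC a a' v v' x)).2.1
  filter_upwards [h] with x hx hmem p hp
  exact hx hmem.1 hmem.2 p hp

/-- LEAF L-256-RI-MEAN.   `LayMean` at one root.   PLAN: `nm_gr_mean` at every `l ∈ pk.Lam` (finite intersection: `Filter.eventually_all_finset`);   `T.L = lg (s^h) = h * lgs > 0` (`nm_me_s`, `nm_me_lgs_pos`, `Real.log_rpow`);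
`T.O l = (child name, C_*)`: `entC (pair X Y) Y = entC X Y` (R255/Ent/Basic: `ent_entC_congr` or the chain rule);   multiply the two-sided bounds by `h * lgs`. -/
theorem lay_ri_mean (S : NmSeq π C0 κ) (hπ : π.Valid) (hX : S.HasX) : ∃ Λ : ℝ, ∀ r : NmRt, r.Ok π Λ → 0 < r.h → ∀ pk : ItPk, (∀ l ∈ pk.Lam, 0 < l ∧ r.a + l * r.h ≤ r.q.ds.De) →
    ∀ σ : ℝ, 0 < σ → ∀ᶠ n in uf, ∀ dsp : ℝ → NmNm → NmNm → ItDsp, LayMean (nmTan (S.D n) π r dsp) (S.H r.q) r.a r.v r.h σ pk := by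
  obtain ⟨Λ, H⟩ := nm_gr_mean hπ S hX
  refine ⟨Λ, fun r hr hh pk hpk σ hσ => ?_⟩
  have h1 := (Filter.eventually_all_finset pk.Lam).2 fun l hl => H r hr hh l (hpk l hl).1 (hpk l hl).2 σ hσ
  filter_upwards [h1] with n hn dsp l hl
  obtain ⟨b1, b2⟩ := hn l hl
  have hL : (nmTan (S.D n) π r dsp).L = r.h * (S.D n).lgs := by
    show Real.log (1 / ((S.D n).s ^ r.h)) = r.h * Real.log (1 / (S.D n).s)
    rw [one_div, one_div, Real.log_inv, Real.log_inv, Real.log_rpow (nm_me_s S n).1]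
    ring
  have hpos : 0 < r.h * (S.D n).lgs := mul_pos hh (nm_me_lgs_pos S n)
  have e1 : (nmTan (S.D n) π r dsp).P.entC ((nmTan (S.D n) π r dsp).O l) (nmTan (S.D n) π r dsp).Cs
      = ((S.D n).P 1).entC ((S.D n).nm π r.q (r.a + l * r.h) r.v) ((S.D n).cs π r) := by
    refine ent_entC_congr ((S.D n).P 1) _ _ _ _ (fun ω ω' _ _ => Iff.rfl) (fun ω ω' _ _ hc => ?_)
    show ((S.D n).nm π r.q (r.a + l * r.h) r.v ω, (S.D n).cs π r ω) = ((S.D n).nm π r.q (r.a + l * r.h) r.v ω', (S.D n).cs π r ω') ↔ _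
    rw [Prod.mk.injEq]
    exact ⟨fun h => h.1, fun h => ⟨h, hc⟩⟩
  have e2 : (nmTan (S.D n) π r dsp).P.entC ((nmTan (S.D n) π r dsp).Wd l) (nmTan (S.D n) π r dsp).Cs
      = ((S.D n).P 1).entC ((S.D n).nm π r.q r.a (r.v + l * r.h)) ((S.D n).cs π r) := rfl
  rw [abs_le] at b1 b2
  constructor
  · rw [hL, e1, ← div_le_iff₀ hpos]
    linarith [b1.2]
  · rw [hL, e2, ← le_div_iff₀ hpos]
    linarith [b2.1]

/-- LEAF L-256-RI-FITS.   the package fits at all small gaps, uniformly on the patch.   PLAN: `a1 < De` (`NmRt.Ok.ha` at the corner `(a1, v0)`); `W` = a bound of `pk.G ∪ pk.Lam ∪ {pk.RQ}` (e.g. `pk.RQ + ∑ Lam`; `pk.Ok`: `G ≤ K < RQ`); `h0 = (De - a1) / (W + 1)`. -/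
theorem lay_ri_fits {r0 : NmRt} {Λ a0 a1 v0 v1 : ℝ} (hp : r0.Patch π Λ a0 a1 v0 v1) (pk : ItPk) (hpk : pk.Ok) : ∃ h0 : ℝ, 0 < h0 ∧ ∀ h : ℝ, 0 < h → h ≤ h0 →
    ∀ (a v Rm : ℝ), a ≤ a1 → 2 * pk.RQ ≤ Rm → (∀ l ∈ pk.Lam, (2 + r0.c π) * l ≤ Rm) →
      NmRt.Fits { r0 with a := a, v := v, h := h, Rm := Rm } π pk := by
  obtain ⟨-, hK, hKR, -, -, hL, hG⟩ := hpk
  have hDe : a1 < r0.q.ds.De := (hp.2.2 a1 v0 hp.1.le le_rfl le_rfl hp.2.1.le).ha.2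
  have hS0 : 0 ≤ ∑ l ∈ pk.Lam, l := Finset.sum_nonneg fun l hl => (hL l hl).le
  obtain ⟨W, hW⟩ : ∃ W, W = pk.RQ + ∑ l ∈ pk.Lam, l := ⟨_, rfl⟩
  have hW0 : 0 < W + 1 := by rw [hW]; linarith
  have hd : 0 < r0.q.ds.De - a1 := by linarith
  have key : ∀ h : ℝ, 0 < h → h ≤ (r0.q.ds.De - a1) / (W + 1) → ∀ a : ℝ, a ≤ a1 → ∀ p : ℝ, p ≤ W → a + p * h < r0.q.ds.De := by
    intro h h0 hh a ha p hpW
    have h1 : h * (W + 1) ≤ r0.q.ds.De - a1 := (le_div_iff₀ hW0).1 hh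
    have h2 : p * h ≤ W * h := mul_le_mul_of_nonneg_right hpW h0.le
    nlinarith
  refine ⟨(r0.q.ds.De - a1) / (W + 1), div_pos hd hW0, fun h h0 hh a v Rm ha hR hl => ⟨h0, ?_, ?_, ?_, hR, hl⟩⟩
  · intro p hp'
    refine key h h0 hh a ha p ?_
    have := (hG p hp').2
    rw [hW]; linarith
  · intro l hl'
    refine key h h0 hh a ha l ?_
    have : l ≤ ∑ l ∈ pk.Lam, l := Finset.single_le_sum (f := fun l => l) (fun i hi => (hL i hi).le) hl'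
    rw [hW]; linarith
  · refine key h h0 hh a ha pk.RQ ?_
    rw [hW]; linarith

/-- LEAF L-256-RI-OK.   the regime is admissible.   PLAN: `0 < c'`: `NmRt.Ok.rate`;  `π.Valid`: `0 < d ≤ 1`;  `nm_m_basic`;  `ν ∈ [0,1]`: `nm_tr_meas (S.HM r0.Vq r0.Sd) (r0.Bg π) _ 1` with `nm_HM_basic` (`V = Pc ds` or `bc ds` by cases on `σ.lin`), `Bg` continuous (`π.b1`, `NmDs.b` are affine). -/
theorem lay_ri_ok (S : NmSeq π C0 κ) (hπ : π.Valid) (r0 : NmRt) (hq : r0.q.Fam π) (hc : 0 < r0.c π) (hB : 0 ≤ r0.B) (e0 : ℝ) (he0 : 0 < e0) (x : ℝ × ℝ) :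
    (layRiPar S r0 e0 x).Ok := by
  have hm := (nm_m_basic S hπ r0.q hq).2.2.1 x.1 x.2
  have hV : r0.Vq = NmAt.Pc r0.q.ds ∨ r0.Vq = NmAt.bc r0.q.ds := by
    by_cases hl : r0.σ.lin = true
    · left; funext z; simp [NmRt.Vq, hl]
    · right; funext z; simp [NmRt.Vq, hl]
  have hH := nm_HM_basic S hπ r0.q.ds (Or.inl ⟨r0.q, hq, rfl⟩) r0.Vq hV r0.Sd
  have hBg : Continuous (r0.Bg π) := by
    by_cases hl : r0.σ.lin = true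
    · have : r0.Bg π = fun z => (π.q - π.J) * (z - 1) := by funext z; simp [NmRt.Bg, hl, SfPar.b1]
      rw [this]; fun_prop
    · have : r0.Bg π = fun z => r0.q.ds.b0 + r0.q.ds.bs * (z - r0.q.ds.De) := by funext z; simp [NmRt.Bg, hl, NmDs.b]
      rw [this]; fun_prop
  have hν := (nm_tr_meas (S.HM r0.Vq r0.Sd) (r0.Bg π) hBg 1 hH.1 (fun x z z' => by rw [one_mul]; exact hH.2.2 x z z')).2 x.1
  refine ⟨hc, hπ.d1.1, hπ.d1.2, hm.1, hm.2, hν.1, hν.2, he0, ?_⟩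
  show 1 ≤ r0.B + 1
  linarith

end

end Claimed.Agent.R256
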