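import Claimed.Agent.R256.Lay.RiOne

/-!
# Row 256, unit LAY, block RI: `lay_ri_one` (port `hOne`), `lay_ri_patch` (GENERIC PATCH THEOREM)      (architect helper186)
-/

set_option autoImplicit false

namespace Claimed.Agent.R256

open Claimed.Agent.R255 Claimed.Agent.R255.FLaw
open Filter Topology MeasureTheory
open Classical

noncomputable section

variable {π : SfPar} {C0 : ℝ} {κ : ℝ → ℝ}

/-- **port `hOne`** of `lay_root_rect` -/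
theorem lay_ri_one (S : NmSeq π C0 κ) (hπ : π.Valid) (hX : S.HasX) (Ds : Set ℝ) (hF : S.Flat Ds) :
    ∃ Λ B1 : ℝ, 1 ≤ B1 ∧ ∀ (r0 : NmRt) (a0 a1 v0 v1 : ℝ), r0.Patch π Λ a0 a1 v0 v1 → B1 ≤ r0.B → r0.q.ds.De ∈ Ds →
      (r0.σ.exact = true → r0.σ.lin = false → ∀ a, a0 ≤ a → a ≤ a1 → r0.σ.xs < S.pst r0.q.ds a) →
      (r0.σ.exact = true → r0.σ.lin = false → r0.q.tp = NmTp.clip → ∀ a : ℝ, a0 ≤ a → a ≤ a1 → r0.q.ds.b a + v1 < π.b1 a) →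
      ∀ (av cr : Bool) (e0 : ℝ → ℝ), (av = true → LayRiAvG S r0 e0 a0 a1 v0 v1) → (cr = true → LayRiCrG S r0 a0 a1 v0 v1) →
      ∀ᵐ x : ℝ × ℝ, x ∈ Set.Ioo a0 a1 ×ˢ Set.Ioo v0 v1 → ∀ τ : ℝ, 0 < τ → ∃ κ0 : ℝ, 0 < κ0 ∧
      ∀ (pk : ItPk) (acc : ℝ), pk.Ok → 0 < acc → ∀ σ : ℝ, 0 < σ → ∃ (Rm0 : ℕ) (η h0 : ℝ),
      2 * (⌈pk.K⌉₊ + ⌈pk.RQ⌉₊) + 2 ≤ Rm0 ∧ 0 < η ∧ 0 < h0 ∧
      ∀ j : ℕ, (1 / 2 : ℝ) ^ j < h0 → ∀ x' : ℝ × ℝ, layLat a0 v0 ((1 / 2) ^ j) x' → |x'.1 - x.1| ≤ η * (1 / 2) ^ j →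
        |x'.2 - x.2| ≤ η * (1 / 2) ^ j → ∀ᶠ n in uf, ∃ dsp : ℝ → NmNm → NmNm → ItDsp,
          LayOne (nmTan (S.D n) π { r0 with a := x'.1, v := x'.2, h := (1 / 2) ^ j, Rm := Rm0 } dsp) (layRiPar S r0 (e0 x.1) x) pk τ κ0 acc av cr ∧
          LayMean (nmTan (S.D n) π { r0 with a := x'.1, v := x'.2, h := (1 / 2) ^ j, Rm := Rm0 } dsp) (S.H r0.q) x'.1 x'.2
            ((1 / 2) ^ j) σ pk := by
  obtain ⟨Λr, K0, hRep⟩ := lay_ri_rep π hπ C0 1 (κ 1)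
  obtain ⟨Λg, Bg, hBg, hGeo⟩ := lay_ri_geo π hπ C0 1 (κ 1)
  obtain ⟨Λm, Bm, hMk⟩ := lay_ri_marks S hπ hX Ds hF
  obtain ⟨Λe, hMean⟩ := lay_ri_mean S hπ hX
  refine ⟨max (max Λr Λg) (max Λm Λe), max Bg Bm, le_trans hBg (le_max_left _ _), ?_⟩
  intro r0 a0 a1 v0 v1 hp hB hD hx hstr av cr e0 hav hcr
  have hpr := lay_ri_patch_mono hπ hp (Λ := Λr) (le_trans (le_max_left _ _) (le_max_left _ _))
  have hpg := lay_ri_patch_mono hπ hp (Λ := Λg) (le_trans (le_max_right _ _) (le_max_left _ _))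
  have hpm := lay_ri_patch_mono hπ hp (Λ := Λm) (le_trans (le_max_left _ _) (le_max_right _ _))
  have hpe := lay_ri_patch_mono hπ hp (Λ := Λe) (le_trans (le_max_right _ _) (le_max_right _ _))
  have hok := hp.2.2 a0 v0 le_rfl hp.1.le le_rfl hp.2.1.le
  have hq : r0.q.Fam π := hok.q
  have hc : 0 < r0.c π := hok.rate
  have hmk := hMk r0 hD (le_trans (le_max_right _ _) hB)
  have hmk' := (Measure.quasiMeasurePreserving_fst (μ := (volume : Measure ℝ)) (ν := (volume : Measure ℝ))).ae hmk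
  have hav' : ∀ᵐ x : ℝ × ℝ, av = true → a0 < x.1 → x.1 < a1 → LayRiAvAt S r0 (e0 x.1) a0 a1 v0 v1 x.1 := by
    cases av with
    | false => exact Eventually.of_forall fun x h => absurd h (by simp)
    | true =>
      exact ((Measure.quasiMeasurePreserving_fst (μ := (volume : Measure ℝ)) (ν := (volume : Measure ℝ))).ae (hav rfl)).mono fun x hx _ => hx
  have hcr' : ∀ᵐ x : ℝ × ℝ, cr = true → a0 < x.1 → x.1 < a1 → LayRiCrAt S r0 a0 a1 v0 v1 x.1 := by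
    cases cr with
    | false => exact Eventually.of_forall fun x h => absurd h (by simp)
    | true =>
      exact ((Measure.quasiMeasurePreserving_fst (μ := (volume : Measure ℝ)) (ν := (volume : Measure ℝ))).ae (hcr rfl)).mono fun x hx _ => hx
  filter_upwards [lay_ri_ang S hπ r0.q hq a0 a1 v0 v1, hmk', hav', hcr'] with x hang hm hAvX hCrX hxr τ hτ
  obtain ⟨κ1, hκ1, hM⟩ := hm hc τ hτ
  refine ⟨κ1, hκ1, ?_⟩
  intro pk acc hpk hacc σ hσ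
  obtain ⟨hM2, hK0, hKR, hχ, hLne, hLpos, hG⟩ := hpk
  have hpk : pk.Ok := ⟨hM2, hK0, hKR, hχ, hLne, hLpos, hG⟩
  -- the cut-off depth
  obtain ⟨Rv, hRv⟩ : ∃ Rm1 : ℕ, av = true → ∀ Rm : ℕ, Rm1 ≤ Rm → ∃ η h0 : ℝ, 0 < η ∧ 0 < h0 ∧
      ∀ j : ℕ, (1 / 2 : ℝ) ^ j < h0 → ∀ x' : ℝ × ℝ, layLat a0 v0 ((1 / 2) ^ j) x' → x' ∈ Set.Icc a0 a1 ×ˢ Set.Icc v0 v1 → |x'.1 - x.1| ≤ η * (1 / 2) ^ j →
      ∀ᶠ n in uf, ∀ (dsp : ℝ → NmNm → NmNm → ItDsp) (p : ItPar), p.e0 = e0 x.1 →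
        (nmTan (S.D n) π { r0 with a := x'.1, v := x'.2, h := (1 / 2) ^ j, Rm := Rm } dsp).Avoid p pk acc := by
    cases av with
    | false => exact ⟨0, fun h => absurd h (by simp)⟩
    | true =>
      obtain ⟨R, hR⟩ := hAvX rfl hxr.1.1 hxr.1.2 pk acc hpk hacc
      exact ⟨R, fun _ => hR⟩
  obtain ⟨Rc, hRc⟩ : ∃ Rm1 : ℕ, cr = true → ∀ Rm : ℕ, Rm1 ≤ Rm → ∃ η h0 : ℝ, 0 < η ∧ 0 < h0 ∧
      ∀ j : ℕ, (1 / 2 : ℝ) ^ j < h0 → ∀ x' : ℝ × ℝ, layLat a0 v0 ((1 / 2) ^ j) x' → x' ∈ Set.Icc a0 a1 ×ˢ Set.Icc v0 v1 → |x'.1 - x.1| ≤ η * (1 / 2) ^ j →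
      ∀ᶠ n in uf, ∀ w : NmZv (S.D n).Idx → ℝ,
        ((S.D n).P 1).pr (fun ω => |((S.D n).smk π { r0 with a := x'.1, v := x'.2, h := (1 / 2) ^ j, Rm := Rm } ω).r
          - w ((S.D n).side π r0.q r0.σ x'.1 ω)| < ((S.D n).s ^ ((1 / 2 : ℝ) ^ j)) ^ pk.χ) ≤ acc := by
    cases cr with
    | false => exact ⟨0, fun h => absurd h (by simp)⟩
    | true =>
      obtain ⟨R, hR⟩ := hCrX rfl hxr.1.1 hxr.1.2 pk acc hpk hacc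
      exact ⟨R, fun _ => hR⟩
  obtain ⟨Rm0, hRa, hR1, hR2, hR3, hR4⟩ : ∃ Rm0 : ℕ, 2 * (⌈pk.K⌉₊ + ⌈pk.RQ⌉₊) + 2 ≤ Rm0 ∧ 2 * pk.RQ ≤ (Rm0 : ℝ) ∧
      (∀ l ∈ pk.Lam, (2 + r0.c π) * l ≤ (Rm0 : ℝ)) ∧ Rv ≤ Rm0 ∧ Rc ≤ Rm0 := by
    refine ⟨2 * (⌈pk.K⌉₊ + ⌈pk.RQ⌉₊) + 2 + (Rv + Rc) + ⌈(2 + r0.c π) * ∑ l ∈ pk.Lam, l⌉₊, by omega, ?_, ?_, by omega, by omega⟩
    all_goals push_cast
    all_goals have c1 := Nat.le_ceil pk.K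
    all_goals have c2 := Nat.le_ceil pk.RQ
    all_goals have c4 := Nat.le_ceil ((2 + r0.c π) * ∑ l ∈ pk.Lam, l)
    all_goals have c5 : (0 : ℝ) ≤ (⌈pk.K⌉₊ : ℝ) := Nat.cast_nonneg _
    all_goals have c6 : (0 : ℝ) ≤ (⌈pk.RQ⌉₊ : ℝ) := Nat.cast_nonneg _
    all_goals have c7 : (0 : ℝ) ≤ (Rv : ℝ) := Nat.cast_nonneg _
    all_goals have c9 : (0 : ℝ) ≤ (Rc : ℝ) := Nat.cast_nonneg _
    all_goals have c8 : (0 : ℝ) ≤ (⌈(2 + r0.c π) * ∑ l ∈ pk.Lam, l⌉₊ : ℝ) := Nat.cast_nonneg _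
    · linarith
    · intro l hl
      have : l ≤ ∑ l ∈ pk.Lam, l := Finset.single_le_sum (f := fun l : ℝ => l) (fun i hi => (hLpos i hi).le) hl
      have : (2 + r0.c π) * l ≤ (2 + r0.c π) * ∑ l ∈ pk.Lam, l := mul_le_mul_of_nonneg_left this (by linarith)
      linarith
  -- the constants of the exits
  obtain ⟨e, he, hRepE⟩ := hRep { r0 with Rm := Rm0 } a0 a1 v0 v1 (lay_ri_patch_rm hpr _)
  obtain ⟨hg0, hhg0, hGeoE⟩ := hGeo { r0 with Rm := Rm0 } a0 a1 v0 v1 (lay_ri_patch_rm hpg _) hstr (le_trans (le_max_left _ _) hB) pk hpk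
  obtain ⟨ηa, ha0, hηa, hha0, hAng⟩ := nm_tan_ang S hπ Ds hF { r0 with a := x.1, v := x.2, Rm := Rm0 } hq hD (hang hxr) pk hpk acc e K0 hacc he
  obtain ⟨ηm, hm0, hηm, hhm0, hMkE⟩ := hM pk hpk acc hacc Rm0
  obtain ⟨hf0, hhf0, hFit⟩ := lay_ri_fits hp pk hpk
  obtain ⟨ηv, hv0, hηv, hhv0, hAvE⟩ : ∃ η h0 : ℝ, 0 < η ∧ 0 < h0 ∧ (av = true →
      ∀ j : ℕ, (1 / 2 : ℝ) ^ j < h0 → ∀ x' : ℝ × ℝ, layLat a0 v0 ((1 / 2) ^ j) x' → x' ∈ Set.Icc a0 a1 ×ˢ Set.Icc v0 v1 → |x'.1 - x.1| ≤ η * (1 / 2) ^ j →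
      ∀ᶠ n in uf, ∀ (dsp : ℝ → NmNm → NmNm → ItDsp) (p : ItPar), p.e0 = e0 x.1 →
        (nmTan (S.D n) π { r0 with a := x'.1, v := x'.2, h := (1 / 2) ^ j, Rm := Rm0 } dsp).Avoid p pk acc) := by
    cases av with
    | false => exact ⟨1, 1, one_pos, one_pos, fun h => absurd h (by simp)⟩
    | true =>
      obtain ⟨η, h0, h1, h2, H⟩ := hRv rfl Rm0 hR3
      exact ⟨η, h0, h1, h2, fun _ => H⟩
  obtain ⟨ηc, hc0, hηc, hhc0, hCrE⟩ : ∃ η h0 : ℝ, 0 < η ∧ 0 < h0 ∧ (cr = true →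
      ∀ j : ℕ, (1 / 2 : ℝ) ^ j < h0 → ∀ x' : ℝ × ℝ, layLat a0 v0 ((1 / 2) ^ j) x' → x' ∈ Set.Icc a0 a1 ×ˢ Set.Icc v0 v1 → |x'.1 - x.1| ≤ η * (1 / 2) ^ j →
      ∀ᶠ n in uf, ∀ w : NmZv (S.D n).Idx → ℝ,
        ((S.D n).P 1).pr (fun ω => |((S.D n).smk π { r0 with a := x'.1, v := x'.2, h := (1 / 2) ^ j, Rm := Rm0 } ω).r
          - w ((S.D n).side π r0.q r0.σ x'.1 ω)| < ((S.D n).s ^ ((1 / 2 : ℝ) ^ j)) ^ pk.χ) ≤ acc) := by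
    cases cr with
    | false => exact ⟨1, 1, one_pos, one_pos, fun h => absurd h (by simp)⟩
    | true =>
      obtain ⟨η, h0, h1, h2, H⟩ := hRc rfl Rm0 hR4
      exact ⟨η, h0, h1, h2, fun _ => H⟩
  -- distance to the boundary
  obtain ⟨⟨hx1, hx2⟩, hx3, hx4⟩ := hxr
  set η : ℝ := min (min ηa ηm) (min ηv ηc) with hηdef
  have hη : 0 < η := lt_min (lt_min hηa hηm) (lt_min hηv hηc)
  have e1 : η ≤ ηa := le_trans (min_le_left _ _) (min_le_left _ _)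
  have e2 : η ≤ ηm := le_trans (min_le_left _ _) (min_le_right _ _)
  have e3 : η ≤ ηv := le_trans (min_le_right _ _) (min_le_left _ _)
  have e4 : η ≤ ηc := le_trans (min_le_right _ _) (min_le_right _ _)
  set dd : ℝ := min (min (x.1 - a0) (a1 - x.1)) (min (x.2 - v0) (v1 - x.2)) with hdd
  have hdpos : 0 < dd := lt_min (lt_min (by linarith) (by linarith)) (lt_min (by linarith) (by linarith))
  refine ⟨Rm0, η, min (min (min hg0 ha0) (min hm0 hf0)) (min (min hv0 hc0) (dd / η)), hRa, hη,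
    lt_min (lt_min (lt_min hhg0 hha0) (lt_min hhm0 hhf0)) (lt_min (lt_min hhv0 hhc0) (div_pos hdpos hη)), ?_⟩
  intro j hj x' hlat hxa hxv
  set h : ℝ := (1 / 2 : ℝ) ^ j with hh
  have hpos : 0 < h := by positivity
  have l1 : h < hg0 := lt_of_lt_of_le hj (le_trans (min_le_left _ _) (le_trans (min_le_left _ _) (min_le_left _ _)))
  have l2 : h < ha0 := lt_of_lt_of_le hj (le_trans (min_le_left _ _) (le_trans (min_le_left _ _) (min_le_right _ _)))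
  have l3 : h < hm0 := lt_of_lt_of_le hj (le_trans (min_le_left _ _) (le_trans (min_le_right _ _) (min_le_left _ _)))
  have l4 : h < hf0 := lt_of_lt_of_le hj (le_trans (min_le_left _ _) (le_trans (min_le_right _ _) (min_le_right _ _)))
  have l5 : h < hv0 := lt_of_lt_of_le hj (le_trans (min_le_right _ _) (le_trans (min_le_left _ _) (min_le_left _ _)))
  have l6 : h < hc0 := lt_of_lt_of_le hj (le_trans (min_le_right _ _) (le_trans (min_le_left _ _) (min_le_right _ _)))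
  have l7 : h < dd / η := lt_of_lt_of_le hj (le_trans (min_le_right _ _) (min_le_right _ _))
  have l8 : η * h ≤ dd := by
    rw [lt_div_iff₀ hη] at l7; linarith
  have d1 : dd ≤ x.1 - a0 := le_trans (min_le_left _ _) (min_le_left _ _)
  have d2 : dd ≤ a1 - x.1 := le_trans (min_le_left _ _) (min_le_right _ _)
  have d3 : dd ≤ x.2 - v0 := le_trans (min_le_right _ _) (min_le_left _ _)
  have d4 : dd ≤ v1 - x.2 := le_trans (min_le_right _ _) (min_le_right _ _)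
  obtain ⟨ya1, ya2⟩ := abs_le.1 hxa
  obtain ⟨yv1, yv2⟩ := abs_le.1 hxv
  have b1 : a0 ≤ x'.1 := by linarith
  have b2 : x'.1 ≤ a1 := by linarith
  have b3 : v0 ≤ x'.2 := by linarith
  have b4 : x'.2 ≤ v1 := by linarith
  have hok' := hp.2.2 x'.1 x'.2 b1 b2 b3 b4
  have hfit : NmRt.Fits { r0 with a := x'.1, v := x'.2, h := h, Rm := Rm0 } π pk := hFit h hpos l4.le x'.1 x'.2 Rm0 b2 hR1 hR2
  have E1 := nm_A_uf S hX 1 one_pos _ (hGeoE h l1.le x'.1 x'.2 b1 b2 b3 b4 hfit) acc hacc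
  have E2 := nm_A_uf S hX 1 one_pos _ (hRepE x'.1 x'.2 b1 b2 b3 b4) 1 one_pos
  have E3 := hAng h hpos l2.le x'.1 x'.2 (le_trans hxa (mul_le_mul_of_nonneg_right e1 hpos.le))
    (le_trans hxv (mul_le_mul_of_nonneg_right e1 hpos.le)) hok'.ha.1.le hok'.ha.2.le hok'.hv
  have E4 := hMkE h hpos l3.le x'.1 x'.2 (le_trans hxa (mul_le_mul_of_nonneg_right e2 hpos.le))
    (hpm.2.2 x'.1 x'.2 b1 b2 b3 b4) (fun h1 h2 => hx h1 h2 x'.1 b1 b2) hfit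
  have E5 : ∀ᶠ n in uf, av = true → ∀ (dsp : ℝ → NmNm → NmNm → ItDsp) (p : ItPar), p.e0 = e0 x.1 →
      (nmTan (S.D n) π { r0 with a := x'.1, v := x'.2, h := h, Rm := Rm0 } dsp).Avoid p pk acc := by
    cases av with
    | false => exact Eventually.of_forall fun n h => absurd h (by simp)
    | true =>
      exact (hAvE rfl j l5 x' hlat ⟨⟨b1, b2⟩, b3, b4⟩ (le_trans hxa (mul_le_mul_of_nonneg_right e3 hpos.le))).mono fun n hn _ => hn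
  have E6 : ∀ᶠ n in uf, cr = true → ∀ w : NmZv (S.D n).Idx → ℝ,
      ((S.D n).P 1).pr (fun ω => |((S.D n).smk π { r0 with a := x'.1, v := x'.2, h := h, Rm := Rm0 } ω).r
        - w ((S.D n).side π r0.q r0.σ x'.1 ω)| < ((S.D n).s ^ h) ^ pk.χ) ≤ acc := by
    cases cr with
    | false => exact Eventually.of_forall fun n h => absurd h (by simp)
    | true =>
      exact (hCrE rfl j l6 x' hlat ⟨⟨b1, b2⟩, b3, b4⟩ (le_trans hxa (mul_le_mul_of_nonneg_right e4 hpos.le))).mono fun n hn _ => hn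
  have E7 := hMean { r0 with a := x'.1, v := x'.2, h := h, Rm := Rm0 }
    (lay_ri_ok_congr (r := { r0 with a := x'.1, v := x'.2 }) rfl rfl rfl rfl (hpe.2.2 x'.1 x'.2 b1 b2 b3 b4)) hpos pk
    (fun l hl => ⟨hLpos l hl, (hfit.2.2.1 l hl).le⟩) σ hσ
  filter_upwards [E1, E2, E3, E4, E5, E6, E7] with n g1 g2 g3 g4 g5 g6 g7
  obtain ⟨dsp, hd⟩ := g1
  exact ⟨dsp, ⟨hd _ ⟨rfl, rfl, rfl⟩, g3 dsp _ rfl g2, g4 dsp _ ⟨rfl, rfl, rfl⟩ rfl, fun h => g5 h dsp _ rfl, g6⟩, g7 dsp⟩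

/-- GENERAL PATCH THEOREM under the strictness `hstr` on the closed rectangle -/
theorem lay_ri_patchS (S : NmSeq π C0 κ) (hπ : π.Valid) (hX : S.HasX) (Ds : Set ℝ) (hF : S.Flat Ds) :
    ∃ Λ B1 : ℝ, 3 ≤ B1 ∧ ∀ (r0 : NmRt) (a0 a1 v0 v1 : ℝ), r0.Patch π Λ a0 a1 v0 v1 → B1 ≤ r0.B → r0.q.ds.De ∈ Ds →
      (r0.σ.exact = true → r0.σ.lin = false → ∀ a, a0 ≤ a → a ≤ a1 → r0.σ.xs < S.pst r0.q.ds a) →
      (r0.σ.exact = true → r0.σ.lin = false → r0.q.tp = NmTp.clip → ∀ a : ℝ, a0 ≤ a → a ≤ a1 → r0.q.ds.b a + v1 < π.b1 a) →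
      ∀ (av cr : Bool) (e0 : ℝ → ℝ), (∀ a, 0 < e0 a) → (av = true → LayRiAvG S r0 e0 a0 a1 v0 v1) → (cr = true → LayRiCrG S r0 a0 a1 v0 v1) →
      ∀ᵐ p : ℝ × ℝ, (1 - p.1, p.2) ∈ Set.Ioo a0 a1 ×ˢ Set.Ioo v0 v1 →
        DifferentiableAt ℝ (fun q : ℝ × ℝ => S.H r0.q (1 - q.1) q.2) p ∧ (layRiPar S r0 (e0 (1 - p.1)) (1 - p.1, p.2)).Ok ∧
          AcProd (fun t v => S.H r0.q (1 - t) v) (!r0.σ.lin) av cr (layRiPar S r0 (e0 (1 - p.1)) (1 - p.1, p.2)) p := by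
  obtain ⟨Λ1, B1, hB1, hG⟩ := lay_ri_grid S hπ hX
  obtain ⟨Λ2, B2, hB2, hO⟩ := lay_ri_one S hπ hX Ds hF
  refine ⟨max Λ1 Λ2, max 3 (max B1 B2), le_max_left _ _, ?_⟩
  intro r0 a0 a1 v0 v1 hp hB hD hx hstr av cr e0 he0 hav hcr
  have hp1 := lay_ri_patch_mono hπ hp (le_max_left Λ1 Λ2)
  have hp2 := lay_ri_patch_mono hπ hp (le_max_right Λ1 Λ2)
  have hok := hp.2.2 a0 v0 le_rfl hp.1.le le_rfl hp.2.1.le
  have hq : r0.q.Fam π := hok.q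
  have hc : 0 < r0.c π := hok.rate
  have hb1 : B1 ≤ r0.B := le_trans (le_trans (le_max_left _ _) (le_max_right _ _)) hB
  have hb2 : B2 ≤ r0.B := le_trans (le_trans (le_max_right _ _) (le_max_right _ _)) hB
  have main := lay_root_rect S r0 av cr a0 a1 v0 v1 (r0.B + 1) hp.1 hp.2.1 (fun x => layRiPar S r0 (e0 x.1) x) (nm_H_lip S hπ r0.q hq)
    (hG r0 a0 a1 v0 v1 hp1 hb1) (hO r0 a0 a1 v0 v1 hp2 hb2 hD hx hstr av cr e0 hav hcr)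
  filter_upwards [main] with p hm hpp
  obtain ⟨h1, h2⟩ := hm hpp
  exact ⟨h1, lay_ri_ok S hπ r0 hq hc (by linarith) _ (he0 _) _, h2⟩

/-- exhaustion of the open rectangle from below in the width -/
theorem lay_ri_exhaust (a0 a1 v0 v1 : ℝ) (hv : v0 < v1) (Φ : ℝ × ℝ → Prop)
    (h : ∀ w : ℝ, v0 < w → w < v1 → ∀ᵐ p : ℝ × ℝ, (1 - p.1, p.2) ∈ Set.Ioo a0 a1 ×ˢ Set.Ioo v0 w → Φ p) :
    ∀ᵐ p : ℝ × ℝ, (1 - p.1, p.2) ∈ Set.Ioo a0 a1 ×ˢ Set.Ioo v0 v1 → Φ p := by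
  have hd : 0 < v1 - v0 := by linarith
  have hw : ∀ k : ℕ, v0 < v1 - (v1 - v0) / ((k : ℝ) + 2) ∧ v1 - (v1 - v0) / ((k : ℝ) + 2) < v1 := by
    intro k
    have hk : (0 : ℝ) < (k : ℝ) + 2 := by positivity
    have h1 : (v1 - v0) / ((k : ℝ) + 2) < v1 - v0 := by
      rw [div_lt_iff₀ hk]
      have : (0 : ℝ) ≤ (k : ℝ) := Nat.cast_nonneg k
      nlinarith
    have h2 : 0 < (v1 - v0) / ((k : ℝ) + 2) := div_pos hd hk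
    constructor <;> linarith
  have hall := ae_all_iff.2 fun k : ℕ => h _ (hw k).1 (hw k).2
  filter_upwards [hall] with p hp hpp
  obtain ⟨h1, h2, h3⟩ := hpp
  simp only at h2 h3
  have hg : 0 < v1 - p.2 := by linarith
  obtain ⟨k, hk⟩ := exists_nat_gt ((v1 - v0) / (v1 - p.2))
  refine hp k ⟨h1, h2, ?_⟩
  show p.2 < v1 - (v1 - v0) / ((k : ℝ) + 2)
  have hk2 : (0 : ℝ) < (k : ℝ) + 2 := by positivity
  have : (v1 - v0) / ((k : ℝ) + 2) < v1 - p.2 := by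
    rw [div_lt_iff₀ hk2]
    rw [div_lt_iff₀ hg] at hk
    nlinarith
  linarith

/-- the general ports restrict to a lower rectangle with the same corner -/
theorem lay_ri_av_restr {S : NmSeq π C0 κ} {r0 : NmRt} {e0 : ℝ → ℝ} {a0 a1 v0 v1 w : ℝ} (hw : w ≤ v1) (h : LayRiAvG S r0 e0 a0 a1 v0 v1) :
    LayRiAvG S r0 e0 a0 a1 v0 w := by
  refine h.mono fun a ha g1 g2 pk acc hpk hacc => ?_
  obtain ⟨Rm1, H⟩ := ha g1 g2 pk acc hpk hacc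
  refine ⟨Rm1, fun Rm hRm => ?_⟩
  obtain ⟨η, h0, hη, hh0, H2⟩ := H Rm hRm
  exact ⟨η, h0, hη, hh0, fun j hj x' hl hx => H2 j hj x' hl ⟨hx.1, hx.2.1, hx.2.2.trans hw⟩⟩

theorem lay_ri_cr_restr {S : NmSeq π C0 κ} {r0 : NmRt} {a0 a1 v0 v1 w : ℝ} (hw : w ≤ v1) (h : LayRiCrG S r0 a0 a1 v0 v1) :
    LayRiCrG S r0 a0 a1 v0 w := by
  refine h.mono fun a ha g1 g2 pk acc hpk hacc => ?_
  obtain ⟨Rm1, H⟩ := ha g1 g2 pk acc hpk hacc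
  refine ⟨Rm1, fun Rm hRm => ?_⟩
  obtain ⟨η, h0, hη, hh0, H2⟩ := H Rm hRm
  exact ⟨η, h0, hη, hh0, fun j hj x' hl hx => H2 j hj x' hl ⟨hx.1, hx.2.1, hx.2.2.trans hw⟩⟩

/-- **GENERAL PATCH THEOREM.**   Every bound `r0.B ≥ B1 ≥ 3` of the stored marks; the avoidance exponent is a positive function of the time root; general ports.
(The strictness `hstr` of `lay_ri_patchS` holds on `[v0, w]`, `w < v1`: `NmRt.Ok.brq` at `(a, v1)`.) -/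
theorem lay_ri_patchG (S : NmSeq π C0 κ) (hπ : π.Valid) (hX : S.HasX) (Ds : Set ℝ) (hF : S.Flat Ds) :
    ∃ Λ B1 : ℝ, 3 ≤ B1 ∧ ∀ (r0 : NmRt) (a0 a1 v0 v1 : ℝ), r0.Patch π Λ a0 a1 v0 v1 → B1 ≤ r0.B → r0.q.ds.De ∈ Ds →
      (r0.σ.exact = true → r0.σ.lin = false → ∀ a, a0 ≤ a → a ≤ a1 → r0.σ.xs < S.pst r0.q.ds a) →
      ∀ (av cr : Bool) (e0 : ℝ → ℝ), (∀ a, 0 < e0 a) → (av = true → LayRiAvG S r0 e0 a0 a1 v0 v1) → (cr = true → LayRiCrG S r0 a0 a1 v0 v1) →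
      ∀ᵐ p : ℝ × ℝ, (1 - p.1, p.2) ∈ Set.Ioo a0 a1 ×ˢ Set.Ioo v0 v1 →
        DifferentiableAt ℝ (fun q : ℝ × ℝ => S.H r0.q (1 - q.1) q.2) p ∧ (layRiPar S r0 (e0 (1 - p.1)) (1 - p.1, p.2)).Ok ∧
          AcProd (fun t v => S.H r0.q (1 - t) v) (!r0.σ.lin) av cr (layRiPar S r0 (e0 (1 - p.1)) (1 - p.1, p.2)) p := by
  obtain ⟨Λ, B1, hB1, H⟩ := lay_ri_patchS S hπ hX Ds hF
  refine ⟨Λ, B1, hB1, fun r0 a0 a1 v0 v1 hp hB hD hx av cr e0 he0 hav hcr => ?_⟩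
  refine lay_ri_exhaust a0 a1 v0 v1 hp.2.1 _ fun w hw0 hw1 => ?_
  refine H r0 a0 a1 v0 w ⟨hp.1, hw0, fun a v g1 g2 g3 g4 => hp.2.2 a v g1 g2 g3 (g4.trans hw1.le)⟩ hB hD hx ?_ av cr e0 he0
    (fun h => lay_ri_av_restr hw1.le (hav h)) (fun h => lay_ri_cr_restr hw1.le (hcr h))
  intro _ hl htp a g1 g2
  have hb := ((hp.2.2 a v1 g1 g2 hp.2.1.le le_rfl).brq hl).2
  have hb' : min (r0.q.ds.b a + v1) (π.b1 a) = r0.q.ds.b a + v1 := by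
    have : r0.q.l π a v1 = min (r0.q.ds.b a + v1) (π.b1 a) := by unfold NmQ.l; rw [htp]
    rw [← this]; exact hb
  have := min_eq_left_iff.1 hb'
  linarith

/-- the port `LayAvP` of `Lay/Patch.lean` gives the general port -/
theorem lay_ri_of_avP {S : NmSeq π C0 κ} {r0 : NmRt} {a0 a1 v0 v1 e0 : ℝ} (h : LayAvP S r0 a0 a1 v0 v1 e0) :
    LayRiAvG S r0 (fun _ => e0) a0 a1 v0 v1 := by
  refine Eventually.of_forall fun a _ _ pk acc hpk hacc => ?_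
  obtain ⟨Rm1, H⟩ := h pk acc hpk hacc
  refine ⟨Rm1, fun Rm hRm => ?_⟩
  obtain ⟨h0, hh0, H2⟩ := H Rm hRm
  exact ⟨1, h0, one_pos, hh0, fun j hj x' hl hx _ => H2 j hj x' hl hx⟩

/-- the port `LayCrP` of `Lay/Patch.lean` gives the general port -/
theorem lay_ri_of_crP {S : NmSeq π C0 κ} {r0 : NmRt} {a0 a1 v0 v1 : ℝ} (h : LayCrP S r0 a0 a1 v0 v1) :
    LayRiCrG S r0 a0 a1 v0 v1 := by
  refine Eventually.of_forall fun a _ _ pk acc hpk hacc => ?_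
  obtain ⟨Rm1, H⟩ := h pk acc hpk hacc
  refine ⟨Rm1, fun Rm hRm => ?_⟩
  obtain ⟨h0, hh0, H2⟩ := H Rm hRm
  exact ⟨1, h0, one_pos, hh0, fun j hj x' hl hx _ => (H2 j hj x' hl hx).mono fun n hn => hn fun _ _ _ => ⟨0, 0, 0, 0, 0, 0, 0, 0⟩⟩

/-- **GENERIC PATCH THEOREM**, form `AcRoot`, general ports. -/
theorem lay_ri_patchR (S : NmSeq π C0 κ) (hπ : π.Valid) (hX : S.HasX) (Ds : Set ℝ) (hF : S.Flat Ds) :
    ∃ Λ B0 : ℝ, 3 ≤ B0 ∧ ∀ (r0 : NmRt) (a0 a1 v0 v1 : ℝ), r0.Patch π Λ a0 a1 v0 v1 → B0 ≤ r0.B → r0.q.ds.De ∈ Ds →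
      (r0.σ.exact = true → r0.σ.lin = false → ∀ a, a0 ≤ a → a ≤ a1 → r0.σ.xs < S.pst r0.q.ds a) →
      ∀ (av cr : Bool), (av = true → ∀ᵐ a : ℝ, a0 < a → a < a1 → ∃ e : ℝ, 0 < e ∧ LayRiAvAt S r0 e a0 a1 v0 v1 a) → (cr = true → LayRiCrG S r0 a0 a1 v0 v1) →
      ∀ᵐ p : ℝ × ℝ, (1 - p.1, p.2) ∈ Set.Ioo a0 a1 ×ˢ Set.Ioo v0 v1 →
        AcRoot (fun t v => S.H r0.q (1 - t) v) (!r0.σ.lin) av cr (r0.c π) π.d (S.m r0.q (1 - p.1) p.2)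
          (fun x => x = nmNu (S.HM r0.Vq r0.Sd) (r0.Bg π) (1 - p.1)) p := by
  obtain ⟨Λ, B0, hB0, H⟩ := lay_ri_patchG S hπ hX Ds hF
  refine ⟨Λ, B0, hB0, fun r0 a0 a1 v0 v1 hp hB hD hx av cr hav hcr => ?_⟩
  obtain ⟨e0, he0, hav'⟩ : ∃ e0 : ℝ → ℝ, (∀ a, 0 < e0 a) ∧ (av = true → LayRiAvG S r0 e0 a0 a1 v0 v1) := by
    cases av with
    | false => exact ⟨fun _ => 1, fun _ => one_pos, fun h => absurd h (by simp)⟩
    | true =>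
      obtain ⟨e0, h1, h2⟩ := lay_ri_choose (fun a => a0 < a ∧ a < a1) (fun a e => LayRiAvAt S r0 e a0 a1 v0 v1 a)
        ((hav rfl).mono fun a ha hh => ha hh.1 hh.2)
      exact ⟨e0, h1, fun _ => h2.mono fun a ha g1 g2 => ha ⟨g1, g2⟩⟩
  filter_upwards [H r0 a0 a1 v0 v1 hp hB hD hx av cr e0 he0 hav' hcr] with p hm hpp
  obtain ⟨h1, h2, h3⟩ := hm hpp
  exact ⟨h1, _, h2, rfl, rfl, rfl, rfl, h3⟩

/-- **GENERIC PATCH THEOREM**, form `AcRoot`, uniform ports. -/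
theorem lay_ri_patch (S : NmSeq π C0 κ) (hπ : π.Valid) (hX : S.HasX) (Ds : Set ℝ) (hF : S.Flat Ds) :
    ∃ Λ B0 : ℝ, 3 ≤ B0 ∧ ∀ (r0 : NmRt) (a0 a1 v0 v1 : ℝ), r0.Patch π Λ a0 a1 v0 v1 → B0 ≤ r0.B → r0.q.ds.De ∈ Ds →
      (r0.σ.exact = true → r0.σ.lin = false → ∀ a, a0 ≤ a → a ≤ a1 → r0.σ.xs < S.pst r0.q.ds a) →
      ∀ (av cr : Bool) (e0 : ℝ), 0 < e0 → (av = true → LayRiAv S r0 e0 a0 a1 v0 v1) → (cr = true → LayRiCr S r0 a0 a1 v0 v1) →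
      ∀ᵐ p : ℝ × ℝ, (1 - p.1, p.2) ∈ Set.Ioo a0 a1 ×ˢ Set.Ioo v0 v1 →
        AcRoot (fun t v => S.H r0.q (1 - t) v) (!r0.σ.lin) av cr (r0.c π) π.d (S.m r0.q (1 - p.1) p.2)
          (fun x => x = nmNu (S.HM r0.Vq r0.Sd) (r0.Bg π) (1 - p.1)) p := by
  obtain ⟨Λ, B0, hB0, H⟩ := lay_ri_patchR S hπ hX Ds hF
  refine ⟨Λ, B0, hB0, fun r0 a0 a1 v0 v1 hp hB hD hx av cr e0 he0 hav hcr => ?_⟩
  exact H r0 a0 a1 v0 v1 hp hB hD hx av cr (fun h => (lay_ri_av_of (hav h)).mono fun a ha g1 g2 => ⟨e0, he0, ha g1 g2⟩)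
    (fun h => lay_ri_cr_of (hcr h))

end

end Claimed.Agent.R256
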