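import Claimed.Agent.R256.Lay.RlGeo
import Claimed.Agent.R256.Lay.RaAvoid
import Claimed.Agent.R256.Lay.SepEq
import Claimed.Agent.R256.Lay.SepLt
import Claimed.Agent.R256.Lay.SepGt

/-!
# Row 256, unit LAY, block RL, file 2: THE AVOIDANCE PORT of the coarse quadratic side, equality display      (architect helper165; prefix `lay_rl_`)

EXIT `lay_rl_av` : `LayRlPt` (left patch) ⟹ `LayAvP S (layRlRt π A V B) a0 a1 v0 v1 e0` (port of `lay_root_patch`, helper189), `e0` depends on the family and on `κ` only.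
Paper: Prop. names:separation (04 l.690-768) = `lay_sep_lt`, `lay_sep_eq`, `lay_sep_gt` (proved) ⟹ `LaySepA` (approximated gates, proved) ⟹ `lay_avoid_fine` ⟹ `lay_ra_avoid` (helper27, generic pointwise port, proved).
 `lay_rl_sep`     `LaySepA π C0 true` in all three cases (`lb = false ⟹ lb = true`)
 `lay_rl_av`      choice of `Rm1`, `h0` on a left patch; the label slack `V < u(i)`, `l(A,V) < min (b1 i) 0` on `[a, a + Cs K h] ⊆ [a0, a1 + m0]`
 `lay_rl_avp`     `LayRiAv ⟹ LayAvP` (generic adapter between the ports of helper186 and helper189)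
-/

set_option autoImplicit false

namespace Claimed.Agent.R256

open Claimed.Agent.R255 Claimed.Agent.R255.FLaw
open Filter Topology MeasureTheory
open Classical

noncomputable section

/-- the separation with approximated gates, label prediction granted, for every equality family -/
theorem lay_rl_sep (π : SfPar) (hπ : π.Valid) (h1 : 0 < π.c2) (h2 : π.q = π.c2) (C0 : ℝ) : LaySepA π C0 true := by
  have hw : LaySep π C0 false → LaySep π C0 true := by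
    rintro ⟨τ, χ, cs, a1, a2, a3, a4, H⟩
    refine ⟨τ, χ, cs, a1, a2, a3, a4, fun κ0 hκ => ?_⟩
    obtain ⟨e1, he1, H⟩ := H κ0 hκ
    refine ⟨e1, he1, fun z0 hz0 => ?_⟩
    obtain ⟨t0, ht0, H⟩ := H z0 hz0
    refine ⟨t0, ht0, fun t ht htt => ?_⟩
    obtain ⟨s0, hs0, H⟩ := H t ht htt
    exact ⟨s0, hs0, fun D hD hOk a z hz ha hc ζ Z E hRow _ v sl hsl =>
      H D hD hOk a z hz ha hc ζ Z E hRow (by intro h; cases h) v sl hsl⟩
  refine lay_sepA π hπ C0 true ?_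
  rcases lt_trichotomy π.c2 1 with h | h | h
  · exact hw (lay_sep_lt π hπ h2 h1 h C0)
  · exact lay_sep_eq π hπ h2 h C0
  · exact hw (lay_sep_gt π hπ h2 h C0)

variable {π : SfPar} {C0 : ℝ} {κ : ℝ → ℝ}

/-- **THE AVOIDANCE PORT on a left patch** -/
theorem lay_rl_av (S : NmSeq π C0 κ) (hπ : π.Valid) (h1 : 0 < π.c2) (h2 : π.q = π.c2) (hX : S.HasX) (hk : ∀ τ : ℝ, 0 < τ → 0 < κ τ) :
    ∃ Λ e0 : ℝ, 0 ≤ Λ ∧ 0 < e0 ∧ ∀ (Λ' A V B a0 a1 v0 v1 m0 : ℝ), Λ ≤ Λ' → 3 ≤ B → LayRlPt π Λ' A V a0 a1 v0 v1 m0 →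
      LayAvP S (layRlRt π A V B) a0 a1 v0 v1 e0 := by
  obtain ⟨Λ, e0, Cs, he0, hCs, H⟩ := lay_ra_avoid hπ h2 S hX hk true (lay_rl_sep π hπ h1 h2 C0)
  refine ⟨max Λ 0, e0, le_max_right _ _, he0, ?_⟩
  intro Λ' A V B a0 a1 v0 v1 m0 hΛΛ hB Hp pk acc hpk hacc
  have hm := Hp.hm
  have hK : 0 < pk.K := hpk.2.1
  have hden : 0 < Cs * pk.K + 1 := by positivity
  obtain ⟨N, hN⟩ := exists_nat_ge pk.K
  refine ⟨N, fun Rm hRm => ⟨m0 / (Cs * pk.K + 1), by positivity, fun j hj x' _ hx' => ?_⟩⟩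
  obtain ⟨⟨ha0, ha1⟩, ⟨hv0, hv1⟩⟩ := hx'
  have hRm' : pk.K ≤ (Rm : ℝ) := hN.trans (by exact_mod_cast hRm)
  have hΛ'0 : 0 ≤ Λ' := (le_max_right _ _).trans hΛΛ
  have hOk := (lay_rl_pt_ok π hπ h1 h2 Λ' hΛ'0 A V B a0 a1 v0 v1 m0 Hp x'.1 x'.2 ha0 ha1 hv0 hv1).mono hπ ((le_max_left _ _).trans hΛΛ)
  have hOk' := lay_ok_irrel hOk ((1 / 2) ^ j) Rm B
  have hh : (0 : ℝ) < (1 / 2) ^ j := by positivity
  have hb : Cs * (pk.K * (1 / 2) ^ j) ≤ m0 := by
    rw [lt_div_iff₀ hden] at hj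
    nlinarith
  have hJ := hπ.J0
  have h1m := Hp.ha1
  refine H { layRlRt π A V B with a := x'.1, v := x'.2, h := (1 / 2) ^ j, Rm := Rm } hOk' hB rfl rfl hh pk acc hpk hacc hRm' ?_ ?_ ?_
  · show x'.1 + Cs * (pk.K * (1 / 2) ^ j) < 1
    linarith
  · intro _
    refine ⟨rfl, fun i hi0 hi1 => ?_⟩
    have hi0' : x'.1 ≤ i := hi0
    have hi1' : i ≤ x'.1 + Cs * (pk.K * (1 / 2) ^ j) := hi1
    have hVu : V < π.J * (1 - i) := lt_of_lt_of_le Hp.VJ (mul_le_mul_of_nonneg_left (by linarith) hJ)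
    have hAi : A < i := lt_of_lt_of_le Hp.hAa (ha0.trans hi0')
    have hVc : V < π.c2 * (1 - A) := lt_of_lt_of_le Hp.Vc (mul_le_mul_of_nonneg_left (by linarith [Hp.hAa, Hp.ha]) h1.le)
    refine ⟨hVu, ?_⟩
    show (nmDsEq π).b A + V < min (π.b1 i) 0
    have e1 : (nmDsEq π).b A = π.c2 * (A - 1) := by simp [NmDs.b, nmDsEq]
    have e2 : π.b1 i = (π.c2 - π.J) * (i - 1) := by simp [SfPar.b1, h2]
    rw [e1, e2]
    refine lt_min ?_ (by linarith)
    nlinarith [mul_pos h1 (sub_pos.2 hAi)]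
  · intro e _
    exact Filter.Eventually.of_forall fun n h => by cases h

/-- the port of `lay_ri_patch` implies the port of `lay_root_patch` (generic) -/
theorem lay_rl_avp (S : NmSeq π C0 κ) (r0 : NmRt) (e0 a0 a1 v0 v1 : ℝ) (h : LayRiAv S r0 e0 a0 a1 v0 v1) : LayAvP S r0 a0 a1 v0 v1 e0 := by
  intro pk acc hpk hacc
  obtain ⟨h0, hh0, H⟩ := h pk.G pk.K acc hpk.2.2.2.2.2.2 hacc
  obtain ⟨N, hN⟩ := exists_nat_ge (pk.K + 1)
  refine ⟨N, fun Rm hRm => ⟨h0, hh0, fun j hj x' _ hx' => ?_⟩⟩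
  have hRm' : pk.K + 1 ≤ (Rm : ℝ) := hN.trans (by exact_mod_cast hRm)
  have := H ((1 / 2) ^ j) (by positivity) hj Rm hRm' x'.1 x'.2 hx'.1.1 hx'.1.2 hx'.2.1 hx'.2.2
  filter_upwards [this] with n hn dsp a ha u hu al be ga hab
  rw [ha]
  exact hn u hu al be ga hab

end

end Claimed.Agent.R256
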