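import Claimed.Agent.R256.Lay.Patch
import Claimed.Agent.R256.Lay.RiOne
import Claimed.Agent.R256.Act.SupDefs

/-!
# Row 256, unit LAY, block RL: the instance EQ-ROOT-LEFT (`ac_eq_root_left` of `Act/Sup.lean`), file 1: GEOMETRY OF THE PATCHES      (architect helper165; chief Lay helper189; prefix `lay_rl_`)

Paper: 04 Def. names:side (i) = COARSE QUADRATIC side of the equality display `q = c₂ = c > 0`.   FORWARD coordinates `(a, v)`, `a = 1 - t`.
Left points: `0 < a < 1`, `0 < v`, `v < J (1 - a)`, `v < c (1 - a)`, hybrid `2 v < c (1 - a)`.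
`layRlRt π A V B` = the root datum: query `⟨nmDsEq π, quad, 0⟩`, side `⟨exact := false, lin := false, A, V, 0⟩` (anchor `(A, V)`), bound `B` of the stored marks.
`LayRlPt π Λ A V a0 a1 v0 v1 m0` = the ELEMENTARY inequalities of a patch `[a0,a1] × [v0,v1]` with the anchor `(A, V)` and the margin `m0` (the gates `i ≤ a1 + m0` of the separation still satisfy `i ≤ 1 - m0`, `V < u(i)`).
 GEO1 `lay_rl_pt_exists`   around every left point there is such a patch (all inequalities are strict at the point: `ε` small)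
 GEO2 `lay_rl_pt_ok`       every point of the closed rectangle is an admissible root (`NmRt.Ok`), hence `NmRt.Patch`
-/

set_option autoImplicit false

namespace Claimed.Agent.R256

open Claimed.Agent.R255 Claimed.Agent.R255.FLaw
open Filter Topology MeasureTheory
open Classical

noncomputable section

/-- the root datum of the coarse quadratic side anchored at `(A, V)`, equality display -/
def layRlRt (π : SfPar) (A V B : ℝ) : NmRt :=
  ⟨⟨nmDsEq π, NmTp.quad, 0⟩, ⟨false, false, A, V, 0⟩, 0, 0, 0, 0, B⟩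

/-- the elementary inequalities of a left patch -/
structure LayRlPt (π : SfPar) (Λ A V a0 a1 v0 v1 m0 : ℝ) : Prop where
  hm : 0 < m0
  ha : a0 < a1
  hv : v0 < v1
  hA0 : 0 ≤ A
  hAa : A < a0
  ha1 : a1 + 2 * m0 ≤ 1
  hv0 : 0 ≤ v0
  anc : Λ * (1 + π.c2 + |π.q| + π.J) * (a1 - A) ≤ V - v1
  VJ : V < π.J * (1 - a1 - m0)
  Vc : V < π.c2 * (1 - a1)
  Vh : π.hyb = true → 2 * V < π.c2 * (1 - a1)

theorem lay_rl_geo_eqns_cite : True := by
  have := @layRlRt.eq_1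
  trivial

/-- LEAF GEO1 (real numbers only).   `M = 1 + c2 + |q| + J`, `ε` small:  `a0 = a - ε`, `a1 = a + ε`, `A = a - 2 ε`, `v0 = v - ε`, `v1 = v + ε`, `V = v + ε + 3 Λ M ε`, `m0 = ε`.
Demands: `2 ε ≤ a`, `3 ε ≤ 1 - a`, `ε ≤ v`, `ε (1 + 3 Λ M + 2 J) < J (1 - a) - v`, `ε (1 + 3 Λ M + c2) < c2 (1 - a) - v`, hybrid: `ε (2 + 6 Λ M + c2) < c2 (1 - a) - 2 v`.
E.g. `g = min` of the (two or three) positive gaps, `ε = min (min (a / 2) ((1 - a) / 3)) (min v (g / (2 * (2 + 6 Λ M + 2 J + c2))))`.      EST 120 -/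
theorem lay_rl_pt_exists (π : SfPar) (hπ : π.Valid) (h1 : 0 < π.c2) (Λ : ℝ) (hΛ : 0 ≤ Λ) (a v : ℝ) (ha0 : 0 < a) (ha1 : a < 1) (hv : 0 < v)
    (hJ : v < π.J * (1 - a)) (hc : v < π.c2 * (1 - a)) (hh : π.hyb = true → 2 * v < π.c2 * (1 - a)) :
    ∃ A V a0 a1 v0 v1 m0 : ℝ, LayRlPt π Λ A V a0 a1 v0 v1 m0 ∧ a0 < a ∧ a < a1 ∧ v0 < v ∧ v < v1 := by
  have hJ0 := hπ.J0
  obtain ⟨W, hWdef⟩ : ∃ W : ℝ, W = Λ * (1 + π.c2 + |π.q| + π.J) := ⟨_, rfl⟩
  have hW : 0 ≤ W := by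
    rw [hWdef]
    have := abs_nonneg π.q
    positivity
  obtain ⟨g, hg0, hg1, hg2, hg3⟩ : ∃ g : ℝ, 0 < g ∧ g ≤ π.J * (1 - a) - v ∧ g ≤ π.c2 * (1 - a) - v ∧
      (π.hyb = true → g ≤ π.c2 * (1 - a) - 2 * v) := by
    by_cases hy : π.hyb = true
    · refine ⟨min (π.J * (1 - a) - v) (min (π.c2 * (1 - a) - v) (π.c2 * (1 - a) - 2 * v)), ?_, min_le_left _ _,
        (min_le_right _ _).trans (min_le_left _ _), fun _ => (min_le_right _ _).trans (min_le_right _ _)⟩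
      have := hh hy
      exact lt_min (by linarith) (lt_min (by linarith) (by linarith))
    · exact ⟨min (π.J * (1 - a) - v) (π.c2 * (1 - a) - v), lt_min (by linarith) (by linarith), min_le_left _ _, min_le_right _ _,
        fun h => absurd h hy⟩
  have hK : 0 < 2 + 6 * W + 2 * π.J + π.c2 := by positivity
  obtain ⟨ε, hεdef⟩ : ∃ ε : ℝ, ε = min (min (a / 2) ((1 - a) / 3)) (min v (g / (2 * (2 + 6 * W + 2 * π.J + π.c2)))) := ⟨_, rfl⟩
  have hε0 : 0 < ε := by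
    rw [hεdef]
    exact lt_min (lt_min (by linarith) (by linarith)) (lt_min hv (by positivity))
  have e1 : ε ≤ a / 2 := by rw [hεdef]; exact (min_le_left _ _).trans (min_le_left _ _)
  have e2 : ε ≤ (1 - a) / 3 := by rw [hεdef]; exact (min_le_left _ _).trans (min_le_right _ _)
  have e3 : ε ≤ v := by rw [hεdef]; exact (min_le_right _ _).trans (min_le_left _ _)
  have e4 : ε ≤ g / (2 * (2 + 6 * W + 2 * π.J + π.c2)) := by rw [hεdef]; exact (min_le_right _ _).trans (min_le_right _ _)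
  rw [le_div_iff₀ (by positivity)] at e4
  have p1 : 0 ≤ ε * W := by positivity
  have p2 : 0 ≤ ε * π.J := by positivity
  have p3 : 0 < ε * π.c2 := by positivity
  have e5 : 2 * (2 * ε + 6 * (ε * W) + 2 * (ε * π.J) + ε * π.c2) ≤ g := by
    refine le_trans (le_of_eq ?_) e4
    ring
  refine ⟨a - 2 * ε, v + ε + 3 * W * ε, a - ε, a + ε, v - ε, v + ε, ε, ⟨hε0, by linarith, by linarith, by linarith, by linarith, by linarith,
    by linarith, ?_, ?_, ?_, ?_⟩, by linarith, by linarith, by linarith, by linarith⟩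
  · rw [← hWdef]
    refine le_of_eq ?_
    ring
  · have : π.J * (1 - (a + ε) - ε) = π.J * (1 - a) - 2 * (ε * π.J) := by ring
    rw [this]
    have : 3 * W * ε = 3 * (ε * W) := by ring
    rw [this]
    linarith
  · have : π.c2 * (1 - (a + ε)) = π.c2 * (1 - a) - ε * π.c2 := by ring
    rw [this]
    have : 3 * W * ε = 3 * (ε * W) := by ring
    rw [this]
    linarith
  · intro hy
    have h3 := hg3 hy
    have : π.c2 * (1 - (a + ε)) = π.c2 * (1 - a) - ε * π.c2 := by ring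
    rw [this]
    have : 3 * W * ε = 3 * (ε * W) := by ring
    rw [this]
    linarith

/-- LEAF GEO2 (unfold `NmRt.Ok`, `NmQ.Fam`, `NmQ.l`, `NmQ.w`, `NmDs.b`, `nmDsEq`, `NmRt.c`, `SfPar.b1`; then linear arithmetic with products: `nlinarith` / monotonicity in `a`).
Fields: `q` first disjunct of `Fam`; `rate`: `r.c π = c2`; `hyb`: `c2 (a - 1) + 2 v < 0` from `Vh`, `v ≤ v1 ≤ V`, `a ≤ a1`; `brq`: `rfl`; `brl`, `eq`: vacuous;
`anc`: `Λ M (a - A) ≤ Λ M (a1 - A) ≤ V - v1 ≤ V - v`; `cq`: `b1 x = (c2 - J) (x - 1)` (`q = c2`), `b1 1 = 0`; `c2 (a - 1) + v < (c2 - J) (a - 1) ⟸ v < J (1 - a)`.      EST 150 -/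
theorem lay_rl_pt_ok (π : SfPar) (hπ : π.Valid) (h1 : 0 < π.c2) (h2 : π.q = π.c2) (Λ : ℝ) (hΛ : 0 ≤ Λ) (A V B a0 a1 v0 v1 m0 : ℝ)
    (H : LayRlPt π Λ A V a0 a1 v0 v1 m0) (a v : ℝ) (ha0 : a0 ≤ a) (ha1 : a ≤ a1) (hv0 : v0 ≤ v) (hv1 : v ≤ v1) :
    NmRt.Ok { layRlRt π A V B with a := a, v := v } π Λ := by
  obtain ⟨hm, haa, hvv, hA0, hAa, ha1', hv0', anc, VJ, Vc, Vh⟩ := H
  have hJ := hπ.J0
  have hM : 0 ≤ 1 + π.c2 + |π.q| + π.J := by have := abs_nonneg π.q; linarith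
  have hΛM : 0 ≤ Λ * (1 + π.c2 + |π.q| + π.J) := mul_nonneg hΛ hM
  have hVv1 : v1 ≤ V := by
    have : 0 ≤ Λ * (1 + π.c2 + |π.q| + π.J) * (a1 - A) := mul_nonneg hΛM (by linarith)
    linarith
  have c1 : π.c2 * (1 - a1) ≤ π.c2 * (1 - a) := mul_le_mul_of_nonneg_left (by linarith) h1.le
  have c2 : π.c2 * (1 - a1) ≤ π.c2 * (1 - A) := mul_le_mul_of_nonneg_left (by linarith) h1.le
  have j1 : π.J * (1 - a1 - m0) ≤ π.J * (1 - a) := mul_le_mul_of_nonneg_left (by linarith) hJ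
  have j2 : π.J * (1 - a1 - m0) ≤ π.J * (1 - A) := mul_le_mul_of_nonneg_left (by linarith) hJ
  have eb : ∀ x : ℝ, (nmDsEq π).b x = π.c2 * (x - 1) := by
    intro x
    simp [NmDs.b, nmDsEq]
  have eb1 : ∀ x : ℝ, π.b1 x = (π.c2 - π.J) * (x - 1) := by
    intro x
    unfold SfPar.b1
    rw [h2]
  have eDe : (nmDsEq π).De = 1 := rfl
  show NmRt.Ok ⟨⟨nmDsEq π, NmTp.quad, 0⟩, ⟨false, false, A, V, 0⟩, a, v, 0, 0, B⟩ π Λ
  have ec : NmRt.c ⟨⟨nmDsEq π, NmTp.quad, 0⟩, ⟨false, false, A, V, 0⟩, a, v, 0, 0, B⟩ π = π.c2 := by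
    simp [NmRt.c, nmDsEq]
  have ew : ∀ x y : ℝ, NmQ.w (⟨nmDsEq π, NmTp.quad, 0⟩ : NmQ) π x y = π.c2 * (x - 1) + 2 * y := by
    intro x y
    show (nmDsEq π).b x + 2 * y = _
    rw [eb]
  refine
    { q := ⟨le_rfl, (fun h => by cases h), Or.inl ⟨h1, h2, rfl, (fun h => by cases h)⟩⟩
      g0 := rfl
      ha := ⟨by show 0 < a; linarith, by show a < (nmDsEq π).De; rw [eDe]; linarith⟩
      hv := by show 0 ≤ v; linarith
      rate := by rw [ec]; exact h1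
      hyb := fun hh => ⟨rfl, ?_⟩
      brq := fun _ => ⟨(fun h => by cases h), rfl⟩
      brl := fun h => by cases h
      anc := fun _ => ⟨hA0, by show A < a; linarith, ?_, fun hh => ?_⟩
      cq := fun _ _ => ⟨?_, ?_⟩
      eq := fun h => by cases h }
  · show NmQ.w (⟨nmDsEq π, NmTp.quad, 0⟩ : NmQ) π a v < 0
    rw [ew]
    have := Vh hh
    linarith
  · rw [ec]
    show Λ * (1 + π.c2 + |π.q| + π.J) * (a - A) ≤ V - v
    have : Λ * (1 + π.c2 + |π.q| + π.J) * (a - A) ≤ Λ * (1 + π.c2 + |π.q| + π.J) * (a1 - A) :=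
      mul_le_mul_of_nonneg_left (by linarith) hΛM
    linarith
  · show NmQ.w (⟨nmDsEq π, NmTp.quad, 0⟩ : NmQ) π A V < 0
    rw [ew]
    have := Vh hh
    linarith
  · show (nmDsEq π).b a + v < min (π.b1 a) (π.b1 (nmDsEq π).De)
    rw [eb, eb1, eb1, eDe, lt_min_iff]
    constructor <;> nlinarith
  · show (nmDsEq π).b A + V < min (π.b1 A) (π.b1 (nmDsEq π).De)
    rw [eb, eb1, eb1, eDe, lt_min_iff]
    constructor <;> nlinarith

/-- a left patch is a patch -/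
theorem lay_rl_pt_patch (π : SfPar) (hπ : π.Valid) (h1 : 0 < π.c2) (h2 : π.q = π.c2) (Λ : ℝ) (hΛ : 0 ≤ Λ) (A V B a0 a1 v0 v1 m0 : ℝ)
    (H : LayRlPt π Λ A V a0 a1 v0 v1 m0) : (layRlRt π A V B).Patch π Λ a0 a1 v0 v1 :=
  ⟨H.ha, H.hv, fun a v e1 e2 e3 e4 => lay_rl_pt_ok π hπ h1 h2 Λ hΛ A V B a0 a1 v0 v1 m0 H a v e1 e2 e3 e4⟩

end

end Claimed.Agent.R256
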