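import Claimed.Agent.R256.Nm.Grid
import Claimed.Agent.R256.Act.Raw
import Claimed.Agent.R256.Lay.StarKit

/-!
# Row 256, unit LAY (04B), B8d: GENERIC ROOT THEOREM = `AcProd` at almost every root of a rectangle      (chief helper189)

CONSUMER: the six contracts `ac_*_root_*` of `Act/Sup.lean` (helper277).   Each of them = countably many rectangles (rational corners, one side `σ` per rectangle, `NmRt.Patch` on the closed rectangle) + `lay_root_rect` + the two PORTS below.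
FORWARD coordinates `x = (a, v)`;  Act uses the backward time `p = (1 - a, v)`.
## Data
 `nmTan D π r dsp` (one record), `nmGr D π r dsp A B M : LayGr` (grid with origin `(r.a, r.v)`), canonical representatives of Nm/Defs v3;   the datum served to Act is `(nmGr ..).tan 0 0`.
 The decoding `dsp` is chosen LAST (after `n`): the budgets do not see it (`lay_bud_dsp`).
## Ports
 `hGrid` (= `nm_gr_in` + `nm_A_uf`)   for every integer package `(M, K, RQ, Rm)` there are steps `A, B` and depths `Kf, RX` with `LayGr.In` on every grid inside the rectangle, list size `δ^(-e)`, for `uf`-most `n`.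
 `hOne`  (Nm type B + Lay S, at almost every `x`)   `∀ τ ∃ κ0 ∀ pk acc σ ∃ Rm0 η h0 ∀ h = 2^-j < h0 ∀ x'` on the lattice `layLat a0 v0 h` within `η h` of `x`, for `uf`-most `n` there is `dsp` with:
         `LayOne` = (`NmGeo`, `NmAng`, `AdmM`, `Avoid`, value avoidance) for the ONE-RECORD datum at `x'` WITH THE TRACES OF `x`  (a displacement `η h` costs `Lip η h ≤ acc h / 4`), and `LayMean` (entropies of child / width names against the increments of `S.H` at `x'`).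
## Proof of `lay_root_rect`
 N1 Rademacher, N2 the null set of `hOne`, N3 = countable union over `(M, K, RQ, Rm, k) ∈ ℕ^5` of the null sets of `lay_bud_ae` (`acc = 1/(k+1)`, steps from `hGrid`).   The flip `p ↦ (1 - p.1, p.2)` preserves null sets.
 Off the null sets: `τ → κ0` (port);  `pk, acc, σ → Rm0, η, h0`;  `M = pk.M`, `K = ⌈pk.K⌉₊`, `RQ = ⌈pk.RQ⌉₊`, `Rm = Rm0`, `1/(k+1) ≤ acc`, `C = η`;  for large `j`, `h = 2^-j < h0`: a root `x'` within `η h` with the budgets for `uf`-most `n`;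
 intersect with the port at `(x', h)`;  take one `n` and its `dsp`.   `lay_one_eq`, `lay_lift` (one record ⇒ replicas), `lay_bud_mono`, `lay_bud_dsp`.
LEAVES: L-256-LAY-RT1 (`lay_lift_pr`, `lay_lift_surC`, `lay_lift_nval`), RT2 (`lay_lift`), RT3 (`lay_bud_mono`, `lay_ae_flip`, `lay_diff_ae`).   `lay_root_rect` is PROVED from them and `lay_bud_ae` (PR2).
-/

set_option autoImplicit false

namespace Claimed.Agent.R256

open Claimed.Agent.R255 Claimed.Agent.R255.FLaw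
open Filter Topology MeasureTheory
open Classical

/-- the one-record tangent datum of a grid datum at the root `(i, k)` (all records are the same record) -/
noncomputable def LayGr.one (g : LayGr) (i k : ℕ) : Tan where
  Ω := g.Ω
  fin := g.fin
  P := g.P
  δ := g.δ
  quad := g.quad
  ζ := g.ζ
  Zs := g.Z i
  γ := g.γ
  Cs := fun ω => g.Cs i k (g.Z i ω)
  F := fun ω => g.F i k (g.Z i ω)
  mrk := fun _ => g.mks i
  ο := g.ο
  O := g.O i k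
  dsp := fun l ω => g.dsp i k l (g.O i k l ω) (g.Cs i k (g.Z i ω))
  ϖ := g.ϖ
  Wd := g.Wd i k

/-- the clauses of a ONE-RECORD datum -/
structure LayOne (T : Tan) (a : ItPar) (pk : ItPk) (τ κ0 acc : ℝ) (av cr : Bool) : Prop where
  geo : NmGeo T a pk acc
  ang : NmAng T a pk acc
  tm : T.AdmM a pk τ κ0 acc
  avd : av = true → T.Avoid a pk acc
  crs : cr = true → ∀ v : T.ζ → ℝ, T.P.pr (fun ω => |(T.mrk 0 ω).r - v (T.Zs ω)| < T.δ ^ pk.χ) ≤ acc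

/-- entropies of the child and width names against the increments of the profile `H` (forward time) at the root `(a, v)` -/
def LayMean (T : Tan) (H : ℝ → ℝ → ℝ) (a v h σ : ℝ) (pk : ItPk) : Prop :=
  ∀ l ∈ pk.Lam, T.P.entC (T.O l) T.Cs ≤ ((H (a + l * h) v - H a v) / h + σ) * T.L ∧
    ((H a (v + l * h) - H a v) / h - σ) * T.L ≤ T.P.entC (T.Wd l) T.Cs

theorem lay_root_eqns_cite : True := by
  have := @LayGr.one.eq_1
  have := @LayMean.eq_1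
  trivial

/-- the one-record datum of the grid of Nm at its origin is `nmTan` (`Nat.cast_zero`, `zero_mul`, `add_zero`) -/
theorem lay_one_eq (D : SfDoc) (π : SfPar) (r : NmRt) (dsp : ℝ → ℝ → ℝ → NmNm → NmNm → ItDsp) (A B M : ℕ) :
    (nmGr D π r dsp A B M).one 0 0 = nmTan D π r (dsp r.a r.v) := by
  have e1 : r.a + ((0 : ℕ) : ℝ) * ((A : ℝ) * r.h) = r.a := by simp
  have e2 : r.v + ((0 : ℕ) : ℝ) * ((B : ℝ) * r.h) = r.v := by simp
  simp only [nmGr, layGrOf, LayGr.one, nmTan, e1, e2, SfDoc.cs]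
  rfl

/-- the budgets do not see the decoding -/
theorem lay_bud_dsp (D : SfDoc) (π : SfPar) (r : NmRt) (dsp dsp' : ℝ → ℝ → ℝ → NmNm → NmNm → ItDsp) (A B M i k M' : ℕ)
    (K RQ acc : ℝ) (h : ((nmGr D π r dsp A B M).tan i k).layBud M' K RQ acc) :
    ((nmGr D π r dsp' A B M).tan i k).layBud M' K RQ acc := h

section lift

variable (g : LayGr) (i k : ℕ)

/-- LEAF RT1. under the replica law the record `0` has the law `P`, and on the support the side of the base point -/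
theorem lay_lift_pr (hM : 0 < g.M) (E : g.Ω → Prop) :
    (g.tan i k).P.pr (fun x => E (g.rcd 0 x)) = g.P.pr E ∧
      ∀ x, (g.tan i k).P.p x ≠ 0 → g.Z i (g.rcd 0 x) = g.Z i x.1 ∧ g.P.p (g.rcd 0 x) ≠ 0 := by
  have hr : ∀ x : g.Ω × (Fin g.M → g.Ω), g.rcd 0 x = x.2 ⟨0, hM⟩ := fun x => dif_pos hM
  refine ⟨?_, fun x hx => ?_⟩
  · have hf : (fun x : g.Ω × (Fin g.M → g.Ω) => E (g.rcd 0 x)) = (fun x => E (x.2 ⟨0, hM⟩)) := by
      funext x
      rw [hr]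
    show (g.P.star (g.Z i) g.M).pr (fun x => E (g.rcd 0 x)) = _
    rw [hf]
    exact lsk_pr g.P (g.Z i) g.M ⟨0, hM⟩ (fun _ ω => E ω)
  · have h := (lsk_supp g.P (g.Z i) g.M x hx).2 ⟨0, hM⟩
    have e : g.rcd 0 x = Prod.snd (α := g.Ω) (β := Fin g.M → g.Ω) x ⟨0, hM⟩ := hr x
    exact ⟨(congrArg (g.Z i) e).trans h.2, fun h0 => h.1 ((congrArg g.P.p e).symm.trans h0)⟩

/-- LEAF RT1. scores of observations of the record `0` -/
theorem lay_lift_surC (hM : 0 < g.M) {α β : Type} (X : g.Ω → α) (Y : g.Ω → β) (x : g.Ω × (Fin g.M → g.Ω)) :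
    (g.tan i k).P.surC (fun x => X (g.rcd 0 x)) (fun x => Y (g.rcd 0 x)) x = g.P.surC X Y (g.rcd 0 x) := by
  have hr : ∀ x : g.Ω × (Fin g.M → g.Ω), g.rcd 0 x = x.2 ⟨0, hM⟩ := fun x => dif_pos hM
  have hX : (fun x : g.Ω × (Fin g.M → g.Ω) => X (g.rcd 0 x)) = (fun x => X (x.2 ⟨0, hM⟩)) := by
    funext x
    rw [hr]
  have hY : (fun x : g.Ω × (Fin g.M → g.Ω) => Y (g.rcd 0 x)) = (fun x => Y (x.2 ⟨0, hM⟩)) := by
    funext x
    rw [hr]
  show (g.P.star (g.Z i) g.M).surC (fun x => X (g.rcd 0 x)) (fun x => Y (g.rcd 0 x)) x = _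
  rw [hX, hY, hr]
  exact lsk_sur' g.P (g.Z i) g.M ⟨0, hM⟩ X Y x

/-- LEAF RT1. lists of observations of the record `0` -/
theorem lay_lift_nval (hM : 0 < g.M) {α β : Type} (X : g.Ω → α) (Y : g.Ω → β) (N : ℝ)
    (h : g.P.NVal (fun _ => True) X Y N) :
    (g.tan i k).P.NVal (fun _ => True) (fun x => X (g.rcd 0 x)) (fun x => Y (g.rcd 0 x)) N := by
  have hr : ∀ x : g.Ω × (Fin g.M → g.Ω), g.rcd 0 x = x.2 ⟨0, hM⟩ := fun x => dif_pos hM
  have hX : (fun x : g.Ω × (Fin g.M → g.Ω) => X (g.rcd 0 x)) = (fun x => X (x.2 ⟨0, hM⟩)) := by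
    funext x
    rw [hr]
  have hY : (fun x : g.Ω × (Fin g.M → g.Ω) => Y (g.rcd 0 x)) = (fun x => Y (x.2 ⟨0, hM⟩)) := by
    funext x
    rw [hr]
  show (g.P.star (g.Z i) g.M).NVal (fun _ => True) (fun x => X (g.rcd 0 x)) (fun x => Y (g.rcd 0 x)) N
  rw [hX, hY]
  exact lsk_nval g.P (g.Z i) g.M ⟨0, hM⟩ (fun _ ω => X ω) (fun _ ω => Y ω) N h

theorem lay_rt_sur (hM : 0 < g.M) {α β : Type} (XT : g.Ω × (Fin g.M → g.Ω) → α) (YT : g.Ω × (Fin g.M → g.Ω) → β)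
    (X1 : g.Ω → α) (Y1 : g.Ω → β)
    (hX : ∀ x, (g.tan i k).P.p x ≠ 0 → XT x = X1 (g.rcd 0 x)) (hY : ∀ x, (g.tan i k).P.p x ≠ 0 → YT x = Y1 (g.rcd 0 x))
    (E : ℝ → Prop) :
    (g.tan i k).P.pr (fun x => E ((g.tan i k).P.surC XT YT x)) = g.P.pr (fun ω => E (g.P.surC X1 Y1 ω)) := by
  rw [← (lay_lift_pr g i k hM (fun ω => E (g.P.surC X1 Y1 ω))).1]
  refine ent_pr_congr _ fun x hx => ?_
  rw [← lay_lift_surC g i k hM X1 Y1 x]
  rw [ent_surC_congr (g.tan i k).P XT (fun x => X1 (g.rcd 0 x)) YT (fun x => Y1 (g.rcd 0 x)) x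
    (fun x' hx' => by rw [hY x' hx', hY x hx]) (fun x' hx' _ => by rw [hX x' hx', hX x hx])]

theorem lay_rt_nval {Ω : Type} [Fintype Ω] (P : FLaw Ω) {α β : Type} (B B' : Ω → β) (A A' : Ω → α) (N : ℝ) (hN : 0 ≤ N)
    (hB : ∀ ω, P.p ω ≠ 0 → B ω = B' ω) (hA : ∀ ω, P.p ω ≠ 0 → A ω = A' ω) (h : P.NVal (fun _ => True) B' A' N) :
    P.NVal (fun _ => True) B A N := by
  intro ω₀
  by_cases hex : ∃ ω₁, P.p ω₁ ≠ 0 ∧ A ω₁ = A ω₀
  · obtain ⟨ω₁, h1, h2⟩ := hex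
    obtain ⟨S, hS, hmem⟩ := h ω₁
    refine ⟨S, hS, fun ω hω _ hA' => ?_⟩
    rw [hB ω hω]
    exact hmem ω hω trivial (by rw [← hA ω hω, ← hA ω₁ h1, hA', h2])
  · exact ⟨∅, by simpa using hN, fun ω hω _ hA' => absurd ⟨ω, hω, hA'⟩ hex⟩

theorem lay_rt_t0 (a : ItPar) (pk : ItPk) (hM : pk.M = g.M) (hδ : 0 < g.δ ∧ g.δ < 1)
    (bdF : ∀ ω, g.P.p ω ≠ 0 → (g.F i k (g.Z i ω)).nrm ≤ a.B0)
    (bdM : ∀ ω, g.P.p ω ≠ 0 → |(g.mks i ω).th| ≤ a.B0 ∧ |(g.mks i ω).r| ≤ a.B0 ∧ |(g.mks i ω).k| ≤ a.B0)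
    (lin0 : g.quad = false → ∀ ω, (g.F i k (g.Z i ω)).P = 0) : (g.tan i k).Adm0 a pk := by
  obtain ⟨M, K', RQ', χ', G', Lam'⟩ := pk
  simp only at hM
  subst hM
  have hsupp : ∀ x : g.Ω × (Fin g.M → g.Ω), (g.P.star (g.Z i) g.M).p x ≠ 0 →
      g.P.p x.1 ≠ 0 ∧ ∀ t, g.P.p (x.2 t) ≠ 0 := by
    intro x hx
    have h0 := iso_star_supp g.P (g.Z i) g.M x (lt_of_le_of_ne ((g.P.star (g.Z i) g.M).nonneg x) (Ne.symm hx))
    exact ⟨h0.1.ne', fun t => (h0.2 t).1.ne'⟩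
  refine ⟨hδ.1, hδ.2, ?_, ?_, ?_, ?_, ?_, ?_, ?_⟩
  · intro x x' hx
    show g.Cs i k (g.Z i x.1) = g.Cs i k (g.Z i x'.1)
    rw [show g.Z i x.1 = g.Z i x'.1 from hx]
  · intro x x' hx
    show g.F i k (g.Z i x.1) = g.F i k (g.Z i x'.1)
    rw [show g.Z i x.1 = g.Z i x'.1 from hx]
  · intro x hx
    exact bdF x.1 (hsupp x hx).1
  · intro (x : g.Ω × (Fin g.M → g.Ω)) hx j hj
    show |(g.mks i (g.rcd j x)).th| ≤ a.B0 ∧ |(g.mks i (g.rcd j x)).r| ≤ a.B0 ∧ |(g.mks i (g.rcd j x)).k| ≤ a.B0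
    rw [lay_cx_rcd g j hj]
    exact bdM _ ((hsupp x hx).2 _)
  · intro hq x
    exact lin0 hq x.1
  · intro z y
    have e1 : (g.tan i k).P.pr (fun x => (g.tan i k).Zs x = z ∧ ∀ t : Fin g.M, (g.tan i k).mrk t x = y t)
        = g.P.pr (fun ω => g.Z i ω = z)
          * ∏ t, ∑ b, (g.P.isoPm.cond (g.Z i) z).w b * (if g.mks i b = y t then 1 else 0) := by
      rw [← lay_cx_star_pr_all g.P (g.Z i) g.M z (fun t b => g.mks i b = y t)]
      show (g.P.star (g.Z i) g.M).pr (fun x : g.Ω × (Fin g.M → g.Ω) =>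
        g.Z i x.1 = z ∧ ∀ t : Fin g.M, g.mks i (g.rcd t x) = y t) = _
      refine ent_pr_congr _ fun x _ => ?_
      simp only [lay_cx_rcd g _ (Fin.is_lt _)]
    have e2 : (g.tan i k).P.pr (fun x => (g.tan i k).Zs x = z) = g.P.pr (fun ω => g.Z i ω = z) :=
      lay_cx_star_pr_base g.P (g.Z i) g.M (fun ω => g.Z i ω = z)
    have e3 : ∀ t : Fin g.M, (g.tan i k).P.pr (fun x => (g.tan i k).Zs x = z ∧ (g.tan i k).mrk t x = y t)
        = g.P.pr (fun ω => g.Z i ω = z)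
          * ∑ b, (g.P.isoPm.cond (g.Z i) z).w b * (if g.mks i b = y t then 1 else 0) := by
      intro t
      rw [← lay_cx_star_pr_at g.P (g.Z i) g.M z t (fun b => g.mks i b = y t)]
      show (g.P.star (g.Z i) g.M).pr (fun x : g.Ω × (Fin g.M → g.Ω) =>
        g.Z i x.1 = z ∧ g.mks i (g.rcd t x) = y t) = _
      refine ent_pr_congr _ fun x _ => ?_
      rw [lay_cx_rcd g _ (Fin.is_lt _)]
    show (g.tan i k).P.pr (fun x => (g.tan i k).Zs x = z ∧ ∀ t : Fin g.M, (g.tan i k).mrk t x = y t)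
        * (g.tan i k).P.pr (fun x => (g.tan i k).Zs x = z) ^ g.M
      = (g.tan i k).P.pr (fun x => (g.tan i k).Zs x = z)
        * ∏ t : Fin g.M, (g.tan i k).P.pr (fun x => (g.tan i k).Zs x = z ∧ (g.tan i k).mrk t x = y t)
    rw [e1, e2]
    simp only [e3]
    rw [Finset.prod_mul_distrib, Finset.prod_const, Finset.card_univ, Fintype.card_fin]
    ring
  · intro z y j hj j' hj'
    have e3 : ∀ t (ht : t < g.M), (g.tan i k).P.pr (fun x => (g.tan i k).Zs x = z ∧ (g.tan i k).mrk t x = y)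
        = g.P.pr (fun ω => g.Z i ω = z ∧ g.mks i ω = y) := by
      intro t ht
      rw [← lay_cx_star_pr_one g.P (g.Z i) g.M ⟨t, ht⟩ (fun z' b => z' = z ∧ g.mks i b = y)]
      show (g.P.star (g.Z i) g.M).pr (fun x : g.Ω × (Fin g.M → g.Ω) =>
        g.Z i x.1 = z ∧ g.mks i (g.rcd t x) = y) = _
      refine ent_pr_congr _ fun x _ => ?_
      rw [lay_cx_rcd g _ ht]
    rw [e3 j hj, e3 j' hj']

/-- LEAF RT2. **one record ⇒ replicas**: everything in `Tan.Adm` except the two budgets; `Avoid`, `Cross`, the two entropies.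
`Adm0`: `side_*` by definition, bounds from `NmGeo` on every record (`iso_star_*`), `indep`, `ident` = structure of `P.star` (as in `lay_exit_t0`);  scores, lists, probabilities: `lay_lift_*` after replacing `g.Z i x.1` by `g.Z i (g.rcd 0 x)` on the support;
`dfun`: by definition of `LayGr.tan` (decoder);  `Cross`: `lay_cross_of_value`;  entropies: `lay_exit_mean`. -/
theorem lay_lift (a : ItPar) (pk : ItPk) (τ κ0 acc : ℝ) (av cr : Bool) (hpk : pk.Ok) (hM : pk.M = g.M)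
    (h : LayOne (g.one i k) a pk τ κ0 acc av cr) :
    (g.tan i k).δ < acc ∧ (g.tan i k).Adm0 a pk ∧
      (∀ q ∈ pk.G, (g.tan i k).P.pr (fun ω => acc * (g.tan i k).L
        < |(g.tan i k).P.surC ((g.tan i k).Xn q) (g.tan i k).Cs ω - a.m * q * (g.tan i k).L|) ≤ acc) ∧
      (g.tan i k).AdmM a pk τ κ0 acc ∧ (g.tan i k).AdmG a pk acc ∧
      (av = true → (g.tan i k).Avoid a pk acc) ∧ (cr = true → (g.tan i k).Cross pk acc) ∧
      ∀ l, (g.tan i k).P.entC ((g.tan i k).O l) (g.tan i k).Cs = (g.one i k).P.entC ((g.one i k).O l) (g.one i k).Cs ∧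
        (g.tan i k).P.entC ((g.tan i k).Wd l) (g.tan i k).Cs = (g.one i k).P.entC ((g.one i k).Wd l) (g.one i k).Cs := by
  have hM2 : 2 ≤ g.M := hM ▸ hpk.1
  have hM0 : 0 < g.M := by omega
  obtain ⟨hgeo, hang, htm, havd, hcrs⟩ := h
  have hZ : ∀ x, (g.tan i k).P.p x ≠ 0 → g.Z i x.1 = g.Z i (g.rcd 0 x) :=
    fun x hx => (((lay_lift_pr g i k hM0 (fun _ => True)).2 x hx).1).symm
  have hP0 : ∀ x, (g.tan i k).P.p x ≠ 0 → g.P.p (g.rcd 0 x) ≠ 0 :=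
    fun x hx => ((lay_lift_pr g i k hM0 (fun _ => True)).2 x hx).2
  have hδ0 : 0 < g.δ := hgeo.small.1
  refine ⟨hgeo.small.2.1, lay_rt_t0 g i k a pk hM ⟨hgeo.small.1, hgeo.small.2.2⟩ hgeo.bdF hgeo.bdM hgeo.lin0, ?_, ?_, ?_,
    fun hav => lay_exit_avoid g i k a pk acc hM0 (havd hav), fun hcr => lay_exit_cross g i k pk acc hM2 (hcrs hcr),
    fun l => lay_exit_mean g i k l⟩
  · intro q hq
    have e := lay_rt_sur g i k hM0 ((g.tan i k).Xn q) (g.tan i k).Cs ((g.one i k).Xn q) (g.one i k).Cs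
      (fun x hx => by
        show tcell g.δ q (g.F i k (g.Z i x.1)).X = tcell g.δ q (g.F i k (g.Z i (g.rcd 0 x))).X
        rw [hZ x hx])
      (fun x hx => by
        show g.Cs i k (g.Z i x.1) = g.Cs i k (g.Z i (g.rcd 0 x))
        rw [hZ x hx])
      (fun s => acc * (g.tan i k).L < |s - a.m * q * (g.tan i k).L|)
    exact e.le.trans (hang q hq)
  · refine ⟨?_, ?_, ?_, ?_⟩
    · intro p hp q hq hpq
      have e := lay_rt_sur g i k hM0 ((g.tan i k).thn 0 q)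
        (pair (g.tan i k).Zs (pair ((g.tan i k).thn 0 p) ((g.tan i k).rn 0 ((g.tan i k).rdep a p))))
        ((g.one i k).thn 0 q)
        (pair (g.one i k).Zs (pair ((g.one i k).thn 0 p) ((g.one i k).rn 0 ((g.one i k).rdep a p))))
        (fun x _ => rfl) (fun x hx => Prod.ext (hZ x hx) rfl)
        (fun s => s < (a.d * (q - p) - acc) * (g.tan i k).L)
      exact e.le.trans (htm.time p hp q hq hpq)
    · intro hc p hp q hq h0 hpq hk
      have e := lay_rt_sur g i k hM0 ((g.tan i k).xin 0 q) (pair (g.tan i k).Zs ((g.tan i k).xin 0 p))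
        ((g.one i k).xin 0 q) (pair (g.one i k).Zs ((g.one i k).xin 0 p))
        (fun x _ => rfl) (fun x hx => Prod.ext (hZ x hx) rfl)
        (fun s => s < ((a.d - τ) * (q - p) - acc) * (g.tan i k).L)
      exact e.le.trans (htm.joint hc p hp q hq h0 hpq hk)
    · intro hc p hp q hq h0 hpq hk
      have e := lay_rt_sur g i k hM0 ((g.tan i k).rn 0 q)
        (pair (g.tan i k).Zs (pair ((g.tan i k).thn 0 q) ((g.tan i k).rn 0 p)))
        ((g.one i k).rn 0 q) (pair (g.one i k).Zs (pair ((g.one i k).thn 0 q) ((g.one i k).rn 0 p)))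
        (fun x _ => rfl) (fun x hx => Prod.ext (hZ x hx) rfl)
        (fun s => (τ * (q - p) + acc) * (g.tan i k).L < |s - a.ν * (q - p) * (g.tan i k).L|)
      exact e.le.trans (htm.mixr hc p hp q hq h0 hpq hk)
    · intro hc p hp q hq h0 hpq hk
      have e := lay_rt_sur g i k hM0 ((g.tan i k).thn 0 q)
        (pair (g.tan i k).Zs (pair ((g.tan i k).thn 0 p) ((g.tan i k).rn 0 q)))
        ((g.one i k).thn 0 q) (pair (g.one i k).Zs (pair ((g.one i k).thn 0 p) ((g.one i k).rn 0 q)))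
        (fun x _ => rfl) (fun x hx => Prod.ext (hZ x hx) rfl)
        (fun s => s < ((max (a.d - a.c * a.ν) 0 - τ) * (q - p) - acc) * (g.tan i k).L)
      exact e.le.trans (htm.mixt hc p hp q hq h0 hpq hk)
  · refine ⟨?_, ?_, ?_, ?_⟩
    · intro l _ x x' _ _ hO hC
      have hO' : g.O i k l (g.rcd 0 x) = g.O i k l (g.rcd 0 x') := hO
      have hC' : g.Cs i k (g.Z i x.1) = g.Cs i k (g.Z i x'.1) := hC
      show g.dsp i k l (g.O i k l (g.rcd 0 x)) (g.Cs i k (g.Z i x.1))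
        = g.dsp i k l (g.O i k l (g.rcd 0 x')) (g.Cs i k (g.Z i x'.1))
      rw [hO', hC']
    · intro l hl x hx
      have d := hgeo.tg.dsp l hl (g.rcd 0 x) (hP0 x hx)
      have eF : (g.tan i k).F x = (g.one i k).F (g.rcd 0 x) := by
        show g.F i k (g.Z i x.1) = g.F i k (g.Z i (g.rcd 0 x))
        rw [hZ x hx]
      have eD : (g.tan i k).dsp l x = (g.one i k).dsp l (g.rcd 0 x) := by
        show g.dsp i k l (g.O i k l (g.rcd 0 x)) (g.Cs i k (g.Z i x.1))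
          = g.dsp i k l (g.O i k l (g.rcd 0 x)) (g.Cs i k (g.Z i (g.rcd 0 x)))
        rw [hZ x hx]
      rw [eF, eD]
      exact ⟨d.bd, d.time, d.baseW, d.baseV, d.vel, d.pos, d.derq, d.cutc, d.cutn, d.derl⟩
    · intro hq l hl
      have w := hgeo.tg.wq hq l hl
      have w' := lay_lift_nval g i k hM0 _ _ _ w
      refine lay_rt_nval _ _ _ _ _ _ (Real.rpow_nonneg hδ0.le _) (fun x _ => rfl) (fun x hx => ?_) w'
      show (itHs g.δ l (2 * l) (g.F i k (g.Z i x.1)), g.Cs i k (g.Z i x.1))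
        = (itHs g.δ l (2 * l) (g.F i k (g.Z i (g.rcd 0 x))), g.Cs i k (g.Z i (g.rcd 0 x)))
      rw [hZ x hx]
    · intro hq l hl
      have w := hgeo.tg.wl hq l hl
      have w' := lay_lift_nval g i k hM0 _ _ _ w
      refine lay_rt_nval _ _ _ _ _ _ (Real.rpow_nonneg hδ0.le _) (fun x _ => rfl) (fun x hx => ?_) w'
      show (itF g.δ l (g.F i k (g.Z i x.1)), g.Cs i k (g.Z i x.1))
        = (itF g.δ l (g.F i k (g.Z i (g.rcd 0 x))), g.Cs i k (g.Z i (g.rcd 0 x)))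
      rw [hZ x hx]

end lift

theorem lay_rt_nest {δ : ℝ} (h0 : 0 < δ) (h1 : δ < 1) {p q : ℝ} (hpq : p ≤ q) {x y : ℝ}
    (h : tcell δ q x = tcell δ q y) : tcell δ p x = tcell δ p y := by
  rw [lay_cx_cell_nest h0 h1 hpq x, lay_cx_cell_nest h0 h1 hpq y, h]

/-- LEAF RT3. the budgets are monotone in the depths and in the accuracy (`tcell δ q` is a function of `tcell δ q'` for `q ≤ q'`; data processing for `miC`) -/
theorem lay_bud_mono (T : Tan) (hδ : 0 < T.δ ∧ T.δ < 1) (M : ℕ) (K K' RQ RQ' acc acc' : ℝ) (hK0 : 0 ≤ K) (hK : K ≤ K') (hR0 : 0 ≤ RQ)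
    (hR : RQ ≤ RQ') (ha : acc' ≤ acc) (h : T.layBud M K' RQ' acc') : T.layBud M K RQ acc := by
  obtain ⟨h0, h1⟩ := hδ
  have hL : 0 < T.L := by
    unfold Tan.L lg
    exact Real.log_pos (by rw [lt_div_iff₀ h0]; linarith)
  have hacc : acc' * T.L ≤ acc * T.L := mul_le_mul_of_nonneg_right ha hL.le
  refine ⟨?_, fun i hi => ?_⟩
  · refine le_trans ?_ (h.1.trans hacc)
    rw [ent_miC_comm T.P (T.Fn K), ent_miC_comm T.P (T.Fn K')]
    refine ent_miC_mono T.P _ _ _ _ fun ω ω' _ _ hx _ => ?_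
    simp only [Tan.Fn, itF, Prod.mk.injEq] at hx ⊢
    obtain ⟨⟨a1, a2, a3⟩, b1, b2, b3⟩ := hx
    exact ⟨⟨lay_rt_nest h0 h1 hK a1, lay_rt_nest h0 h1 hK a2, lay_rt_nest h0 h1 hK a3⟩,
      lay_rt_nest h0 h1 hK b1, lay_rt_nest h0 h1 hK b2, lay_rt_nest h0 h1 hK b3⟩
  · refine le_trans ?_ ((h.2 i hi).trans hacc)
    have s1 : T.P.miC (T.Xn K) (pair (T.Qn RQ i) (T.Xi M)) T.Cs ≤ T.P.miC (T.Xn K) (pair (T.Qn RQ' i) (T.Xi M)) T.Cs := by
      refine ent_miC_mono T.P _ _ _ _ fun ω ω' _ _ hx _ => ?_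
      simp only [FLaw.pair, Tan.Qn, itQ, Prod.mk.injEq] at hx ⊢
      obtain ⟨⟨⟨a1, a2, a3⟩, b1, b2⟩, c⟩ := hx
      refine ⟨⟨⟨lay_rt_nest h0 h1 hR a1, lay_rt_nest h0 h1 hR a2, lay_rt_nest h0 h1 hR a3⟩, ?_, ?_⟩, c⟩
      · cases hq : T.quad
        · simp
        · rw [hq] at b1
          simp only [if_true] at b1 ⊢
          exact lay_rt_nest h0 h1 hR b1
      · cases hq : T.quad
        · rw [hq] at b2
          simp only [Bool.false_eq_true, if_false] at b2 ⊢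
          exact lay_rt_nest h0 h1 hR b2
        · rw [hq] at b2
          simp only [if_true] at b2 ⊢
          exact lay_rt_nest h0 h1 hR b2
    refine s1.trans ?_
    rw [ent_miC_comm T.P (T.Xn K), ent_miC_comm T.P (T.Xn K')]
    exact ent_miC_mono T.P _ _ _ _ fun ω ω' _ _ hx _ => lay_rt_nest h0 h1 hK hx

/-- LEAF RT3. the flip `p ↦ (1 - p.1, p.2)` preserves "almost everywhere" -/
theorem lay_ae_flip (Φ : ℝ × ℝ → Prop) (h : ∀ᵐ x : ℝ × ℝ, Φ x) : ∀ᵐ p : ℝ × ℝ, Φ (1 - p.1, p.2) := by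
  have h1 : MeasurePreserving (Prod.map (fun x : ℝ => 1 - x) (id : ℝ → ℝ)) (volume.prod volume) (volume.prod volume) :=
    (Measure.measurePreserving_sub_left volume (1 : ℝ)).prod (MeasurePreserving.id volume)
  exact h1.quasiMeasurePreserving.ae h

/-- LEAF RT3. Rademacher -/
theorem lay_diff_ae (H : ℝ → ℝ → ℝ) (C : ℝ) (h : ∀ a a' v v' : ℝ, |H a v - H a' v'| ≤ C * (|a - a'| + |v - v'|)) :
    ∀ᵐ p : ℝ × ℝ, DifferentiableAt ℝ (fun q : ℝ × ℝ => H (1 - q.1) q.2) p := by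
  have hL : LipschitzWith (Real.toNNReal (2 * max C 0)) (fun q : ℝ × ℝ => H (1 - q.1) q.2) := by
    refine LipschitzWith.of_dist_le_mul fun q q' => ?_
    rw [Real.dist_eq, Real.coe_toNNReal _ (by positivity)]
    have h1 := h (1 - q.1) (1 - q'.1) q.2 q'.2
    have e1 : |1 - q.1 - (1 - q'.1)| = |q.1 - q'.1| := by
      rw [← abs_neg]
      congr 1
      ring
    rw [e1] at h1
    have d1 : |q.1 - q'.1| ≤ dist q q' := by
      rw [← Real.dist_eq, Prod.dist_eq]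
      exact le_max_left _ _
    have d2 : |q.2 - q'.2| ≤ dist q q' := by
      rw [← Real.dist_eq, Prod.dist_eq]
      exact le_max_right _ _
    have h2 : C * (|q.1 - q'.1| + |q.2 - q'.2|) ≤ max C 0 * (|q.1 - q'.1| + |q.2 - q'.2|) :=
      mul_le_mul_of_nonneg_right (le_max_left _ _) (by positivity)
    have h3 : max C 0 * (|q.1 - q'.1| + |q.2 - q'.2|) ≤ max C 0 * (dist q q' + dist q q') :=
      mul_le_mul_of_nonneg_left (by linarith) (le_max_right _ _)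
    linarith
  exact hL.ae_differentiableAt

/-- **GENERIC ROOT THEOREM** (proved from `lay_bud_ae`, `lay_lift`, `lay_bud_mono`, `lay_ae_flip`, `lay_diff_ae`).
The gaps are `h = 2^-j`, the served roots `x'` lie on the lattices `layLat a0 v0 h` (a countable set). -/
theorem lay_root_rect {π : SfPar} {C0 : ℝ} {κ : ℝ → ℝ} (S : NmSeq π C0 κ) (r0 : NmRt) (av cr : Bool)
    (a0 a1 v0 v1 B0 : ℝ) (ha : a0 < a1) (hv : v0 < v1) (par : ℝ × ℝ → ItPar)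
    (hLip : ∃ C : ℝ, ∀ a a' v v' : ℝ, |S.H r0.q a v - S.H r0.q a' v'| ≤ C * (|a - a'| + |v - v'|))
    (hGrid : ∀ M K RQ Rm : ℕ, 2 * (K + RQ) + 2 ≤ Rm → ∃ (A B : ℕ) (Kf RX h0 : ℝ), 0 < A ∧ 0 < B ∧ 0 < h0 ∧
      ∀ h : ℝ, 0 < h → h < h0 → ∀ (x0 y0 : ℝ) (na nv : ℕ), a0 ≤ x0 → v0 ≤ y0 → x0 + na * (A * h) ≤ a1 →
        y0 + nv * (B * h) ≤ v1 → ∀ e : ℝ, 0 < e → ∀ᶠ n in uf, ∀ dsp : ℝ → ℝ → ℝ → NmNm → NmNm → ItDsp,
          (nmGr (S.D n) π { r0 with a := x0, v := y0, h := h, Rm := Rm } dsp A B M).In na nv K Kf RQ RX B0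
            (((S.D n).s ^ h) ^ (-e)))
    (hOne : ∀ᵐ x : ℝ × ℝ, x ∈ Set.Ioo a0 a1 ×ˢ Set.Ioo v0 v1 → ∀ τ : ℝ, 0 < τ → ∃ κ0 : ℝ, 0 < κ0 ∧
      ∀ (pk : ItPk) (acc : ℝ), pk.Ok → 0 < acc → ∀ σ : ℝ, 0 < σ → ∃ (Rm0 : ℕ) (η h0 : ℝ),
      2 * (⌈pk.K⌉₊ + ⌈pk.RQ⌉₊) + 2 ≤ Rm0 ∧ 0 < η ∧ 0 < h0 ∧
      ∀ j : ℕ, (1 / 2 : ℝ) ^ j < h0 → ∀ x' : ℝ × ℝ, layLat a0 v0 ((1 / 2) ^ j) x' → |x'.1 - x.1| ≤ η * (1 / 2) ^ j →
        |x'.2 - x.2| ≤ η * (1 / 2) ^ j → ∀ᶠ n in uf, ∃ dsp : ℝ → NmNm → NmNm → ItDsp,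
          LayOne (nmTan (S.D n) π { r0 with a := x'.1, v := x'.2, h := (1 / 2) ^ j, Rm := Rm0 } dsp) (par x) pk τ κ0 acc av cr ∧
          LayMean (nmTan (S.D n) π { r0 with a := x'.1, v := x'.2, h := (1 / 2) ^ j, Rm := Rm0 } dsp) (S.H r0.q) x'.1 x'.2
            ((1 / 2) ^ j) σ pk) :
    ∀ᵐ p : ℝ × ℝ, (1 - p.1, p.2) ∈ Set.Ioo a0 a1 ×ˢ Set.Ioo v0 v1 →
      DifferentiableAt ℝ (fun q : ℝ × ℝ => S.H r0.q (1 - q.1) q.2) p ∧
        AcProd (fun t v => S.H r0.q (1 - t) v) (!r0.σ.lin) av cr (par (1 - p.1, p.2)) p := by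
  obtain ⟨CL, hCL⟩ := hLip
  choose A B Kf RX h0 hA hB hh0 hIn using hGrid
  have hBud : ∀ (M K RQ Rm k : ℕ) (hc : 2 * (K + RQ) + 2 ≤ Rm), ∀ᵐ x : ℝ × ℝ, x ∈ Set.Ioo a0 a1 ×ˢ Set.Ioo v0 v1 →
      ∀ η : ℝ, 0 < η → ∀ᶠ j : ℕ in atTop,
      ∃ x' : ℝ × ℝ, |x'.1 - x.1| ≤ η * (1 / 2) ^ j ∧ |x'.2 - x.2| ≤ η * (1 / 2) ^ j ∧ (∀ᶠ n in uf,
        ((nmGr (S.D n) π { r0 with a := x'.1, v := x'.2, h := (1 / 2) ^ j, Rm := Rm } (fun _ _ _ _ _ => ⟨0, 0, 0, 0, 0, 0, 0, 0⟩)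
          (A M K RQ Rm hc) (B M K RQ Rm hc) M).tan 0 0).layBud M K RQ (1 / ((k : ℝ) + 1))) ∧ layLat a0 v0 ((1 / 2) ^ j) x' := by
    intro M K RQ Rm k hc
    exact lay_bud_ae S { r0 with Rm := Rm }
      (fun n h a v => (S.D n).cst π { r0 with a := a, v := v, h := h, Rm := Rm })
      (fun n h a v => (S.D n).fst π { r0 with a := a, v := v, h := h, Rm := Rm })
      (fun _ _ _ _ _ _ _ => ⟨0, 0, 0, 0, 0, 0, 0, 0⟩) (A M K RQ Rm hc) (B M K RQ Rm hc) M (hA M K RQ Rm hc) (hB M K RQ Rm hc)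
      K (Kf M K RQ Rm hc) RQ (RX M K RQ Rm hc) B0 (h0 M K RQ Rm hc) a0 a1 v0 v1 (1 / ((k : ℝ) + 1)) (hh0 M K RQ Rm hc) ha hv
      (by positivity)
      (fun h hh hh' x0 y0 na nv e1 e2 e3 e4 e he =>
        (hIn M K RQ Rm hc h hh hh' x0 y0 na nv e1 e2 e3 e4 e he).mono fun n hn => hn _)
  have hBudAll : ∀ᵐ x : ℝ × ℝ, ∀ (M K RQ Rm k : ℕ) (hc : 2 * (K + RQ) + 2 ≤ Rm), x ∈ Set.Ioo a0 a1 ×ˢ Set.Ioo v0 v1 →
      ∀ η : ℝ, 0 < η → ∀ᶠ j : ℕ in atTop,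
      ∃ x' : ℝ × ℝ, |x'.1 - x.1| ≤ η * (1 / 2) ^ j ∧ |x'.2 - x.2| ≤ η * (1 / 2) ^ j ∧ (∀ᶠ n in uf,
        ((nmGr (S.D n) π { r0 with a := x'.1, v := x'.2, h := (1 / 2) ^ j, Rm := Rm } (fun _ _ _ _ _ => ⟨0, 0, 0, 0, 0, 0, 0, 0⟩)
          (A M K RQ Rm hc) (B M K RQ Rm hc) M).tan 0 0).layBud M K RQ (1 / ((k : ℝ) + 1))) ∧ layLat a0 v0 ((1 / 2) ^ j) x' := by
    simp only [ae_all_iff]
    exact hBud
  filter_upwards [lay_ae_flip _ hBudAll, lay_ae_flip _ hOne, lay_diff_ae (S.H r0.q) CL hCL] with p h1 h2 h3 hp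
  refine ⟨h3, ?_⟩
  intro τ hτ
  obtain ⟨κ0, hκ0, H⟩ := h2 hp τ hτ
  refine ⟨κ0, hκ0, ?_⟩
  intro pk acc hpk hacc σ hσ
  obtain ⟨Rm0, η, h00, hc, hη, hh00, HO⟩ := H pk acc hpk hacc σ hσ
  refine ⟨η, ?_⟩
  obtain ⟨k, hk⟩ := exists_nat_one_div_lt hacc
  have hb := h1 pk.M ⌈pk.K⌉₊ ⌈pk.RQ⌉₊ Rm0 k hc hp η hη
  have htend : Tendsto (fun j : ℕ => ((1 : ℝ) / 2) ^ j) atTop (𝓝[>] 0) :=
    tendsto_nhdsWithin_iff.2 ⟨tendsto_pow_atTop_nhds_zero_of_lt_one (by norm_num) (by norm_num),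
      Eventually.of_forall fun j => by simp only [Set.mem_Ioi]; positivity⟩
  have hsmall : ∀ᶠ j : ℕ in atTop, ((1 : ℝ) / 2) ^ j < h00 :=
    (tendsto_pow_atTop_nhds_zero_of_lt_one (by norm_num) (by norm_num)).eventually (gt_mem_nhds hh00)
  refine htend.frequently (Eventually.frequently ?_)
  filter_upwards [hb, hsmall] with j hj hjs
  obtain ⟨x', hx1, hx2, hn, hlat⟩ := hj
  have := uf_neBot
  obtain ⟨n, hbud, dsp, hone, hmean⟩ := (hn.and (HO j hjs x' hlat hx1 hx2)).exists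
  set h : ℝ := (1 / 2) ^ j with hh
  set r : NmRt := { r0 with a := x'.1, v := x'.2, h := h, Rm := Rm0 } with hr
  set g : LayGr := nmGr (S.D n) π r (fun _ _ => dsp) (A pk.M ⌈pk.K⌉₊ ⌈pk.RQ⌉₊ Rm0 hc) (B pk.M ⌈pk.K⌉₊ ⌈pk.RQ⌉₊ Rm0 hc) pk.M with hg
  have hone' : g.one 0 0 = nmTan (S.D n) π r dsp := lay_one_eq (S.D n) π r (fun _ _ => dsp) _ _ _
  obtain ⟨l1, l2, l3, l4, l5, l6, l7, l8⟩ := lay_lift g 0 0 (par (1 - p.1, p.2)) pk τ κ0 acc av cr hpk rfl (by rw [hone']; exact hone)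
  have hbud' : (g.tan 0 0).layBud pk.M pk.K pk.RQ acc :=
    lay_bud_mono (g.tan 0 0) ⟨l2.δ0, l2.δ1⟩ pk.M pk.K ⌈pk.K⌉₊ pk.RQ ⌈pk.RQ⌉₊ acc (1 / ((k : ℝ) + 1)) hpk.2.1.le (Nat.le_ceil _)
      (hpk.2.1.le.trans hpk.2.2.1.le) (Nat.le_ceil _) hk.le (lay_bud_dsp (S.D n) π r _ _ _ _ _ 0 0 _ _ _ _ hbud)
  refine ⟨(1 - x'.1, x'.2), g.tan 0 0, ?_, hx2, rfl, ⟨l1, l2, ⟨hbud'.1, hbud'.2, l3⟩, l4, l5⟩, l6, l7, ?_⟩
  · have : (1 - x'.1) - p.1 = -(x'.1 - (1 - p.1)) := by ring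
    show |(1 - x'.1) - p.1| ≤ η * h
    rw [this, abs_neg]
    exact hx1
  · intro l hl
    obtain ⟨m1, m2⟩ := hmean l hl
    obtain ⟨q1, q2⟩ := l8 l
    rw [hone'] at q1 q2
    have e1 : (1 : ℝ) - ((1 - x'.1) - l * h) = x'.1 + l * h := by ring
    have e2 : (1 : ℝ) - (1 - x'.1) = x'.1 := by ring
    refine ⟨?_, ?_⟩
    · show (g.tan 0 0).P.entC ((g.tan 0 0).O l) (g.tan 0 0).Cs
        ≤ ((S.H r0.q (1 - ((1 - x'.1) - l * h)) x'.2 - S.H r0.q (1 - (1 - x'.1)) x'.2) / h + σ) * (g.tan 0 0).L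
      rw [q1, e1, e2]
      exact m1
    · show ((S.H r0.q (1 - (1 - x'.1)) (x'.2 + l * h) - S.H r0.q (1 - (1 - x'.1)) x'.2) / h - σ) * (g.tan 0 0).L
        ≤ (g.tan 0 0).P.entC ((g.tan 0 0).Wd l) (g.tan 0 0).Cs
      rw [q2, e2]
      exact m2

end Claimed.Agent.R256
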